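import Vale.Agent.Lib.P161.Crit.Edge
import Vale.Agent.Lib.P161.Corr

/-!
P161-CRIT, module Bound: finitely many rounds of bounded slopes keep all posterior means away
from `±1`.
-/

open MeasureTheory Filter Topology

namespace Vale.Agent.P161.Crit

variable {V : Type*} {G : SimpleGraph V}

/-- the step function of the recursion -/
noncomputable def gst (t X : ℝ) : ℝ := (X + t) / (1 + t * X)

theorem gst_mem {t X : ℝ} (ht0 : 0 ≤ t) (ht : t < 1) (h0 : 0 ≤ X) (h1 : X < 1) :
    0 ≤ gst t X ∧ gst t X < 1 := by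
  unfold gst
  have hd : 0 < 1 + t * X := by nlinarith [mul_nonneg ht0 h0]
  refine ⟨by positivity, ?_⟩
  rw [div_lt_one hd]
  nlinarith

theorem edge_le {t θ X x y : ℝ} (hθ : |θ| ≤ t) (ht : t < 1) (hx : |x| ≤ X) (hX : X < 1)
    (hy : |y| ≤ 1) : |(x + θ * y) / (1 + θ * x * y)| ≤ gst t X := by
  unfold gst
  have ht0 : 0 ≤ t := (abs_nonneg _).trans hθ
  have hX0 : 0 ≤ X := (abs_nonneg _).trans hx
  obtain ⟨u, hu⟩ : ∃ u, u = θ * y := ⟨_, rfl⟩
  have hut : |u| ≤ t := by
    rw [hu, abs_mul]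
    calc |θ| * |y| ≤ t * 1 := mul_le_mul hθ hy (abs_nonneg _) ht0
      _ = t := mul_one t
  have e1 : 1 + θ * x * y = 1 + u * x := by rw [hu]; ring
  rw [e1, ← hu]
  obtain ⟨hx1, hx2⟩ := abs_le.mp hx
  obtain ⟨hu1, hu2⟩ := abs_le.mp hut
  have hux : |u * x| < 1 := by
    rw [abs_mul]
    have h1 : |u| * |x| ≤ t * X := mul_le_mul hut hx (abs_nonneg _) ht0
    nlinarith only [ht, hX, hu1, hu2, h1]
  have hd : 0 < 1 + u * x := by
    have := (abs_lt.mp hux).1
    linarith
  have hd2 : 0 < 1 + t * X := by linarith only [mul_nonneg ht0 hX0]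
  rw [abs_div, abs_of_pos hd, div_le_div_iff₀ hd hd2]
  have key : ∀ a v : ℝ, |a| ≤ X → |v| ≤ t → (a + v) * (1 + t * X) ≤ (X + t) * (1 + v * a) := by
    intro a v ha hv
    obtain ⟨ha1, ha2⟩ := abs_le.mp ha
    obtain ⟨hv1, hv2⟩ := abs_le.mp hv
    have i1 : 0 ≤ (X - a) * (1 - t * v) := by
      apply mul_nonneg (by linarith)
      nlinarith only [ht, hv1, hv2]
    have i2 : 0 ≤ (t - v) * (1 - a * X) := by
      apply mul_nonneg (by linarith)
      nlinarith only [hX, ha1, ha2]
    linarith only [i1, i2]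
  rcases abs_cases (x + u) with ⟨h, _⟩ | ⟨h, _⟩
  · rw [h]
    exact key x u hx hut
  · rw [h]
    have := key (-x) (-u) (by rwa [abs_neg]) (by rwa [abs_neg])
    linarith only [this]

theorem lk_bounds {b : ℝ} (hb0 : 0 ≤ b) (hb : b < 1) (J : ℕ) {w : V × ℕ → ℝ}
    (hw : ∀ e, |w e| ≤ b) (hJ : ∀ e, J ≤ e.2 → w e = 0) {S : Finset (V × ℕ)} {v : V}
    (hS : ∀ e ∈ S, e.1 = v) (σ : V → Bool) :
    (1 - b) ^ J ≤ lk S w σ ∧ lk S w σ ≤ (1 + b) ^ J := by
  classical
  have h1 : lk S w σ = ∏ e ∈ S.filter (fun e => e.2 < J), (1 + w e * spin (σ e.1)) := by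
    unfold lk
    rw [Finset.prod_filter]
    apply Finset.prod_congr rfl
    intro e _
    split_ifs with h
    · rfl
    · rw [hJ e (not_lt.mp h), zero_mul, add_zero]
  have hcard : (S.filter (fun e => e.2 < J)).card ≤ J := by
    have : (S.filter (fun e => e.2 < J)).card ≤ (Finset.range J).card := by
      apply Finset.card_le_card_of_injOn (fun e => e.2)
      · intro e he
        have := (Finset.mem_filter.mp he).2
        simpa using this
      · intro e he e' he' h
        have a1 := hS e (Finset.mem_filter.mp he).1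
        have a2 := hS e' (Finset.mem_filter.mp he').1
        exact Prod.ext (a1.trans a2.symm) h
    simpa using this
  have hfac : ∀ e, 1 - b ≤ 1 + w e * spin (σ e.1) ∧ 1 + w e * spin (σ e.1) ≤ 1 + b := by
    intro e
    have h2 : |w e * spin (σ e.1)| ≤ b := by
      rw [abs_mul, abs_spin, mul_one]
      exact hw e
    obtain ⟨h3, h4⟩ := abs_le.mp h2
    constructor <;> linarith
  rw [h1]
  constructor
  · calc (1 - b) ^ J ≤ (1 - b) ^ (S.filter (fun e => e.2 < J)).card :=
          pow_le_pow_of_le_one (by linarith) (by linarith) hcard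
      _ = ∏ e ∈ S.filter (fun e => e.2 < J), (1 - b) := by rw [Finset.prod_const]
      _ ≤ _ := Finset.prod_le_prod (fun _ _ => by linarith) (fun e _ => (hfac e).1)
  · calc _ ≤ ∏ e ∈ S.filter (fun e => e.2 < J), (1 + b) :=
          Finset.prod_le_prod (fun e _ => by linarith [(hfac e).1]) (fun e _ => (hfac e).2)
      _ = (1 + b) ^ (S.filter (fun e => e.2 < J)).card := by rw [Finset.prod_const]
      _ ≤ (1 + b) ^ J := pow_le_pow_right₀ (by linarith) hcard

theorem base_bound [Nonempty V] {β : ℝ} {μ : Measure (V → Bool)} (hμ : IsFreeIsing G β μ)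
    {b : ℝ} (hb0 : 0 ≤ b) (hb : b < 1) (J : ℕ) {w : V × ℕ → ℝ}
    (hw : ∀ e, |w e| ≤ b) (hJ : ∀ e, J ≤ e.2 → w e = 0) {S : Finset (V × ℕ)} {v : V}
    (hS : ∀ e ∈ S, e.1 = v) : |ES μ S w (sp v)| ≤ 1 - (1 - b) ^ J / (1 + b) ^ J := by
  have := hμ.isProbabilityMeasure
  have hlm : Measurable (lk S w) := (measurable_lk S).comp (measurable_const.prodMk measurable_id)
  have hbds := lk_bounds (V := V) hb0 hb J hw hJ hS
  have hc0 : 0 < (1 - b) ^ J := by apply pow_pos; linarith
  have hC0 : 0 < (1 + b) ^ J := by apply pow_pos; linarith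
  have hli : Integrable (lk S w) μ := by
    apply Integrable.of_bound hlm.aestronglyMeasurable ((1 + b) ^ J)
    refine Filter.Eventually.of_forall fun σ => ?_
    rw [Real.norm_eq_abs, abs_of_nonneg (hc0.le.trans (hbds σ).1)]
    exact (hbds σ).2
  have hsi : Integrable (sp v) μ := by
    apply Integrable.of_bound (measurable_sp v).aestronglyMeasurable 1
    exact Filter.Eventually.of_forall fun σ => abs_sp v σ
  have hsli : Integrable (fun σ => sp v σ * lk S w σ) μ := by
    apply Integrable.of_bound ((measurable_sp v).mul hlm).aestronglyMeasurable (1 * (1 + b) ^ J)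
    refine Filter.Eventually.of_forall fun σ => ?_
    rw [Pi.mul_apply, norm_mul]
    refine mul_le_mul (abs_sp v σ) ?_ (norm_nonneg _) zero_le_one
    rw [Real.norm_eq_abs, abs_of_nonneg (hc0.le.trans (hbds σ).1)]
    exact (hbds σ).2
  have hs0 : ∫ σ, sp v σ ∂μ = 0 := hμ.integral_spin v
  set m := ∫ σ, lk S w σ ∂μ with hm
  have hmC : m ≤ (1 + b) ^ J := by
    have h1 : m ≤ ∫ _σ : V → Bool, (1 + b) ^ J ∂μ :=
      integral_mono hli (integrable_const _) fun σ => (hbds σ).2
    simpa using h1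
  have hmc : (1 - b) ^ J ≤ m := by
    have h1 : ∫ _σ : V → Bool, (1 - b) ^ J ∂μ ≤ m :=
      integral_mono (integrable_const _) hli fun σ => (hbds σ).1
    simpa using h1
  have hm0 : 0 < m := hc0.trans_le hmc
  have hup : ∫ σ, sp v σ * lk S w σ ∂μ ≤ m - (1 - b) ^ J := by
    have h1 : ∫ σ, (1 - sp v σ) * (1 - b) ^ J ∂μ ≤ ∫ σ, (lk S w σ - sp v σ * lk S w σ) ∂μ := by
      apply integral_mono (((integrable_const _).sub hsi).mul_const _) (hli.sub hsli)
      intro σ
      have h2 := (abs_le.mp (abs_sp v σ)).2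
      have h3 := (hbds σ).1
      show (1 - sp v σ) * (1 - b) ^ J ≤ lk S w σ - sp v σ * lk S w σ
      nlinarith
    rw [integral_mul_const, integral_sub (integrable_const _) hsi, hs0, integral_sub hli hsli] at h1
    simp at h1
    linarith
  have hlo : -(m - (1 - b) ^ J) ≤ ∫ σ, sp v σ * lk S w σ ∂μ := by
    have h1 : ∫ σ, (1 + sp v σ) * (1 - b) ^ J ∂μ ≤ ∫ σ, (lk S w σ + sp v σ * lk S w σ) ∂μ := by
      apply integral_mono (((integrable_const _).add hsi).mul_const _) (hli.add hsli)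
      intro σ
      have h2 := (abs_le.mp (abs_sp v σ)).1
      have h3 := (hbds σ).1
      show (1 + sp v σ) * (1 - b) ^ J ≤ lk S w σ + sp v σ * lk S w σ
      nlinarith only [h2, h3]
    rw [integral_mul_const, integral_add (integrable_const _) hsi, hs0, integral_add hli hsli] at h1
    simp at h1
    linarith
  unfold ES
  rw [abs_div, abs_of_pos (show 0 < ∫ σ, lk S w σ ∂μ from hm0), ← hm, div_le_iff₀ hm0]
  calc |∫ σ, sp v σ * lk S w σ ∂μ| ≤ m - (1 - b) ^ J := abs_le.mpr ⟨hlo, hup⟩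
    _ ≤ (1 - (1 - b) ^ J / (1 + b) ^ J) * m := by
        have : (1 - b) ^ J / (1 + b) ^ J * m ≤ (1 - b) ^ J := by
          rw [div_mul_eq_mul_div, div_le_iff₀ hC0]
          exact mul_le_mul_of_nonneg_left hmC hc0.le
        linarith

open Classical in
theorem rec_bound [G.LocallyFinite] {β : ℝ} (hG : G.IsTree) {μ : Measure (V → Bool)}
    (hμ : IsFreeIsing G β μ)
    {b : ℝ} (hb0 : 0 ≤ b) (hb : b < 1) (J : ℕ) {w : V × ℕ → ℝ}
    (hw : ∀ e, |w e| ≤ b) (hJ : ∀ e, J ≤ e.2 → w e = 0) (v : V) (K : Finset V)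
    (hK : ∀ q ∈ K, G.Adj v q) :
    ∀ S : Finset (V × ℕ), (∀ e ∈ S, e.1 = v ∨ ∃ q ∈ K, e ∈ side G q v) →
      |ES μ S w (sp v)| ≤ (gst |Real.tanh β|)^[K.card] (1 - (1 - b) ^ J / (1 + b) ^ J) := by
  have : Nonempty V := ⟨v⟩
  have := hμ.isProbabilityMeasure
  induction K using Finset.induction_on with
  | empty =>
    intro S hS
    simp only [Finset.card_empty, Function.iterate_zero, id_eq]
    apply base_bound hμ hb0 hb J hw hJ
    intro e he
    rcases hS e he with h | ⟨q, hq, _⟩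
    · exact h
    · simp at hq
  | insert q K hqK ih =>
    intro S hS
    have hvq : G.Adj v q := hK q (Finset.mem_insert_self _ _)
    have ih' := ih (fun q' hq' => hK q' (Finset.mem_insert_of_mem hq'))
      (S.filter (· ∈ side G v q)) (by
        intro e he
        obtain ⟨he1, he2⟩ := Finset.mem_filter.mp he
        rcases hS e he1 with h | ⟨q', hq', h⟩
        · exact Or.inl h
        · rcases Finset.mem_insert.mp hq' with h' | h'
          · subst h'
            rcases mem_side_or hG hvq e with ⟨_, h2⟩ | ⟨h1, _⟩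
            · exact absurd h h2
            · exact absurd he2 h1
          · exact Or.inr ⟨q', h', h⟩)
    rw [Finset.card_insert_of_notMem hqK, Function.iterate_succ_apply']
    rw [ES_edge hG hμ hb0 hb hvq S hw]
    have hX : (gst |Real.tanh β|)^[K.card] (1 - (1 - b) ^ J / (1 + b) ^ J) < 1 := by
      have hc0 : 0 < (1 - b) ^ J := by apply pow_pos; linarith
      have hC0 : 0 < (1 + b) ^ J := by apply pow_pos; linarith
      have hle : (1 - b) ^ J ≤ (1 + b) ^ J := pow_le_pow_left₀ (by linarith) (by linarith) J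
      have h0 : 0 ≤ 1 - (1 - b) ^ J / (1 + b) ^ J ∧ 1 - (1 - b) ^ J / (1 + b) ^ J < 1 := by
        have h1 : (1 - b) ^ J / (1 + b) ^ J ≤ 1 := by rw [div_le_one hC0]; exact hle
        have h2 : 0 < (1 - b) ^ J / (1 + b) ^ J := by positivity
        constructor <;> linarith
      have : ∀ n : ℕ, 0 ≤ (gst |Real.tanh β|)^[n] (1 - (1 - b) ^ J / (1 + b) ^ J) ∧
          (gst |Real.tanh β|)^[n] (1 - (1 - b) ^ J / (1 + b) ^ J) < 1 := by
        intro n
        induction n with
        | zero => simpa using h0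
        | succ n ihn =>
          rw [Function.iterate_succ_apply']
          exact gst_mem (abs_nonneg _) (Real.abs_tanh_lt_one β) ihn.1 ihn.2
      exact (this _).2
    exact edge_le le_rfl (Real.abs_tanh_lt_one β) ih' hX
      (ES_abs_le hb0 hb μ (fun e _ => hw e) (measurable_sp q) (fun σ => abs_sp q σ))

/-- Proof: `|x ⊕ y| ≤ |x| ⊕ |y|` for `x ⊕ y = (x+y)/(1+xy)`. For a vertex `v` and a set `K` of
neighbours let `S_K` be the events of `S` at `v` or behind a neighbour in `K`. By `ES_edge`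
`|ES S_{K ∪ c} (sp v)| ≤ |ES S_K (sp v)| ⊕ θ`, and for `K = ∅` only the events at `v` in the rounds
`< J` count: `|ES| ≤ ((1+b)^J - (1-b)^J)/((1+b)^J + (1-b)^J)`. So
`1 - |ES S (sp v)|` is bounded below by a positive constant depending on `b, J, θ, d` only. -/
theorem exists_bound (G : SimpleGraph V) [G.LocallyFinite] {β : ℝ} (hG : G.IsTree) {d : ℕ}
    (hreg : G.IsRegularOfDegree d) {μ : Measure (V → Bool)} (hμ : IsFreeIsing G β μ)
    {b : ℝ} (hb0 : 0 ≤ b) (hb : b < 1) (J : ℕ) :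
    ∃ z : ℝ, 0 ≤ z ∧ z < 1 ∧ ∀ w : V × ℕ → ℝ, (∀ e, |w e| ≤ b) → (∀ e, J ≤ e.2 → w e = 0) →
      (∀ (S : Finset (V × ℕ)) (v : V), |ES μ S w (sp v)| ≤ z) ∧
      ∀ (R : Set (V × ℕ)) (v : V), |M G μ R v w| ≤ z := by
  classical
  have hc0 : 0 < (1 - b) ^ J := by apply pow_pos; linarith
  have hC0 : 0 < (1 + b) ^ J := by apply pow_pos; linarith
  have hle : (1 - b) ^ J ≤ (1 + b) ^ J := pow_le_pow_left₀ (by linarith) (by linarith) J
  have h0 : 0 ≤ 1 - (1 - b) ^ J / (1 + b) ^ J ∧ 1 - (1 - b) ^ J / (1 + b) ^ J < 1 := by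
    have h1 : (1 - b) ^ J / (1 + b) ^ J ≤ 1 := by rw [div_le_one hC0]; exact hle
    have h2 : 0 < (1 - b) ^ J / (1 + b) ^ J := by positivity
    constructor <;> linarith
  have hit : ∀ n : ℕ, 0 ≤ (gst |Real.tanh β|)^[n] (1 - (1 - b) ^ J / (1 + b) ^ J) ∧
      (gst |Real.tanh β|)^[n] (1 - (1 - b) ^ J / (1 + b) ^ J) < 1 := by
    intro n
    induction n with
    | zero => simpa using h0
    | succ n ihn =>
      rw [Function.iterate_succ_apply']
      exact gst_mem (abs_nonneg _) (Real.abs_tanh_lt_one β) ihn.1 ihn.2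
  refine ⟨(gst |Real.tanh β|)^[d] (1 - (1 - b) ^ J / (1 + b) ^ J), (hit d).1, (hit d).2, ?_⟩
  intro w hw hJ
  have hfin : ∀ (S : Finset (V × ℕ)) (v : V), |ES μ S w (sp v)| ≤
      (gst |Real.tanh β|)^[d] (1 - (1 - b) ^ J / (1 + b) ^ J) := by
    intro S v
    have h1 := rec_bound hG hμ hb0 hb J hw hJ v (G.neighborFinset v)
      (fun q hq => (G.mem_neighborFinset v q).mp hq) S (by
        intro e _
        by_cases hev : e.1 = v
        · exact Or.inl hev
        · right
          have hpos : 0 < G.dist e.1 v := hG.isConnected.pos_dist_of_ne hev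
          obtain ⟨n, hn⟩ := Nat.exists_eq_succ_of_ne_zero hpos.ne'
          obtain ⟨q, hq1, hq2⟩ := exists_parent hG.isConnected hn
          refine ⟨q, (G.mem_neighborFinset v q).mpr hq1, ?_⟩
          show G.dist e.1 v = G.dist e.1 q + 1
          omega)
    have h2 : (G.neighborFinset v).card = d := by
      rw [SimpleGraph.card_neighborFinset_eq_degree]
      exact hreg v
    rwa [h2] at h1
  refine ⟨hfin, ?_⟩
  intro R v
  unfold M EI
  set z := (gst |Real.tanh β|)^[d] (1 - (1 - b) ^ J / (1 + b) ^ J) with hz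
  have hb1 : ∀ n, -z ≤ ES μ (bev G R v n) w (sp v) := fun n => (abs_le.mp (hfin _ v)).1
  have hb2 : ∀ n, ES μ (bev G R v n) w (sp v) ≤ z := fun n => (abs_le.mp (hfin _ v)).2
  rw [abs_le]
  constructor
  · apply le_limsup_of_le
    · exact ⟨z, Filter.eventually_map.mpr (Filter.Eventually.of_forall hb2)⟩
    · intro c hc
      obtain ⟨n, hn⟩ := hc.exists
      exact (hb1 n).trans hn
  · apply limsup_le_of_le
    · exact ⟨-z, fun c hc => by
        obtain ⟨n, hn⟩ := (Filter.eventually_map.mp hc).exists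
        exact (hb1 n).trans hn⟩
    · exact Filter.Eventually.of_forall hb2

end Vale.Agent.P161.Crit
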