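import Vale.Agent.Lib.P161.Imp

/-!
P161-CRIT, module Comb: combination of two conditionally independent binary channels.
`B` near, `(A, H)` far; joint law `(1 + θ B A) · law B ⊗ law (A, H)`; `B` has a symmetric law.
-/

open MeasureTheory

namespace Vale.Agent.P161.Crit

/-- Decoupling hypothesis. -/
structure Dec {Ω : Type*} [MeasurableSpace Ω] (P : Measure Ω) (θ : ℝ) (B A H : Ω → ℝ) : Prop where
  prob : IsProbabilityMeasure P
  th0 : 0 ≤ θ
  th1 : θ < 1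
  mB : Measurable B
  mA : Measurable A
  mH : Measurable H
  bB : ∀ ω, |B ω| ≤ 1
  bA : ∀ ω, |A ω| ≤ 1
  bH : ∃ C, ∀ ω, |H ω| ≤ C
  symB : ∀ F : ℝ → ℝ, Measurable F → (∃ C, ∀ x, |F x| ≤ C) →
    ∫ ω, F (- B ω) ∂P = ∫ ω, F (B ω) ∂P
  dec : ∀ (F₁ : ℝ → ℝ) (F₂ : ℝ × ℝ → ℝ), Measurable F₁ → Measurable F₂ → (∃ C, ∀ x, |F₁ x| ≤ C) →
    (∃ C, ∀ x, |F₂ x| ≤ C) →
    ∫ ω, F₁ (B ω) * F₂ (A ω, H ω) ∂P = (∫ ω, F₁ (B ω) ∂P) * (∫ ω, F₂ (A ω, H ω) ∂P) +
      θ * (∫ ω, F₁ (B ω) * B ω ∂P) * (∫ ω, F₂ (A ω, H ω) * A ω ∂P)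

variable {Ω : Type*} [MeasurableSpace Ω] {P : Measure Ω} {θ : ℝ} {B A H : Ω → ℝ}

/-- The combined posterior mean. -/
noncomputable def opl (x y : ℝ) : ℝ := (x + y) / (1 + x * y)

/-! ### Auxiliary: clamping -/

/-- The clamp to `[-1, 1]`. -/
noncomputable def clp (x : ℝ) : ℝ := max (-1) (min 1 x)

theorem clp_eq {x : ℝ} (hx : |x| ≤ 1) : clp x = x := by
  unfold clp
  obtain ⟨h1, h2⟩ := abs_le.1 hx
  rw [min_eq_right h2, max_eq_right h1]

theorem abs_clp_le (x : ℝ) : |clp x| ≤ 1 := by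
  unfold clp
  rw [abs_le]
  exact ⟨le_max_left _ _, max_le (by norm_num) (min_le_left _ _)⟩

theorem measurable_clp : Measurable clp := by
  unfold clp
  exact measurable_const.max (measurable_const.min measurable_id)

theorem abs_mul_le_of_le {θ x y : ℝ} (h0 : 0 ≤ θ) (hx : |x| ≤ 1) (hy : |y| ≤ 1) :
    |θ * x * y| ≤ θ := by
  rw [abs_mul, abs_mul, abs_of_nonneg h0]
  have h1 : |x| * |y| ≤ 1 := mul_le_one₀ hx (abs_nonneg _) hy
  calc θ * |x| * |y| = θ * (|x| * |y|) := by ring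
    _ ≤ θ * 1 := mul_le_mul_of_nonneg_left h1 h0
    _ = θ := mul_one θ

/-- A bounded measurable function is integrable. -/
theorem comb_integrable_bdd {α : Type*} [MeasurableSpace α] {μ : Measure α} [IsFiniteMeasure μ]
    {f : α → ℝ} (hf : Measurable f) (hC : ∃ C, ∀ x, |f x| ≤ C) : Integrable f μ := by
  obtain ⟨C, hC⟩ := hC
  exact Integrable.of_bound hf.aestronglyMeasurable C (ae_of_all _ hC)

/-- Joint law (π-λ theorem from `dec`). -/
theorem Dec.joint (h : Dec P θ B A H) {Φ : ℝ × (ℝ × ℝ) → ℝ} (hΦ : Measurable Φ)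
    (hC : ∃ C, ∀ x, |Φ x| ≤ C) :
    ∫ ω, Φ (B ω, (A ω, H ω)) ∂P =
      ∫ ω', (∫ ω, Φ (B ω, (A ω', H ω')) * (1 + θ * B ω * A ω') ∂P) ∂P := by
  have := h.prob
  have hAH : Measurable (fun ω => (A ω, H ω)) := h.mA.prodMk h.mH
  have hBAH : Measurable (fun ω => (B ω, (A ω, H ω))) := h.mB.prodMk hAH
  have hpB : IsProbabilityMeasure (P.map B) := Measure.isProbabilityMeasure_map h.mB.aemeasurable
  have hpA : IsProbabilityMeasure (P.map (fun ω => (A ω, H ω))) :=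
    Measure.isProbabilityMeasure_map hAH.aemeasurable
  set μ : Measure (ℝ × (ℝ × ℝ)) := P.map (fun ω => (B ω, (A ω, H ω))) with hμ
  have hpμ : IsProbabilityMeasure μ := Measure.isProbabilityMeasure_map hBAH.aemeasurable
  set g : ℝ × (ℝ × ℝ) → ℝ := fun z => 1 + θ * clp z.1 * clp z.2.1 with hg
  have hgm : Measurable g := by
    have h1 : Measurable (fun z : ℝ × (ℝ × ℝ) => clp z.1) := measurable_clp.comp measurable_fst
    have h2 : Measurable (fun z : ℝ × (ℝ × ℝ) => clp z.2.1) :=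
      measurable_clp.comp (measurable_fst.comp measurable_snd)
    exact measurable_const.add ((measurable_const.mul h1).mul h2)
  have hgb : ∀ z : ℝ × (ℝ × ℝ), |θ * clp z.1 * clp z.2.1| ≤ θ := fun z =>
    abs_mul_le_of_le h.th0 (abs_clp_le _) (abs_clp_le _)
  have hg0 : ∀ z, 0 ≤ g z := by
    intro z
    have h1 := (abs_le.1 (hgb z)).1
    have h2 := h.th1
    simp only [hg]
    linarith
  have hg2 : ∀ z, g z ≤ 2 := by
    intro z
    have h1 := (abs_le.1 (hgb z)).2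
    have h2 := h.th1
    simp only [hg]
    linarith
  set m : Measure (ℝ × (ℝ × ℝ)) := (P.map B).prod (P.map (fun ω => (A ω, H ω))) with hm
  set ν : Measure (ℝ × (ℝ × ℝ)) := m.withDensity (fun z => ENNReal.ofReal (g z)) with hν
  -- integrals against `ν`
  have hN : ∀ Ψ : ℝ × (ℝ × ℝ) → ℝ, Measurable Ψ → (∃ C, ∀ x, |Ψ x| ≤ C) →
      ∫ z, Ψ z ∂ν = ∫ ω', (∫ ω, Ψ (B ω, (A ω', H ω')) * (1 + θ * B ω * A ω') ∂P) ∂P := by
    intro Ψ hΨ hCΨ
    obtain ⟨C, hCΨ⟩ := hCΨ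
    rw [hν, integral_withDensity_eq_integral_toReal_smul hgm.ennreal_ofReal
      (ae_of_all _ fun z => ENNReal.ofReal_lt_top)]
    have e1 : ∀ z, (ENNReal.ofReal (g z)).toReal • Ψ z = g z * Ψ z := by
      intro z
      rw [ENNReal.toReal_ofReal (hg0 z), smul_eq_mul]
    simp only [e1]
    have hprod : Measurable (fun z => g z * Ψ z) := hgm.mul hΨ
    have hint : Integrable (fun z => g z * Ψ z) m := by
      refine comb_integrable_bdd hprod ⟨2 * C, fun z => ?_⟩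
      rw [abs_mul, abs_of_nonneg (hg0 z)]
      exact mul_le_mul (hg2 z) (hCΨ z) (abs_nonneg _) (by norm_num)
    rw [hm, integral_prod_symm _ hint]
    have hout : StronglyMeasurable (fun y : ℝ × ℝ => ∫ x, g (x, y) * Ψ (x, y) ∂(P.map B)) :=
      (hprod.stronglyMeasurable).integral_prod_left'
    rw [integral_map hAH.aemeasurable hout.aestronglyMeasurable]
    refine integral_congr_ae (ae_of_all _ fun ω' => ?_)
    have hin : Measurable (fun x : ℝ => g (x, (A ω', H ω')) * Ψ (x, (A ω', H ω'))) :=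
      hprod.comp (measurable_id.prodMk measurable_const)
    change ∫ x, g (x, (A ω', H ω')) * Ψ (x, (A ω', H ω')) ∂(P.map B) = _
    rw [integral_map h.mB.aemeasurable hin.aestronglyMeasurable]
    refine integral_congr_ae (ae_of_all _ fun ω => ?_)
    simp only [hg]
    rw [clp_eq (h.bB ω), clp_eq (h.bA ω')]
    ring
  have hfin : IsFiniteMeasure ν := by
    refine isFiniteMeasure_withDensity ?_
    refine ((lintegral_mono fun z => ENNReal.ofReal_le_ofReal (hg2 z)).trans_lt ?_).ne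
    rw [lintegral_const]
    exact ENNReal.mul_lt_top ENNReal.ofReal_lt_top (measure_lt_top _ _)
  have hμν : μ = ν := by
    refine Measure.ext_prod fun {s t} hs ht => ?_
    have hst : MeasurableSet (s ×ˢ t) := hs.prod ht
    rw [← ENNReal.toReal_eq_toReal_iff' (measure_ne_top _ _) (measure_ne_top _ _)]
    have i1 : Measurable (s.indicator (fun _ => (1 : ℝ))) := measurable_const.indicator hs
    have i2 : Measurable (t.indicator (fun _ => (1 : ℝ))) := measurable_const.indicator ht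
    have i12 : Measurable ((s ×ˢ t).indicator (fun _ => (1 : ℝ))) := measurable_const.indicator hst
    have b1 : ∀ {β : Type} (u : Set β) (x : β), |u.indicator (fun _ => (1 : ℝ)) x| ≤ 1 := by
      intro β u x
      by_cases hx : x ∈ u <;> simp [hx]
    have hsplit : ∀ z : ℝ × (ℝ × ℝ), (s ×ˢ t).indicator (fun _ => (1 : ℝ)) z =
        s.indicator (fun _ => (1 : ℝ)) z.1 * t.indicator (fun _ => (1 : ℝ)) z.2 := by
      intro z
      by_cases h1 : z.1 ∈ s <;> by_cases h2 : z.2 ∈ t <;> simp [Set.indicator, h1, h2]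
    have hl : (μ (s ×ˢ t)).toReal =
        ∫ ω, s.indicator (fun _ => (1 : ℝ)) (B ω) * t.indicator (fun _ => (1 : ℝ)) (A ω, H ω) ∂P := by
      have e1 := integral_indicator_const (μ := μ) (1 : ℝ) hst
      rw [smul_eq_mul, mul_one] at e1
      change μ.real (s ×ˢ t) = _
      rw [← e1, hμ, integral_map hBAH.aemeasurable i12.aestronglyMeasurable]
      refine integral_congr_ae (ae_of_all _ fun ω => ?_)
      exact hsplit _
    have hr : (ν (s ×ˢ t)).toReal =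
        ∫ ω', (∫ ω, (s ×ˢ t).indicator (fun _ => (1 : ℝ)) (B ω, (A ω', H ω')) *
          (1 + θ * B ω * A ω') ∂P) ∂P := by
      have e1 := integral_indicator_const (μ := ν) (1 : ℝ) hst
      rw [smul_eq_mul, mul_one] at e1
      change ν.real (s ×ˢ t) = _
      rw [← e1, hN _ i12 ⟨1, b1 _⟩]
    rw [hl, hr, h.dec _ _ i1 i2 ⟨1, b1 s⟩ ⟨1, b1 t⟩]
    simp only [hsplit]
    have hBi : Integrable (fun ω => s.indicator (fun _ => (1 : ℝ)) (B ω)) P :=
      comb_integrable_bdd (i1.comp h.mB) ⟨1, fun ω => b1 s _⟩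
    have hBi2 : Integrable (fun ω => s.indicator (fun _ => (1 : ℝ)) (B ω) * B ω) P :=
      comb_integrable_bdd ((i1.comp h.mB).mul h.mB) ⟨1, fun ω => by
        rw [abs_mul]
        exact mul_le_one₀ (b1 s _) (abs_nonneg _) (h.bB ω)⟩
    have hAi : Integrable (fun ω => t.indicator (fun _ => (1 : ℝ)) (A ω, H ω)) P :=
      comb_integrable_bdd (i2.comp hAH) ⟨1, fun ω => b1 t _⟩
    have hAi2 : Integrable (fun ω => t.indicator (fun _ => (1 : ℝ)) (A ω, H ω) * A ω) P :=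
      comb_integrable_bdd ((i2.comp hAH).mul h.mA) ⟨1, fun ω => by
        rw [abs_mul]
        exact mul_le_one₀ (b1 t _) (abs_nonneg _) (h.bA ω)⟩
    have hinner : ∀ ω', ∫ ω, s.indicator (fun _ => (1 : ℝ)) (B ω) *
        t.indicator (fun _ => (1 : ℝ)) (A ω', H ω') * (1 + θ * B ω * A ω') ∂P =
        (∫ ω, s.indicator (fun _ => (1 : ℝ)) (B ω) ∂P) *
          t.indicator (fun _ => (1 : ℝ)) (A ω', H ω') +
        θ * (∫ ω, s.indicator (fun _ => (1 : ℝ)) (B ω) * B ω ∂P) *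
          (t.indicator (fun _ => (1 : ℝ)) (A ω', H ω') * A ω') := by
      intro ω'
      have e1 : ∀ ω, s.indicator (fun _ => (1 : ℝ)) (B ω) *
          t.indicator (fun _ => (1 : ℝ)) (A ω', H ω') * (1 + θ * B ω * A ω') =
          s.indicator (fun _ => (1 : ℝ)) (B ω) * t.indicator (fun _ => (1 : ℝ)) (A ω', H ω') +
          (s.indicator (fun _ => (1 : ℝ)) (B ω) * B ω) *
            (θ * (t.indicator (fun _ => (1 : ℝ)) (A ω', H ω') * A ω')) := by
        intro ω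
        ring
      simp only [e1]
      rw [integral_add (hBi.mul_const _) (hBi2.mul_const _), integral_mul_const,
        integral_mul_const]
      ring
    simp only [hinner]
    rw [integral_add (hAi.const_mul _) (hAi2.const_mul _), integral_const_mul, integral_const_mul]
  calc ∫ ω, Φ (B ω, (A ω, H ω)) ∂P = ∫ z, Φ z ∂μ := by
        rw [hμ, integral_map hBAH.aemeasurable hΦ.aestronglyMeasurable]
    _ = ∫ z, Φ z ∂ν := by rw [hμν]
    _ = _ := hN Φ hΦ hC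

/-- Symmetrised version: only the part even in `B` matters. -/
theorem Dec.joint_symm (h : Dec P θ B A H) {Φ : ℝ × (ℝ × ℝ) → ℝ} (hΦ : Measurable Φ)
    (hC : ∃ C, ∀ x, |Φ x| ≤ C) :
    ∫ ω, Φ (B ω, (A ω, H ω)) ∂P =
      ∫ ω', (∫ ω, (Φ (B ω, (A ω', H ω')) * (1 + θ * B ω * A ω') +
        Φ (- B ω, (A ω', H ω')) * (1 - θ * B ω * A ω')) / 2 ∂P) ∂P := by
  have := h.prob
  rw [h.joint hΦ hC]
  obtain ⟨C, hC⟩ := hC
  refine integral_congr_ae (ae_of_all _ fun ω' => ?_)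
  change ∫ ω, Φ (B ω, (A ω', H ω')) * (1 + θ * B ω * A ω') ∂P = _
  -- the function of `B ω`
  set F : ℝ → ℝ := fun x => Φ (x, (A ω', H ω')) * (1 + θ * clp x * A ω') with hF
  have hFm : Measurable F := by
    have h1 : Measurable (fun x : ℝ => Φ (x, (A ω', H ω'))) :=
      hΦ.comp (measurable_id.prodMk measurable_const)
    exact h1.mul (measurable_const.add ((measurable_const.mul measurable_clp).mul_const _))
  have hFb : ∀ x, |F x| ≤ C * 2 := by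
    intro x
    simp only [hF]
    rw [abs_mul]
    have hb := abs_mul_le_of_le h.th0 (abs_clp_le x) (h.bA ω')
    have h2 := h.th1
    refine mul_le_mul (hC _) ?_ (abs_nonneg _) ((abs_nonneg _).trans (hC (x, (A ω', H ω'))))
    refine (abs_add_le _ _).trans ?_
    rw [abs_one]
    linarith
  have hs := h.symB F hFm ⟨_, hFb⟩
  have e1 : ∀ ω, F (B ω) = Φ (B ω, (A ω', H ω')) * (1 + θ * B ω * A ω') := by
    intro ω
    simp only [hF]
    rw [clp_eq (h.bB ω)]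
  have e2 : ∀ ω, F (- B ω) = Φ (- B ω, (A ω', H ω')) * (1 - θ * B ω * A ω') := by
    intro ω
    simp only [hF]
    rw [clp_eq (by rw [abs_neg]; exact h.bB ω)]
    ring
  have i1 : Integrable (fun ω => F (B ω)) P := comb_integrable_bdd (hFm.comp h.mB) ⟨_, fun ω => hFb _⟩
  have i2 : Integrable (fun ω => F (- B ω)) P :=
    comb_integrable_bdd (hFm.comp h.mB.neg) ⟨_, fun ω => hFb _⟩
  have e3 : ∫ ω, (F (B ω) + F (- B ω)) / 2 ∂P = ∫ ω, F (B ω) ∂P := by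
    rw [integral_div, integral_add i1 i2, hs]
    ring
  simp only [e1, e2] at e3
  exact e3.symm

/-- The symmetrised version as an integral over the product. -/
theorem Dec.pair (h : Dec P θ B A H) {Φ : ℝ × (ℝ × ℝ) → ℝ} (hΦ : Measurable Φ)
    (hC : ∃ C, ∀ x, |Φ x| ≤ C) :
    ∫ ω, Φ (B ω, (A ω, H ω)) ∂P =
      ∫ z : Ω × Ω, (Φ (B z.1, (A z.2, H z.2)) * (1 + θ * B z.1 * A z.2) +
        Φ (- B z.1, (A z.2, H z.2)) * (1 - θ * B z.1 * A z.2)) / 2 ∂(P.prod P) ∧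
    Integrable (fun z : Ω × Ω => (Φ (B z.1, (A z.2, H z.2)) * (1 + θ * B z.1 * A z.2) +
        Φ (- B z.1, (A z.2, H z.2)) * (1 - θ * B z.1 * A z.2)) / 2) (P.prod P) := by
  have := h.prob
  have hint : Integrable (fun z : Ω × Ω => (Φ (B z.1, (A z.2, H z.2)) * (1 + θ * B z.1 * A z.2) +
        Φ (- B z.1, (A z.2, H z.2)) * (1 - θ * B z.1 * A z.2)) / 2) (P.prod P) := by
    obtain ⟨C, hC⟩ := hC
    have m1 : Measurable (fun z : Ω × Ω => B z.1) := h.mB.comp measurable_fst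
    have m2 : Measurable (fun z : Ω × Ω => A z.2) := h.mA.comp measurable_snd
    have m3 : Measurable (fun z : Ω × Ω => H z.2) := h.mH.comp measurable_snd
    have m4 : Measurable (fun z : Ω × Ω => θ * B z.1 * A z.2) := (measurable_const.mul m1).mul m2
    have m5 : Measurable (fun z : Ω × Ω => Φ (B z.1, (A z.2, H z.2))) :=
      hΦ.comp (m1.prodMk (m2.prodMk m3))
    have m6 : Measurable (fun z : Ω × Ω => Φ (- B z.1, (A z.2, H z.2))) :=
      hΦ.comp (m1.neg.prodMk (m2.prodMk m3))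
    refine comb_integrable_bdd (((m5.mul (measurable_const.add m4)).add
      (m6.mul (measurable_const.sub m4))).div_const 2) ⟨C * 2, fun z => ?_⟩
    have hb := abs_le.1 (abs_mul_le_of_le h.th0 (h.bB z.1) (h.bA z.2))
    have h2 := h.th1
    have c1 := hC (B z.1, (A z.2, H z.2))
    have c2 := hC (- B z.1, (A z.2, H z.2))
    have hC0 : 0 ≤ C := (abs_nonneg _).trans c1
    have d1 : |Φ (B z.1, (A z.2, H z.2)) * (1 + θ * B z.1 * A z.2)| ≤ C * 2 := by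
      rw [abs_mul]
      refine mul_le_mul c1 ?_ (abs_nonneg _) hC0
      rw [abs_le]
      constructor <;> linarith
    have d2 : |Φ (- B z.1, (A z.2, H z.2)) * (1 - θ * B z.1 * A z.2)| ≤ C * 2 := by
      rw [abs_mul]
      refine mul_le_mul c2 ?_ (abs_nonneg _) hC0
      rw [abs_le]
      constructor <;> linarith
    rw [abs_div, abs_two, div_le_iff₀ (by norm_num : (0 : ℝ) < 2)]
    refine (abs_add_le _ _).trans ?_
    linarith
  refine ⟨?_, hint⟩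
  rw [integral_prod_symm _ hint, h.joint_symm hΦ hC]

/-! ### The operation `opl` -/

theorem one_add_mul_pos {x y : ℝ} (hx : |x| ≤ 1) (hy : |y| < 1) : 0 < 1 + x * y := by
  have h1 : |x * y| < 1 := by
    rw [abs_mul]
    calc |x| * |y| ≤ 1 * |y| := mul_le_mul_of_nonneg_right hx (abs_nonneg _)
      _ < 1 := by linarith
  linarith [(abs_lt.1 h1).1]

theorem one_sub_mul_pos {x y : ℝ} (hx : |x| ≤ 1) (hy : |y| < 1) : 0 < 1 - x * y := by
  have := one_add_mul_pos (x := -x) (y := y) (by rwa [abs_neg]) hy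
  linarith

theorem opl_abs_le {x y : ℝ} (hx : |x| ≤ 1) (hy : |y| < 1) : |opl x y| ≤ 1 := by
  have hpos := one_add_mul_pos hx hy
  unfold opl
  rw [abs_div, abs_of_pos hpos, div_le_one hpos, abs_le]
  obtain ⟨a1, a2⟩ := abs_le.1 hx
  obtain ⟨b1, b2⟩ := abs_lt.1 hy
  constructor <;> nlinarith

theorem opl_sq {x y : ℝ} (hx : |x| ≤ 1) (hy : |y| < 1) :
    (opl x y ^ 2 * (1 + x * y) + opl (-x) y ^ 2 * (1 - x * y)) / 2 =
      (x ^ 2 + y ^ 2 - 2 * (x ^ 2 * y ^ 2)) / (1 - x ^ 2 * y ^ 2) := by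
  have h1 := one_add_mul_pos hx hy
  have h2 := one_sub_mul_pos hx hy
  have h3 : 1 - x ^ 2 * y ^ 2 = (1 + x * y) * (1 - x * y) := by ring
  have h4 : (1 : ℝ) + -x * y = 1 - x * y := by ring
  unfold opl
  rw [h3, h4]
  have h1' := h1.ne'
  have h2' := h2.ne'
  field_simp
  ring

theorem opl_pow {x y : ℝ} (hx : |x| ≤ 1) (hy : |y| < 1) (r : ℕ) (hr : 1 ≤ r) :
    (opl x y ^ (2 * r) * (1 + x * y) + opl (-x) y ^ (2 * r) * (1 - x * y)) / 2 =
      ((x + y) ^ (2 * r) / (1 + x * y) ^ (2 * r - 1) +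
        (-x + y) ^ (2 * r) / (1 - x * y) ^ (2 * r - 1)) / 2 := by
  have h1 := (one_add_mul_pos hx hy).ne'
  have h2 := (one_sub_mul_pos hx hy).ne'
  have h4 : (1 : ℝ) + -x * y = 1 - x * y := by ring
  unfold opl
  rw [h4]
  obtain ⟨n, hn⟩ : ∃ n, 2 * r = n + 1 := ⟨2 * r - 1, by omega⟩
  have hn' : 2 * r - 1 = n := by omega
  rw [hn', hn, div_pow, div_pow, pow_succ (1 + x * y), pow_succ (1 - x * y)]
  field_simp

theorem prod_sq_lt_one {x y : ℝ} (hx : |x| ≤ 1) (hy : |y| < 1) : x ^ 2 * y ^ 2 < 1 := by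
  have h1 := one_add_mul_pos hx hy
  have h2 := one_sub_mul_pos hx hy
  nlinarith [mul_pos h1 h2]

theorem sq_le_one_of_abs {x : ℝ} (hx : |x| ≤ 1) : x ^ 2 ≤ 1 := by
  rw [← sq_abs]
  exact pow_le_one₀ (abs_nonneg _) hx

theorem real_sq_le {x y : ℝ} (hx : |x| ≤ 1) (hy : |y| < 1) :
    (x ^ 2 + y ^ 2 - 2 * (x ^ 2 * y ^ 2)) / (1 - x ^ 2 * y ^ 2) ≤
      x ^ 2 + y ^ 2 - x ^ 2 * y ^ 2 := by
  have h1 : 0 < 1 - x ^ 2 * y ^ 2 := by linarith [prod_sq_lt_one hx hy]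
  rw [div_le_iff₀ h1]
  have h2 : 0 ≤ 1 - x ^ 2 := by linarith [sq_le_one_of_abs hx]
  have h3 : 0 ≤ 1 - y ^ 2 := by linarith [sq_le_one_of_abs hy.le]
  linarith only [mul_nonneg (mul_nonneg (mul_nonneg (sq_nonneg x) (sq_nonneg y)) h2) h3]

theorem real_le_sq {x y : ℝ} (hx : |x| ≤ 1) (hy : |y| < 1) :
    x ^ 2 + y ^ 2 - 2 * (x ^ 2 * y ^ 2) ≤
      (x ^ 2 + y ^ 2 - 2 * (x ^ 2 * y ^ 2)) / (1 - x ^ 2 * y ^ 2) := by
  have h1 : 0 < 1 - x ^ 2 * y ^ 2 := by linarith [prod_sq_lt_one hx hy]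
  rw [le_div_iff₀ h1]
  have h2 : 0 ≤ 1 - x ^ 2 := by linarith [sq_le_one_of_abs hx]
  have h3 : 0 ≤ 1 - y ^ 2 := by linarith [sq_le_one_of_abs hy.le]
  have h4 : 0 ≤ x ^ 2 + y ^ 2 - 2 * (x ^ 2 * y ^ 2) := by
    linarith only [mul_nonneg (sq_nonneg x) h3, mul_nonneg (sq_nonneg y) h2]
  have h5 : 0 ≤ x ^ 2 * y ^ 2 := by positivity
  linarith only [mul_nonneg h4 h5]

theorem real_weighted {x y : ℝ} (hx : |x| ≤ 1) (hy : |y| < 1) :
    x ^ 2 ≤ (x ^ 2 + y ^ 2 - 2 * (x ^ 2 * y ^ 2)) / (1 - x ^ 2 * y ^ 2) := by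
  have h1 : 0 < 1 - x ^ 2 * y ^ 2 := by linarith [prod_sq_lt_one hx hy]
  rw [le_div_iff₀ h1]
  linarith only [mul_nonneg (sq_nonneg y) (sq_nonneg (1 - x ^ 2))]

section app
variable (h : Dec P θ B A H)
include h

theorem Dec.th_abs (ω : Ω) : |θ * A ω| < 1 := by
  rw [abs_mul, abs_of_nonneg h.th0]
  calc θ * |A ω| ≤ θ * 1 := mul_le_mul_of_nonneg_left (h.bA ω) h.th0
    _ < 1 := by linarith [h.th1]

theorem Dec.th_abs_le (ω : Ω) : |θ * A ω| ≤ θ := by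
  rw [abs_mul, abs_of_nonneg h.th0]
  calc θ * |A ω| ≤ θ * 1 := mul_le_mul_of_nonneg_left (h.bA ω) h.th0
    _ = θ := mul_one θ

theorem Dec.int_fst {f : Ω → ℝ} : ∫ z : Ω × Ω, f z.1 ∂(P.prod P) = ∫ ω, f ω ∂P := by
  have := h.prob
  have e := integral_prod_mul (μ := P) (ν := P) f (fun _ : Ω => (1 : ℝ))
  simpa using e

theorem Dec.int_snd {f : Ω → ℝ} : ∫ z : Ω × Ω, f z.2 ∂(P.prod P) = ∫ ω, f ω ∂P := by
  have := h.prob
  have e := integral_prod_mul (μ := P) (ν := P) (fun _ : Ω => (1 : ℝ)) f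
  simpa using e

/-- The product integral for powers of `opl`, with a bounded nonnegative weight. -/
theorem Dec.opl_pair (k : ℕ) {W : ℝ → ℝ} (hW : Measurable W) (hWb : ∃ C, ∀ x, |W x| ≤ C) :
    ∫ ω, opl (B ω) (θ * A ω) ^ k * W (H ω) ∂P =
      ∫ z : Ω × Ω, (opl (B z.1) (θ * A z.2) ^ k * (1 + B z.1 * (θ * A z.2)) +
        opl (- B z.1) (θ * A z.2) ^ k * (1 - B z.1 * (θ * A z.2))) / 2 * W (H z.2) ∂(P.prod P) ∧
    Integrable (fun z : Ω × Ω => (opl (B z.1) (θ * A z.2) ^ k * (1 + B z.1 * (θ * A z.2)) +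
        opl (- B z.1) (θ * A z.2) ^ k * (1 - B z.1 * (θ * A z.2))) / 2 * W (H z.2))
      (P.prod P) := by
  obtain ⟨C, hWb⟩ := hWb
  set Φ : ℝ × (ℝ × ℝ) → ℝ := fun z => opl (clp z.1) (θ * clp z.2.1) ^ k * W z.2.2 with hΦ
  have m1 : Measurable (fun z : ℝ × (ℝ × ℝ) => clp z.1) := measurable_clp.comp measurable_fst
  have m2 : Measurable (fun z : ℝ × (ℝ × ℝ) => θ * clp z.2.1) :=
    measurable_const.mul (measurable_clp.comp (measurable_fst.comp measurable_snd))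
  have m3 : Measurable (fun z : ℝ × (ℝ × ℝ) => opl (clp z.1) (θ * clp z.2.1)) := by
    unfold opl
    exact (m1.add m2).div (measurable_const.add (m1.mul m2))
  have hΦm : Measurable Φ :=
    (m3.pow_const k).mul (hW.comp (measurable_snd.comp measurable_snd))
  have hΦb : ∀ z, |Φ z| ≤ 1 * C := by
    intro z
    simp only [hΦ]
    rw [abs_mul, abs_pow]
    refine mul_le_mul ?_ (hWb _) (abs_nonneg _) zero_le_one
    refine pow_le_one₀ (abs_nonneg _) (opl_abs_le (abs_clp_le _) ?_)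
    rw [abs_mul, abs_of_nonneg h.th0]
    calc θ * |clp z.2.1| ≤ θ * 1 := mul_le_mul_of_nonneg_left (abs_clp_le _) h.th0
      _ < 1 := by linarith [h.th1]
  have hval : ∀ ω ω', Φ (B ω, (A ω', H ω')) = opl (B ω) (θ * A ω') ^ k * W (H ω') := by
    intro ω ω'
    simp only [hΦ]
    rw [clp_eq (h.bB ω), clp_eq (h.bA ω')]
  have hval' : ∀ ω ω', Φ (- B ω, (A ω', H ω')) = opl (- B ω) (θ * A ω') ^ k * W (H ω') := by
    intro ω ω'
    simp only [hΦ]
    rw [clp_eq (by rw [abs_neg]; exact h.bB ω), clp_eq (h.bA ω')]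
  have key := h.pair hΦm ⟨_, hΦb⟩
  simp only [hval, hval'] at key
  have e : ∀ z : Ω × Ω, (opl (B z.1) (θ * A z.2) ^ k * W (H z.2) * (1 + θ * B z.1 * A z.2) +
      opl (- B z.1) (θ * A z.2) ^ k * W (H z.2) * (1 - θ * B z.1 * A z.2)) / 2 =
      (opl (B z.1) (θ * A z.2) ^ k * (1 + B z.1 * (θ * A z.2)) +
        opl (- B z.1) (θ * A z.2) ^ k * (1 - B z.1 * (θ * A z.2))) / 2 * W (H z.2) := by
    intro z
    ring
  simp only [e] at key
  exact key

theorem Dec.opl_pair_one (k : ℕ) :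
    ∫ ω, opl (B ω) (θ * A ω) ^ k ∂P =
      ∫ z : Ω × Ω, (opl (B z.1) (θ * A z.2) ^ k * (1 + B z.1 * (θ * A z.2)) +
        opl (- B z.1) (θ * A z.2) ^ k * (1 - B z.1 * (θ * A z.2))) / 2 ∂(P.prod P) ∧
    Integrable (fun z : Ω × Ω => (opl (B z.1) (θ * A z.2) ^ k * (1 + B z.1 * (θ * A z.2)) +
        opl (- B z.1) (θ * A z.2) ^ k * (1 - B z.1 * (θ * A z.2))) / 2) (P.prod P) := by
  have key := h.opl_pair k (W := fun _ => 1) measurable_const ⟨1, fun x => by simp⟩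
  simp only [mul_one] at key
  exact key

theorem Dec.intB (k : ℕ) : Integrable (fun ω => B ω ^ k) P := by
  have := h.prob
  refine comb_integrable_bdd (h.mB.pow_const k) ⟨1, fun ω => ?_⟩
  rw [abs_pow]
  exact pow_le_one₀ (abs_nonneg _) (h.bB ω)

theorem Dec.intA (k : ℕ) : Integrable (fun ω => A ω ^ k) P := by
  have := h.prob
  refine comb_integrable_bdd (h.mA.pow_const k) ⟨1, fun ω => ?_⟩
  rw [abs_pow]
  exact pow_le_one₀ (abs_nonneg _) (h.bA ω)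

theorem Dec.intBA (i j : ℕ) : Integrable (fun z : Ω × Ω => B z.1 ^ i * A z.2 ^ j) (P.prod P) := by
  have := h.prob
  exact (h.intB i).mul_prod (h.intA j)

theorem Dec.intB' (k : ℕ) : Integrable (fun z : Ω × Ω => B z.1 ^ k) (P.prod P) := by
  have := h.intBA k 0
  simpa using this

theorem Dec.intA' (k : ℕ) : Integrable (fun z : Ω × Ω => A z.2 ^ k) (P.prod P) := by
  have := h.intBA 0 k
  simpa using this

/-- The quadratic polynomial integrals. -/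
theorem Dec.int_quad (c : ℝ) :
    ∫ z : Ω × Ω, (B z.1 ^ 2 + θ ^ 2 * A z.2 ^ 2 - c * (B z.1 ^ 2 * A z.2 ^ 2)) ∂(P.prod P) =
      (∫ ω, B ω ^ 2 ∂P) + θ ^ 2 * (∫ ω, A ω ^ 2 ∂P) -
      c * ((∫ ω, B ω ^ 2 ∂P) * (∫ ω, A ω ^ 2 ∂P)) ∧
    Integrable (fun z : Ω × Ω => B z.1 ^ 2 + θ ^ 2 * A z.2 ^ 2 - c * (B z.1 ^ 2 * A z.2 ^ 2))
      (P.prod P) := by
  have := h.prob
  have i1 := h.intB' 2
  have i2 := (h.intA' 2).const_mul (θ ^ 2)
  have i3 := (h.intBA 2 2).const_mul c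
  refine ⟨?_, (i1.add i2).sub i3⟩
  have e1 : ∫ z : Ω × Ω, (B z.1 ^ 2 + θ ^ 2 * A z.2 ^ 2 - c * (B z.1 ^ 2 * A z.2 ^ 2)) ∂(P.prod P) =
      ∫ z : Ω × Ω, (B z.1 ^ 2 + θ ^ 2 * A z.2 ^ 2) ∂(P.prod P) -
        ∫ z : Ω × Ω, c * (B z.1 ^ 2 * A z.2 ^ 2) ∂(P.prod P) := integral_sub (i1.add i2) i3
  have e2 : ∫ z : Ω × Ω, (B z.1 ^ 2 + θ ^ 2 * A z.2 ^ 2) ∂(P.prod P) =
      ∫ z : Ω × Ω, B z.1 ^ 2 ∂(P.prod P) + ∫ z : Ω × Ω, θ ^ 2 * A z.2 ^ 2 ∂(P.prod P) :=
    integral_add i1 i2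
  have e3 : ∫ z : Ω × Ω, B z.1 ^ 2 ∂(P.prod P) = ∫ ω, B ω ^ 2 ∂P :=
    h.int_fst (f := fun ω => B ω ^ 2)
  have e4 : ∫ z : Ω × Ω, A z.2 ^ 2 ∂(P.prod P) = ∫ ω, A ω ^ 2 ∂P :=
    h.int_snd (f := fun ω => A ω ^ 2)
  have e5 : ∫ z : Ω × Ω, B z.1 ^ 2 * A z.2 ^ 2 ∂(P.prod P) =
      (∫ ω, B ω ^ 2 ∂P) * (∫ ω, A ω ^ 2 ∂P) :=
    integral_prod_mul (μ := P) (ν := P) (fun ω => B ω ^ 2) (fun ω => A ω ^ 2)
  rw [e1, e2, integral_const_mul, integral_const_mul, e3, e4, e5]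

/-- `E (B ⊕ θA)² ≤ E B² + θ² E A² - θ² E B² E A²`; pointwise: for `|x| ≤ 1, |y| < 1`,
`((x+y)²/(1+xy) + (x-y)²/(1-xy))/2 = (x²+y²-2x²y²)/(1-x²y²) ≤ x²+y²-x²y²`. -/
theorem Dec.sq_le :
    ∫ ω, opl (B ω) (θ * A ω) ^ 2 ∂P ≤ (∫ ω, B ω ^ 2 ∂P) + θ ^ 2 * (∫ ω, A ω ^ 2 ∂P) -
      θ ^ 2 * (∫ ω, B ω ^ 2 ∂P) * (∫ ω, A ω ^ 2 ∂P) := by
  obtain ⟨k1, k2⟩ := h.opl_pair_one 2
  obtain ⟨q1, q2⟩ := h.int_quad (θ ^ 2)
  rw [k1]
  refine (integral_mono k2 q2 fun z => ?_).trans (le_of_eq ?_)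
  · change _ ≤ B z.1 ^ 2 + θ ^ 2 * A z.2 ^ 2 - θ ^ 2 * (B z.1 ^ 2 * A z.2 ^ 2)
    have h1 := real_sq_le (h.bB z.1) (h.th_abs z.2)
    rw [← opl_sq (h.bB z.1) (h.th_abs z.2)] at h1
    refine h1.trans (le_of_eq ?_)
    ring
  · rw [q1]
    ring

/-- `E (B ⊕ θA)² ≥ E B² + θ² E A² - 2 θ² E B² E A²`. -/
theorem Dec.le_sq :
    (∫ ω, B ω ^ 2 ∂P) + θ ^ 2 * (∫ ω, A ω ^ 2 ∂P) -
      2 * θ ^ 2 * (∫ ω, B ω ^ 2 ∂P) * (∫ ω, A ω ^ 2 ∂P) ≤
      ∫ ω, opl (B ω) (θ * A ω) ^ 2 ∂P := by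
  obtain ⟨k1, k2⟩ := h.opl_pair_one 2
  obtain ⟨q1, q2⟩ := h.int_quad (2 * θ ^ 2)
  rw [k1]
  refine le_trans (le_of_eq ?_) (integral_mono q2 k2 fun z => ?_)
  · rw [q1]
    ring
  · change B z.1 ^ 2 + θ ^ 2 * A z.2 ^ 2 - 2 * θ ^ 2 * (B z.1 ^ 2 * A z.2 ^ 2) ≤ _
    have h1 := real_le_sq (h.bB z.1) (h.th_abs z.2)
    rw [← opl_sq (h.bB z.1) (h.th_abs z.2)] at h1
    refine le_trans (le_of_eq ?_) h1
    ring

/-- Weighted lower bound: for `H ≥ 0`, `E (B ⊕ θA)² H ≥ E B² · E H`; pointwise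
`(x²+y²-2x²y²)/(1-x²y²) ≥ x²`. -/
theorem Dec.weighted (hH : ∀ ω, 0 ≤ H ω) :
    (∫ ω, B ω ^ 2 ∂P) * (∫ ω, H ω ∂P) ≤ ∫ ω, opl (B ω) (θ * A ω) ^ 2 * H ω ∂P := by
  have := h.prob
  obtain ⟨C, hC⟩ := h.bH
  set W : ℝ → ℝ := fun x => max 0 (min C x) with hW
  have hWm : Measurable W := measurable_const.max (measurable_const.min measurable_id)
  have hWH : ∀ ω, W (H ω) = H ω := by
    intro ω
    simp only [hW]
    rw [min_eq_right ((le_abs_self _).trans (hC ω)), max_eq_right (hH ω)]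
  have hWb : ∀ x, |W x| ≤ |C| := by
    intro x
    simp only [hW]
    rw [abs_of_nonneg (le_max_left _ _)]
    exact max_le (abs_nonneg _) ((min_le_left _ _).trans (le_abs_self _))
  obtain ⟨k1, k2⟩ := h.opl_pair 2 hWm ⟨_, hWb⟩
  simp only [hWH] at k1 k2
  rw [k1]
  have iH : Integrable H P := comb_integrable_bdd h.mH ⟨C, hC⟩
  have e5 : ∫ z : Ω × Ω, B z.1 ^ 2 * H z.2 ∂(P.prod P) = (∫ ω, B ω ^ 2 ∂P) * (∫ ω, H ω ∂P) :=
    integral_prod_mul (μ := P) (ν := P) (fun ω => B ω ^ 2) H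
  rw [← e5]
  have i5 : Integrable (fun z : Ω × Ω => B z.1 ^ 2 * H z.2) (P.prod P) := (h.intB 2).mul_prod iH
  refine integral_mono i5 k2 fun z => ?_
  have h1 := real_weighted (h.bB z.1) (h.th_abs z.2)
  rw [← opl_sq (h.bB z.1) (h.th_abs z.2)] at h1
  exact mul_le_mul_of_nonneg_right h1 (hH z.2)

end app

/-! ### Higher moments -/

/-- The second order expansion of `(1+z)^{-n}`. -/
theorem inv_pow_taylor (θ : ℝ) (h0 : 0 ≤ θ) (h1 : θ < 1) (n : ℕ) :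
    ∃ C : ℝ, 0 ≤ C ∧ ∀ z : ℝ, |z| ≤ θ → |((1 + z) ^ n)⁻¹ - 1 + n * z| ≤ C * z ^ 2 := by
  induction n with
  | zero => exact ⟨0, le_rfl, fun z _ => by simp⟩
  | succ n ih =>
    obtain ⟨C, hC, hb⟩ := ih
    have hθ : 0 < 1 - θ := by linarith
    refine ⟨(C + (n + 1)) / (1 - θ), by positivity, fun z hz => ?_⟩
    have hz1 : 1 - θ ≤ 1 + z := by linarith [(abs_le.1 hz).1]
    have hz0 : 0 < 1 + z := lt_of_lt_of_le hθ hz1
    have e : ((1 + z) ^ (n + 1))⁻¹ - 1 + ((n + 1 : ℕ) : ℝ) * z =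
        (((1 + z) ^ n)⁻¹ - 1 + n * z + (n + 1) * z ^ 2) / (1 + z) := by
      rw [pow_succ]
      push_cast
      have hz0' := hz0.ne'
      field_simp
      ring
    rw [e, abs_div, abs_of_pos hz0, div_le_iff₀ hz0]
    have h2 := hb z hz
    have hz2 : 0 ≤ z ^ 2 := sq_nonneg z
    have h3 : |((1 + z) ^ n)⁻¹ - 1 + n * z + (n + 1) * z ^ 2| ≤ (C + (n + 1)) * z ^ 2 := by
      refine (abs_add_le _ _).trans ?_
      have h4 : |((n : ℝ) + 1) * z ^ 2| = (n + 1) * z ^ 2 := abs_of_nonneg (by positivity)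
      rw [h4]
      linarith
    refine h3.trans ?_
    have h5 : 0 ≤ (C + (n + 1)) * z ^ 2 := by positivity
    have h6 : (C + (n + 1)) / (1 - θ) * z ^ 2 * (1 + z) =
        (C + (n + 1)) * z ^ 2 * ((1 + z) / (1 - θ)) := by ring
    rw [h6]
    refine le_mul_of_one_le_right h5 ?_
    rw [one_le_div hθ]
    exact hz1

/-- The even part of the binomial expansion. -/
theorem sum_even (f : ℕ → ℝ) (hf : ∀ k, f (2 * k + 1) = 0) (r : ℕ) :
    ∑ k ∈ Finset.range (2 * r + 1), f k = ∑ i ∈ Finset.range (r + 1), f (2 * i) := by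
  induction r with
  | zero => simp
  | succ r ih =>
    rw [show 2 * (r + 1) + 1 = 2 * r + 1 + 1 + 1 by ring, Finset.sum_range_succ,
      Finset.sum_range_succ, ih, hf r, add_zero, Finset.sum_range_succ _ (r + 1)]
    rw [show 2 * r + 1 + 1 = 2 * (r + 1) by ring]

theorem even_binom (x y : ℝ) (r : ℕ) :
    (x + y) ^ (2 * r) + (-x + y) ^ (2 * r) =
      ∑ i ∈ Finset.range (r + 1), 2 * ((2 * r).choose (2 * i) : ℝ) *
        (x ^ (2 * i) * y ^ (2 * (r - i))) := by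
  rw [add_pow, add_pow, ← Finset.sum_add_distrib]
  rw [sum_even (fun k => x ^ k * y ^ (2 * r - k) * ((2 * r).choose k : ℝ) +
    (-x) ^ k * y ^ (2 * r - k) * ((2 * r).choose k : ℝ))]
  · refine Finset.sum_congr rfl fun i _ => ?_
    rw [Even.neg_pow ⟨i, two_mul i⟩, Nat.mul_sub]
    ring
  · intro k
    rw [Odd.neg_pow ⟨k, rfl⟩]
    ring

/-- Higher moments, real inequality. For `r ≥ 2` write `(1+z)^{-(2r-1)} = 1 - (2r-1) z + R(z)`,
`|R(z)| ≤ C z²` on `|z| ≤ θ`, and keep the terms even in `x`; all mixed terms `x^i y^j` have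
`i, j ≥ 2` even and `i + j ≥ 2r`. -/
theorem moment_real (r : ℕ) (hr : 1 ≤ r) (θ : ℝ) (h0 : 0 ≤ θ) (h1 : θ < 1) :
    ∃ C : ℝ, 0 ≤ C ∧ ∀ x y : ℝ, |x| ≤ 1 → |y| ≤ θ →
      ((x + y) ^ (2 * r) / (1 + x * y) ^ (2 * r - 1) +
        (-x + y) ^ (2 * r) / (1 - x * y) ^ (2 * r - 1)) / 2 ≤
      x ^ (2 * r) + y ^ (2 * r) + C * ∑ i ∈ Finset.Ico 1 r, x ^ (2 * i) * y ^ (2 * (r - i)) := by
  rcases Nat.eq_or_lt_of_le hr with hr1 | hr2
  · subst hr1
    refine ⟨0, le_rfl, fun x y hx hy => ?_⟩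
    have hy' : |y| < 1 := lt_of_le_of_lt hy h1
    have e1 := opl_pow hx hy' 1 le_rfl
    have e2 := opl_sq hx hy'
    have e3 := real_sq_le hx hy'
    simp only [mul_one] at e1 ⊢
    rw [← e1, e2, zero_mul, add_zero]
    have : 0 ≤ x ^ 2 * y ^ 2 := by positivity
    linarith
  · obtain ⟨C₁, hC₁, hT⟩ := inv_pow_taylor θ h0 h1 (2 * r - 1)
    set C₂ : ℝ := (2 : ℝ) ^ (2 * r) with hC₂
    have hC₂0 : 0 ≤ C₂ := by positivity
    refine ⟨C₂ + C₁ * (C₂ * (r + 1)), by positivity, fun x y hx hy => ?_⟩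
    set z := x * y with hz
    have hzθ : |z| ≤ θ := by
      rw [hz, abs_mul]
      calc |x| * |y| ≤ 1 * θ := mul_le_mul hx hy (abs_nonneg _) zero_le_one
        _ = θ := one_mul θ
    set n : ℝ := ((2 * r - 1 : ℕ) : ℝ) with hn
    have hn0 : 0 ≤ n := Nat.cast_nonneg _
    set S := ∑ i ∈ Finset.Ico 1 r, x ^ (2 * i) * y ^ (2 * (r - i)) with hS
    have hterm : ∀ i j : ℕ, 0 ≤ x ^ (2 * i) * y ^ (2 * j) := by
      intro i j
      rw [pow_mul, pow_mul]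
      positivity
    have hS0 : 0 ≤ S := Finset.sum_nonneg fun i _ => hterm _ _
    have hx2 : x ^ 2 ≤ 1 := sq_le_one_of_abs hx
    have hy2 : y ^ 2 ≤ 1 := sq_le_one_of_abs (hy.trans h1.le)
    -- the two inverse powers
    have t1 : ((1 + z) ^ (2 * r - 1))⁻¹ ≤ 1 - n * z + C₁ * z ^ 2 := by
      have := (abs_le.1 (hT z hzθ)).2
      linarith
    have t2 : ((1 - z) ^ (2 * r - 1))⁻¹ ≤ 1 + n * z + C₁ * z ^ 2 := by
      have h3 := (abs_le.1 (hT (-z) (by rwa [abs_neg]))).2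
      rw [← sub_eq_add_neg, neg_sq] at h3
      linarith
    set U := (x + y) ^ (2 * r) with hU
    set W := (-x + y) ^ (2 * r) with hW
    have hU0 : 0 ≤ U := by rw [hU, pow_mul]; positivity
    have hW0 : 0 ≤ W := by rw [hW, pow_mul]; positivity
    -- the odd part has the sign of `z`
    have hodd : 0 ≤ z * (U - W) := by
      rcases le_total 0 z with hz0 | hz0
      · have h3 : (-x + y) ^ 2 ≤ (x + y) ^ 2 := by linarith only [hz0]
        have h4 : W ≤ U := by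
          rw [hU, hW, pow_mul, pow_mul]
          exact pow_le_pow_left₀ (sq_nonneg _) h3 r
        exact mul_nonneg hz0 (by linarith)
      · have h3 : (x + y) ^ 2 ≤ (-x + y) ^ 2 := by linarith only [hz0]
        have h4 : U ≤ W := by
          rw [hU, hW, pow_mul, pow_mul]
          exact pow_le_pow_left₀ (sq_nonneg _) h3 r
        exact mul_nonneg_of_nonpos_of_nonpos hz0 (by linarith)
    -- the even part
    have heven := even_binom x y r
    rw [← hU, ← hW] at heven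
    have hch : ∀ i, ((2 * r).choose i : ℝ) ≤ C₂ := by
      intro i
      have := Nat.choose_le_two_pow (2 * r) i
      rw [hC₂]
      exact_mod_cast this
    have hsplit : U + W = 2 * x ^ (2 * r) + 2 * y ^ (2 * r) +
        ∑ i ∈ Finset.Ico 1 r, 2 * ((2 * r).choose (2 * i) : ℝ) *
          (x ^ (2 * i) * y ^ (2 * (r - i))) := by
      rw [heven, Finset.sum_range_succ, Finset.range_eq_Ico,
        Finset.sum_eq_sum_Ico_succ_bot (by omega)]
      simp only [Nat.choose_self, Nat.sub_self, mul_zero, pow_zero, Nat.choose_zero_right,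
        Nat.sub_zero]
      push_cast
      ring
    have hE1 : (U + W) / 2 ≤ x ^ (2 * r) + y ^ (2 * r) + C₂ * S := by
      rw [hsplit, hS, Finset.mul_sum]
      have h5 : ∑ i ∈ Finset.Ico 1 r, 2 * ((2 * r).choose (2 * i) : ℝ) *
          (x ^ (2 * i) * y ^ (2 * (r - i))) ≤
          2 * ∑ i ∈ Finset.Ico 1 r, C₂ * (x ^ (2 * i) * y ^ (2 * (r - i))) := by
        rw [Finset.mul_sum]
        refine Finset.sum_le_sum fun i _ => ?_
        have := mul_le_mul_of_nonneg_right (hch (2 * i)) (hterm i (r - i))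
        linarith
      linarith
    have hE2 : z ^ 2 * ((U + W) / 2) ≤ C₂ * (r + 1) * S := by
      rw [heven, Finset.sum_div, Finset.mul_sum]
      have h5 : ∀ i ∈ Finset.range (r + 1), z ^ 2 * (2 * ((2 * r).choose (2 * i) : ℝ) *
          (x ^ (2 * i) * y ^ (2 * (r - i))) / 2) ≤ C₂ * S := by
        intro i hi
        rw [Finset.mem_range] at hi
        have h6 : z ^ 2 * (2 * ((2 * r).choose (2 * i) : ℝ) *
          (x ^ (2 * i) * y ^ (2 * (r - i))) / 2) =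
          ((2 * r).choose (2 * i) : ℝ) * (z ^ 2 * (x ^ (2 * i) * y ^ (2 * (r - i)))) := by ring
        rw [h6]
        refine mul_le_mul (hch _) ?_ (mul_nonneg (sq_nonneg z) (hterm _ _)) hC₂0
        have hsingle : ∀ j ∈ Finset.Ico 1 r, x ^ (2 * j) * y ^ (2 * (r - j)) ≤ S := fun j hj =>
          Finset.single_le_sum (f := fun i => x ^ (2 * i) * y ^ (2 * (r - i)))
            (fun i _ => hterm _ _) hj
        rcases Nat.eq_zero_or_pos i with hi0 | hi0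
        · subst hi0
          refine le_trans ?_ (hsingle 1 (Finset.mem_Ico.2 ⟨le_rfl, hr2⟩))
          have e1 : z ^ 2 * (x ^ (2 * 0) * y ^ (2 * (r - 0))) =
              x ^ (2 * 1) * y ^ (2 * (r - 1)) * (y ^ 2 * y ^ 2) := by
            obtain ⟨m, rfl⟩ : ∃ m, r = m + 1 := ⟨r - 1, by omega⟩
            rw [hz, Nat.sub_zero, Nat.add_sub_cancel]
            ring
          rw [e1]
          refine mul_le_of_le_one_right (hterm _ _) ?_
          exact mul_le_one₀ hy2 (sq_nonneg y) hy2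
        · rcases Nat.lt_or_ge i r with hir | hir
          · refine le_trans ?_ (hsingle i (Finset.mem_Ico.2 ⟨hi0, hir⟩))
            refine mul_le_of_le_one_left (hterm _ _) ?_
            rw [hz, mul_pow]
            exact mul_le_one₀ hx2 (sq_nonneg y) hy2
          · have hir' : i = r := by omega
            subst hir'
            refine le_trans ?_ (hsingle (i - 1) (Finset.mem_Ico.2 ⟨by omega, by omega⟩))
            have e1 : z ^ 2 * (x ^ (2 * i) * y ^ (2 * (i - i))) =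
                x ^ (2 * (i - 1)) * y ^ (2 * (i - (i - 1))) * (x ^ 2 * x ^ 2) := by
              obtain ⟨m, rfl⟩ : ∃ m, i = m + 1 := ⟨i - 1, by omega⟩
              have e2 : m + 1 - m = 1 := by omega
              rw [hz, Nat.add_sub_cancel, Nat.sub_self, e2]
              ring
            rw [e1]
            refine mul_le_of_le_one_right (hterm _ _) ?_
            exact mul_le_one₀ hx2 (sq_nonneg x) hx2
      refine (Finset.sum_le_sum h5).trans (le_of_eq ?_)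
      rw [Finset.sum_const, Finset.card_range, nsmul_eq_mul]
      push_cast
      ring
    calc (U / (1 + z) ^ (2 * r - 1) + W / (1 - z) ^ (2 * r - 1)) / 2
        = (U * ((1 + z) ^ (2 * r - 1))⁻¹ + W * ((1 - z) ^ (2 * r - 1))⁻¹) / 2 := by
          rw [div_eq_mul_inv, div_eq_mul_inv U, div_eq_mul_inv W]
          ring
      _ ≤ (U * (1 - n * z + C₁ * z ^ 2) + W * (1 + n * z + C₁ * z ^ 2)) / 2 := by
          have a1 := mul_le_mul_of_nonneg_left t1 hU0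
          have a2 := mul_le_mul_of_nonneg_left t2 hW0
          linarith
      _ = (U + W) / 2 - n * (z * (U - W)) / 2 + C₁ * (z ^ 2 * ((U + W) / 2)) := by ring
      _ ≤ (x ^ (2 * r) + y ^ (2 * r) + C₂ * S) - 0 + C₁ * (C₂ * (r + 1) * S) := by
          have a1 : 0 ≤ n * (z * (U - W)) / 2 := by positivity
          have a2 := mul_le_mul_of_nonneg_left hE2 hC₁
          linarith
      _ = x ^ (2 * r) + y ^ (2 * r) + (C₂ + C₁ * (C₂ * (r + 1))) * S := by ring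

/-- Higher moments. -/
theorem moment_comb (r : ℕ) (hr : 1 ≤ r) (θ : ℝ) (h0 : 0 ≤ θ) (h1 : θ < 1) :
    ∃ C : ℝ, 0 ≤ C ∧ ∀ {Ω : Type*} [MeasurableSpace Ω] {P : Measure Ω} {B A H : Ω → ℝ},
      Dec P θ B A H →
      ∫ ω, opl (B ω) (θ * A ω) ^ (2 * r) ∂P ≤ (∫ ω, B ω ^ (2 * r) ∂P) +
        θ ^ (2 * r) * (∫ ω, A ω ^ (2 * r) ∂P) +
        C * ∑ i ∈ Finset.Ico 1 r, (∫ ω, B ω ^ (2 * i) ∂P) * (∫ ω, A ω ^ (2 * (r - i)) ∂P) := by
  obtain ⟨C, hC, hb⟩ := moment_real r hr θ h0 h1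
  refine ⟨C, hC, fun {Ω} _ {P} {B} {A} {H} h => ?_⟩
  have := h.prob
  obtain ⟨k1, k2⟩ := h.opl_pair_one (2 * r)
  rw [k1]
  have i1 := h.intB' (2 * r)
  have i2 := (h.intA' (2 * r)).const_mul (θ ^ (2 * r))
  have i3 : Integrable (fun z : Ω × Ω => C * ∑ i ∈ Finset.Ico 1 r,
      B z.1 ^ (2 * i) * A z.2 ^ (2 * (r - i))) (P.prod P) :=
    (integrable_finsetSum _ fun i _ => h.intBA (2 * i) (2 * (r - i))).const_mul C
  have i12 : Integrable (fun z : Ω × Ω => B z.1 ^ (2 * r) + θ ^ (2 * r) * A z.2 ^ (2 * r))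
    (P.prod P) := i1.add i2
  have i123 : Integrable (fun z : Ω × Ω => B z.1 ^ (2 * r) + θ ^ (2 * r) * A z.2 ^ (2 * r) +
      C * ∑ i ∈ Finset.Ico 1 r, B z.1 ^ (2 * i) * A z.2 ^ (2 * (r - i))) (P.prod P) := i12.add i3
  refine (integral_mono k2 i123 fun z => ?_).trans (le_of_eq ?_)
  · change _ ≤ B z.1 ^ (2 * r) + θ ^ (2 * r) * A z.2 ^ (2 * r) +
      C * ∑ i ∈ Finset.Ico 1 r, B z.1 ^ (2 * i) * A z.2 ^ (2 * (r - i))
    have e1 := opl_pow (h.bB z.1) (h.th_abs z.2) r hr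
    have e2 := hb _ _ (h.bB z.1) (h.th_abs_le z.2)
    rw [← e1] at e2
    refine e2.trans ?_
    rw [mul_pow]
    have hle : ∑ i ∈ Finset.Ico 1 r, B z.1 ^ (2 * i) * (θ * A z.2) ^ (2 * (r - i)) ≤
        ∑ i ∈ Finset.Ico 1 r, B z.1 ^ (2 * i) * A z.2 ^ (2 * (r - i)) := by
      refine Finset.sum_le_sum fun i _ => ?_
      have p1 : 0 ≤ B z.1 ^ (2 * i) := by rw [pow_mul]; positivity
      have p2 : 0 ≤ A z.2 ^ (2 * (r - i)) := by rw [pow_mul]; positivity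
      refine mul_le_mul_of_nonneg_left ?_ p1
      rw [mul_pow]
      exact mul_le_of_le_one_left p2 (pow_le_one₀ h0 h1.le)
    have := mul_le_mul_of_nonneg_left hle hC
    linarith
  · have e1 : ∫ z : Ω × Ω, (B z.1 ^ (2 * r) + θ ^ (2 * r) * A z.2 ^ (2 * r) +
      C * ∑ i ∈ Finset.Ico 1 r, B z.1 ^ (2 * i) * A z.2 ^ (2 * (r - i))) ∂(P.prod P) =
      ∫ z : Ω × Ω, (B z.1 ^ (2 * r) + θ ^ (2 * r) * A z.2 ^ (2 * r)) ∂(P.prod P) +
      ∫ z : Ω × Ω, C * ∑ i ∈ Finset.Ico 1 r, B z.1 ^ (2 * i) * A z.2 ^ (2 * (r - i)) ∂(P.prod P) :=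
      integral_add i12 i3
    have e2 : ∫ z : Ω × Ω, (B z.1 ^ (2 * r) + θ ^ (2 * r) * A z.2 ^ (2 * r)) ∂(P.prod P) =
        ∫ z : Ω × Ω, B z.1 ^ (2 * r) ∂(P.prod P) +
        ∫ z : Ω × Ω, θ ^ (2 * r) * A z.2 ^ (2 * r) ∂(P.prod P) := integral_add i1 i2
    have e3 : ∫ z : Ω × Ω, B z.1 ^ (2 * r) ∂(P.prod P) = ∫ ω, B ω ^ (2 * r) ∂P :=
      h.int_fst (f := fun ω => B ω ^ (2 * r))
    have e4 : ∫ z : Ω × Ω, A z.2 ^ (2 * r) ∂(P.prod P) = ∫ ω, A ω ^ (2 * r) ∂P :=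
      h.int_snd (f := fun ω => A ω ^ (2 * r))
    rw [e1, e2, e3, integral_const_mul, e4, integral_const_mul,
      integral_finsetSum _ fun i _ => h.intBA (2 * i) (2 * (r - i))]
    congr 2
    refine Finset.sum_congr rfl fun i _ => ?_
    exact integral_prod_mul (μ := P) (ν := P) (fun ω => B ω ^ (2 * i))
      (fun ω => A ω ^ (2 * (r - i)))

end Vale.Agent.P161.Crit
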