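import Vale.Agent.Lib.P161.Crit.Edge

/-!
P161-CRIT, module Cov: the posterior covariance along a geodesic and the infinite volume update.
-/

open MeasureTheory Filter Topology

namespace Vale.Agent.P161.Crit

variable {V : Type*} {G : SimpleGraph V}
variable {Ω Y : Type*} [MeasurableSpace Ω] [MeasurableSpace Y]
variable {μ : Measure (V → Bool)} {P : Measure Ω} {s : Ω → V → Bool} {y : Ω → V × ℕ → Y}
variable {Q : V × ℕ → Measure Y} {ζ : V × ℕ → Y → ℝ} {b : ℝ}

/-- A geodesic with `n` edges: `p 0, …, p n`. -/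
def Geo (G : SimpleGraph V) (p : ℕ → V) (n : ℕ) : Prop :=
  (∀ i < n, G.Adj (p i) (p (i + 1))) ∧ G.dist (p 0) (p n) = n

theorem dist_le_of_adj (hc : G.Connected) {p : ℕ → V} {n : ℕ}
    (h : ∀ i < n, G.Adj (p i) (p (i + 1))) (i : ℕ) :
    ∀ m : ℕ, i + m ≤ n → G.dist (p i) (p (i + m)) ≤ m := by
  intro m
  induction m with
  | zero => intro _; simp
  | succ m ih =>
    intro hm
    have h1 := ih (by omega)
    have h2 : G.dist (p i) (p (i + (m + 1))) ≤
        G.dist (p i) (p (i + m)) + G.dist (p (i + m)) (p (i + (m + 1))) := hc.dist_triangle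
    have h3 : G.dist (p (i + m)) (p (i + (m + 1))) = 1 :=
      SimpleGraph.dist_eq_one_iff_adj.2 (h (i + m) (by omega))
    omega

theorem Geo.dist_aux (hc : G.Connected) {p : ℕ → V} {n : ℕ} (h : Geo G p n) {i m : ℕ}
    (hj : i + m ≤ n) : G.dist (p i) (p (i + m)) = m := by
  have h1 := dist_le_of_adj hc h.1 i m hj
  have h2 := dist_le_of_adj hc h.1 0 i (by omega)
  have h3 := dist_le_of_adj hc h.1 (i + m) (n - (i + m)) (by omega)
  have e1 : i + m + (n - (i + m)) = n := by omega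
  rw [e1] at h3
  rw [Nat.zero_add] at h2
  have h4 : G.dist (p 0) (p n) ≤ G.dist (p 0) (p i) + G.dist (p i) (p n) := hc.dist_triangle
  have h5 : G.dist (p i) (p n) ≤ G.dist (p i) (p (i + m)) + G.dist (p (i + m)) (p n) :=
    hc.dist_triangle
  have h6 := h.2
  omega

theorem Geo.dist [G.LocallyFinite] (hc : G.Connected) {p : ℕ → V} {n : ℕ} (h : Geo G p n) {i j : ℕ}
    (hij : i ≤ j) (hj : j ≤ n) : G.dist (p i) (p j) = j - i := by
  obtain ⟨m, rfl⟩ := Nat.exists_eq_add_of_le hij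
  rw [h.dist_aux hc hj]
  omega

theorem Geo.sub [G.LocallyFinite] (hc : G.Connected) {p : ℕ → V} {n : ℕ} (h : Geo G p n) {i m : ℕ}
    (hm : i + m ≤ n) : Geo G (fun k => p (i + k)) m := by
  refine ⟨fun k hk => ?_, ?_⟩
  · exact h.1 (i + k) (by omega)
  · show G.dist (p (i + 0)) (p (i + m)) = m
    rw [Nat.add_zero]
    exact h.dist_aux hc hm

theorem Geo.reverse [G.LocallyFinite] (hc : G.Connected) {p : ℕ → V} {n : ℕ} (h : Geo G p n) :
    Geo G (fun k => p (n - k)) n := by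
  refine ⟨fun k hk => ?_, ?_⟩
  · show G.Adj (p (n - k)) (p (n - (k + 1)))
    have h1 := h.1 (n - (k + 1)) (by omega)
    have e1 : n - (k + 1) + 1 = n - k := by omega
    rw [e1] at h1
    exact h1.symm
  · show G.dist (p (n - 0)) (p (n - n)) = n
    rw [Nat.sub_zero, Nat.sub_self, SimpleGraph.dist_comm]
    exact h.2

theorem exists_geo (hc : G.Connected) (o x : V) :
    ∃ p : ℕ → V, p 0 = o ∧ p (G.dist o x) = x ∧ Geo G p (G.dist o x) := by
  obtain ⟨w, hw⟩ := hc.exists_walk_length_eq_dist o x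
  have h0 : w.getVert 0 = o := w.getVert_zero
  have h1 : w.getVert (G.dist o x) = x := by rw [← hw]; exact w.getVert_length
  refine ⟨w.getVert, h0, h1, fun i hi => w.adj_getVert_succ (by omega), ?_⟩
  rw [h0, h1]

/-! ### Side sets along a geodesic -/

theorem side_subset_step (hG : G.IsTree) {p q r : V} (hpq : G.Adj p q) (hqr : G.Adj q r)
    (hpr : p ≠ r) : side G r q ⊆ side G q p := by
  intro e he
  have he' : G.dist e.1 q = G.dist e.1 r + 1 := he
  rcases hG.dist_eq_dist_add_one_of_adj e.1 hpq with h | h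
  · exact h
  · exact absurd (parent_unique hG hpq.symm hqr h he') hpr

theorem Geo.side_subset [G.LocallyFinite] (hG : G.IsTree) {p : ℕ → V} {n : ℕ} (h : Geo G p n) :
    ∀ i : ℕ, i + 1 ≤ n → side G (p (i + 1)) (p i) ⊆ side G (p 1) (p 0) := by
  intro i
  induction i with
  | zero => intro _; exact subset_rfl
  | succ i ih =>
    intro hi
    refine (side_subset_step hG (h.1 i (by omega)) (h.1 (i + 1) (by omega)) ?_).trans
      (ih (by omega))
    intro heq
    have h1 := h.dist_aux hG.connected (i := i) (m := 2) (by omega)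
    have e1 : i + 2 = i + 1 + 1 := rfl
    rw [e1, ← heq, SimpleGraph.dist_self] at h1
    omega

/-! ### Finite volume identities -/

open Classical in
theorem lk_split (hG : G.IsTree) {p q : V} (hpq : G.Adj p q) (S : Finset (V × ℕ))
    (w : V × ℕ → ℝ) (σ : V → Bool) :
    lk S w σ = lk (S.filter (· ∈ side G p q)) w σ * lk (S.filter (· ∈ side G q p)) w σ := by
  have h1 : S.filter (· ∈ side G q p) = S.filter (fun e => ¬ (e ∈ side G p q)) := by
    ext e
    simp only [Finset.mem_filter, and_congr_right_iff]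
    intro _
    rcases mem_side_or hG hpq e with h | h
    · exact ⟨fun h2 => absurd h2 h.2, fun h2 => absurd h.1 h2⟩
    · exact ⟨fun _ => h.1, fun _ => h.2⟩
  rw [h1]
  exact (Finset.prod_filter_mul_prod_filter_not S _ _).symm

open Classical in
theorem cov_depOn_lk (S : Finset (V × ℕ)) (w : V × ℕ → ℝ) :
    DepOn ((S.image Prod.fst : Finset V) : Set V) (fun σ => lk S w σ) :=
  depOn_prod S Prod.fst (fun e c => 1 + w e * spin c)

/-- The algebra behind one step of the covariance. -/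
theorem cov_alg {θ Z1 A1 Z2 A2 X2 C2 : ℝ} (h2 : Z2 ≠ 0)
    (h : Z1 * Z2 + θ * A1 * A2 ≠ 0) (h3 : 1 - θ ^ 2 * (A2 / Z2) ^ 2 ≠ 0) :
    (A1 * X2 + θ * Z1 * C2) / (Z1 * Z2 + θ * A1 * A2) -
        (A1 * Z2 + θ * Z1 * A2) / (Z1 * Z2 + θ * A1 * A2) *
          ((Z1 * X2 + θ * A1 * C2) / (Z1 * Z2 + θ * A1 * A2)) =
      (1 - ((A1 * Z2 + θ * Z1 * A2) / (Z1 * Z2 + θ * A1 * A2)) ^ 2) *
        (θ / (1 - θ ^ 2 * (A2 / Z2) ^ 2) * (C2 / Z2 - A2 / Z2 * (X2 / Z2))) := by
  have h4 : Z2 ^ 2 - θ ^ 2 * A2 ^ 2 ≠ 0 := by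
    intro h5
    apply h3
    field_simp
    linarith
  have e1 : 1 - θ ^ 2 * (A2 / Z2) ^ 2 = (Z2 ^ 2 - θ ^ 2 * A2 ^ 2) / Z2 ^ 2 := by
    field_simp
  rw [e1]
  obtain ⟨D, hD⟩ : ∃ D, D = Z1 * Z2 + θ * A1 * A2 := ⟨_, rfl⟩
  obtain ⟨E, hE⟩ : ∃ E, E = Z2 ^ 2 - θ ^ 2 * A2 ^ 2 := ⟨_, rfl⟩
  rw [← hD] at h ⊢
  rw [← hE] at h4 ⊢
  have l1 : (A1 * X2 + θ * Z1 * C2) / D - (A1 * Z2 + θ * Z1 * A2) / D *
      ((Z1 * X2 + θ * A1 * C2) / D) =
      θ * (Z1 ^ 2 - A1 ^ 2) * (C2 * Z2 - A2 * X2) / D ^ 2 := by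
    have e2 : (A1 * X2 + θ * Z1 * C2) * D - (A1 * Z2 + θ * Z1 * A2) * (Z1 * X2 + θ * A1 * C2) =
        θ * (Z1 ^ 2 - A1 ^ 2) * (C2 * Z2 - A2 * X2) := by
      rw [hD]; ring
    rw [← e2]
    field_simp
  have l2 : 1 - ((A1 * Z2 + θ * Z1 * A2) / D) ^ 2 = (Z1 ^ 2 - A1 ^ 2) * E / D ^ 2 := by
    have e2 : D ^ 2 - (A1 * Z2 + θ * Z1 * A2) ^ 2 = (Z1 ^ 2 - A1 ^ 2) * E := by
      rw [hD, hE]; ring
    rw [← e2]
    field_simp
  rw [l1, l2]
  field_simp

/-- One finite volume step. -/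
theorem ES_cov_step [G.LocallyFinite] {β : ℝ} (hG : G.IsTree) (hμ : IsFreeIsing G β μ)
    {b : ℝ} (hb0 : 0 ≤ b) (hb : b < 1) {p q x : V} (hpq : G.Adj p q)
    (hx : G.dist x p = G.dist x q + 1) {S S₁ S₂ : Finset (V × ℕ)}
    {w : V × ℕ → ℝ} (hw : ∀ e, |w e| ≤ b)
    (hS₁ : ∀ e ∈ S₁, e ∈ side G p q) (hS₂ : ∀ e ∈ S₂, e ∈ side G q p)
    (hS : ∀ σ, lk S w σ = lk S₁ w σ * lk S₂ w σ) :
    ES μ S w (sp2 p x) - ES μ S w (sp p) * ES μ S w (sp x) =
      (1 - ES μ S w (sp p) ^ 2) *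
        (Real.tanh β / (1 - Real.tanh β ^ 2 * ES μ S₂ w (sp q) ^ 2) *
          (ES μ S₂ w (sp2 q x) - ES μ S₂ w (sp q) * ES μ S₂ w (sp x))) := by
  classical
  have : Nonempty V := ⟨p⟩
  have := hμ.isProbabilityMeasure
  set A : Finset V := insert p (S₁.image Prod.fst) with hA
  set B : Finset V := insert x (insert q (S₂.image Prod.fst)) with hB
  have hAside : ∀ y ∈ A, G.dist y q = G.dist y p + 1 := by
    intro y hy
    rcases Finset.mem_insert.1 hy with rfl | hy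
    · rw [SimpleGraph.dist_self, SimpleGraph.dist_eq_one_iff_adj.2 hpq]
    · obtain ⟨e, he, rfl⟩ := Finset.mem_image.1 hy
      exact hS₁ e he
  have hBside : ∀ y ∈ B, G.dist y p = G.dist y q + 1 := by
    intro y hy
    rcases Finset.mem_insert.1 hy with rfl | hy
    · exact hx
    rcases Finset.mem_insert.1 hy with rfl | hy
    · rw [SimpleGraph.dist_self, SimpleGraph.dist_eq_one_iff_adj.2 hpq.symm]
    · obtain ⟨e, he, rfl⟩ := Finset.mem_image.1 hy
      exact hS₂ e he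
  have dFA : DepOn (A : Set V) (fun σ => lk S₁ w σ) :=
    (cov_depOn_lk S₁ w).mono (by rw [hA, Finset.coe_insert]; exact Set.subset_insert _ _)
  have dFB : DepOn (B : Set V) (fun σ => lk S₂ w σ) :=
    (cov_depOn_lk S₂ w).mono (by
      rw [hB, Finset.coe_insert, Finset.coe_insert]
      exact (Set.subset_insert _ _).trans (Set.subset_insert _ _))
  have dpA : DepOn (A : Set V) (fun σ => spin (σ p) * lk S₁ w σ) :=
    (depOn_spin (by simp [hA])).mul dFA
  have dxB : DepOn (B : Set V) (fun σ => spin (σ x) * lk S₂ w σ) :=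
    (depOn_spin (by simp [hB])).mul dFB
  have dqB : DepOn (B : Set V) (fun σ => spin (σ q) * lk S₂ w σ) :=
    (depOn_spin (by simp [hB])).mul dFB
  have E1 := hμ.integral_mul_edge hG hpq hAside hBside dFA dFB
  have E2 := hμ.integral_mul_edge hG hpq hAside hBside dpA dFB
  have E3 := hμ.integral_mul_edge hG hpq hAside hBside dFA dxB
  have E4 := hμ.integral_mul_edge hG hpq hAside hBside dpA dxB
  have sq1 : ∀ (z : V) (y : ℝ) (σ : V → Bool), spin (σ z) * (spin (σ z) * y) = y :=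
    fun z y σ => by rw [← mul_assoc, spin_mul_self, one_mul]
  simp only [sq1] at E2 E4
  have I1 : ∫ σ, lk S w σ ∂μ = ∫ σ, lk S₁ w σ * lk S₂ w σ ∂μ :=
    integral_congr_ae (Filter.Eventually.of_forall fun σ => hS σ)
  have I2 : ∫ σ, sp p σ * lk S w σ ∂μ = ∫ σ, (spin (σ p) * lk S₁ w σ) * lk S₂ w σ ∂μ :=
    integral_congr_ae (Filter.Eventually.of_forall fun σ => by
      show spin (σ p) * lk S w σ = _
      rw [hS]; ring)
  have I3 : ∫ σ, sp x σ * lk S w σ ∂μ = ∫ σ, lk S₁ w σ * (spin (σ x) * lk S₂ w σ) ∂μ :=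
    integral_congr_ae (Filter.Eventually.of_forall fun σ => by
      show spin (σ x) * lk S w σ = _
      rw [hS]; ring)
  have I4 : ∫ σ, sp2 p x σ * lk S w σ ∂μ
      = ∫ σ, (spin (σ p) * lk S₁ w σ) * (spin (σ x) * lk S₂ w σ) ∂μ :=
    integral_congr_ae (Filter.Eventually.of_forall fun σ => by
      show spin (σ p) * spin (σ x) * lk S w σ = _
      rw [hS]; ring)
  have Z1pos : 0 < ∫ σ, lk S₁ w σ ∂μ := integral_lk_pos hb0 hb μ fun e _ => hw e
  have Z2pos : 0 < ∫ σ, lk S₂ w σ ∂μ := integral_lk_pos hb0 hb μ fun e _ => hw e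
  have Zpos : 0 < ∫ σ, lk S w σ ∂μ := integral_lk_pos hb0 hb μ fun e _ => hw e
  have J1 : ES μ S₂ w (sp q) = (∫ σ, spin (σ q) * lk S₂ w σ ∂μ) / ∫ σ, lk S₂ w σ ∂μ := rfl
  have J2 : ES μ S₂ w (sp x) = (∫ σ, spin (σ x) * lk S₂ w σ ∂μ) / ∫ σ, lk S₂ w σ ∂μ := rfl
  have J3 : ES μ S₂ w (sp2 q x)
      = (∫ σ, spin (σ q) * (spin (σ x) * lk S₂ w σ) ∂μ) / ∫ σ, lk S₂ w σ ∂μ := by
    unfold ES
    congr 1
    exact integral_congr_ae (Filter.Eventually.of_forall fun σ => by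
      show spin (σ q) * spin (σ x) * lk S₂ w σ = _
      ring)
  have K1 : ES μ S w (sp p) = (∫ σ, sp p σ * lk S w σ ∂μ) / ∫ σ, lk S w σ ∂μ := rfl
  have K2 : ES μ S w (sp x) = (∫ σ, sp x σ * lk S w σ ∂μ) / ∫ σ, lk S w σ ∂μ := rfl
  have K3 : ES μ S w (sp2 p x) = (∫ σ, sp2 p x σ * lk S w σ ∂μ) / ∫ σ, lk S w σ ∂μ := rfl
  have hle : |ES μ S₂ w (sp q)| ≤ 1 :=
    ES_abs_le hb0 hb μ (fun e _ => hw e) (measurable_sp q) (abs_sp q)
  have hden : 1 - Real.tanh β ^ 2 * ES μ S₂ w (sp q) ^ 2 ≠ 0 := by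
    have h1 : Real.tanh β ^ 2 < 1 := by
      have := Real.abs_tanh_lt_one β
      rw [← sq_abs]
      have h0 := abs_nonneg (Real.tanh β)
      nlinarith only [this, h0]
    have h2 : ES μ S₂ w (sp q) ^ 2 ≤ 1 := by
      rw [← sq_abs]
      have h0 := abs_nonneg (ES μ S₂ w (sp q))
      nlinarith only [hle, h0]
    have h3 : 0 ≤ Real.tanh β ^ 2 := sq_nonneg _
    nlinarith only [sq_nonneg (ES μ S₂ w (sp q)), h1, h2]
  rw [J1] at hden
  rw [I1, E1] at Zpos
  rw [K1, K2, K3, J1, J2, J3, I1, I2, I3, I4, E1, E2, E3, E4]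
  exact cov_alg Z2pos.ne' Zpos.ne' hden

/-- Finite volume formula along a geodesic. -/
theorem ES_cov_geo [G.LocallyFinite] {β : ℝ} (hG : G.IsTree) (hμ : IsFreeIsing G β μ)
    {b : ℝ} (hb0 : 0 ≤ b) (hb : b < 1) {w : V × ℕ → ℝ} (hw : ∀ e, |w e| ≤ b) (n : ℕ) :
    ∀ (p : ℕ → V) (_ : Geo G p n) (S : Finset (V × ℕ)) (T : ℕ → Finset (V × ℕ))
      (_ : ∀ i e, e ∈ T i ↔ e ∈ S ∧ e ∈ side G (p (i + 1)) (p i)),
    ES μ S w (sp2 (p 0) (p n)) - ES μ S w (sp (p 0)) * ES μ S w (sp (p n)) =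
      (1 - ES μ S w (sp (p 0)) ^ 2) *
        ∏ i ∈ Finset.range n, (Real.tanh β * ph (Real.tanh β) (ES μ (T i) w (sp (p (i + 1))))) := by
  classical
  induction n with
  | zero =>
    intro p _ S T _
    have : Nonempty V := ⟨p 0⟩
    have := hμ.isProbabilityMeasure
    have Zpos : 0 < ∫ σ, lk S w σ ∂μ := integral_lk_pos hb0 hb μ fun e _ => hw e
    have h1 : ES μ S w (sp2 (p 0) (p 0)) = 1 := by
      unfold ES
      have h2 : ∫ σ, sp2 (p 0) (p 0) σ * lk S w σ ∂μ = ∫ σ, lk S w σ ∂μ :=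
        integral_congr_ae (Filter.Eventually.of_forall fun σ => by
          show spin (σ (p 0)) * spin (σ (p 0)) * lk S w σ = _
          rw [spin_mul_self, one_mul])
      rw [h2, div_self Zpos.ne']
    rw [h1, Finset.range_zero, Finset.prod_empty]
    ring
  | succ n ih =>
    intro p hp S T hT
    have hc := hG.connected
    have hp01 : G.Adj (p 0) (p 1) := hp.1 0 (by omega)
    have hp' : Geo G (fun k => p (k + 1)) n := by
      have h1 := hp.sub hc (i := 1) (m := n) (by omega)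
      have h2 : (fun k => p (1 + k)) = fun k => p (k + 1) := by
        funext k; rw [Nat.add_comm]
      rwa [h2] at h1
    have hx : G.dist (p (n + 1)) (p 0) = G.dist (p (n + 1)) (p 1) + 1 := by
      have h1 := hp.dist hc (i := 0) (j := n + 1) (by omega) le_rfl
      have h2 := hp.dist hc (i := 1) (j := n + 1) (by omega) le_rfl
      rw [SimpleGraph.dist_comm, h1, SimpleGraph.dist_comm, h2]
      omega
    have hstep := ES_cov_step hG hμ hb0 hb hp01 hx (S := S)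
      (S₁ := S.filter (· ∈ side G (p 0) (p 1))) (S₂ := T 0) hw
      (fun e he => (Finset.mem_filter.1 he).2) (fun e he => ((hT 0 e).1 he).2) (by
        intro σ
        have h1 : T 0 = S.filter (· ∈ side G (p 1) (p 0)) := by
          ext e; rw [hT 0 e, Finset.mem_filter]
        rw [h1]
        exact lk_split hG hp01 S w σ)
    have hih := ih (fun k => p (k + 1)) hp' (T 0) (fun i => T 0 ∩ T (i + 1)) (by
      intro i e
      rw [Finset.mem_inter, hT (i + 1) e]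
      constructor
      · rintro ⟨h1, h2, h3⟩
        exact ⟨h1, h3⟩
      · rintro ⟨h1, h2⟩
        exact ⟨h1, ((hT 0 e).1 h1).1, h2⟩)
    have hTi : ∀ i ∈ Finset.range n, T 0 ∩ T (i + 1) = T (i + 1) := by
      intro i hi
      rw [Finset.mem_range] at hi
      ext e
      rw [Finset.mem_inter]
      constructor
      · rintro ⟨_, h2⟩
        exact h2
      · intro h2
        refine ⟨?_, h2⟩
        have h3 := (hT (i + 1) e).1 h2
        exact (hT 0 e).2 ⟨h3.1, hp.side_subset hG (i + 1) (by omega) h3.2⟩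
    have hprod : ∏ i ∈ Finset.range n, (Real.tanh β *
          ph (Real.tanh β) (ES μ (T 0 ∩ T (i + 1)) w (sp (p (i + 1 + 1))))) =
        ∏ i ∈ Finset.range n, (Real.tanh β *
          ph (Real.tanh β) (ES μ (T (i + 1)) w (sp (p (i + 1 + 1))))) :=
      Finset.prod_congr rfl fun i hi => by rw [hTi i hi]
    have hih' : ES μ (T 0) w (sp2 (p 1) (p (n + 1))) -
        ES μ (T 0) w (sp (p 1)) * ES μ (T 0) w (sp (p (n + 1))) =
        (1 - ES μ (T 0) w (sp (p 1)) ^ 2) * ∏ i ∈ Finset.range n, (Real.tanh β *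
          ph (Real.tanh β) (ES μ (T (i + 1)) w (sp (p (i + 1 + 1))))) := by
      rw [← hprod]
      exact hih
    rw [hstep, hih', Finset.prod_range_succ']
    unfold ph
    ring

theorem tanh_sq_lt_one (β : ℝ) : Real.tanh β ^ 2 < 1 := by
  have := Real.abs_tanh_lt_one β
  rw [← sq_abs]
  have h0 := abs_nonneg (Real.tanh β)
  nlinarith

theorem cov_ph_den_pos (β : ℝ) {x : ℝ} (hx : |x| ≤ 1) : 0 < 1 - Real.tanh β ^ 2 * x ^ 2 := by
  have h1 := tanh_sq_lt_one β
  have h2 : x ^ 2 ≤ 1 := by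
    rw [← sq_abs]
    have h0 := abs_nonneg x
    nlinarith
  have h3 : 0 ≤ Real.tanh β ^ 2 := sq_nonneg _
  nlinarith [sq_nonneg x]

theorem cov_ph_nonneg (β : ℝ) {x : ℝ} (hx : |x| ≤ 1) : 0 ≤ ph (Real.tanh β) x := by
  have h2 : x ^ 2 ≤ 1 := by
    rw [← sq_abs]
    have h0 := abs_nonneg x
    nlinarith
  exact div_nonneg (by linarith) (cov_ph_den_pos β hx).le

theorem tendsto_ph (β : ℝ) {x : ℝ} (hx : |x| ≤ 1) {u : ℕ → ℝ} (hu : Tendsto u atTop (𝓝 x)) :
    Tendsto (fun n => ph (Real.tanh β) (u n)) atTop (𝓝 (ph (Real.tanh β) x)) := by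
  unfold ph
  exact (tendsto_const_nhds.sub (hu.pow 2)).div
    (tendsto_const_nhds.sub (tendsto_const_nhds.mul (hu.pow 2))) (cov_ph_den_pos β hx).ne'

/-- Symmetry of the covariance. -/
theorem Obs.Cv_symm [G.LocallyFinite] (hc : G.Connected) [IsProbabilityMeasure μ]
    (h : Obs μ P s y Q ζ b) (R : Set (V × ℕ)) (o x : V) :
    ∀ᵐ ω ∂P, Cv G μ R o x (slp ζ (y ω)) = Cv G μ R x o (slp ζ (y ω)) := by
  filter_upwards [h.EI_center hc R o x (measurable_sp2 o x) ⟨1, abs_sp2 o x⟩] with ω hω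
  have h1 : sp2 x o = sp2 o x := by
    funext σ
    show spin (σ x) * spin (σ o) = spin (σ o) * spin (σ x)
    ring
  unfold Cv
  rw [hω, h1]
  ring

theorem Obs.Cv_self [G.LocallyFinite] (hc : G.Connected) [IsProbabilityMeasure μ]
    (h : Obs μ P s y Q ζ b) (R : Set (V × ℕ)) (o : V) :
    ∀ᵐ ω ∂P, Cv G μ R o o (slp ζ (y ω)) = 1 - M G μ R o (slp ζ (y ω)) ^ 2 := by
  refine Filter.Eventually.of_forall fun ω => ?_
  have h1 : EI G μ R o (sp2 o o) (slp ζ (y ω)) = 1 := by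
    unfold EI
    have h2 : ∀ n, ES μ (bev G R o n) (slp ζ (y ω)) (sp2 o o) = 1 := by
      intro n
      have Zpos : 0 < ∫ σ, lk (bev G R o n) (slp ζ (y ω)) σ ∂μ :=
        integral_lk_pos h.b_nonneg h.b_lt μ fun e _ => h.abs_slp_le _ e
      unfold ES
      have h2 : ∫ σ, sp2 o o σ * lk (bev G R o n) (slp ζ (y ω)) σ ∂μ
          = ∫ σ, lk (bev G R o n) (slp ζ (y ω)) σ ∂μ :=
        integral_congr_ae (Filter.Eventually.of_forall fun σ => by
          show spin (σ o) * spin (σ o) * _ = _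
          rw [spin_mul_self, one_mul])
      rw [h2, div_self Zpos.ne']
    simp only [h2]
    exact limsup_const 1
  unfold Cv
  rw [h1]
  ring

/-- The covariance along a geodesic, all `R`:
`Cv(p_0, p_n) = (1 - M(p_0)²) ∏_{i<n} θ ph(M (R ∩ side p_{i+1} p_i) p_{i+1})`. -/
theorem Obs.Cv_geo [G.LocallyFinite] {β : ℝ} (hG : G.IsTree) (hμ : IsFreeIsing G β μ)
    (h : Obs μ P s y Q ζ b) (R : Set (V × ℕ)) {p : ℕ → V} {n : ℕ} (hp : Geo G p n) :
    ∀ᵐ ω ∂P, Cv G μ R (p 0) (p n) (slp ζ (y ω)) =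
      (1 - M G μ R (p 0) (slp ζ (y ω)) ^ 2) *
        ∏ i ∈ Finset.range n, (Real.tanh β *
          ph (Real.tanh β) (M G μ (R ∩ side G (p (i + 1)) (p i)) (p (i + 1)) (slp ζ (y ω)))) := by
  classical
  have hc := hG.connected
  have : Nonempty V := ⟨p 0⟩
  have := hμ.isProbabilityMeasure
  have h1 := h.tendsto_bev hc R (p 0) (p 0) (measurable_sp2 (p 0) (p n)) ⟨1, abs_sp2 _ _⟩
  have h2 := h.tendsto_bev hc R (p 0) (p 0) (measurable_sp (p 0)) ⟨1, abs_sp _⟩
  have h3 := h.tendsto_bev hc R (p 0) (p n) (measurable_sp (p n)) ⟨1, abs_sp _⟩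
  have h4 : ∀ᵐ ω ∂P, ∀ i : ℕ, Tendsto (fun m => ES μ
      (bev G (R ∩ side G (p (i + 1)) (p i)) (p 0) m) (slp ζ (y ω)) (sp (p (i + 1)))) atTop
      (𝓝 (EI G μ (R ∩ side G (p (i + 1)) (p i)) (p (i + 1)) (sp (p (i + 1)))
        (slp ζ (y ω)))) :=
    ae_all_iff.2 fun i => h.tendsto_bev hc (R ∩ side G (p (i + 1)) (p i)) (p 0) (p (i + 1))
      (measurable_sp _) ⟨1, abs_sp _⟩
  filter_upwards [h1, h2, h3, h4] with ω k1 k2 k3 k4
  set w := slp ζ (y ω) with hwdef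
  have hw : ∀ e, |w e| ≤ b := fun e => h.abs_slp_le _ e
  have L : Tendsto (fun m => ES μ (bev G R (p 0) m) w (sp2 (p 0) (p n)) -
      ES μ (bev G R (p 0) m) w (sp (p 0)) * ES μ (bev G R (p 0) m) w (sp (p n))) atTop
      (𝓝 (Cv G μ R (p 0) (p n) w)) := k1.sub (k2.mul k3)
  have Rt : Tendsto (fun m => (1 - ES μ (bev G R (p 0) m) w (sp (p 0)) ^ 2) *
      ∏ i ∈ Finset.range n, (Real.tanh β * ph (Real.tanh β)
        (ES μ (bev G (R ∩ side G (p (i + 1)) (p i)) (p 0) m) w (sp (p (i + 1)))))) atTop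
      (𝓝 ((1 - M G μ R (p 0) w ^ 2) *
        ∏ i ∈ Finset.range n, (Real.tanh β *
          ph (Real.tanh β) (M G μ (R ∩ side G (p (i + 1)) (p i)) (p (i + 1)) w)))) := by
    refine (tendsto_const_nhds.sub (k2.pow 2)).mul (tendsto_finsetProd _ fun i _ => ?_)
    exact tendsto_const_nhds.mul (tendsto_ph β (abs_M_le h.b_nonneg h.b_lt μ hw _ _) (k4 i))
  refine tendsto_nhds_unique (L.congr fun m => ?_) Rt
  exact ES_cov_geo hG hμ h.b_nonneg h.b_lt hw n p hp (bev G R (p 0) m)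
    (fun i => bev G (R ∩ side G (p (i + 1)) (p i)) (p 0) m) (by
      intro i e
      rw [bev_inter hc, Finset.mem_filter])

/-- `R = univ`, squared and symmetrised:
`Cv² = (1 - M_o²)(1 - M_x²) θ^{2n} ∏ ph(msg (p_{i+1}) (p_i)) ph(msg (p_i) (p_{i+1}))`. -/
theorem Obs.Cv_sq_geo [G.LocallyFinite] {β : ℝ} (hG : G.IsTree) (hμ : IsFreeIsing G β μ)
    (h : Obs μ P s y Q ζ b) {p : ℕ → V} {n : ℕ} (hp : Geo G p n) :
    ∀ᵐ ω ∂P, Cv G μ Set.univ (p 0) (p n) (slp ζ (y ω)) ^ 2 =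
      (1 - M G μ Set.univ (p 0) (slp ζ (y ω)) ^ 2) * (1 - M G μ Set.univ (p n) (slp ζ (y ω)) ^ 2) *
        (Real.tanh β ^ 2) ^ n *
        ∏ i ∈ Finset.range n, (ph (Real.tanh β) (msg G μ (p (i + 1)) (p i) (slp ζ (y ω))) *
          ph (Real.tanh β) (msg G μ (p i) (p (i + 1)) (slp ζ (y ω)))) := by
  have hc := hG.connected
  have : Nonempty V := ⟨p 0⟩
  have := hμ.isProbabilityMeasure
  have hr := hp.reverse hc
  filter_upwards [h.Cv_geo hG hμ Set.univ hp, h.Cv_geo hG hμ Set.univ hr,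
    h.Cv_symm hc Set.univ (p 0) (p n)] with ω k1 k2 k3
  set w := slp ζ (y ω) with hwdef
  have e1 : Cv G μ Set.univ (p 0) (p n) w =
      (1 - M G μ Set.univ (p 0) w ^ 2) *
        ∏ i ∈ Finset.range n, (Real.tanh β *
          ph (Real.tanh β) (msg G μ (p (i + 1)) (p i) w)) := by
    rw [k1]
    simp only [Set.univ_inter]
    rfl
  have e2 : Cv G μ Set.univ (p n) (p 0) w =
      (1 - M G μ Set.univ (p n) w ^ 2) *
        ∏ i ∈ Finset.range n, (Real.tanh β *
          ph (Real.tanh β) (msg G μ (p i) (p (i + 1)) w)) := by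
    have k2' : Cv G μ Set.univ (p n) (p 0) w =
        (1 - M G μ Set.univ (p n) w ^ 2) *
        ∏ i ∈ Finset.range n, (Real.tanh β *
          ph (Real.tanh β) (M G μ (side G (p (n - (i + 1))) (p (n - i))) (p (n - (i + 1))) w)) := by
      have h5 : Cv G μ Set.univ (p (n - 0)) (p (n - n)) w =
        (1 - M G μ Set.univ (p (n - 0)) w ^ 2) *
        ∏ i ∈ Finset.range n, (Real.tanh β *
          ph (Real.tanh β) (M G μ (Set.univ ∩ side G (p (n - (i + 1))) (p (n - i)))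
            (p (n - (i + 1))) w)) := k2
      simpa only [Nat.sub_zero, Nat.sub_self, Set.univ_inter] using h5
    rw [k2', ← Finset.prod_range_reflect]
    congr 1
    refine Finset.prod_congr rfl fun i hi => ?_
    rw [Finset.mem_range] at hi
    have a1 : n - (n - 1 - i + 1) = i := by omega
    have a2 : n - (n - 1 - i) = i + 1 := by omega
    rw [a1, a2]
    rfl
  have e3 : Cv G μ Set.univ (p 0) (p n) w ^ 2 =
      Cv G μ Set.univ (p 0) (p n) w * Cv G μ Set.univ (p n) (p 0) w := by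
    rw [← k3]; ring
  rw [e3, e1, e2, Finset.prod_mul_distrib, Finset.prod_mul_distrib, Finset.prod_mul_distrib,
    Finset.prod_const, Finset.card_range]
  ring

/-- Positivity of the covariance. -/
theorem Obs.Cv_nonneg [G.LocallyFinite] {β : ℝ} (hβ : 0 ≤ Real.tanh β) (hG : G.IsTree)
    (hμ : IsFreeIsing G β μ) (h : Obs μ P s y Q ζ b) (R : Set (V × ℕ)) (o x : V) :
    ∀ᵐ ω ∂P, 0 ≤ Cv G μ R o x (slp ζ (y ω)) := by
  have : Nonempty V := ⟨o⟩
  have := hμ.isProbabilityMeasure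
  obtain ⟨p, hp0, hpn, hp⟩ := exists_geo hG.connected o x
  have h1 := h.Cv_geo hG hμ R hp
  rw [hp0, hpn] at h1
  filter_upwards [h1] with ω hω
  rw [hω]
  have hw : ∀ e, |slp ζ (y ω) e| ≤ b := fun e => h.abs_slp_le _ e
  have hM := abs_M_le h.b_nonneg h.b_lt μ hw R o (G := G)
  refine mul_nonneg ?_ (Finset.prod_nonneg fun i _ => mul_nonneg hβ
    (cov_ph_nonneg β (abs_M_le h.b_nonneg h.b_lt μ hw _ _)))
  have h2 : M G μ R o (slp ζ (y ω)) ^ 2 ≤ 1 := by
    rw [← sq_abs]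
    have h0 := abs_nonneg (M G μ R o (slp ζ (y ω)))
    nlinarith only [hM, h0]
  linarith

/-- Infinite volume update: adding the event `e ∉ R`. -/
theorem Obs.M_insert [G.LocallyFinite] (hc : G.Connected) [IsProbabilityMeasure μ]
    (h : Obs μ P s y Q ζ b) (R : Set (V × ℕ)) {e : V × ℕ} (he : e ∉ R) (o : V) :
    ∀ᵐ ω ∂P, M G μ (insert e R) o (slp ζ (y ω)) = M G μ R o (slp ζ (y ω)) +
      Cv G μ R o e.1 (slp ζ (y ω)) * slp ζ (y ω) e /
        (1 + M G μ R e.1 (slp ζ (y ω)) * slp ζ (y ω) e) := by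
  classical
  have hmono : Monotone fun n => insert e (bev G R o n) := fun m n hmn =>
    Finset.insert_subset_insert e (bev_mono hc R o hmn)
  have hexh : ∀ e', e' ∈ insert e R ↔ ∃ n, e' ∈ insert e (bev G R o n) := by
    intro e'
    constructor
    · rintro (rfl | he')
      · exact ⟨0, Finset.mem_insert_self _ _⟩
      · refine ⟨max (G.dist o e'.1) (e'.2 + 1), Finset.mem_insert_of_mem ((mem_bev hc).2
          ⟨he', le_max_left _ _, lt_of_lt_of_le (Nat.lt_succ_self _) (le_max_right _ _)⟩)⟩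
    · rintro ⟨n, hn⟩
      rcases Finset.mem_insert.1 hn with rfl | hn
      · exact Set.mem_insert _ _
      · exact Set.mem_insert_of_mem _ ((mem_bev hc).1 hn).1
  have h0 := h.tendsto_exh hc (insert e R) (fun n => insert e (bev G R o n)) hmono hexh o
    (measurable_sp o) ⟨1, abs_sp _⟩
  have h1 := h.tendsto_bev hc R o o (measurable_sp2 o e.1) ⟨1, abs_sp2 _ _⟩
  have h2 := h.tendsto_bev hc R o o (measurable_sp o) ⟨1, abs_sp _⟩
  have h3 := h.tendsto_bev hc R o e.1 (measurable_sp e.1) ⟨1, abs_sp _⟩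
  filter_upwards [h0, h1, h2, h3] with ω k0 k1 k2 k3
  set w := slp ζ (y ω) with hwdef
  have hw : ∀ e, |w e| ≤ b := fun e => h.abs_slp_le _ e
  have hM := abs_M_le h.b_nonneg h.b_lt μ hw R e.1 (G := G)
  have hden : 1 + M G μ R e.1 w * w e ≠ 0 := by
    have h5 : |M G μ R e.1 w * w e| ≤ b := by
      rw [abs_mul]
      calc |M G μ R e.1 w| * |w e| ≤ 1 * b :=
            mul_le_mul hM (hw e) (abs_nonneg _) zero_le_one
        _ = b := one_mul b
    have h6 := (abs_le.1 h5).1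
    have h7 := h.b_lt
    intro h8
    linarith
  have L : Tendsto (fun n => ES μ (bev G R o n) w (sp o) +
      (ES μ (bev G R o n) w (sp2 o e.1) - ES μ (bev G R o n) w (sp o) *
        ES μ (bev G R o n) w (sp e.1)) * w e /
        (1 + ES μ (bev G R o n) w (sp e.1) * w e)) atTop
      (𝓝 (M G μ R o w + Cv G μ R o e.1 w * w e / (1 + M G μ R e.1 w * w e))) := by
    refine k2.add (((k1.sub (k2.mul k3)).mul_const _).div
      (tendsto_const_nhds.add (k3.mul_const _)) hden)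
  refine tendsto_nhds_unique (k0.congr fun n => ?_) L
  refine ES_insert h.b_nonneg h.b_lt hw (fun hmem => he ((mem_bev hc).1 hmem).1) o

end Vale.Agent.P161.Crit
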