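import Vale.Agent.Lib.P161.Crit.Info
import Vale.Agent.Lib.P161.Crit.Cov

/-!
P161-CRIT, module Decay: exponential decay along a geodesic in a possibly inhomogeneous environment.
-/

open MeasureTheory Filter Topology

namespace Vale.Agent.P161.Crit

variable {V : Type*} {G : SimpleGraph V}
variable {Ω Y : Type*} [MeasurableSpace Ω] [MeasurableSpace Y]
variable {μ : Measure (V → Bool)} {P : Measure Ω} {s : Ω → V → Bool} {y : Ω → V × ℕ → Y}
variable {Q : V × ℕ → Measure Y} {ζ : V × ℕ → Y → ℝ} {b : ℝ}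

theorem ph_den_pos {θ x : ℝ} (h0 : 0 ≤ θ) (h1 : θ < 1) (hx : |x| ≤ 1) :
    0 < 1 - θ ^ 2 * x ^ 2 := by
  have hx2 : x ^ 2 ≤ 1 := (sq_le_one_iff_abs_le_one x).2 hx
  have ht2 : θ ^ 2 < 1 := by nlinarith
  nlinarith [sq_nonneg θ, sq_nonneg x]

theorem ph_le {θ x : ℝ} (h0 : 0 ≤ θ) (h1 : θ < 1) (hx : |x| ≤ 1) :
    ph θ x ≤ 1 - (1 - θ ^ 2) * x ^ 2 := by
  have hd := ph_den_pos h0 h1 hx
  have ht2 : θ ^ 2 < 1 := by nlinarith
  unfold ph
  rw [div_le_iff₀ hd]
  have h3 : 0 ≤ (1 - θ ^ 2) * θ ^ 2 * (x ^ 2) ^ 2 :=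
    mul_nonneg (mul_nonneg (by linarith) (sq_nonneg _)) (sq_nonneg _)
  nlinarith [h3]

theorem ph_nonneg {θ x : ℝ} (h0 : 0 ≤ θ) (h1 : θ < 1) (hx : |x| ≤ 1) : 0 ≤ ph θ x := by
  have hd := ph_den_pos h0 h1 hx
  have hx2 : x ^ 2 ≤ 1 := (sq_le_one_iff_abs_le_one x).2 hx
  unfold ph
  exact div_nonneg (by linarith) hd.le

theorem ph_le_one {θ x : ℝ} (h0 : 0 ≤ θ) (h1 : θ < 1) (hx : |x| ≤ 1) : ph θ x ≤ 1 := by
  have ht2 : θ ^ 2 < 1 := by nlinarith
  refine (ph_le h0 h1 hx).trans ?_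
  have : 0 ≤ (1 - θ ^ 2) * x ^ 2 := mul_nonneg (by linarith) (sq_nonneg _)
  linarith

/-- Side branches exist: every vertex of a geodesic has a neighbour off the geodesic. -/
theorem exists_side_branch [G.LocallyFinite] {d : ℕ} {β : ℝ} (hE : Env G d β μ) (p : ℕ → V) :
    ∃ c : ℕ → V, ∀ i, G.Adj (p i) (c i) ∧ c i ≠ p (i + 1) ∧ (1 ≤ i → c i ≠ p (i - 1)) := by
  classical
  have key : ∀ i, ∃ x, G.Adj (p i) x ∧ x ≠ p (i + 1) ∧ (1 ≤ i → x ≠ p (i - 1)) := by
    intro i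
    have hcard : (G.neighborFinset (p i)).card = d := hE.reg (p i)
    have h2 : ({p (i + 1), p (i - 1)} : Finset V).card < (G.neighborFinset (p i)).card := by
      rw [hcard]
      exact lt_of_le_of_lt Finset.card_le_two (lt_of_lt_of_le (by norm_num) hE.three)
    obtain ⟨x, hx, hx'⟩ := Finset.exists_mem_notMem_of_card_lt_card h2
    rw [SimpleGraph.mem_neighborFinset] at hx
    simp only [Finset.mem_insert, Finset.mem_singleton, not_or] at hx'
    exact ⟨x, hx, hx'.1, fun _ => hx'.2⟩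
  choose c hc using key
  exact ⟨c, hc⟩

/-- The side beyond one neighbour is on the near side of any other neighbour. -/
theorem side_subset_side (hG : G.IsTree) {v a b : V} (ha : G.Adj v a) (hb : G.Adj v b)
    (hab : a ≠ b) : side G a v ⊆ side G v b := by
  intro e he
  simp only [side, Set.mem_ofPred_eq] at he ⊢
  rcases hG.dist_eq_dist_add_one_of_adj e.1 hb with h | h
  · exact absurd (parent_unique hG ha hb (by omega) (by omega)) hab
  · exact h

theorem exists_third [G.LocallyFinite] {d : ℕ} {β : ℝ} (hE : Env G d β μ) (v u c : V) :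
    ∃ a, G.Adj v a ∧ a ≠ u ∧ a ≠ c := by
  classical
  have hcard : (G.neighborFinset v).card = d := hE.reg v
  have h2 : ({u, c} : Finset V).card < (G.neighborFinset v).card := by
    rw [hcard]
    exact lt_of_le_of_lt Finset.card_le_two (lt_of_lt_of_le (by norm_num) hE.three)
  obtain ⟨x, hx, hx'⟩ := Finset.exists_mem_notMem_of_card_lt_card h2
  rw [SimpleGraph.mem_neighborFinset] at hx
  simp only [Finset.mem_insert, Finset.mem_singleton, not_or] at hx'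
  exact ⟨x, hx, hx'.1, hx'.2⟩

omit [MeasurableSpace Y] in
theorem DepE.mono {α : Type*} {R R' : Set (V × ℕ)} {F : (V × ℕ → Y) → α} (h : DepE R F)
    (hR : R ⊆ R') : DepE R' F := fun x x' hx => h x x' fun e he => hx e (hR he)

theorem Obs.measurable_M_slp [IsProbabilityMeasure μ] (h : Obs μ P s y Q ζ b) (R : Set (V × ℕ))
    (v : V) : Measurable fun x : V × ℕ → Y => M G μ R v (slp ζ x) :=
  (measurable_M G μ R v).comp h.measurable_slp

theorem Obs.abs_M_slp [G.LocallyFinite] [IsProbabilityMeasure μ] (h : Obs μ P s y Q ζ b)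
    (R : Set (V × ℕ)) (v : V) (x : V × ℕ → Y) : |M G μ R v (slp ζ x)| ≤ 1 :=
  abs_M_le h.b_nonneg h.b_lt μ (fun e => h.abs_slp_le x e) R v

/-- One step of the decay estimate at a vertex `v` with neighbours `u` (towards the origin),
`a` (`H` depends on the observations beyond `a` only) and `c` (a side branch). -/
theorem Obs.decay_step [G.LocallyFinite] {d : ℕ} {β : ℝ} (hE : Env G d β μ)
    (h : Obs μ P s y Q ζ b) {u v a c : V} (hu : G.Adj v u) (ha : G.Adj v a) (hau : a ≠ u)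
    (hc : G.Adj v c) (hcu : c ≠ u) (hca : c ≠ a) (q0 : ℝ)
    (hq : q0 ≤ ∫ ω, msg G μ c v (slp ζ (y ω)) ^ 2 ∂P) {H : (V × ℕ → Y) → ℝ}
    (hH : Measurable H) (hHC : ∃ C, ∀ x, |H x| ≤ C) (hH0 : ∀ x, 0 ≤ H x)
    (hdep : DepE (side G a v) H) :
    ∫ ω, ph (Real.tanh β) (msg G μ v u (slp ζ (y ω))) * H (y ω) ∂P ≤
      (1 - (1 - Real.tanh β ^ 2) * Real.tanh β ^ 2 * q0) * ∫ ω, H (y ω) ∂P := by
  have := hE.prob
  have := h.prob
  have hG := hE.tree
  have hcon := hG.connected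
  have hμ := hE.ising
  have hflip := isFreeIsing_flip hG hμ
  have hθ0 := hE.theta_pos
  have hθ1 := hE.theta_lt_one
  set θ := Real.tanh β with hθ
  have hsub : side G a v ⊆ side G v u := side_subset_side hG ha hu hau
  have hsub1 : side G c v ⊆ side G v u := side_subset_side hG hc hu hcu
  have hsub2 : side G c v ⊆ side G v a := side_subset_side hG hc ha hca
  have hR2 : side G v u ∩ side G a v = side G a v := Set.inter_eq_right.2 hsub
  set Bf : (V × ℕ → Y) → ℝ := fun x => M G μ (side G v u ∩ side G v a) v (slp ζ x) with hBf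
  set Af : (V × ℕ → Y) → ℝ := fun x => msg G μ a v (slp ζ x) with hAf
  have mBf : Measurable Bf := h.measurable_M_slp _ _
  have mAf : Measurable Af := h.measurable_M_slp _ _
  have bBf : ∀ x, |Bf x| ≤ 1 := h.abs_M_slp _ _
  have bAf : ∀ x, |Af x| ≤ 1 := h.abs_M_slp _ _
  have dBf : DepE (side G v u ∩ side G v a) Bf := M_depE hcon μ _ v ζ
  have dAf : DepE (side G a v) Af := M_depE hcon μ _ a ζ
  have hdec : Dec P θ (fun ω => Bf (y ω)) (fun ω => Af (y ω)) (fun ω => H (y ω)) := by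
    refine ⟨h.prob, hθ0.le, hθ1, mBf.comp h.measY, mAf.comp h.measY, hH.comp h.measY,
      fun ω => bBf _, fun ω => bAf _, ?_, ?_, ?_⟩
    · obtain ⟨C, hC⟩ := hHC
      exact ⟨C, fun ω => hC _⟩
    · intro F hF _
      exact h.M_law_symm hcon hflip (side G v u ∩ side G v a) v hF
    · intro F₁ F₂ hF₁ hF₂ hC₁ hC₂
      obtain ⟨C₁, hC₁⟩ := hC₁
      obtain ⟨C₂, hC₂⟩ := hC₂
      have hd := h.decouple hG hμ (side G v u) ha
        (F₁ := fun x => F₁ (Bf x)) (F₂ := fun x => F₂ (Af x, H x))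
        (hF₁.comp mBf) ⟨C₁, fun x => hC₁ _⟩ (fun x x' hx => by
          show F₁ (Bf x) = F₁ (Bf x')
          rw [dBf x x' hx])
        (hF₂.comp (mAf.prodMk hH)) ⟨C₂, fun x => hC₂ _⟩ (fun x x' hx => by
          rw [hR2] at hx
          show F₂ (Af x, H x) = F₂ (Af x', H x')
          rw [dAf x x' hx, hdep x x' hx])
      rw [hR2] at hd
      exact hd
  have hrec : ∀ᵐ ω ∂P, msg G μ v u (slp ζ (y ω)) = opl (Bf (y ω)) (θ * Af (y ω)) := by
    filter_upwards [h.M_edge hG hμ (side G v u) ha] with ω hω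
    rw [hR2] at hω
    show M G μ (side G v u) v (slp ζ (y ω)) = _
    rw [hω]
    show _ = (Bf (y ω) + θ * Af (y ω)) / (1 + Bf (y ω) * (θ * Af (y ω)))
    have e1 : 1 + Bf (y ω) * (θ * Af (y ω)) = 1 + θ * Bf (y ω) * Af (y ω) := by ring
    rw [e1]
    rfl
  have hB2 : θ ^ 2 * q0 ≤ ∫ ω, Bf (y ω) ^ 2 ∂P := by
    have h1 := h.sq_mono hcon (R := side G c v) (R' := side G v u ∩ side G v a)
      (fun e he => ⟨hsub1 he, hsub2 he⟩) v v (measurable_sp v) ⟨1, abs_sp v⟩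
    have h2 : ∫ ω, EI G μ (side G c v) v (sp v) (slp ζ (y ω)) ^ 2 ∂P =
        θ ^ 2 * ∫ ω, msg G μ c v (slp ζ (y ω)) ^ 2 ∂P := by
      rw [← integral_const_mul]
      refine integral_congr_ae ?_
      filter_upwards [h.M_beyond hG hμ hc (R := side G c v) subset_rfl] with ω hω
      have h3 : EI G μ (side G c v) v (sp v) (slp ζ (y ω)) = θ * msg G μ c v (slp ζ (y ω)) := hω
      rw [h3]
      ring
    rw [h2] at h1
    exact (mul_le_mul_of_nonneg_left hq (sq_nonneg θ)).trans h1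
  have hw := hdec.weighted fun ω => hH0 _
  -- comparison
  have hmsgm : Measurable fun ω => msg G μ v u (slp ζ (y ω)) :=
    (h.measurable_M_slp _ _).comp h.measY
  have hmsgb : ∀ ω, |msg G μ v u (slp ζ (y ω))| ≤ 1 := fun ω => h.abs_M_slp _ _ _
  obtain ⟨C, hC⟩ := hHC
  have hHm : Measurable fun ω => H (y ω) := hH.comp h.measY
  have hHint : Integrable (fun ω => H (y ω)) P :=
    Integrable.of_bound hHm.aestronglyMeasurable C (Eventually.of_forall fun ω => hC _)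
  have hmH : Integrable (fun ω => msg G μ v u (slp ζ (y ω)) ^ 2 * H (y ω)) P := by
    refine hHint.bdd_mul (c := 1) (hmsgm.pow_const 2).aestronglyMeasurable
      (Eventually.of_forall fun ω => ?_)
    rw [Real.norm_eq_abs, abs_pow]
    exact pow_le_one₀ (abs_nonneg _) (hmsgb ω)
  have hphH : Integrable (fun ω => ph θ (msg G μ v u (slp ζ (y ω))) * H (y ω)) P := by
    refine hHint.bdd_mul (c := 1) ((measurable_ph θ).comp hmsgm).aestronglyMeasurable
      (Eventually.of_forall fun ω => ?_)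
    rw [Real.norm_eq_abs, abs_le]
    exact ⟨by linarith [ph_nonneg hθ0.le hθ1 (hmsgb ω)], ph_le_one hθ0.le hθ1 (hmsgb ω)⟩
  have h5 : ∫ ω, ph θ (msg G μ v u (slp ζ (y ω))) * H (y ω) ∂P ≤
      (∫ ω, H (y ω) ∂P) - (1 - θ ^ 2) * ∫ ω, msg G μ v u (slp ζ (y ω)) ^ 2 * H (y ω) ∂P := by
    rw [← integral_const_mul, ← integral_sub hHint (hmH.const_mul _)]
    refine integral_mono hphH (hHint.sub (hmH.const_mul _)) fun ω => ?_
    have h6 := mul_le_mul_of_nonneg_right (ph_le hθ0.le hθ1 (hmsgb ω)) (hH0 (y ω))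
    show ph θ (msg G μ v u (slp ζ (y ω))) * H (y ω) ≤
      H (y ω) - (1 - θ ^ 2) * (msg G μ v u (slp ζ (y ω)) ^ 2 * H (y ω))
    linarith
  have h7 : ∫ ω, msg G μ v u (slp ζ (y ω)) ^ 2 * H (y ω) ∂P =
      ∫ ω, opl (Bf (y ω)) (θ * Af (y ω)) ^ 2 * H (y ω) ∂P := by
    refine integral_congr_ae ?_
    filter_upwards [hrec] with ω hω
    rw [hω]
  have hHI : 0 ≤ ∫ ω, H (y ω) ∂P := integral_nonneg fun ω => hH0 _
  have hθ2 : 0 ≤ 1 - θ ^ 2 := by nlinarith
  have h8 : θ ^ 2 * q0 * ∫ ω, H (y ω) ∂P ≤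
      ∫ ω, msg G μ v u (slp ζ (y ω)) ^ 2 * H (y ω) ∂P := by
    rw [h7]
    exact (mul_le_mul_of_nonneg_right hB2 hHI).trans hw
  have h9 := mul_le_mul_of_nonneg_left h8 hθ2
  calc _ ≤ _ := h5
    _ ≤ (∫ ω, H (y ω) ∂P) - (1 - θ ^ 2) * (θ ^ 2 * q0 * ∫ ω, H (y ω) ∂P) := by linarith
    _ = _ := by ring

/-- Let `p` be a geodesic with `n` edges and `c i` (`1 ≤ i ≤ n`) a neighbour of `p i` off the
geodesic with `E msg(c i → p i)² ≥ q0`. Then
`E ∏_{i<n} ph(msg (p (i+1)) (p i)) ≤ (1 - (1-θ²) θ² q0)^n`.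
Proof: show for all `i ≤ n` and bounded measurable `H ≥ 0` depending only on the observations in
`side (p (i+1)) (p i)` (for `i = n`: `H` constant) that
`E ∏_{j<i} ph(msg (p (j+1)) (p j)) · H ≤ (1-κ q0)^i E H`, `κ = (1-θ²)θ²`, by induction on `i`:
`msg (p i) (p (i-1)) = B ⊕ θ A` with `B = M (side (p i) (p (i-1)) ∩ side (p i) (p (i+1))) (p i)`,
`A = msg (p (i+1)) (p i)` (`Obs.M_edge`), `Dec P θ B A H` by `Obs.decouple`, `ph ≤ 1 - (1-θ²) x²` and
`Dec.weighted` give `E ph(msg (p i)(p (i-1))) H ≤ (1 - (1-θ²) E B²) E H`, and `E B² ≥ θ² q0` by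
`Obs.sq_mono` and `Obs.M_beyond` (`side (c i) (p i) ⊆ side (p i) (p (i-1)) ∩ side (p i) (p (i+1))`);
`ph(msg (p i) (p (i-1))) · H` depends only on `side (p i) (p (i-1))`. -/
theorem Obs.decay_geo [G.LocallyFinite] {d : ℕ} {β : ℝ} (hE : Env G d β μ)
    (h : Obs μ P s y Q ζ b) {p : ℕ → V} {n : ℕ} (hp : Geo G p n) (c : ℕ → V)
    (hc1 : ∀ i, 1 ≤ i → i ≤ n → G.Adj (p i) (c i) ∧ c i ≠ p (i - 1))
    (hc2 : ∀ i, 1 ≤ i → i < n → c i ≠ p (i + 1)) (q0 : ℝ) (hq0 : 0 ≤ q0)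
    (hq : ∀ i, 1 ≤ i → i ≤ n → q0 ≤ ∫ ω, msg G μ (c i) (p i) (slp ζ (y ω)) ^ 2 ∂P) :
    ∫ ω, ∏ i ∈ Finset.range n, ph (Real.tanh β) (msg G μ (p (i + 1)) (p i) (slp ζ (y ω))) ∂P ≤
      (1 - (1 - Real.tanh β ^ 2) * Real.tanh β ^ 2 * q0) ^ n := by
  have := hE.prob
  have := h.prob
  have hG := hE.tree
  have hcon := hG.connected
  have hθ0 := hE.theta_pos
  have hθ1 := hE.theta_lt_one
  set θ := Real.tanh β with hθ
  set r : ℝ := 1 - (1 - θ ^ 2) * θ ^ 2 * q0 with hr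
  rcases Nat.eq_zero_or_pos n with rfl | hn
  · simp
  -- nonnegativity of the rate
  have hq1 : q0 ≤ 1 := by
    refine (hq 1 le_rfl hn).trans ?_
    have h1 : ∫ ω, msg G μ (c 1) (p 1) (slp ζ (y ω)) ^ 2 ∂P ≤ ∫ _ω, (1 : ℝ) ∂P := by
      refine integral_mono_of_nonneg (Eventually.of_forall fun ω => sq_nonneg _)
        (integrable_const _) (Eventually.of_forall fun ω => ?_)
      exact (sq_le_one_iff_abs_le_one _).2 (h.abs_M_slp _ _ _)
    simpa using h1
  have hr0 : 0 ≤ r := by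
    have h1 : (1 - θ ^ 2) * θ ^ 2 ≤ 1 := by nlinarith [sq_nonneg θ, sq_nonneg (1 - θ ^ 2)]
    have h2 : 0 ≤ (1 - θ ^ 2) * θ ^ 2 := mul_nonneg (by nlinarith) (sq_nonneg θ)
    have h3 : (1 - θ ^ 2) * θ ^ 2 * q0 ≤ 1 := mul_le_one₀ h1 hq0 hq1
    rw [hr]
    linarith
  -- two vertices at distance two on the geodesic are different
  have hne : ∀ k, k + 2 ≤ n → p (k + 2) ≠ p k := by
    intro k hk heq
    have h1 := hp.dist hcon (i := k) (j := k + 2) (by omega) hk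
    rw [heq, SimpleGraph.dist_self] at h1
    omega
  let Rs : ℕ → Set (V × ℕ) := fun i => if i < n then side G (p (i + 1)) (p i) else ∅
  have key : ∀ i, i ≤ n → ∀ H : (V × ℕ → Y) → ℝ, Measurable H → (∃ C, ∀ x, |H x| ≤ C) →
      (∀ x, 0 ≤ H x) → DepE (Rs i) H →
      ∫ ω, (∏ j ∈ Finset.range i, ph θ (msg G μ (p (j + 1)) (p j) (slp ζ (y ω)))) * H (y ω) ∂P ≤
        r ^ i * ∫ ω, H (y ω) ∂P := by
    intro i
    induction i with
    | zero =>
      intro _ H _ _ _ _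
      simp
    | succ i ih =>
      intro hi H hH hHC hH0 hdep
      have hin : i < n := by omega
      have hadj : G.Adj (p (i + 1)) (p i) := (hp.1 i hin).symm
      have hci := hc1 (i + 1) (by omega) hi
      have hci2 : c (i + 1) ≠ p i := hci.2
      -- the third neighbour
      obtain ⟨a, ha, hau, hca, hRa⟩ : ∃ a, G.Adj (p (i + 1)) a ∧ a ≠ p i ∧ c (i + 1) ≠ a ∧
          Rs (i + 1) ⊆ side G a (p (i + 1)) := by
        by_cases hlt : i + 1 < n
        · refine ⟨p (i + 2), hp.1 (i + 1) hlt, hne i (by omega), hc2 (i + 1) (by omega) hlt, ?_⟩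
          simp only [Rs, if_pos hlt]
          exact subset_rfl
        · obtain ⟨a, ha, ha1, ha2⟩ := exists_third hE (p (i + 1)) (p i) (c (i + 1))
          refine ⟨a, ha, ha1, fun h' => ha2 h'.symm, ?_⟩
          simp only [Rs, if_neg hlt]
          exact Set.empty_subset _
      have hstep := h.decay_step hE hadj ha hau hci.1 hci2 hca q0
        (hq (i + 1) (by omega) hi) hH hHC hH0 (hdep.mono hRa)
      -- the new weight
      have hRi : Rs i = side G (p (i + 1)) (p i) := if_pos hin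
      have hsub : Rs (i + 1) ⊆ Rs i := by
        rw [hRi]
        exact hRa.trans (side_subset_side hG ha hadj hau)
      have hm : Measurable fun x : V × ℕ → Y => msg G μ (p (i + 1)) (p i) (slp ζ x) :=
        h.measurable_M_slp _ _
      have hb : ∀ x : V × ℕ → Y, |msg G μ (p (i + 1)) (p i) (slp ζ x)| ≤ 1 :=
        h.abs_M_slp _ _
      have h1 := ih hin.le (fun x => ph θ (msg G μ (p (i + 1)) (p i) (slp ζ x)) * H x)
        (((measurable_ph θ).comp hm).mul hH)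
        (by
          obtain ⟨C, hC⟩ := hHC
          refine ⟨C, fun x => ?_⟩
          rw [abs_mul, abs_of_nonneg (ph_nonneg hθ0.le hθ1 (hb x))]
          exact (mul_le_of_le_one_left (abs_nonneg _) (ph_le_one hθ0.le hθ1 (hb x))).trans (hC x))
        (fun x => mul_nonneg (ph_nonneg hθ0.le hθ1 (hb x)) (hH0 x))
        (by
          intro x x' hx
          have e1 : msg G μ (p (i + 1)) (p i) (slp ζ x) =
              msg G μ (p (i + 1)) (p i) (slp ζ x') := by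
            refine M_depE hcon μ (side G (p (i + 1)) (p i)) (p (i + 1)) ζ x x' ?_
            rw [← hRi]
            exact hx
          have e2 : H x = H x' := hdep x x' fun e he => hx e (hsub he)
          simp only [e1, e2])
      calc ∫ ω, (∏ j ∈ Finset.range (i + 1),
            ph θ (msg G μ (p (j + 1)) (p j) (slp ζ (y ω)))) * H (y ω) ∂P
          = ∫ ω, (∏ j ∈ Finset.range i, ph θ (msg G μ (p (j + 1)) (p j) (slp ζ (y ω)))) *
            (ph θ (msg G μ (p (i + 1)) (p i) (slp ζ (y ω))) * H (y ω)) ∂P := by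
            refine integral_congr_ae (Eventually.of_forall fun ω => ?_)
            show _ = _
            simp only [Finset.prod_range_succ]
            ring
        _ ≤ r ^ i * ∫ ω, ph θ (msg G μ (p (i + 1)) (p i) (slp ζ (y ω))) * H (y ω) ∂P := h1
        _ ≤ r ^ i * (r * ∫ ω, H (y ω) ∂P) :=
            mul_le_mul_of_nonneg_left hstep (pow_nonneg hr0 i)
        _ = r ^ (i + 1) * ∫ ω, H (y ω) ∂P := by ring
  have h1 := key n le_rfl (fun _ => 1) measurable_const ⟨1, fun _ => by simp⟩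
    (fun _ => zero_le_one) (fun _ _ _ => rfl)
  simpa using h1

/-- Consequence for the covariance: `E Cv² ≤ θ^{2n} (1-κ q0)^n`. -/
theorem Obs.cov_decay [G.LocallyFinite] {d : ℕ} {β : ℝ} (hE : Env G d β μ)
    (h : Obs μ P s y Q ζ b) {p : ℕ → V} {n : ℕ} (hp : Geo G p n) (c : ℕ → V)
    (hc1 : ∀ i, 1 ≤ i → i ≤ n → G.Adj (p i) (c i) ∧ c i ≠ p (i - 1))
    (hc2 : ∀ i, 1 ≤ i → i < n → c i ≠ p (i + 1)) (q0 : ℝ) (hq0 : 0 ≤ q0)
    (hq : ∀ i, 1 ≤ i → i ≤ n → q0 ≤ ∫ ω, msg G μ (c i) (p i) (slp ζ (y ω)) ^ 2 ∂P) :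
    ∫ ω, Cv G μ Set.univ (p 0) (p n) (slp ζ (y ω)) ^ 2 ∂P ≤
      (Real.tanh β ^ 2) ^ n *
        (1 - (1 - Real.tanh β ^ 2) * Real.tanh β ^ 2 * q0) ^ n := by
  have := hE.prob
  have := h.prob
  have hG := hE.tree
  have hθ0 := hE.theta_pos
  have hθ1 := hE.theta_lt_one
  have hdec := h.decay_geo hE hp c hc1 hc2 q0 hq0 hq
  set θ := Real.tanh β with hθ
  have hb : ∀ (R : Set (V × ℕ)) (v : V) ω, |M G μ R v (slp ζ (y ω))| ≤ 1 :=
    fun R v ω => h.abs_M_slp _ _ _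
  have hprodm : Measurable fun ω => ∏ i ∈ Finset.range n,
      ph θ (msg G μ (p (i + 1)) (p i) (slp ζ (y ω))) := by
    refine Finset.measurable_prod _ fun i _ => ?_
    exact (measurable_ph θ).comp ((h.measurable_M_slp _ _).comp h.measY)
  have hprod0 : ∀ ω, 0 ≤ ∏ i ∈ Finset.range n,
      ph θ (msg G μ (p (i + 1)) (p i) (slp ζ (y ω))) := fun ω =>
    Finset.prod_nonneg fun i _ => ph_nonneg hθ0.le hθ1 (hb _ _ ω)
  have hprod1 : ∀ ω, ∏ i ∈ Finset.range n,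
      ph θ (msg G μ (p (i + 1)) (p i) (slp ζ (y ω))) ≤ 1 := fun ω =>
    Finset.prod_le_one (fun i _ => ph_nonneg hθ0.le hθ1 (hb _ _ ω))
      (fun i _ => ph_le_one hθ0.le hθ1 (hb _ _ ω))
  have hprodi : Integrable (fun ω => ∏ i ∈ Finset.range n,
      ph θ (msg G μ (p (i + 1)) (p i) (slp ζ (y ω)))) P :=
    Integrable.of_bound hprodm.aestronglyMeasurable 1 (Eventually.of_forall fun ω => by
      rw [Real.norm_eq_abs, abs_of_nonneg (hprod0 ω)]
      exact hprod1 ω)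
  have h1 : ∫ ω, Cv G μ Set.univ (p 0) (p n) (slp ζ (y ω)) ^ 2 ∂P ≤
      ∫ ω, (θ ^ 2) ^ n * ∏ i ∈ Finset.range n,
        ph θ (msg G μ (p (i + 1)) (p i) (slp ζ (y ω))) ∂P := by
    refine integral_mono_of_nonneg (Eventually.of_forall fun ω => sq_nonneg _)
      (hprodi.const_mul _) ?_
    filter_upwards [h.Cv_sq_geo hG hE.ising hp] with ω hω
    rw [hω]
    have hx : ∀ x : ℝ, |x| ≤ 1 → 0 ≤ 1 - x ^ 2 ∧ 1 - x ^ 2 ≤ 1 := fun x hx =>
      ⟨by linarith [(sq_le_one_iff_abs_le_one x).2 hx], by linarith [sq_nonneg x]⟩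
    have a1 := hx _ (hb Set.univ (p 0) ω)
    have a2 := hx _ (hb Set.univ (p n) ω)
    have a3 : (1 - M G μ Set.univ (p 0) (slp ζ (y ω)) ^ 2) *
        (1 - M G μ Set.univ (p n) (slp ζ (y ω)) ^ 2) ≤ 1 := mul_le_one₀ a1.2 a2.1 a2.2
    have a4 : ∏ i ∈ Finset.range n, (ph θ (msg G μ (p (i + 1)) (p i) (slp ζ (y ω))) *
          ph θ (msg G μ (p i) (p (i + 1)) (slp ζ (y ω)))) ≤
        ∏ i ∈ Finset.range n, ph θ (msg G μ (p (i + 1)) (p i) (slp ζ (y ω))) := by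
      refine Finset.prod_le_prod (fun i _ => mul_nonneg (ph_nonneg hθ0.le hθ1 (hb _ _ ω))
        (ph_nonneg hθ0.le hθ1 (hb _ _ ω))) fun i _ => ?_
      exact mul_le_of_le_one_right (ph_nonneg hθ0.le hθ1 (hb _ _ ω))
        (ph_le_one hθ0.le hθ1 (hb _ _ ω))
    have a5 : 0 ≤ ∏ i ∈ Finset.range n, (ph θ (msg G μ (p (i + 1)) (p i) (slp ζ (y ω))) *
          ph θ (msg G μ (p i) (p (i + 1)) (slp ζ (y ω)))) :=
      Finset.prod_nonneg fun i _ => mul_nonneg (ph_nonneg hθ0.le hθ1 (hb _ _ ω))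
        (ph_nonneg hθ0.le hθ1 (hb _ _ ω))
    have a6 : 0 ≤ (θ ^ 2) ^ n := pow_nonneg (sq_nonneg θ) n
    calc _ ≤ 1 * (θ ^ 2) ^ n *
          ∏ i ∈ Finset.range n, (ph θ (msg G μ (p (i + 1)) (p i) (slp ζ (y ω))) *
            ph θ (msg G μ (p i) (p (i + 1)) (slp ζ (y ω)))) :=
          mul_le_mul_of_nonneg_right (mul_le_mul_of_nonneg_right a3 a6) a5
      _ ≤ 1 * (θ ^ 2) ^ n * ∏ i ∈ Finset.range n,
            ph θ (msg G μ (p (i + 1)) (p i) (slp ζ (y ω))) :=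
          mul_le_mul_of_nonneg_left a4 (by rw [one_mul]; exact a6)
      _ = _ := by rw [one_mul]
  refine h1.trans ?_
  rw [integral_const_mul]
  exact mul_le_mul_of_nonneg_left hdec (pow_nonneg (sq_nonneg θ) n)

end Vale.Agent.P161.Crit
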