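import Vale.Agent.Lib.P161.Defs
import Vale.Agent.Lib.P161.Prod
import Vale.Agent.Lib.P161.Chan

/-!
P161, critical point. Definitions shared by all modules of `Vale/Agent/Lib/P161/Crit/`.

`V × ℕ` is the set of events `e = (v, j)`: vertex `v` receives a signal in round `j`.
A slope array is a function `w : V × ℕ → ℝ` with `|w e| < 1`; the likelihood of the slopes in `S`
given the spins `σ` is `∏_{e ∈ S} (1 + w e σ_{e.1})`.
-/

open MeasureTheory Filter ProbabilityTheory

namespace Vale.Agent.P161.Crit

variable {V : Type*}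

/-- `F` depends only on the coordinates in `R`. -/
def DepE {Y α : Type*} (R : Set (V × ℕ)) (F : (V × ℕ → Y) → α) : Prop :=
  ∀ y y' : V × ℕ → Y, (∀ e ∈ R, y e = y' e) → F y = F y'

/-- Standing assumptions: `G` is the `d`-regular tree, `d ≥ 3`, `μ` the free Ising measure at
the critical point `tanh β · √(d-1) = 1`. -/
structure Env (G : SimpleGraph V) [G.LocallyFinite] (d : ℕ) (β : ℝ) (μ : Measure (V → Bool)) :
    Prop where
  tree : G.IsTree
  three : 3 ≤ d
  reg : G.IsRegularOfDegree d
  ising : IsFreeIsing G β μ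
  crit : Real.tanh β * Real.sqrt ((d : ℝ) - 1) = 1

/-! ### Finite volume posteriors -/

/-- Likelihood of the slopes in `S`. -/
noncomputable def lk (S : Finset (V × ℕ)) (w : V × ℕ → ℝ) (σ : V → Bool) : ℝ :=
  ∏ e ∈ S, (1 + w e * spin (σ e.1))

/-- Posterior expectation of `f` given the slopes in the finite set `S`. -/
noncomputable def ES (μ : Measure (V → Bool)) (S : Finset (V × ℕ)) (w : V × ℕ → ℝ)
    (f : (V → Bool) → ℝ) : ℝ :=
  (∫ σ, f σ * lk S w σ ∂μ) / ∫ σ, lk S w σ ∂μ

/-- One and two point functions. -/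
def sp (v : V) : (V → Bool) → ℝ := fun σ => spin (σ v)
def sp2 (v x : V) : (V → Bool) → ℝ := fun σ => spin (σ v) * spin (σ x)

/-! ### Infinite volume posteriors -/

open Classical in
/-- The events of `R` in the ball of radius `n` around `o` and in the first `n` rounds. -/
noncomputable def bev (G : SimpleGraph V) (R : Set (V × ℕ)) (o : V) (n : ℕ) :
    Finset (V × ℕ) :=
  if h : {e : V × ℕ | e ∈ R ∧ G.dist o e.1 ≤ n ∧ e.2 < n}.Finite then h.toFinset else ∅

/-- Posterior expectation of `f` given all slopes in `R`, as a limit along balls around `o`. -/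
noncomputable def EI (G : SimpleGraph V) (μ : Measure (V → Bool)) (R : Set (V × ℕ)) (o : V)
    (f : (V → Bool) → ℝ) (w : V × ℕ → ℝ) : ℝ :=
  limsup (fun n => ES μ (bev G R o n) w f) atTop

/-- Posterior mean of the spin at `v` given all slopes in `R`. -/
noncomputable def M (G : SimpleGraph V) (μ : Measure (V → Bool)) (R : Set (V × ℕ)) (v : V)
    (w : V × ℕ → ℝ) : ℝ := EI G μ R v (sp v) w

/-- Posterior covariance of the spins at `o` and `x` given all slopes. -/
noncomputable def Cv (G : SimpleGraph V) (μ : Measure (V → Bool)) (R : Set (V × ℕ)) (o x : V)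
    (w : V × ℕ → ℝ) : ℝ := EI G μ R o (sp2 o x) w - M G μ R o w * M G μ R x w

/-- The events on the `p`-side of the edge `p q`. -/
def side (G : SimpleGraph V) (p q : V) : Set (V × ℕ) := {e | G.dist e.1 q = G.dist e.1 p + 1}

/-- The message from `p` to `q`: posterior mean at `p` given the slopes on the `p`-side. -/
noncomputable def msg (G : SimpleGraph V) (μ : Measure (V → Bool)) (p q : V)
    (w : V × ℕ → ℝ) : ℝ := M G μ (side G p q) p w

/-- `(1 - x²) / (1 - θ² x²)`. -/
noncomputable def ph (θ x : ℝ) : ℝ := (1 - x ^ 2) / (1 - θ ^ 2 * x ^ 2)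

/-- `γ` of the edge `p q`: half the sum of the logarithms of `ph` at the two messages. -/
noncomputable def gam (G : SimpleGraph V) (μ : Measure (V → Bool)) (θ : ℝ) (p q : V)
    (w : V × ℕ → ℝ) : ℝ :=
  (Real.log (ph θ (msg G μ p q w)) + Real.log (ph θ (msg G μ q p w))) / 2

/-! ### Actions -/

/-- Action of a permutation of the vertices on arrays indexed by `V × ℕ`. -/
def actE {α : Type*} (g : V ≃ V) (y : V × ℕ → α) : V × ℕ → α := fun e => y (g.symm e.1, e.2)

/-- Action on spin configurations. -/
def actC {α : Type*} (g : V ≃ V) (s : V → α) : V → α := fun v => s (g.symm v)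

/-- Action on sets of events. -/
def actR (g : V ≃ V) (R : Set (V × ℕ)) : Set (V × ℕ) := {e | (g.symm e.1, e.2) ∈ R}

/-! ### Observations

`Obs μ P s y Q ζ b`: on the probability space `(Ω, P)` there are spins `s` with law `μ` and, given
the spins, independent observations `y e`, `e ∈ V × ℕ`, where `y e` has the density
`1 + ζ e · s_{e.1}` with respect to `Q e`; the slope functions `ζ e` are bounded by `b` and have a
symmetric law under `Q e`. The slope array is `fun e => ζ e (y ω e)`. -/
structure Obs {Ω Y : Type*} [MeasurableSpace Ω] [MeasurableSpace Y] (μ : Measure (V → Bool))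
    (P : Measure Ω) (s : Ω → V → Bool) (y : Ω → V × ℕ → Y) (Q : V × ℕ → Measure Y)
    (ζ : V × ℕ → Y → ℝ) (b : ℝ) : Prop where
  prob : IsProbabilityMeasure P
  measS : Measurable s
  measY : Measurable y
  probQ : ∀ e, IsProbabilityMeasure (Q e)
  measZ : ∀ e, Measurable (ζ e)
  b_nonneg : 0 ≤ b
  b_lt : b < 1
  bd : ∀ e x, |ζ e x| ≤ b
  sym : ∀ e, (Q e).map (fun x => - ζ e x) = (Q e).map (ζ e)
  fd : ∀ (S : Finset (V × ℕ)) (f : (V → Bool) → ℝ) (g : V × ℕ → Y → ℝ), Measurable f →
    (∃ C, ∀ σ, |f σ| ≤ C) → (∀ e, Measurable (g e)) → (∃ C, ∀ e x, |g e x| ≤ C) →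
    ∫ ω, f (s ω) * ∏ e ∈ S, g e (y ω e) ∂P =
      ∫ σ, f σ * ∏ e ∈ S, (∫ x, g e x * (1 + ζ e x * spin (σ e.1)) ∂(Q e)) ∂μ

/-- The slope array of the observations. -/
def slp {Y : Type*} (ζ : V × ℕ → Y → ℝ) (y : V × ℕ → Y) : V × ℕ → ℝ := fun e => ζ e (y e)

/-! ### The exact process

Labels `u : V × ℕ → [0,1]`, signals `t : V × ℕ → [0,1]`. The event `e` takes place at time
`tau u e = e.2 + u e`. Events with label `≥ 1/2` carry no information; the strength of an event of
round `0` with label `y < 1/2` is `a * y`, in later rounds the strength is `a`. -/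

noncomputable def tau (u : V × ℕ → unitInterval) (e : V × ℕ) : ℝ := (e.2 : ℝ) + (u e : ℝ)

noncomputable def str (a : ℝ) (j : ℕ) (y : ℝ) : ℝ :=
  if y < 1 / 2 then (if j = 0 then a * y else a) else 0

/-- Slopes of all events. -/
noncomputable def wf (a : ℝ) (u t : V × ℕ → unitInterval) : V × ℕ → ℝ :=
  fun e => str a e.2 (u e) * (2 * (t e : ℝ) - 1)

/-- Slopes of the events before time `x`. -/
noncomputable def ws (a : ℝ) (u t : V × ℕ → unitInterval) (x : ℝ) : V × ℕ → ℝ :=
  fun e => if tau u e < x then wf a u t e else 0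

/-- The signals, as a function of the spins, the labels and the noise. -/
noncomputable def tt (a : ℝ) (σ : V → Bool) (u ξ : V × ℕ → unitInterval) :
    V × ℕ → unitInterval := fun e =>
  if σ e.1 then qK (str a e.2 (u e)) (ξ e) else unitInterval.symm (qK (str a e.2 (u e)) (ξ e))

/-- Law of the signals for fixed labels. -/
noncomputable def Pu (μ : Measure (V → Bool)) (a : ℝ) (u : V × ℕ → unitInterval) :
    Measure (V × ℕ → unitInterval) :=
  (μ.prod (PP (V × ℕ))).map fun p => tt a p.1 u p.2

/-- The probability space of spins, labels and noise. -/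
noncomputable def PO (μ : Measure (V → Bool)) :
    Measure ((V → Bool) × (V × ℕ → unitInterval) × (V × ℕ → unitInterval)) :=
  μ.prod ((PP (V × ℕ)).prod (PP (V × ℕ)))

/-- Joint law of labels and signals. -/
noncomputable def PT (μ : Measure (V → Bool)) (a : ℝ) :
    Measure ((V × ℕ → unitInterval) × (V × ℕ → unitInterval)) :=
  (PO μ).map fun p => (p.2.1, tt a p.1 p.2.1 p.2.2)

/-- Posterior mean at the vertex of the event `e`, given everything before `e`. -/
noncomputable def Me (G : SimpleGraph V) (μ : Measure (V → Bool)) (a : ℝ)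
    (u t : V × ℕ → unitInterval) (e : V × ℕ) : ℝ := M G μ Set.univ e.1 (ws a u t (tau u e))

/-- The innovations. -/
noncomputable def Xi (G : SimpleGraph V) (μ : Measure (V → Bool)) (a : ℝ)
    (u t : V × ℕ → unitInterval) : V × ℕ → unitInterval :=
  fun e => cdfK (str a e.2 (u e) * Me G μ a u t e) (t e)

/-- The jump of the posterior mean at `o` caused by the event `e`. -/
noncomputable def Jp (G : SimpleGraph V) (μ : Measure (V → Bool)) (a : ℝ) (o : V)
    (u t : V × ℕ → unitInterval) (e : V × ℕ) : ℝ :=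
  Cv G μ Set.univ o e.1 (ws a u t (tau u e)) * wf a u t e / (1 + Me G μ a u t e * wf a u t e)

/-! ### Doubling -/

/-- Two copies which are conditionally independent given `Ξ`. -/
noncomputable def Doub {T Y : Type*} [MeasurableSpace T] [StandardBorelSpace T] [Nonempty T]
    [MeasurableSpace Y] (P : Measure T) [IsFiniteMeasure P] (Ξ : T → Y) : Measure (T × T) :=
  Measure.bind (P.map Ξ) (fun y => (condDistrib id Ξ P y).prod (condDistrib id Ξ P y))

end Vale.Agent.P161.Crit
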