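import Vale.Agent.Lib.P161.Crit.Past

/-!
P161-CRIT, module Palm: the pair environment at the time of an event compared with the pair
environment at a fixed time.
-/

open MeasureTheory Filter Topology ProbabilityTheory

namespace Vale.Agent.P161.Crit

variable {V : Type*} {G : SimpleGraph V} {μ : Measure (V → Bool)}

theorem palm_prob_PD [Countable V] [IsProbabilityMeasure μ] (G : SimpleGraph V) (a : ℝ) :
    IsProbabilityMeasure (PD G μ a) := by
  obtain ⟨K, hK, hmap, -⟩ := exists_kernel_DU (μ := μ) G a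
  have hf : Measurable fun z : (Arr V × Arr V) × (Arr V × Arr V) => (z.1.1, (z.1.2, z.2.2)) := by
    fun_prop
  have h1 : ((PD G μ a).map fun z => (z.1.1, (z.1.2, z.2.2))) Set.univ = 1 := by
    rw [hmap]
    exact measure_univ
  rw [Measure.map_apply hf MeasurableSet.univ, Set.preimage_univ] at h1
  exact ⟨h1⟩

theorem palm_measurable_ws2 [Countable V] (a : ℝ) : Measurable
    fun p : ℝ × ((Arr V × Arr V) × (Arr V × Arr V)) =>
      (ws a p.2.1.1 p.2.1.2 p.1, ws a p.2.2.1 p.2.2.2 p.1) := by
  have h := measurable_ws (V := V) a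
  have h1 : Measurable fun p : ℝ × ((Arr V × Arr V) × (Arr V × Arr V)) =>
      ((p.1, (p.2.1.1, p.2.1.2)) : ℝ × (V × ℕ → unitInterval) × (V × ℕ → unitInterval)) := by
    fun_prop
  have h2 : Measurable fun p : ℝ × ((Arr V × Arr V) × (Arr V × Arr V)) =>
      ((p.1, (p.2.2.1, p.2.2.2)) : ℝ × (V × ℕ → unitInterval) × (V × ℕ → unitInterval)) := by
    fun_prop
  exact (h.comp h1).prodMk (h.comp h2)

theorem palm_lintegral_nuX [Countable V] [IsProbabilityMeasure μ] (G : SimpleGraph V) (a x : ℝ)
    {Φ : (V × ℕ → ℝ) × (V × ℕ → ℝ) → ENNReal} (hΦ : Measurable Φ) :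
    ∫⁻ p, Φ p ∂(nuX G μ a x) =
      ∫⁻ z, Φ (ws a z.1.1 z.1.2 x, ws a z.2.1 z.2.2 x) ∂(PD G μ a) := by
  unfold nuX
  rw [lintegral_map hΦ]
  exact (palm_measurable_ws2 a).comp (measurable_const.prodMk measurable_id)

/-- Measurability in the time. -/
theorem measurable_nuX [G.LocallyFinite] [Countable V] [IsProbabilityMeasure μ] {d : ℕ} {β : ℝ}
    (hE : Env G d β μ) (a : ℝ) {Φ : (V × ℕ → ℝ) × (V × ℕ → ℝ) → ENNReal} (hΦ : Measurable Φ) :
    Measurable fun v : ℝ => ∫⁻ x, Φ x ∂(nuX G μ a v) := by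
  have := palm_prob_PD (μ := μ) G a
  simp only [palm_lintegral_nuX G a _ hΦ]
  exact (hΦ.comp (palm_measurable_ws2 a)).lintegral_prod_right'

open Classical in
/-- Resampling trick: `g` does not depend on the label of `e`. -/
theorem palm_half [Countable V] (e : V × ℕ) {g : Arr V → ENNReal} (hg : Measurable g)
    (hinv : ∀ u y, g (Function.update u e y) = g u) :
    ∫⁻ u, g u ∂(PP (V × ℕ)) =
      2 * ∫⁻ u, (if (1 / 2 : ℝ) ≤ (u e : ℝ) then g u else 0) ∂(PP (V × ℕ)) := by
  have hms : MeasurableSet {y : unitInterval | (1 / 2 : ℝ) ≤ (y : ℝ)} :=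
    measurableSet_le measurable_const measurable_subtype_coe
  have hmu : MeasurableSet {u : Arr V | (1 / 2 : ℝ) ≤ (u e : ℝ)} :=
    measurableSet_le measurable_const (measurable_subtype_coe.comp (measurable_pi_apply e))
  have hf : Measurable fun u : Arr V => if (1 / 2 : ℝ) ≤ (u e : ℝ) then g u else 0 :=
    Measurable.ite hmu hg measurable_const
  rw [← lintegral_update e hf]
  simp only [Function.update_self, hinv]
  have hvol : (volume : Measure unitInterval) {y : unitInterval | (1 / 2 : ℝ) ≤ (y : ℝ)} = 1 / 2 := by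
    have h1 : {y : unitInterval | (1 / 2 : ℝ) ≤ (y : ℝ)} = Set.Ici ⟨1 / 2, by norm_num, by norm_num⟩ := by
      ext y
      rfl
    rw [h1, unitInterval.volume_Ici]
    have h2 : (1 : ℝ) - 1 / 2 = 1 / 2 := by norm_num
    show ENNReal.ofReal (1 - (1 / 2 : ℝ)) = 1 / 2
    rw [h2, ENNReal.ofReal_div_of_pos (by norm_num), ENNReal.ofReal_one, ENNReal.ofReal_ofNat]
  have hin : ∀ c : ENNReal, ∫⁻ y : unitInterval, (if (1 / 2 : ℝ) ≤ (y : ℝ) then c else 0) = c / 2 := by
    intro c
    have h1 : (fun y : unitInterval => if (1 / 2 : ℝ) ≤ (y : ℝ) then c else 0)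
        = {y : unitInterval | (1 / 2 : ℝ) ≤ (y : ℝ)}.indicator fun _ => c := by
      funext y
      by_cases hy : (1 / 2 : ℝ) ≤ (y : ℝ)
      · rw [if_pos hy, Set.indicator_of_mem (show y ∈ {y : unitInterval | (1 / 2 : ℝ) ≤ (y : ℝ)} from hy)]
      · rw [if_neg hy, Set.indicator_of_notMem (show y ∉ {y : unitInterval | (1 / 2 : ℝ) ≤ (y : ℝ)} from hy)]
    rw [h1, lintegral_indicator hms, lintegral_const, Measure.restrict_apply_univ, hvol,
      mul_one_div]
  simp only [hin]
  rw [← lintegral_const_mul _ (hg.div_const 2)]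
  refine lintegral_congr fun u => ?_
  rw [ENNReal.mul_div_cancel (by norm_num) (by norm_num)]

/-- For an event `e` of round `j = e.2`, `h ≥ 0` on labels and `Φ ≥ 0` on pairs of slope arrays:
`E 1(u_e < 1/2) h(u_e) Φ(ws, ws' at the time of e) ≤ 2 ∫_{y < 1/2} h(y) E Φ(ws, ws' at time j+y) dy`.
-/
theorem palm [G.LocallyFinite] [Countable V] [IsProbabilityMeasure μ] {d : ℕ} {β : ℝ}
    (hE : Env G d β μ) {a : ℝ} (ha : 0 ≤ a) (ha1 : a < 1) (e : V × ℕ)
    {h : unitInterval → ENNReal} (hh : Measurable h)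
    {Φ : (V × ℕ → ℝ) × (V × ℕ → ℝ) → ENNReal} (hΦ : Measurable Φ) :
    ∫⁻ z, (if (z.1.1 e : ℝ) < 1 / 2 then h (z.1.1 e) *
        Φ (ws a z.1.1 z.1.2 (tau z.1.1 e), ws a z.2.1 z.2.2 (tau z.2.1 e)) else 0)
        ∂(PD G μ a) ≤
      2 * ∫⁻ y : unitInterval, (if (y : ℝ) < 1 / 2 then
        h y * ∫⁻ x, Φ x ∂(nuX G μ a ((e.2 : ℝ) + (y : ℝ))) else 0) := by
  classical
  obtain ⟨K, hK, hmap, hKD⟩ := exists_kernel_DU (μ := μ) G a
  have hPD := palm_prob_PD (μ := μ) G a
  have hf : Measurable fun z : (Arr V × Arr V) × (Arr V × Arr V) => (z.1.1, (z.1.2, z.2.2)) := by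
    fun_prop
  -- the functional `Ψ`
  have hws : Measurable fun p : (Arr V × ℝ) × (Arr V × Arr V) =>
      (ws a p.1.1 p.2.1 p.1.2, ws a p.1.1 p.2.2 p.1.2) := by
    have h0 := measurable_ws (V := V) a
    have h1 : Measurable fun p : (Arr V × ℝ) × (Arr V × Arr V) =>
        ((p.1.2, (p.1.1, p.2.1)) : ℝ × (V × ℕ → unitInterval) × (V × ℕ → unitInterval)) := by
      fun_prop
    have h2 : Measurable fun p : (Arr V × ℝ) × (Arr V × Arr V) =>
        ((p.1.2, (p.1.1, p.2.2)) : ℝ × (V × ℕ → unitInterval) × (V × ℕ → unitInterval)) := by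
      fun_prop
    exact (h0.comp h1).prodMk (h0.comp h2)
  set Ψ : Arr V × ℝ → ENNReal := fun q =>
    ∫⁻ z, Φ (ws a q.1 z.1 q.2, ws a q.1 z.2 q.2) ∂(K q.1) with hΨdef
  have hΨ : Measurable Ψ := by
    have h1 := (hΦ.comp hws).lintegral_kernel_prod_right'
      (κ := Kernel.comap K (Prod.fst : Arr V × ℝ → Arr V) measurable_fst)
    simpa only [Kernel.comap_apply, Function.comp_def] using h1
  have htau : Measurable fun u : Arr V => tau u e := by
    unfold tau
    exact measurable_const.add (measurable_subtype_coe.comp (measurable_pi_apply e))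
  -- integration of functions of one label array
  have disint : ∀ F : Arr V × (Arr V × Arr V) → ENNReal, Measurable F →
      ∫⁻ z, F (z.1.1, (z.1.2, z.2.2)) ∂(PD G μ a) = ∫⁻ u, ∫⁻ z, F (u, z) ∂(K u) ∂(PP (V × ℕ)) := by
    intro F hF
    rw [← lintegral_map hF hf, hmap, Measure.lintegral_compProd hF]
  -- `nuX` in terms of `Ψ`
  have hnu : ∀ x : ℝ, ∫⁻ p, Φ p ∂(nuX G μ a x) = ∫⁻ u, Ψ (u, x) ∂(PP (V × ℕ)) := by
    intro x
    rw [palm_lintegral_nuX G a x hΦ]
    have h1 : ∫⁻ z, Φ (ws a z.1.1 z.1.2 x, ws a z.2.1 z.2.2 x) ∂(PD G μ a)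
        = ∫⁻ z, Φ (ws a z.1.1 z.1.2 x, ws a z.1.1 z.2.2 x) ∂(PD G μ a) := by
      refine lintegral_congr_ae ?_
      filter_upwards [PD_ae_eq (G := G) (μ := μ) a] with z hz
      rw [hz.1]
    rw [h1]
    refine disint (fun q => Φ (ws a q.1 q.2.1 x, ws a q.1 q.2.2 x)) ?_
    have h2 : Measurable fun q : Arr V × (Arr V × Arr V) =>
        (((q.1, x), q.2) : (Arr V × ℝ) × (Arr V × Arr V)) := by fun_prop
    exact (hΦ.comp hws).comp h2
  -- the integrand
  set W : Arr V × unitInterval → ENNReal := fun q =>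
    if (q.2 : ℝ) < 1 / 2 then h q.2 * Ψ (q.1, (e.2 : ℝ) + (q.2 : ℝ)) else 0 with hWdef
  have hW : Measurable W := by
    refine Measurable.ite ?_ ?_ measurable_const
    · exact measurableSet_lt (measurable_subtype_coe.comp measurable_snd) measurable_const
    · refine (hh.comp measurable_snd).mul (hΨ.comp ?_)
      exact measurable_fst.prodMk
        (measurable_const.add (measurable_subtype_coe.comp measurable_snd))
  -- left side
  have hL : ∫⁻ z, (if (z.1.1 e : ℝ) < 1 / 2 then h (z.1.1 e) *
        Φ (ws a z.1.1 z.1.2 (tau z.1.1 e), ws a z.2.1 z.2.2 (tau z.2.1 e)) else 0)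
        ∂(PD G μ a) = ∫⁻ u, W (u, u e) ∂(PP (V × ℕ)) := by
    have h1 : ∫⁻ z, (if (z.1.1 e : ℝ) < 1 / 2 then h (z.1.1 e) *
        Φ (ws a z.1.1 z.1.2 (tau z.1.1 e), ws a z.2.1 z.2.2 (tau z.2.1 e)) else 0)
        ∂(PD G μ a) = ∫⁻ z, (if (z.1.1 e : ℝ) < 1 / 2 then h (z.1.1 e) *
        Φ (ws a z.1.1 z.1.2 (tau z.1.1 e), ws a z.1.1 z.2.2 (tau z.1.1 e)) else 0)
        ∂(PD G μ a) := by
      refine lintegral_congr_ae ?_
      filter_upwards [PD_ae_eq (G := G) (μ := μ) a] with z hz
      rw [hz.1]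
    rw [h1]
    have h2 : Measurable fun q : Arr V × (Arr V × Arr V) =>
        (((q.1, tau q.1 e), q.2) : (Arr V × ℝ) × (Arr V × Arr V)) :=
      (measurable_fst.prodMk (htau.comp measurable_fst)).prodMk measurable_snd
    have h3 : Measurable fun q : Arr V × (Arr V × Arr V) =>
        if (q.1 e : ℝ) < 1 / 2 then h (q.1 e) *
          Φ (ws a q.1 q.2.1 (tau q.1 e), ws a q.1 q.2.2 (tau q.1 e)) else 0 := by
      refine Measurable.ite ?_ ?_ measurable_const
      · exact measurableSet_lt (measurable_subtype_coe.comp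
          ((measurable_pi_apply e).comp measurable_fst)) measurable_const
      · exact (hh.comp ((measurable_pi_apply e).comp measurable_fst)).mul
          ((hΦ.comp hws).comp h2)
    rw [disint _ h3]
    refine lintegral_congr fun u => ?_
    rw [hWdef]
    by_cases hu : (u e : ℝ) < 1 / 2
    · simp only [if_pos hu]
      rw [lintegral_const_mul]
      · rfl
      · have h4 : Measurable fun z : Arr V × Arr V =>
            (((u, tau u e), z) : (Arr V × ℝ) × (Arr V × Arr V)) := by fun_prop
        exact (hΦ.comp hws).comp h4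
    · simp only [if_neg hu, lintegral_zero]
  -- resampling
  have hWu : Measurable fun u : Arr V => W (u, u e) :=
    hW.comp (measurable_id.prodMk (measurable_pi_apply e))
  set g : Arr V → ENNReal := fun u => ∫⁻ y : unitInterval, W (Function.update u e y, y) with hgdef
  have hup : Measurable fun p : Arr V × unitInterval => (Function.update p.1 e p.2, p.2) :=
    (measurable_update_uncurry e).prodMk measurable_snd
  have hg : Measurable g := (hW.comp hup).lintegral_prod_right'
  have hL2 : ∫⁻ u, W (u, u e) ∂(PP (V × ℕ)) = ∫⁻ u, g u ∂(PP (V × ℕ)) := by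
    rw [← lintegral_update e hWu]
    refine lintegral_congr fun u => ?_
    rw [hgdef]
    refine lintegral_congr fun y => ?_
    rw [Function.update_self]
  have hginv : ∀ u y, g (Function.update u e y) = g u := by
    intro u y
    rw [hgdef]
    refine lintegral_congr fun y' => ?_
    rw [Function.update_idem]
  -- good labels
  have hgood : ∀ᵐ u ∂(PP (V × ℕ)), Function.Injective (tau u) ∧ K u = DU G μ a u := by
    filter_upwards [ae_tau_injective (V := V), hKD] with u h1 h2 using ⟨h1, h2⟩
  have hgood2 : ∀ᵐ u ∂(PP (V × ℕ)), ∀ᵐ y ∂(volume : Measure unitInterval),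
      Function.Injective (tau (Function.update u e y)) ∧
        K (Function.update u e y) = DU G μ a (Function.update u e y) := by
    set B : Set (Arr V) := {u | ¬ (Function.Injective (tau u) ∧ K u = DU G μ a u)} with hB
    have hB0 : (PP (V × ℕ)) B = 0 := hgood
    set B' := toMeasurable (PP (V × ℕ)) B with hB'
    have hB'm : MeasurableSet B' := measurableSet_toMeasurable _ _
    have hB'0 : (PP (V × ℕ)) B' = 0 := by rw [hB', measure_toMeasurable, hB0]
    have h1 : ∫⁻ u, (∫⁻ y : unitInterval, (B'.indicator 1 (Function.update u e y) : ENNReal))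
        ∂(PP (V × ℕ)) = 0 := by
      rw [lintegral_update e (f := B'.indicator 1) (measurable_one.indicator hB'm),
        lintegral_indicator_one hB'm, hB'0]
    have hm1 : Measurable fun p : Arr V × unitInterval =>
        (B'.indicator 1 (Function.update p.1 e p.2) : ENNReal) :=
      (measurable_one.indicator hB'm).comp (measurable_update_uncurry e)
    rw [lintegral_eq_zero_iff hm1.lintegral_prod_right'] at h1
    filter_upwards [h1] with u hu
    have hu' : ∫⁻ y : unitInterval, (B'.indicator 1 (Function.update u e y) : ENNReal) = 0 := hu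
    have hm2 : Measurable fun y : unitInterval =>
        (B'.indicator 1 (Function.update u e y) : ENNReal) :=
      (measurable_one.indicator hB'm).comp (measurable_update u)
    rw [lintegral_eq_zero_iff hm2] at hu'
    filter_upwards [hu'] with y hy
    by_contra hcon
    have hmem : Function.update u e y ∈ B' := subset_toMeasurable _ _ hcon
    have hy' : (B'.indicator 1 (Function.update u e y) : ENNReal) = 0 := hy
    rw [Set.indicator_of_mem hmem] at hy'
    exact one_ne_zero hy'
  -- key comparison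
  have key : ∀ᵐ u ∂(PP (V × ℕ)), (if (1 / 2 : ℝ) ≤ (u e : ℝ) then g u else 0) ≤
      ∫⁻ y : unitInterval, W (u, y) := by
    filter_upwards [hgood, hgood2] with u hu hu2
    by_cases hue : (1 / 2 : ℝ) ≤ (u e : ℝ)
    swap
    · rw [if_neg hue]; exact zero_le
    rw [if_pos hue, hgdef]
    refine lintegral_mono_ae ?_
    filter_upwards [hu2] with y hy
    rw [hWdef]
    by_cases hy2 : (y : ℝ) < 1 / 2
    swap
    · simp only [if_neg hy2]; exact le_rfl
    simp only [if_pos hy2]
    refine le_of_eq ?_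
    congr 1
    rw [hΨdef]
    simp only
    set u' := Function.update u e y with hu'
    set x : ℝ := (e.2 : ℝ) + (y : ℝ) with hx
    have htu : x ≤ tau u e := by
      unfold tau
      rw [hx]
      linarith
    have htu' : tau u' e = x := by
      unfold tau
      rw [hu', Function.update_self]
    have hne : ∀ f, f ≠ e → u' f = u f := fun f hf => Function.update_of_ne hf _ _
    have hwseq : ∀ t : Arr V, ws a u' t x = ws a u t x := by
      intro t
      funext f
      by_cases hfe : f = e
      · subst hfe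
        unfold ws
        rw [if_neg (by rw [htu']; exact lt_irrefl _), if_neg (not_lt.2 htu)]
      · unfold ws wf tau
        rw [hne f hfe]
    rw [hy.2, hu.2]
    have h5 : ∫⁻ z, Φ (ws a u' z.1 x, ws a u' z.2 x) ∂(DU G μ a u')
        = ∫⁻ z, Φ (ws a u z.1 x, ws a u z.2 x) ∂(DU G μ a u') := by
      refine lintegral_congr fun z => ?_
      rw [hwseq, hwseq]
    rw [h5]
    symm
    refine DU_past_congr hE ha ha1 hu.1 hy.1 x (fun f => ?_) ?_ ?_
    · by_cases hfe : f = e
      · right
        subst hfe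
        exact ⟨htu, htu'.ge⟩
      · left
        exact (hne f hfe).symm
    · have h6 : Measurable fun z : Arr V × Arr V =>
          (((u, x), z) : (Arr V × ℝ) × (Arr V × Arr V)) := by fun_prop
      exact (hΦ.comp hws).comp h6
    · intro z z' hzz
      have h7 : ws a u z.1 x = ws a u z'.1 x := by
        funext f
        unfold ws wf
        by_cases hf2 : tau u f < x
        · rw [if_pos hf2, if_pos hf2, (hzz f hf2).1]
        · rw [if_neg hf2, if_neg hf2]
      have h8 : ws a u z.2 x = ws a u z'.2 x := by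
        funext f
        unfold ws wf
        by_cases hf2 : tau u f < x
        · rw [if_pos hf2, if_pos hf2, (hzz f hf2).2]
        · rw [if_neg hf2, if_neg hf2]
      show Φ (ws a u z.1 x, ws a u z.2 x) = Φ (ws a u z'.1 x, ws a u z'.2 x)
      rw [h7, h8]
  -- conclusion
  rw [hL, hL2, palm_half e hg hginv]
  refine mul_le_mul_right ((lintegral_mono_ae key).trans ?_) 2
  rw [lintegral_lintegral_swap hW.aemeasurable]
  refine le_of_eq (lintegral_congr fun y => ?_)
  rw [hWdef]
  by_cases hy2 : (y : ℝ) < 1 / 2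
  · simp only [if_pos hy2]
    rw [hnu, lintegral_const_mul]
    exact hΨ.comp (measurable_id.prodMk measurable_const)
  · simp only [if_neg hy2, lintegral_zero]

end Vale.Agent.P161.Crit
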