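import Vale.Agent.Lib.P161.Crit.Energy
import Vale.Agent.Lib.P161.Crit.Palm
import Vale.Agent.Lib.P161.Homog

/-!
P161-CRIT, module Dineq: the integral inequality for `D(x) = E (M_o(x) - M_o'(x))²`.
-/

open MeasureTheory Filter Topology ProbabilityTheory

namespace Vale.Agent.P161.Crit

variable {V : Type*} {G : SimpleGraph V} {μ : Measure (V → Bool)}

noncomputable def Dn [Countable V] (G : SimpleGraph V) (μ : Measure (V → Bool))
    [IsProbabilityMeasure μ] (a : ℝ) (o : V) (x : ℝ) : ENNReal :=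
  ∫⁻ p, ENNReal.ofReal ((M G μ Set.univ o p.1 - M G μ Set.univ o p.2) ^ 2) ∂(nuX G μ a x)

noncomputable def Gn [Countable V] (G : SimpleGraph V) (μ : Measure (V → Bool))
    [IsProbabilityMeasure μ] (a : ℝ) (o : V) (x : ℝ) : ENNReal :=
  ∑' v : V, ∫⁻ p, ENNReal.ofReal ((Cv G μ Set.univ o v p.1 - Cv G μ Set.univ o v p.2) ^ 2)
    ∂(nuX G μ a x)

noncomputable def Hn [Countable V] (G : SimpleGraph V) (μ : Measure (V → Bool))
    [IsProbabilityMeasure μ] (a : ℝ) (o : V) (x : ℝ) : ENNReal :=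
  ∑' v : V, ∫⁻ p, ENNReal.ofReal ((M G μ Set.univ o p.1 - M G μ Set.univ o p.2) ^ 2 *
    Cv G μ Set.univ o v p.2 ^ 2) ∂(nuX G μ a x)

/-! ### Auxiliary facts on the doubled process -/

section aux

theorem dq_integrable {T : Type*} [MeasurableSpace T] {P : Measure T} [IsFiniteMeasure P]
    {φ : T → ℝ} (hφ : Measurable φ) {B : ℝ} (hB : ∀ z, |φ z| ≤ B) : Integrable φ P :=
  Integrable.of_bound hφ.aestronglyMeasurable B
    (Eventually.of_forall fun z => by rw [Real.norm_eq_abs]; exact hB z)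

theorem dq_sqb {y B : ℝ} (hy : |y| ≤ B) : |y ^ 2| ≤ B ^ 2 := by
  rw [abs_pow]
  exact pow_le_pow_left₀ (abs_nonneg _) hy 2

theorem dq_measurable_tau (e : V × ℕ) : Measurable fun u : Arr V => tau u e := by
  unfold tau
  exact measurable_const.add (measurable_subtype_coe.comp (measurable_pi_apply e))

theorem dq_measurable_wsp (a x : ℝ) : Measurable
    fun p : Arr V × Arr V => ws a p.1 p.2 x :=
  (measurable_ws a).comp (measurable_const.prodMk measurable_id)

theorem dq_measurable_ws (a x : ℝ) : Measurable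
    fun z : (Arr V × Arr V) × (Arr V × Arr V) => (ws a z.1.1 z.1.2 x, ws a z.2.1 z.2.2 x) :=
  ((dq_measurable_wsp a x).comp measurable_fst).prodMk
    ((dq_measurable_wsp a x).comp measurable_snd)

variable [Countable V] [IsProbabilityMeasure μ]

theorem dq_prob_PD (G : SimpleGraph V) (a : ℝ) : IsProbabilityMeasure (PD G μ a) := by
  have := isProbabilityMeasure_PT (μ := μ) a
  exact isProbabilityMeasure_doub (measurable_fst.prodMk (measurable_Xi G a))

theorem dq_PD_fst (G : SimpleGraph V) (a : ℝ) : (PD G μ a).map Prod.fst = PT μ a := by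
  have := isProbabilityMeasure_PT (μ := μ) a
  exact doub_fst (measurable_fst.prodMk (measurable_Xi G a))

theorem dq_PD_snd (G : SimpleGraph V) (a : ℝ) : (PD G μ a).map Prod.snd = PT μ a := by
  have := isProbabilityMeasure_PT (μ := μ) a
  exact doub_snd (measurable_fst.prodMk (measurable_Xi G a))

/-- The projection to labels and the two signals. -/
def dqPi (z : (Arr V × Arr V) × (Arr V × Arr V)) : Arr V × (Arr V × Arr V) :=
  (z.1.1, (z.1.2, z.2.2))

omit [Countable V] in
theorem dq_measurable_pi : Measurable (dqPi (V := V)) := by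
  unfold dqPi
  fun_prop

/-- Integrals over the doubled process by disintegration over the labels. -/
theorem dq_disint (G : SimpleGraph V) (a : ℝ) {φ : Arr V × (Arr V × Arr V) → ℝ}
    (hφ : Measurable φ) {C : ℝ} (hC : ∀ p, |φ p| ≤ C) :
    ∫ z, φ (dqPi z) ∂(PD G μ a) = ∫ u, ∫ w, φ (u, w) ∂(DU G μ a u) ∂(PP (V × ℕ)) := by
  obtain ⟨K, hK, hmap, hae⟩ := exists_kernel_DU (μ := μ) G a
  have h1 : ∫ z, φ (dqPi z) ∂(PD G μ a) = ∫ p, φ p ∂((PD G μ a).map dqPi) :=
    (integral_map dq_measurable_pi.aemeasurable hφ.aestronglyMeasurable).symm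
  have hmap' : (PD G μ a).map dqPi = (PP (V × ℕ)) ⊗ₘ K := hmap
  rw [h1, hmap', Measure.integral_compProd]
  · refine integral_congr_ae ?_
    filter_upwards [hae] with u hu
    rw [hu]
  · exact Integrable.of_bound hφ.aestronglyMeasurable C
      (Eventually.of_forall fun p => by rw [Real.norm_eq_abs]; exact hC p)

/-- Almost sure statements for the doubled process by disintegration over the labels. -/
theorem dq_ae (G : SimpleGraph V) (a : ℝ) {p : Arr V × (Arr V × Arr V) → Prop}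
    (hp : MeasurableSet {q | p q})
    (h : ∀ᵐ u ∂(PP (V × ℕ)), ∀ᵐ w ∂(DU G μ a u), p (u, w)) :
    ∀ᵐ z ∂(PD G μ a), p (dqPi z) := by
  obtain ⟨K, hK, hmap, hae⟩ := exists_kernel_DU (μ := μ) G a
  have hmap' : (PD G μ a).map dqPi = (PP (V × ℕ)) ⊗ₘ K := hmap
  have h1 : ∀ᵐ q ∂((PD G μ a).map dqPi), p q := by
    rw [hmap', Measure.ae_compProd_iff hp]
    filter_upwards [h, hae] with u hu hu2
    rw [hu2]
    exact hu
  exact ae_of_ae_map dq_measurable_pi.aemeasurable h1

end aux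

section main

variable [G.LocallyFinite] [Countable V] [IsProbabilityMeasure μ] {d : ℕ} {β : ℝ}

/-- The jump before time `x`. -/
noncomputable def dqJ (G : SimpleGraph V) (μ : Measure (V → Bool)) (a : ℝ) (o : V) (x : ℝ)
    (e : V × ℕ) (p : Arr V × Arr V) : ℝ :=
  if tau p.1 e < x then Jp G μ a o p.1 p.2 e else 0

omit [G.LocallyFinite] in
theorem dq_measurable_J (G : SimpleGraph V) (a : ℝ) (o : V) (x : ℝ) (e : V × ℕ) :
    Measurable (dqJ G μ a o x e) := by
  unfold dqJ
  refine Measurable.ite ?_ (measurable_Jp G a o e) measurable_const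
  exact measurableSet_lt ((dq_measurable_tau e).comp measurable_fst) measurable_const

/-- Orthogonality for the joint doubling. -/
theorem dq_orth (hE : Env G d β μ) {a : ℝ} (ha : 0 ≤ a) (ha1 : a < 1) (o : V) (x : ℝ)
    {e f : V × ℕ} (hef : e ≠ f) :
    ∫ z, (dqJ G μ a o x e z.1 - dqJ G μ a o x e z.2) *
      (dqJ G μ a o x f z.1 - dqJ G μ a o x f z.2) ∂(PD G μ a) = 0 := by
  obtain ⟨C, hC0, hC⟩ := exists_abs_Jp_le hE ha ha1
  have hb : ∀ e p, |dqJ G μ a o x e p| ≤ C := by
    intro e p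
    unfold dqJ
    split_ifs
    · exact (hC o p.1 p.2 e).1
    · simpa using hC0
  set φ : Arr V × (Arr V × Arr V) → ℝ := fun q =>
    (dqJ G μ a o x e (q.1, q.2.1) - dqJ G μ a o x e (q.1, q.2.2)) *
      (dqJ G μ a o x f (q.1, q.2.1) - dqJ G μ a o x f (q.1, q.2.2)) with hφ
  have hφm : Measurable φ := by
    have h1 : Measurable fun q : Arr V × (Arr V × Arr V) => (q.1, q.2.1) := by fun_prop
    have h2 : Measurable fun q : Arr V × (Arr V × Arr V) => (q.1, q.2.2) := by fun_prop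
    exact (((dq_measurable_J G a o x e).comp h1).sub ((dq_measurable_J G a o x e).comp h2)).mul
      (((dq_measurable_J G a o x f).comp h1).sub ((dq_measurable_J G a o x f).comp h2))
  have hφb : ∀ q, |φ q| ≤ (2 * C) * (2 * C) := by
    intro q
    simp only [hφ]
    rw [abs_mul]
    refine mul_le_mul ?_ ?_ (abs_nonneg _) (by positivity)
    · exact (abs_sub _ _).trans (by linarith [hb e (q.1, q.2.1), hb e (q.1, q.2.2)])
    · exact (abs_sub _ _).trans (by linarith [hb f (q.1, q.2.1), hb f (q.1, q.2.2)])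
  have h1 : ∫ z, (dqJ G μ a o x e z.1 - dqJ G μ a o x e z.2) *
      (dqJ G μ a o x f z.1 - dqJ G μ a o x f z.2) ∂(PD G μ a) =
      ∫ z, φ (dqPi z) ∂(PD G μ a) := by
    refine integral_congr_ae ?_
    filter_upwards [PD_ae_eq (G := G) (μ := μ) a] with z hz
    have e1 : z.2 = (z.1.1, z.2.2) := by
      rw [hz.1]
    simp only [hφ, dqPi]
    rw [← e1]
  rw [h1, dq_disint G a hφm hφb]
  refine integral_eq_zero_of_ae ?_
  filter_upwards [ae_tau_injective (V := V)] with u hu
  simp only [hφ, dqJ, Pi.zero_apply]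
  by_cases h2 : tau u e < x ∧ tau u f < x
  · simp only [h2.1, h2.2, if_true]
    exact DU_orth hE ha ha1 hu o hef
  · have h3 : ∀ w : Arr V × Arr V,
        ((if tau u e < x then Jp G μ a o u w.1 e else 0) -
            (if tau u e < x then Jp G μ a o u w.2 e else 0)) *
          ((if tau u f < x then Jp G μ a o u w.1 f else 0) -
            (if tau u f < x then Jp G μ a o u w.2 f else 0)) = 0 := by
      intro w
      by_cases h4 : tau u e < x
      · have h5 : ¬ tau u f < x := fun h => h2 ⟨h4, h⟩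
        simp [h5]
      · simp [h4]
    simp only [h3, integral_zero]

theorem dq_abs_sq_sub_sq (x y η : ℝ) (hη : 0 < η) (hx : x ^ 2 ≤ 4) :
    |y ^ 2 - x ^ 2| ≤ (1 + 1 / η) * (x - y) ^ 2 + 4 * η := by
  have h1 : |y ^ 2 - x ^ 2| ≤ (x - y) ^ 2 + 2 * (|x| * |x - y|) := by
    have e : y ^ 2 - x ^ 2 = (x - y) ^ 2 - 2 * (x * (x - y)) := by ring
    rw [e]
    calc |(x - y) ^ 2 - 2 * (x * (x - y))| ≤ |(x - y) ^ 2| + |2 * (x * (x - y))| := abs_sub _ _
      _ = (x - y) ^ 2 + 2 * (|x| * |x - y|) := by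
        rw [abs_mul, abs_mul, abs_of_nonneg (sq_nonneg (x - y))]
        norm_num
  have h2 : 2 * (|x| * |x - y|) ≤ η * x ^ 2 + 1 / η * (x - y) ^ 2 := by
    have h3 : 0 ≤ (Real.sqrt η * |x| - (Real.sqrt η)⁻¹ * |x - y|) ^ 2 := sq_nonneg _
    have h4 : Real.sqrt η * (Real.sqrt η)⁻¹ = 1 :=
      mul_inv_cancel₀ (Real.sqrt_pos.2 hη).ne'
    have h5 : Real.sqrt η ^ 2 = η := Real.sq_sqrt hη.le
    have h6 : (Real.sqrt η)⁻¹ ^ 2 = 1 / η := by rw [inv_pow, h5, one_div]
    have e : (Real.sqrt η * |x| - (Real.sqrt η)⁻¹ * |x - y|) ^ 2 =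
        Real.sqrt η ^ 2 * |x| ^ 2 + (Real.sqrt η)⁻¹ ^ 2 * |x - y| ^ 2 -
          2 * (Real.sqrt η * (Real.sqrt η)⁻¹) * (|x| * |x - y|) := by ring
    rw [e, h4, h5, h6, sq_abs, sq_abs] at h3
    linarith
  nlinarith

/-- `D(x)` is the sum of the expected squared differences of the jumps: `energy_L2` for both copies
(the marginals of `PD` are `PT`) and `DU_orth` integrated over the labels (`exists_kernel_DU`). -/
theorem dq_hasSum (hE : Env G d β μ) {a : ℝ} (ha : 0 < a) (ha1 : a < 1) (o : V) {x : ℝ}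
    (hx : 0 < x) :
    HasSum (fun e : V × ℕ => ∫ z, (dqJ G μ a o x e z.1 - dqJ G μ a o x e z.2) ^ 2 ∂(PD G μ a))
      (∫ z, (M G μ Set.univ o (ws a z.1.1 z.1.2 x) -
        M G μ Set.univ o (ws a z.2.1 z.2.2 x)) ^ 2 ∂(PD G μ a)) := by
  have hP := dq_prob_PD (μ := μ) G a
  obtain ⟨C, hC0, hC⟩ := exists_abs_Jp_le hE ha.le ha1
  have hb : ∀ e p, |dqJ G μ a o x e p| ≤ C := by
    intro e p
    unfold dqJ
    split_ifs
    · exact (hC o p.1 p.2 e).1
    · simpa using hC0
  set Mo : Arr V × Arr V → ℝ := fun p => M G μ Set.univ o (ws a p.1 p.2 x) with hMo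
  have hMom : Measurable Mo := (measurable_M G μ Set.univ o).comp (dq_measurable_wsp a x)
  have hMob : ∀ p, |Mo p| ≤ 1 := fun p =>
    abs_M_le ha.le ha1 μ (fun e => abs_ws_le ha.le p.1 p.2 x e) Set.univ o
  have hJm : ∀ e, Measurable fun z : (Arr V × Arr V) × (Arr V × Arr V) =>
      dqJ G μ a o x e z.1 - dqJ G μ a o x e z.2 := fun e =>
    ((dq_measurable_J G a o x e).comp measurable_fst).sub
      ((dq_measurable_J G a o x e).comp measurable_snd)
  have hJb : ∀ e (z : (Arr V × Arr V) × (Arr V × Arr V)),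
      |dqJ G μ a o x e z.1 - dqJ G μ a o x e z.2| ≤ 2 * C := fun e z =>
    (abs_sub _ _).trans (by linarith [hb e z.1, hb e z.2])
  set F : Finset (V × ℕ) → Arr V × Arr V → ℝ := fun S p => ∑ e ∈ S, dqJ G μ a o x e p with hF
  have hFm : ∀ S, Measurable (F S) := fun S =>
    Finset.measurable_sum S fun e _ => dq_measurable_J G a o x e
  have hFb : ∀ S p, |F S p| ≤ S.card * C := by
    intro S p
    refine (Finset.abs_sum_le_sum_abs _ _).trans ?_
    refine (Finset.sum_le_sum fun e _ => hb e p).trans ?_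
    rw [Finset.sum_const, nsmul_eq_mul]
  -- the square of the finite sums
  have hsq : ∀ S : Finset (V × ℕ), ∫ z, (F S z.1 - F S z.2) ^ 2 ∂(PD G μ a) =
      ∑ e ∈ S, ∫ z, (dqJ G μ a o x e z.1 - dqJ G μ a o x e z.2) ^ 2 ∂(PD G μ a) := by
    intro S
    have h1 : ∀ z : (Arr V × Arr V) × (Arr V × Arr V), (F S z.1 - F S z.2) ^ 2 =
        ∑ e ∈ S, ∑ f ∈ S, (dqJ G μ a o x e z.1 - dqJ G μ a o x e z.2) *
          (dqJ G μ a o x f z.1 - dqJ G μ a o x f z.2) := by
      intro z
      simp only [hF]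
      rw [← Finset.sum_sub_distrib, sq, Finset.sum_mul_sum]
    simp only [h1]
    have hi : ∀ e f, Integrable (fun z => (dqJ G μ a o x e z.1 - dqJ G μ a o x e z.2) *
          (dqJ G μ a o x f z.1 - dqJ G μ a o x f z.2)) (PD G μ a) := fun e f =>
      dq_integrable ((hJm e).mul (hJm f)) (B := (2 * C) * (2 * C)) fun z => by
        rw [abs_mul]
        exact mul_le_mul (hJb e z) (hJb f z) (abs_nonneg _) (by positivity)
    rw [integral_finsetSum _ fun e _ => integrable_finsetSum _ fun f _ => hi e f]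
    refine Finset.sum_congr rfl fun e he => ?_
    rw [integral_finsetSum _ fun f _ => hi e f]
    rw [Finset.sum_eq_single_of_mem e he fun f _ hfe => dq_orth hE ha.le ha1 o x hfe.symm]
    refine integral_congr_ae (Eventually.of_forall fun z => ?_)
    simp only [sq]
  have key : ∀ ε > 0, ∃ S0 : Finset (V × ℕ), ∀ S, S0 ⊆ S →
      |(∑ e ∈ S, ∫ z, (dqJ G μ a o x e z.1 - dqJ G μ a o x e z.2) ^ 2 ∂(PD G μ a)) -
        ∫ z, (Mo z.1 - Mo z.2) ^ 2 ∂(PD G μ a)| ≤ ε := by
    intro ε hε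
    set η := ε / 8 with hη
    have hη0 : 0 < η := by positivity
    have hcoef : 0 < 1 + 1 / η := by positivity
    obtain ⟨S0, hS0⟩ := energy_L2 hE ha ha1 o hx
      (ε := ε / 2 / (4 * (1 + 1 / η))) (by positivity)
    refine ⟨S0, fun S hS => ?_⟩
    have h1 := hS0 S hS
    have h1' : ∫ p, (Mo p - F S p) ^ 2 ∂(PT μ a) ≤ ε / 2 / (4 * (1 + 1 / η)) := h1
    rw [← hsq S]
    have hbM : ∀ z : (Arr V × Arr V) × (Arr V × Arr V), |Mo z.1 - Mo z.2| ≤ 2 := fun z =>
      (abs_sub _ _).trans (by linarith [hMob z.1, hMob z.2])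
    have hbM2 : ∀ z : (Arr V × Arr V) × (Arr V × Arr V), (Mo z.1 - Mo z.2) ^ 2 ≤ 4 := fun z => by
      have h2 := sq_le_sq' (abs_le.1 (hbM z)).1 (abs_le.1 (hbM z)).2
      linarith
    have hdm : Measurable fun z : (Arr V × Arr V) × (Arr V × Arr V) => Mo z.1 - Mo z.2 :=
      (hMom.comp measurable_fst).sub (hMom.comp measurable_snd)
    have hFdm : Measurable fun z : (Arr V × Arr V) × (Arr V × Arr V) => F S z.1 - F S z.2 :=
      ((hFm S).comp measurable_fst).sub ((hFm S).comp measurable_snd)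
    have hFdb : ∀ z : (Arr V × Arr V) × (Arr V × Arr V), |F S z.1 - F S z.2| ≤
        2 * (S.card * C) := fun z =>
      (abs_sub _ _).trans (by linarith [hFb S z.1, hFb S z.2])
    have hi1 : Integrable (fun z => (Mo z.1 - Mo z.2) ^ 2) (PD G μ a) :=
      dq_integrable (hdm.pow_const 2) fun z => dq_sqb (hbM z)
    have hi2 : Integrable (fun z => (F S z.1 - F S z.2) ^ 2) (PD G μ a) :=
      dq_integrable (hFdm.pow_const 2) fun z => dq_sqb (hFdb z)
    have hMFm : Measurable fun p => (Mo p - F S p) ^ 2 := (hMom.sub (hFm S)).pow_const 2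
    have hMFb : ∀ p, |(Mo p - F S p) ^ 2| ≤ (1 + S.card * C) ^ 2 := fun p =>
      dq_sqb ((abs_sub _ _).trans (by linarith [hMob p, hFb S p]))
    have hi3 : Integrable (fun z : (Arr V × Arr V) × (Arr V × Arr V) =>
        (Mo z.1 - F S z.1) ^ 2) (PD G μ a) :=
      dq_integrable (hMFm.comp measurable_fst) fun z => hMFb z.1
    have hi4 : Integrable (fun z : (Arr V × Arr V) × (Arr V × Arr V) =>
        (Mo z.2 - F S z.2) ^ 2) (PD G μ a) :=
      dq_integrable (hMFm.comp measurable_snd) fun z => hMFb z.2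
    have hm1 : ∫ z, (Mo z.1 - F S z.1) ^ 2 ∂(PD G μ a) = ∫ p, (Mo p - F S p) ^ 2 ∂(PT μ a) := by
      rw [← dq_PD_fst (μ := μ) G a, integral_map measurable_fst.aemeasurable
        hMFm.aestronglyMeasurable]
    have hm2 : ∫ z, (Mo z.2 - F S z.2) ^ 2 ∂(PD G μ a) = ∫ p, (Mo p - F S p) ^ 2 ∂(PT μ a) := by
      rw [← dq_PD_snd (μ := μ) G a, integral_map measurable_snd.aemeasurable
        hMFm.aestronglyMeasurable]
    have hi5 : Integrable (fun z : (Arr V × Arr V) × (Arr V × Arr V) =>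
        2 * (Mo z.1 - F S z.1) ^ 2 + 2 * (Mo z.2 - F S z.2) ^ 2) (PD G μ a) :=
      (hi3.const_mul 2).add (hi4.const_mul 2)
    have hm3 : ∫ z, (2 * (Mo z.1 - F S z.1) ^ 2 + 2 * (Mo z.2 - F S z.2) ^ 2) ∂(PD G μ a) =
        4 * ∫ p, (Mo p - F S p) ^ 2 ∂(PT μ a) := by
      rw [integral_add (hi3.const_mul 2) (hi4.const_mul 2), integral_const_mul,
        integral_const_mul, hm1, hm2]
      ring
    rw [← integral_sub hi2 hi1]
    calc |∫ z, ((F S z.1 - F S z.2) ^ 2 - (Mo z.1 - Mo z.2) ^ 2) ∂(PD G μ a)|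
        ≤ ∫ z, |(F S z.1 - F S z.2) ^ 2 - (Mo z.1 - Mo z.2) ^ 2| ∂(PD G μ a) :=
          abs_integral_le_integral_abs
      _ ≤ ∫ z, ((1 + 1 / η) * (2 * (Mo z.1 - F S z.1) ^ 2 + 2 * (Mo z.2 - F S z.2) ^ 2) +
          4 * η) ∂(PD G μ a) := by
          refine integral_mono (hi2.sub hi1).abs ?_ fun z => ?_
          · exact (hi5.const_mul _).add (integrable_const _)
          · have h2 := dq_abs_sq_sub_sq (Mo z.1 - Mo z.2) (F S z.1 - F S z.2) η hη0 (hbM2 z)
            refine h2.trans ?_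
            have h3 : (Mo z.1 - Mo z.2 - (F S z.1 - F S z.2)) ^ 2 ≤
                2 * (Mo z.1 - F S z.1) ^ 2 + 2 * (Mo z.2 - F S z.2) ^ 2 := by
              nlinarith [sq_nonneg ((Mo z.1 - F S z.1) + (Mo z.2 - F S z.2))]
            have h4 := mul_le_mul_of_nonneg_left h3 hcoef.le
            linarith
      _ = (1 + 1 / η) * (4 * ∫ p, (Mo p - F S p) ^ 2 ∂(PT μ a)) + 4 * η := by
          rw [integral_add (hi5.const_mul _) (integrable_const _), integral_const_mul, hm3,
            integral_const]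
          simp only [probReal_univ, smul_eq_mul, one_mul]
      _ ≤ (1 + 1 / η) * (4 * (ε / 2 / (4 * (1 + 1 / η)))) + 4 * η := by gcongr
      _ = ε := by
          rw [hη]
          field_simp
          ring
  rw [HasSum, Metric.tendsto_nhds]
  intro ε hε
  obtain ⟨S0, hS0⟩ := key (ε / 2) (by positivity)
  filter_upwards [eventually_ge_atTop S0] with S hS
  rw [Real.dist_eq]
  exact (hS0 S hS).trans_lt (by linarith)

/-- The posterior mean at time `x`. -/
noncomputable def dqM (G : SimpleGraph V) (μ : Measure (V → Bool)) (a : ℝ) (o : V) (x : ℝ)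
    (p : Arr V × Arr V) : ℝ := M G μ Set.univ o (ws a p.1 p.2 x)

omit [G.LocallyFinite] [Countable V] in
theorem dq_measurable_M (G : SimpleGraph V) (a : ℝ) (o : V) (x : ℝ) :
    Measurable (dqM G μ a o x) :=
  (measurable_M G μ Set.univ o).comp (dq_measurable_wsp a x)

omit [Countable V] in
theorem dq_abs_M {a : ℝ} (ha : 0 ≤ a) (ha1 : a < 1) (o : V) (x : ℝ) (p : Arr V × Arr V) :
    |dqM G μ a o x p| ≤ 1 :=
  abs_M_le ha ha1 μ (fun e => abs_ws_le ha p.1 p.2 x e) Set.univ o

theorem dq_Dn (G : SimpleGraph V) [G.LocallyFinite] {a : ℝ} (ha : 0 ≤ a) (ha1 : a < 1) (o : V)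
    (x : ℝ) :
    Dn G μ a o x = ENNReal.ofReal (∫ z, (dqM G μ a o x z.1 - dqM G μ a o x z.2) ^ 2
      ∂(PD G μ a)) := by
  have hP := dq_prob_PD (μ := μ) G a
  have hMm : Measurable fun p : (V × ℕ → ℝ) × (V × ℕ → ℝ) =>
      (M G μ Set.univ o p.1 - M G μ Set.univ o p.2) ^ 2 :=
    (((measurable_M G μ Set.univ o).comp measurable_fst).sub
      ((measurable_M G μ Set.univ o).comp measurable_snd)).pow_const 2
  have h1 : Dn G μ a o x = ∫⁻ z, ENNReal.ofReal
      ((dqM G μ a o x z.1 - dqM G μ a o x z.2) ^ 2) ∂(PD G μ a) := by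
    unfold Dn nuX
    rw [lintegral_map hMm.ennreal_ofReal (dq_measurable_ws a x)]
    rfl
  have hm : Measurable fun z : (Arr V × Arr V) × (Arr V × Arr V) =>
      (dqM G μ a o x z.1 - dqM G μ a o x z.2) ^ 2 :=
    (((dq_measurable_M G a o x).comp measurable_fst).sub
      ((dq_measurable_M G a o x).comp measurable_snd)).pow_const 2
  have hi : Integrable (fun z : (Arr V × Arr V) × (Arr V × Arr V) =>
      (dqM G μ a o x z.1 - dqM G μ a o x z.2) ^ 2) (PD G μ a) :=
    dq_integrable hm (B := 2 ^ 2) fun z => by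
      have h2 := dq_abs_M (G := G) (μ := μ) ha ha1 o x z.1
      have h3 := dq_abs_M (G := G) (μ := μ) ha ha1 o x z.2
      exact dq_sqb ((abs_sub _ _).trans (by linarith))
  rw [h1, ofReal_integral_eq_lintegral_ofReal hi (Eventually.of_forall fun z => sq_nonneg _)]

theorem dq_term (hE : Env G d β μ) {a : ℝ} (ha : 0 ≤ a) (ha1 : a < 1) (o : V) (x : ℝ)
    (e : V × ℕ) :
    ENNReal.ofReal (∫ z, (dqJ G μ a o x e z.1 - dqJ G μ a o x e z.2) ^ 2 ∂(PD G μ a)) =
      ∫⁻ z, (if tau z.1.1 e < x then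
      ENNReal.ofReal ((Jp G μ a o z.1.1 z.1.2 e - Jp G μ a o z.2.1 z.2.2 e) ^ 2) else 0)
        ∂(PD G μ a) := by
  have hP := dq_prob_PD (μ := μ) G a
  obtain ⟨C, hC0, hC⟩ := exists_abs_Jp_le hE ha ha1
  have hb : ∀ e p, |dqJ G μ a o x e p| ≤ C := by
    intro e p
    unfold dqJ
    split_ifs
    · exact (hC o p.1 p.2 e).1
    · simpa using hC0
  have hm : Measurable fun z : (Arr V × Arr V) × (Arr V × Arr V) =>
      (dqJ G μ a o x e z.1 - dqJ G μ a o x e z.2) ^ 2 :=
    (((dq_measurable_J G a o x e).comp measurable_fst).sub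
      ((dq_measurable_J G a o x e).comp measurable_snd)).pow_const 2
  have hi : Integrable (fun z : (Arr V × Arr V) × (Arr V × Arr V) =>
      (dqJ G μ a o x e z.1 - dqJ G μ a o x e z.2) ^ 2) (PD G μ a) :=
    dq_integrable hm (B := (2 * C) ^ 2) fun z => dq_sqb
      ((abs_sub _ _).trans (by linarith [hb e z.1, hb e z.2]))
  rw [ofReal_integral_eq_lintegral_ofReal hi (Eventually.of_forall fun z => sq_nonneg _)]
  refine lintegral_congr_ae ?_
  filter_upwards [PD_ae_eq (G := G) (μ := μ) a] with z hz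
  unfold dqJ
  by_cases h2 : tau z.1.1 e < x
  · have h3 : tau z.2.1 e < x := hz.1 ▸ h2
    simp only [h2, h3, if_true]
  · have h3 : ¬ tau z.2.1 e < x := hz.1 ▸ h2
    simp [h2, h3]

end main

/-- `D(x)` is the sum of the expected squared differences of the jumps: `energy_L2` for both copies
(the marginals of `PD` are `PT`) and `DU_orth` integrated over the labels (`exists_kernel_DU`). -/
theorem Dn_eq_tsum [G.LocallyFinite] [Countable V] [IsProbabilityMeasure μ] {d : ℕ} {β : ℝ}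
    (hE : Env G d β μ) {a : ℝ} (ha : 0 < a) (ha1 : a < 1) (o : V) {x : ℝ} (hx : 0 < x) :
    Dn G μ a o x = ∑' e : V × ℕ, ∫⁻ z, (if tau z.1.1 e < x then
      ENNReal.ofReal ((Jp G μ a o z.1.1 z.1.2 e - Jp G μ a o z.2.1 z.2.2 e) ^ 2) else 0)
        ∂(PD G μ a) := by
  have hs : HasSum (fun e : V × ℕ => ∫ z, (dqJ G μ a o x e z.1 - dqJ G μ a o x e z.2) ^ 2
      ∂(PD G μ a)) (∫ z, (dqM G μ a o x z.1 - dqM G μ a o x z.2) ^ 2 ∂(PD G μ a)) :=
    dq_hasSum hE ha ha1 o hx
  rw [dq_Dn G ha.le ha1 o x, ← hs.tsum_eq, ENNReal.ofReal_tsum_of_nonneg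
    (fun e => integral_nonneg fun z => sq_nonneg _) hs.summable]
  exact tsum_congr fun e => dq_term hE ha.le ha1 o x e

/-! ### Symmetry -/

section symm

theorem dq_measurable_actE {α : Type*} [MeasurableSpace α] (g : V ≃ V) :
    Measurable (actE g : (V × ℕ → α) → V × ℕ → α) :=
  measurable_pi_iff.2 fun e => measurable_pi_apply (g.symm e.1, e.2)

theorem dq_measurable_actC {α : Type*} [MeasurableSpace α] (g : V ≃ V) :
    Measurable (actC g : (V → α) → V → α) :=
  measurable_pi_iff.2 fun v => measurable_pi_apply (g.symm v)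

variable [G.LocallyFinite] [Countable V] [IsProbabilityMeasure μ] {d : ℕ} {β : ℝ}

theorem dq_mu_act (hE : Env G d β μ) (g : G ≃g G) : μ.map (actC g.toEquiv) = μ := by
  have h1 := PO_act hE.tree hE.ising g
  have hm : Measurable (actC g.toEquiv : (V → Bool) → V → Bool) := dq_measurable_actC g.toEquiv
  have h2 : (PO μ).map Prod.fst = μ := by
    unfold PO
    rw [Measure.map_fst_prod, measure_univ, one_smul]
  have h3 : (PO μ).map (fun ω : Conf V => actC g.toEquiv ω.1) = μ := by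
    have h4 : (fun ω : Conf V => actC g.toEquiv ω.1) =
        fun ω : Conf V => (actO g.toEquiv ω).1 := rfl
    have h5 : ((PO μ).map (actO g.toEquiv)).map Prod.fst = μ := by rw [h1, h2]
    rw [Measure.map_map measurable_fst (measurable_actO g.toEquiv)] at h5
    rw [h4]
    exact h5
  have h6 : ((PO μ).map Prod.fst).map (actC g.toEquiv) = μ := by
    rw [Measure.map_map hm measurable_fst]
    exact h3
  rwa [h2] at h6

theorem dq_nuX_act (hE : Env G d β μ) (a x : ℝ) (g : G ≃g G) :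
    (nuX G μ a x).map (Prod.map (actE g.toEquiv) (actE g.toEquiv)) = nuX G μ a x := by
  have h1 := PD_act (μ := μ) hE a g
  have hm : Measurable (Prod.map (actE g.toEquiv) (actE g.toEquiv) :
      (V × ℕ → ℝ) × (V × ℕ → ℝ) → (V × ℕ → ℝ) × (V × ℕ → ℝ)) :=
    (dq_measurable_actE g.toEquiv).prodMap (dq_measurable_actE g.toEquiv)
  have hA : Measurable fun z : (Arr V × Arr V) × (Arr V × Arr V) =>
      ((actE g.toEquiv z.1.1, actE g.toEquiv z.1.2),
        (actE g.toEquiv z.2.1, actE g.toEquiv z.2.2)) := by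
    have h2 : Measurable (actE g.toEquiv : Arr V → Arr V) := dq_measurable_actE g.toEquiv
    exact ((h2.comp (measurable_fst.comp measurable_fst)).prodMk
      (h2.comp (measurable_snd.comp measurable_fst))).prodMk
      ((h2.comp (measurable_fst.comp measurable_snd)).prodMk
      (h2.comp (measurable_snd.comp measurable_snd)))
  unfold nuX
  rw [Measure.map_map hm (dq_measurable_ws a x)]
  conv_rhs => rw [← h1]
  rw [Measure.map_map (dq_measurable_ws a x) hA]
  rfl

theorem dq_ae_Cv_symm (hE : Env G d β μ) {a : ℝ} (ha : 0 ≤ a) (ha1 : a < 1) (o v : V) (x : ℝ) :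
    ∀ᵐ p ∂(nuX G μ a x), Cv G μ Set.univ v o p.2 = Cv G μ Set.univ o v p.2 := by
  have hmx : ∀ e : V × ℕ, MeasurableSet (mx (V := V) x e) := by
    intro e
    unfold mx
    exact measurableSet_lt (measurable_const.add measurable_subtype_coe) measurable_const
  have hobs := obs_mask (μ := μ) ha ha1 (mx x) hmx
  have h1 := hobs.Cv_symm (G := G) hE.tree.connected Set.univ v o
  have h2 : ∀ᵐ ω ∂(PO μ), Cv G μ Set.univ v o (ws a ω.2.1 (tt a ω.1 ω.2.1 ω.2.2) x) =
      Cv G μ Set.univ o v (ws a ω.2.1 (tt a ω.1 ω.2.1 ω.2.2) x) := by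
    filter_upwards [h1] with ω hω
    rw [slp_ym, wm_mx] at hω
    exact hω
  have hCm : ∀ o v : V, Measurable fun p : Arr V × Arr V =>
      Cv G μ Set.univ o v (ws a p.1 p.2 x) := fun o v =>
    (measurable_Cv G μ Set.univ o v).comp (dq_measurable_wsp a x)
  have htm : Measurable fun p : Conf V => (p.2.1, tt a p.1 p.2.1 p.2.2) :=
    (measurable_fst.comp measurable_snd).prodMk (measurable_tt a)
  have h3 : ∀ᵐ p ∂(PT μ a), Cv G μ Set.univ v o (ws a p.1 p.2 x) =
      Cv G μ Set.univ o v (ws a p.1 p.2 x) := by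
    unfold PT
    rw [ae_map_iff htm.aemeasurable (measurableSet_eq_fun (hCm v o) (hCm o v))]
    exact h2
  have h4 : ∀ᵐ z ∂(PD G μ a), Cv G μ Set.univ v o (ws a z.2.1 z.2.2 x) =
      Cv G μ Set.univ o v (ws a z.2.1 z.2.2 x) := by
    rw [← dq_PD_snd (μ := μ) G a] at h3
    exact ae_of_ae_map measurable_snd.aemeasurable h3
  unfold nuX
  rw [ae_map_iff (dq_measurable_ws a x).aemeasurable]
  · exact h4
  · exact measurableSet_eq_fun ((measurable_Cv G μ Set.univ v o).comp measurable_snd)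
      ((measurable_Cv G μ Set.univ o v).comp measurable_snd)

end symm

/-- `E Cv'(o,v)² (M_v - M_v')² = E Cv'(o,v)² (M_o - M_o')²`: apply an automorphism exchanging `o` and
`v` (`exists_iso_swap`), `PD_act`, `Cv_univ_act`, `M_univ_act` and the symmetry `Obs.Cv_symm`. -/
theorem swap_term [G.LocallyFinite] [Countable V] [IsProbabilityMeasure μ] {d : ℕ} {β : ℝ}
    (hE : Env G d β μ) {a : ℝ} (ha : 0 < a) (ha1 : a < 1) (o v : V) (x : ℝ) :
    ∫⁻ p, ENNReal.ofReal (Cv G μ Set.univ o v p.2 ^ 2 *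
      (M G μ Set.univ v p.1 - M G μ Set.univ v p.2) ^ 2) ∂(nuX G μ a x) =
    ∫⁻ p, ENNReal.ofReal ((M G μ Set.univ o p.1 - M G μ Set.univ o p.2) ^ 2 *
      Cv G μ Set.univ o v p.2 ^ 2) ∂(nuX G μ a x) := by
  obtain ⟨g, hg1, hg2⟩ := exists_iso_swap hE.tree hE.reg o v
  have hμ := dq_mu_act (μ := μ) hE g
  have hc := hE.tree.connected
  have hm : Measurable (Prod.map (actE g.toEquiv) (actE g.toEquiv) :
      (V × ℕ → ℝ) × (V × ℕ → ℝ) → (V × ℕ → ℝ) × (V × ℕ → ℝ)) :=
    (dq_measurable_actE g.toEquiv).prodMap (dq_measurable_actE g.toEquiv)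
  have hΦ : Measurable fun p : (V × ℕ → ℝ) × (V × ℕ → ℝ) =>
      ENNReal.ofReal (Cv G μ Set.univ o v p.2 ^ 2 *
        (M G μ Set.univ v p.1 - M G μ Set.univ v p.2) ^ 2) := by
    refine Measurable.ennreal_ofReal ?_
    exact (((measurable_Cv G μ Set.univ o v).comp measurable_snd).pow_const 2).mul
      ((((measurable_M G μ Set.univ v).comp measurable_fst).sub
        ((measurable_M G μ Set.univ v).comp measurable_snd)).pow_const 2)
  conv_lhs => rw [← dq_nuX_act (μ := μ) hE a x g]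
  rw [lintegral_map hΦ hm]
  refine lintegral_congr_ae ?_
  filter_upwards [dq_ae_Cv_symm (μ := μ) hE ha.le ha1 o v x] with p hp
  have e1 : Cv G μ Set.univ o v (actE g.toEquiv p.2) = Cv G μ Set.univ v o p.2 := by
    have h1 := Cv_univ_act hc g hμ v o p.2
    rw [hg1, hg2] at h1
    exact h1
  have e2 : ∀ w, M G μ Set.univ v (actE g.toEquiv w) = M G μ Set.univ o w := by
    intro w
    have h1 := M_univ_act hc g hμ o w
    rw [hg1] at h1
    exact h1
  simp only [Prod.map]
  rw [e1, e2, e2, hp, mul_comm]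

/-- The pair functional of one vertex. -/
noncomputable def dqPhi (G : SimpleGraph V) (μ : Measure (V → Bool)) (o v : V)
    (p : (V × ℕ → ℝ) × (V × ℕ → ℝ)) : ENNReal :=
  ENNReal.ofReal ((Cv G μ Set.univ o v p.1 - Cv G μ Set.univ o v p.2) ^ 2) +
    ENNReal.ofReal (Cv G μ Set.univ o v p.2 ^ 2 *
      (M G μ Set.univ v p.1 - M G μ Set.univ v p.2) ^ 2)

theorem dq_measurable_Phi1 (G : SimpleGraph V) (μ : Measure (V → Bool)) [IsProbabilityMeasure μ]
    (o v : V) : Measurable fun p : (V × ℕ → ℝ) × (V × ℕ → ℝ) =>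
      ENNReal.ofReal ((Cv G μ Set.univ o v p.1 - Cv G μ Set.univ o v p.2) ^ 2) :=
  Measurable.ennreal_ofReal ((((measurable_Cv G μ Set.univ o v).comp measurable_fst).sub
    ((measurable_Cv G μ Set.univ o v).comp measurable_snd)).pow_const 2)

theorem dq_measurable_Phi (G : SimpleGraph V) (μ : Measure (V → Bool)) [IsProbabilityMeasure μ]
    (o v : V) : Measurable (dqPhi G μ o v) := by
  unfold dqPhi
  refine (dq_measurable_Phi1 G μ o v).add (Measurable.ennreal_ofReal ?_)
  exact (((measurable_Cv G μ Set.univ o v).comp measurable_snd).pow_const 2).mul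
    ((((measurable_M G μ Set.univ v).comp measurable_fst).sub
      ((measurable_M G μ Set.univ v).comp measurable_snd)).pow_const 2)

/-- Sum over the vertices. -/
theorem dq_tsum_Phi [G.LocallyFinite] [Countable V] [IsProbabilityMeasure μ] {d : ℕ} {β : ℝ}
    (hE : Env G d β μ) {a : ℝ} (ha : 0 < a) (ha1 : a < 1) (o : V) (t : ℝ) :
    ∑' v : V, ∫⁻ p, dqPhi G μ o v p ∂(nuX G μ a t) = Gn G μ a o t + Hn G μ a o t := by
  unfold Gn Hn
  rw [← ENNReal.tsum_add]
  refine tsum_congr fun v => ?_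
  unfold dqPhi
  rw [lintegral_add_left (dq_measurable_Phi1 G μ o v), swap_term hE ha ha1 o v t]

/-- One event. -/
theorem dq_event [G.LocallyFinite] [Countable V] [IsProbabilityMeasure μ] {d : ℕ} {β : ℝ}
    (hE : Env G d β μ) {a : ℝ} (ha : 0 < a) (ha1 : a < 1) {C : ℝ} (hC0 : 0 ≤ C)
    (hC : ∀ (u : Arr V) (o : V) (e : V × ℕ), ∀ᵐ z ∂(DU G μ a u),
      (Jp G μ a o u z.1 e - Jp G μ a o u z.2 e) ^ 2 ≤
      C * str a e.2 (u e) ^ 2 *
        ((Cv G μ Set.univ o e.1 (ws a u z.1 (tau u e)) -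
            Cv G μ Set.univ o e.1 (ws a u z.2 (tau u e))) ^ 2 +
          Cv G μ Set.univ o e.1 (ws a u z.2 (tau u e)) ^ 2 *
            (M G μ Set.univ e.1 (ws a u z.1 (tau u e)) -
              M G μ Set.univ e.1 (ws a u z.2 (tau u e))) ^ 2))
    (o : V) (x : ℝ) (e : V × ℕ) :
    ∫⁻ z, (if tau z.1.1 e < x then
      ENNReal.ofReal ((Jp G μ a o z.1.1 z.1.2 e - Jp G μ a o z.2.1 z.2.2 e) ^ 2) else 0)
        ∂(PD G μ a) ≤
      2 * ∫⁻ y : unitInterval, (if (y : ℝ) < 1 / 2 then
        (if (e.2 : ℝ) + (y : ℝ) < x then ENNReal.ofReal (C * str a e.2 y ^ 2) else 0) *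
          ∫⁻ p, dqPhi G μ o e.1 p ∂(nuX G μ a ((e.2 : ℝ) + (y : ℝ))) else 0) := by
  obtain ⟨C', hC'0, hC'⟩ := exists_abs_Jp_le hE ha.le ha1
  have hh : Measurable fun y : unitInterval =>
      (if (e.2 : ℝ) + (y : ℝ) < x then ENNReal.ofReal (C * str a e.2 y ^ 2) else 0) := by
    refine Measurable.ite ?_ ?_ measurable_const
    · exact measurableSet_lt (measurable_const.add measurable_subtype_coe) measurable_const
    · refine Measurable.ennreal_ofReal ?_
      exact (((measurable_str a e.2).comp measurable_subtype_coe).pow_const 2).const_mul C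
  refine le_trans ?_ (palm hE ha.le ha1 e hh (dq_measurable_Phi G μ o e.1))
  refine lintegral_mono_ae ?_
  -- the jump inequality on the joint doubling
  have hjump : ∀ᵐ z ∂(PD G μ a),
      (Jp G μ a o (dqPi z).1 (dqPi z).2.1 e - Jp G μ a o (dqPi z).1 (dqPi z).2.2 e) ^ 2 ≤
      C * str a e.2 ((dqPi z).1 e) ^ 2 *
        ((Cv G μ Set.univ o e.1 (ws a (dqPi z).1 (dqPi z).2.1 (tau (dqPi z).1 e)) -
            Cv G μ Set.univ o e.1 (ws a (dqPi z).1 (dqPi z).2.2 (tau (dqPi z).1 e))) ^ 2 +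
          Cv G μ Set.univ o e.1 (ws a (dqPi z).1 (dqPi z).2.2 (tau (dqPi z).1 e)) ^ 2 *
            (M G μ Set.univ e.1 (ws a (dqPi z).1 (dqPi z).2.1 (tau (dqPi z).1 e)) -
              M G μ Set.univ e.1 (ws a (dqPi z).1 (dqPi z).2.2 (tau (dqPi z).1 e))) ^ 2) := by
    refine dq_ae (μ := μ) G a (p := fun q : Arr V × (Arr V × Arr V) =>
      (Jp G μ a o q.1 q.2.1 e - Jp G μ a o q.1 q.2.2 e) ^ 2 ≤
      C * str a e.2 (q.1 e) ^ 2 *
        ((Cv G μ Set.univ o e.1 (ws a q.1 q.2.1 (tau q.1 e)) -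
            Cv G μ Set.univ o e.1 (ws a q.1 q.2.2 (tau q.1 e))) ^ 2 +
          Cv G μ Set.univ o e.1 (ws a q.1 q.2.2 (tau q.1 e)) ^ 2 *
            (M G μ Set.univ e.1 (ws a q.1 q.2.1 (tau q.1 e)) -
              M G μ Set.univ e.1 (ws a q.1 q.2.2 (tau q.1 e))) ^ 2)) ?_ ?_
    · have m1 : Measurable fun q : Arr V × (Arr V × Arr V) => (q.1, q.2.1) := by fun_prop
      have m2 : Measurable fun q : Arr V × (Arr V × Arr V) => (q.1, q.2.2) := by fun_prop
      have mt : Measurable fun q : Arr V × (Arr V × Arr V) => tau q.1 e :=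
        (dq_measurable_tau e).comp measurable_fst
      have w1 : Measurable fun q : Arr V × (Arr V × Arr V) => ws a q.1 q.2.1 (tau q.1 e) :=
        (measurable_ws a).comp (mt.prodMk m1)
      have w2 : Measurable fun q : Arr V × (Arr V × Arr V) => ws a q.1 q.2.2 (tau q.1 e) :=
        (measurable_ws a).comp (mt.prodMk m2)
      refine measurableSet_le ?_ ?_
      · exact (((measurable_Jp G a o e).comp m1).sub ((measurable_Jp G a o e).comp m2)).pow_const 2
      · have c1 := (measurable_Cv G μ Set.univ o e.1).comp w1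
        have c2 := (measurable_Cv G μ Set.univ o e.1).comp w2
        have n1 := (measurable_M G μ Set.univ e.1).comp w1
        have n2 := (measurable_M G μ Set.univ e.1).comp w2
        have hs : Measurable fun q : Arr V × (Arr V × Arr V) => str a e.2 (q.1 e) :=
          (measurable_str a e.2).comp (measurable_subtype_coe.comp
            ((measurable_pi_apply e).comp measurable_fst))
        exact ((hs.pow_const 2).const_mul C).mul
          (((c1.sub c2).pow_const 2).add ((c2.pow_const 2).mul ((n1.sub n2).pow_const 2)))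
    · exact Eventually.of_forall fun u => hC u o e
  filter_upwards [PD_ae_eq (G := G) (μ := μ) a, hjump] with z hz hj
  by_cases h1 : tau z.1.1 e < x
  · simp only [h1, if_true]
    by_cases h2 : (z.1.1 e : ℝ) < 1 / 2
    · have h3 : (e.2 : ℝ) + (z.1.1 e : ℝ) < x := h1
      simp only [h2, h3, if_true]
      have e1 : (z.1.1, z.2.2) = z.2 := by rw [hz.1]
      have e2 : z.2.1 = z.1.1 := hz.1.symm
      simp only [dqPi] at hj
      rw [e2]
      unfold dqPhi
      rw [← ENNReal.ofReal_add (sq_nonneg _) (mul_nonneg (sq_nonneg _) (sq_nonneg _)),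
        ← ENNReal.ofReal_mul (mul_nonneg hC0 (sq_nonneg _))]
      exact ENNReal.ofReal_le_ofReal hj
    · have hs : str a e.2 (z.1.1 e) = 0 := by
        unfold str
        rw [if_neg h2]
      have hs2 : str a e.2 (z.2.1 e) = 0 := by rw [← hz.1, hs]
      have j1 : Jp G μ a o z.1.1 z.1.2 e = 0 := by
        have h4 := (hC' o z.1.1 z.1.2 e).2
        rw [hs, mul_zero, zero_mul] at h4
        exact abs_nonpos_iff.1 h4
      have j2 : Jp G μ a o z.2.1 z.2.2 e = 0 := by
        have h4 := (hC' o z.2.1 z.2.2 e).2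
        rw [hs2, mul_zero, zero_mul] at h4
        exact abs_nonpos_iff.1 h4
      rw [j1, j2]
      simp
  · simp [h1]

/-- The integral inequality. `Dn_eq_tsum`, `DU_jump`, `palm` (with
`h y = 1(j + y < x) str²`, `Φ = (Cv - Cv')²` and `Φ = Cv'² (M_v - M_v')²`), `swap_term`, and the sum
over `V × ℕ` is a sum over `j < J` (`tau u (v,j) ≥ j ≥ x` otherwise) and over `V`. -/
theorem dineq [G.LocallyFinite] [Countable V] [IsProbabilityMeasure μ] {d : ℕ} {β : ℝ}
    (hE : Env G d β μ) {a : ℝ} (ha : 0 < a) (ha1 : a < 1) :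
    ∃ C : ℝ, 0 ≤ C ∧ ∀ (o : V) (J : ℕ) (x : ℝ), 0 < x → x ≤ J →
      Dn G μ a o x ≤ ENNReal.ofReal C * ∑ j ∈ Finset.range J, ∫⁻ y : unitInterval,
        (if (y : ℝ) < 1 / 2 ∧ (j : ℝ) + y < x then ENNReal.ofReal (str a j y ^ 2) *
          (Gn G μ a o ((j : ℝ) + y) + Hn G μ a o ((j : ℝ) + y)) else 0) := by
  obtain ⟨C, hC0, hC⟩ := DU_jump (μ := μ) hE ha.le ha1
  refine ⟨2 * C, by positivity, fun o J x hx hxJ => ?_⟩
  rw [Dn_eq_tsum hE ha ha1 o hx]
  -- the sum over the events
  have hzero : ∀ (v : V) (j : ℕ), J ≤ j → ∫⁻ z, (if tau z.1.1 (v, j) < x then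
      ENNReal.ofReal ((Jp G μ a o z.1.1 z.1.2 (v, j) - Jp G μ a o z.2.1 z.2.2 (v, j)) ^ 2)
      else 0) ∂(PD G μ a) = 0 := by
    intro v j hj
    rw [lintegral_eq_zero_iff']
    · refine Eventually.of_forall fun z => ?_
      have h1 : ¬ tau z.1.1 (v, j) < x := by
        unfold tau
        have h2 : (J : ℝ) ≤ j := by exact_mod_cast hj
        have h3 := (z.1.1 (v, j)).2.1
        simp only [not_lt]
        linarith
      simp [h1]
    · refine Measurable.aemeasurable (Measurable.ite ?_ ?_ measurable_const)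
      · exact measurableSet_lt ((dq_measurable_tau _).comp (measurable_fst.comp measurable_fst))
          measurable_const
      · refine Measurable.ennreal_ofReal ?_
        exact (((measurable_Jp G a o _).comp measurable_fst).sub
          ((measurable_Jp G a o _).comp measurable_snd)).pow_const 2
  rw [ENNReal.tsum_prod', ENNReal.tsum_comm]
  have hsum : ∀ b ∉ Finset.range J, ∑' v : V, ∫⁻ z, (if tau z.1.1 (v, b) < x then
      ENNReal.ofReal ((Jp G μ a o z.1.1 z.1.2 (v, b) - Jp G μ a o z.2.1 z.2.2 (v, b)) ^ 2)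
      else 0) ∂(PD G μ a) = 0 := by
    intro b hb
    rw [Finset.mem_range, not_lt] at hb
    rw [ENNReal.tsum_eq_zero]
    exact fun v => hzero v b hb
  rw [tsum_eq_sum hsum, Finset.mul_sum]
  refine Finset.sum_le_sum fun j _ => ?_
  -- one round
  have hmeas : ∀ v : V, Measurable fun y : unitInterval => (if (y : ℝ) < 1 / 2 then
        (if (j : ℝ) + (y : ℝ) < x then ENNReal.ofReal (C * str a j y ^ 2) else 0) *
          ∫⁻ p, dqPhi G μ o v p ∂(nuX G μ a ((j : ℝ) + (y : ℝ))) else 0) := by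
    intro v
    refine Measurable.ite ?_ ?_ measurable_const
    · exact measurableSet_lt measurable_subtype_coe measurable_const
    · refine Measurable.mul ?_ ?_
      · refine Measurable.ite ?_ ?_ measurable_const
        · exact measurableSet_lt (measurable_const.add measurable_subtype_coe) measurable_const
        · refine Measurable.ennreal_ofReal ?_
          exact (((measurable_str a j).comp measurable_subtype_coe).pow_const 2).const_mul C
      · exact (measurable_nuX hE a (dq_measurable_Phi G μ o v)).comp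
          (measurable_const.add measurable_subtype_coe)
  calc ∑' v : V, ∫⁻ z, (if tau z.1.1 (v, j) < x then
      ENNReal.ofReal ((Jp G μ a o z.1.1 z.1.2 (v, j) - Jp G μ a o z.2.1 z.2.2 (v, j)) ^ 2)
      else 0) ∂(PD G μ a)
      ≤ ∑' v : V, 2 * ∫⁻ y : unitInterval, (if (y : ℝ) < 1 / 2 then
        (if (j : ℝ) + (y : ℝ) < x then ENNReal.ofReal (C * str a j y ^ 2) else 0) *
          ∫⁻ p, dqPhi G μ o v p ∂(nuX G μ a ((j : ℝ) + (y : ℝ))) else 0) :=
        ENNReal.tsum_le_tsum fun v => dq_event hE ha ha1 hC0 hC o x (v, j)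
    _ = 2 * ∫⁻ y : unitInterval, ∑' v : V, (if (y : ℝ) < 1 / 2 then
        (if (j : ℝ) + (y : ℝ) < x then ENNReal.ofReal (C * str a j y ^ 2) else 0) *
          ∫⁻ p, dqPhi G μ o v p ∂(nuX G μ a ((j : ℝ) + (y : ℝ))) else 0) := by
        rw [ENNReal.tsum_mul_left, lintegral_tsum fun v => (hmeas v).aemeasurable]
    _ = 2 * ∫⁻ y : unitInterval, ENNReal.ofReal C *
        (if (y : ℝ) < 1 / 2 ∧ (j : ℝ) + y < x then ENNReal.ofReal (str a j y ^ 2) *
          (Gn G μ a o ((j : ℝ) + y) + Hn G μ a o ((j : ℝ) + y)) else 0) := by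
        congr 1
        refine lintegral_congr fun y => ?_
        by_cases h1 : (y : ℝ) < 1 / 2
        · by_cases h2 : (j : ℝ) + (y : ℝ) < x
          · simp only [h1, h2, if_true, and_self]
            rw [ENNReal.tsum_mul_left, dq_tsum_Phi hE ha ha1 o, ENNReal.ofReal_mul hC0,
              mul_assoc]
          · have h3 : ¬ ((y : ℝ) < 1 / 2 ∧ (j : ℝ) + (y : ℝ) < x) := fun h => h2 h.2
            simp only [if_neg h2, if_neg h3, if_pos h1, zero_mul, tsum_zero, mul_zero]
        · have h3 : ¬ ((y : ℝ) < 1 / 2 ∧ (j : ℝ) + (y : ℝ) < x) := fun h => h1 h.1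
          simp only [if_neg h1, if_neg h3, tsum_zero, mul_zero]
    _ = ENNReal.ofReal (2 * C) * ∫⁻ y : unitInterval,
        (if (y : ℝ) < 1 / 2 ∧ (j : ℝ) + y < x then ENNReal.ofReal (str a j y ^ 2) *
          (Gn G μ a o ((j : ℝ) + y) + Hn G μ a o ((j : ℝ) + y)) else 0) := by
        rw [lintegral_const_mul' _ _ ENNReal.ofReal_ne_top, ← mul_assoc,
          ENNReal.ofReal_mul (by norm_num : (0 : ℝ) ≤ 2)]
        norm_num

end Vale.Agent.P161.Crit
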