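import Vale.Agent.Lib.P161.Crit.Defs

/-!
P161-CRIT, module Doub: general facts on the doubling `Doub P Ξ` (two copies conditionally
independent given `Ξ`).
-/

open MeasureTheory ProbabilityTheory

namespace Vale.Agent.P161.Crit

variable {T Y : Type*} [MeasurableSpace T] [StandardBorelSpace T] [Nonempty T]
  [MeasurableSpace Y] {P : Measure T} [IsProbabilityMeasure P] {Ξ : T → Y}

/-- Conditional expectation given `Ξ`. -/
noncomputable abbrev cx (P : Measure T) (Ξ : T → Y) (F : T → ℝ) : T → ℝ :=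
  P[F | MeasurableSpace.comap Ξ inferInstance]

/-! ### The doubling as a composition of kernels -/

/-- The regular conditional law given `Ξ`. -/
noncomputable abbrev kp {T Y : Type*} [MeasurableSpace T] [StandardBorelSpace T] [Nonempty T]
    [MeasurableSpace Y] (P : Measure T) [IsFiniteMeasure P] (Ξ : T → Y) : Kernel Y T :=
  condDistrib id Ξ P

omit [IsProbabilityMeasure P] in
theorem doub_eq_comp [IsFiniteMeasure P] :
    Doub P Ξ = ((kp P Ξ) ×ₖ (kp P Ξ)) ∘ₘ (P.map Ξ) := by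
  unfold Doub
  congr 1
  funext y
  rw [Kernel.prod_apply]

theorem kp_disint : P.map (fun x => (Ξ x, x)) = P.map Ξ ⊗ₘ kp P Ξ :=
  (compProd_map_condDistrib (X := Ξ) (aemeasurable_id (μ := P))).symm

omit [StandardBorelSpace T] [Nonempty T] in
theorem doub_prob_map (hΞ : Measurable Ξ) : IsProbabilityMeasure (P.map Ξ) :=
  Measure.isProbabilityMeasure_map hΞ.aemeasurable

theorem isProbabilityMeasure_doub (hΞ : Measurable Ξ) : IsProbabilityMeasure (Doub P Ξ) := by
  have := doub_prob_map (P := P) hΞ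
  rw [doub_eq_comp]
  infer_instance

/-- Lebesgue integrals with respect to the doubling. -/
theorem lintegral_doub (hΞ : Measurable Ξ) {f : T × T → ENNReal} (hf : Measurable f) :
    ∫⁻ z, f z ∂(Doub P Ξ) = ∫⁻ x, ∫⁻ z, f z ∂((kp P Ξ (Ξ x)).prod (kp P Ξ (Ξ x))) ∂P := by
  rw [doub_eq_comp, Measure.lintegral_bind (Kernel.aemeasurable _) hf.aemeasurable,
    lintegral_map (hf.lintegral_kernel) hΞ]
  refine lintegral_congr fun x => ?_
  rw [Kernel.prod_apply]

/-- Integrals with respect to the doubling. -/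
theorem integral_doub (hΞ : Measurable Ξ) {f : T × T → ℝ} (hf : Measurable f)
    (hC : ∃ C, ∀ z, |f z| ≤ C) :
    ∫ z, f z ∂(Doub P Ξ) = ∫ x, ∫ z, f z ∂((kp P Ξ (Ξ x)).prod (kp P Ξ (Ξ x))) ∂P := by
  have := doub_prob_map (P := P) hΞ
  have := isProbabilityMeasure_doub (P := P) hΞ
  obtain ⟨C, hC⟩ := hC
  have hint : Integrable f (Doub P Ξ) :=
    Integrable.of_bound hf.aestronglyMeasurable C
      (Filter.Eventually.of_forall fun x => by simpa [Real.norm_eq_abs] using hC x)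
  have h1 : Doub P Ξ = (((kp P Ξ) ×ₖ (kp P Ξ)) ∘ₖ (Kernel.const Unit (P.map Ξ))) () := by
    rw [doub_eq_comp, Measure.comp_eq_comp_const_apply]
  rw [h1] at hint ⊢
  rw [Kernel.integral_comp hint, Kernel.const_apply, integral_map hΞ.aemeasurable]
  · refine integral_congr_ae (Filter.Eventually.of_forall fun x => ?_)
    simp only [Kernel.prod_apply]
  · exact (hf.stronglyMeasurable.integral_kernel).aestronglyMeasurable

theorem cx_ae (hΞ : Measurable Ξ) {F : T → ℝ} (hF : Integrable F P) :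
    cx P Ξ F =ᵐ[P] fun x => ∫ y, F y ∂(kp P Ξ (Ξ x)) :=
  condExp_ae_eq_integral_condDistrib_id hΞ hF

omit [StandardBorelSpace T] [Nonempty T] in
theorem integrable_of_bd {F : T → ℝ} (hF : Measurable F) (hC : ∃ C, ∀ x, |F x| ≤ C) :
    Integrable F P := by
  obtain ⟨C, hC⟩ := hC
  exact Integrable.of_bound hF.aestronglyMeasurable C
    (Filter.Eventually.of_forall fun x => by simpa [Real.norm_eq_abs] using hC x)

/-- Characterisation: `∫ F(x) G(x') dDoub = ∫ E[F|Ξ] E[G|Ξ] dP`. -/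
theorem integral_doub_mul (hΞ : Measurable Ξ) {F F' : T → ℝ} (hF : Measurable F)
    (hF' : Measurable F') (hC : ∃ C, ∀ x, |F x| ≤ C) (hC' : ∃ C, ∀ x, |F' x| ≤ C) :
    ∫ z, F z.1 * F' z.2 ∂(Doub P Ξ) = ∫ x, cx P Ξ F x * cx P Ξ F' x ∂P := by
  have hb : ∃ C, ∀ z : T × T, |F z.1 * F' z.2| ≤ C := by
    obtain ⟨C, hC⟩ := hC
    obtain ⟨C', hC'⟩ := hC'
    refine ⟨C * C', fun z => ?_⟩
    rw [abs_mul]
    exact mul_le_mul (hC _) (hC' _) (abs_nonneg _) ((abs_nonneg _).trans (hC z.1))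
  rw [integral_doub hΞ (by fun_prop) hb]
  refine integral_congr_ae ?_
  filter_upwards [cx_ae hΞ (integrable_of_bd hF hC), cx_ae hΞ (integrable_of_bd hF' hC')]
    with x h1 h2
  rw [h1, h2]
  exact integral_prod_mul _ _

omit [MeasurableSpace T] [StandardBorelSpace T] [Nonempty T] in
theorem bd_indicator (A : Set T) : ∃ C : ℝ, ∀ x, |(A.indicator (1 : T → ℝ)) x| ≤ C := by
  refine ⟨1, fun x => ?_⟩
  by_cases h : x ∈ A <;> simp [h]

theorem doub_real_prod (hΞ : Measurable Ξ) {A B : Set T} (hA : MeasurableSet A)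
    (hB : MeasurableSet B) : (Doub P Ξ).real (A ×ˢ B) =
      ∫ x, cx P Ξ (A.indicator 1) x * cx P Ξ (B.indicator 1) x ∂P := by
  rw [← integral_doub_mul hΞ (measurable_one.indicator hA) (measurable_one.indicator hB)
    (bd_indicator A) (bd_indicator B), ← integral_indicator_one (hA.prod hB)]
  refine integral_congr_ae (Filter.Eventually.of_forall fun z => ?_)
  exact Set.indicator_prod_one

/-- Uniqueness. -/
theorem eq_doub (hΞ : Measurable Ξ) (ν : Measure (T × T)) [IsFiniteMeasure ν]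
    (h : ∀ A B : Set T, MeasurableSet A → MeasurableSet B →
      ν.real (A ×ˢ B) = ∫ x, cx P Ξ (A.indicator 1) x * cx P Ξ (B.indicator 1) x ∂P) :
    ν = Doub P Ξ := by
  have := isProbabilityMeasure_doub (P := P) hΞ
  refine Measure.ext_prod fun {A B} hA hB => ?_
  rw [← measureReal_eq_measureReal_iff, h A B hA hB, doub_real_prod hΞ hA hB]

omit [StandardBorelSpace T] [Nonempty T] in
theorem cx_univ (hΞ : Measurable Ξ) : cx P Ξ (Set.univ.indicator 1) = fun _ => (1 : ℝ) := by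
  have h1 : (Set.univ.indicator 1 : T → ℝ) = fun _ => (1 : ℝ) := by
    funext x; simp
  rw [cx, h1]
  exact condExp_const hΞ.comap_le (1 : ℝ)

theorem doub_swap (hΞ : Measurable Ξ) : (Doub P Ξ).map Prod.swap = Doub P Ξ := by
  have := isProbabilityMeasure_doub (P := P) hΞ
  have := Measure.isProbabilityMeasure_map (μ := Doub P Ξ) measurable_swap.aemeasurable
  refine eq_doub hΞ _ fun A B hA hB => ?_
  rw [map_measureReal_apply measurable_swap (hA.prod hB), Set.preimage_swap_prod,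
    doub_real_prod hΞ hB hA]
  refine integral_congr_ae (Filter.Eventually.of_forall fun x => ?_)
  exact mul_comm _ _

theorem doub_fst (hΞ : Measurable Ξ) : (Doub P Ξ).map Prod.fst = P := by
  have := isProbabilityMeasure_doub (P := P) hΞ
  have := Measure.isProbabilityMeasure_map (μ := Doub P Ξ) measurable_fst.aemeasurable
  ext A hA
  rw [← measureReal_eq_measureReal_iff, map_measureReal_apply measurable_fst hA]
  have h1 : (Prod.fst : T × T → T) ⁻¹' A = A ×ˢ Set.univ := by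
    ext z; simp
  rw [h1, doub_real_prod hΞ hA MeasurableSet.univ, cx_univ hΞ]
  simp only [mul_one]
  rw [integral_condExp hΞ.comap_le, integral_indicator_one hA]

theorem doub_snd (hΞ : Measurable Ξ) : (Doub P Ξ).map Prod.snd = P := by
  conv_lhs => rw [← doub_swap hΞ]
  rw [Measure.map_map measurable_snd measurable_swap]
  exact doub_fst hΞ

/-- The two copies have the same `Ξ`. -/
theorem doub_ae_eq [StandardBorelSpace Y] (hΞ : Measurable Ξ) :
    ∀ᵐ z ∂(Doub P Ξ), Ξ z.1 = Ξ z.2 := by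
  have := isProbabilityMeasure_doub (P := P) hΞ
  have key : ∀ C : Set Y, MeasurableSet C → ∀ᵐ z ∂(Doub P Ξ), Ξ z.1 ∈ C → Ξ z.2 ∈ C := by
    intro C hC
    have h1 : (Doub P Ξ).real ((Ξ ⁻¹' C) ×ˢ (Ξ ⁻¹' Cᶜ)) = 0 := by
      rw [doub_real_prod hΞ (hΞ hC) (hΞ hC.compl)]
      have e : ∀ D : Set Y, MeasurableSet D →
          cx P Ξ ((Ξ ⁻¹' D).indicator 1) = (Ξ ⁻¹' D).indicator 1 := by
        intro D hD
        refine condExp_of_stronglyMeasurable hΞ.comap_le ?_ ?_
        · refine StronglyMeasurable.indicator stronglyMeasurable_one ?_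
          exact ⟨D, hD, rfl⟩
        · exact integrable_of_bd (measurable_one.indicator (hΞ hD)) (bd_indicator _)
      rw [e C hC, e Cᶜ hC.compl]
      have h2 : ∀ x : T, (Ξ ⁻¹' C).indicator (1 : T → ℝ) x *
          (Ξ ⁻¹' Cᶜ).indicator (1 : T → ℝ) x = 0 := by
        intro x
        by_cases h : Ξ x ∈ C <;> simp [h]
      simp only [h2, integral_zero]
    have h3 : (Doub P Ξ) ((Ξ ⁻¹' C) ×ˢ (Ξ ⁻¹' Cᶜ)) = 0 := by
      rwa [measureReal_eq_zero_iff] at h1
    have h4 := measure_eq_zero_iff_ae_notMem.1 h3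
    filter_upwards [h4] with z hz h5
    by_contra h6
    exact hz ⟨h5, h6⟩
  set e := embeddingReal Y with he
  have hem : MeasurableEmbedding e := measurableEmbedding_embeddingReal Y
  have h7 : ∀ᵐ z ∂(Doub P Ξ), ∀ q : ℚ, (e (Ξ z.1) ≤ q → e (Ξ z.2) ≤ q) ∧
      ((q : ℝ) < e (Ξ z.1) → (q : ℝ) < e (Ξ z.2)) := by
    rw [ae_all_iff]
    intro q
    filter_upwards [key (e ⁻¹' Set.Iic (q : ℝ)) (hem.measurable measurableSet_Iic),
      key (e ⁻¹' Set.Ioi (q : ℝ)) (hem.measurable measurableSet_Ioi)] with z h8 h9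
    exact ⟨h8, h9⟩
  filter_upwards [h7] with z hz
  refine hem.injective ?_
  refine le_antisymm ?_ ?_
  · by_contra hcon
    push Not at hcon
    obtain ⟨q, h1, h2⟩ := exists_rat_btwn hcon
    exact absurd ((hz q).2 h2) (not_lt.2 h1.le)
  · by_contra hcon
    push Not at hcon
    obtain ⟨q, h1, h2⟩ := exists_rat_btwn hcon
    exact absurd ((hz q).1 h1.le) (not_le.2 h2)

/-- Functions of `Ξ` can be pulled out. -/
theorem integral_doub_mul_fun (hΞ : Measurable Ξ) {F F' : T → ℝ} (hF : Measurable F)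
    (hF' : Measurable F') (hC : ∃ C, ∀ x, |F x| ≤ C) (hC' : ∃ C, ∀ x, |F' x| ≤ C)
    {K : Y → ℝ} (hK : Measurable K) (hKC : ∃ C, ∀ x, |K x| ≤ C) :
    ∫ z, F z.1 * F' z.2 * K (Ξ z.1) ∂(Doub P Ξ) =
      ∫ x, cx P Ξ F x * cx P Ξ F' x * K (Ξ x) ∂P := by
  have hb : ∃ C, ∀ x, |F x * K (Ξ x)| ≤ C := by
    obtain ⟨C, hC⟩ := hC
    obtain ⟨C', hC'⟩ := hKC
    refine ⟨C * C', fun z => ?_⟩
    rw [abs_mul]
    exact mul_le_mul (hC _) (hC' _) (abs_nonneg _) ((abs_nonneg _).trans (hC z))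
  have hFK : Measurable fun x => F x * K (Ξ x) := hF.mul (hK.comp hΞ)
  have h1 : ∫ z, F z.1 * F' z.2 * K (Ξ z.1) ∂(Doub P Ξ) =
      ∫ z, (fun x => F x * K (Ξ x)) z.1 * F' z.2 ∂(Doub P Ξ) :=
    integral_congr_ae (Filter.Eventually.of_forall fun z => by ring)
  rw [h1, integral_doub_mul hΞ hFK hF' hb hC']
  have hKm : StronglyMeasurable[MeasurableSpace.comap Ξ inferInstance] fun x => K (Ξ x) :=
    (hK.comp (comap_measurable Ξ)).stronglyMeasurable
  have h2 : cx P Ξ (fun x => F x * K (Ξ x)) =ᵐ[P] fun x => cx P Ξ F x * K (Ξ x) :=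
    condExp_mul_of_stronglyMeasurable_right hKm (integrable_of_bd hFK hb) (integrable_of_bd hF hC)
  refine integral_congr_ae ?_
  filter_upwards [h2] with x hx
  rw [hx]
  ring

omit [StandardBorelSpace T] [Nonempty T] in
theorem integral_cx_sq (hΞ : Measurable Ξ) {F : T → ℝ} (hF : Measurable F)
    (hC : ∃ C, ∀ x, |F x| ≤ C) :
    ∫ x, F x * cx P Ξ F x ∂P = ∫ x, cx P Ξ F x * cx P Ξ F x ∂P := by
  have h1 : cx P Ξ (fun x => F x * cx P Ξ F x) =ᵐ[P] fun x => cx P Ξ F x * cx P Ξ F x := by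
    refine condExp_mul_of_stronglyMeasurable_right stronglyMeasurable_condExp ?_
      (integrable_of_bd hF hC)
    obtain ⟨C, hC⟩ := hC
    refine Integrable.bdd_mul integrable_condExp hF.aestronglyMeasurable (c := C)
      (Filter.Eventually.of_forall fun x => ?_)
    simpa [Real.norm_eq_abs] using hC x
  rw [← integral_condExp hΞ.comap_le (f := fun x => F x * cx P Ξ F x)]
  exact integral_congr_ae h1

/-- Conditional expectations of bounded functions are bounded. -/
theorem cx_bd (hΞ : Measurable Ξ) {F : T → ℝ} (hF : Measurable F) {C : ℝ}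
    (hC : ∀ x, |F x| ≤ C) : ∀ᵐ x ∂P, |cx P Ξ F x| ≤ C := by
  filter_upwards [cx_ae (P := P) hΞ (integrable_of_bd hF ⟨C, hC⟩)] with x hx
  rw [hx]
  have h1 := norm_integral_le_of_norm_le_const (μ := kp P Ξ (Ξ x)) (f := F) (C := C)
    (Filter.Eventually.of_forall fun z => by
      rw [Real.norm_eq_abs]
      exact hC _)
  simpa [Real.norm_eq_abs] using h1

/-- `E (F(x) - F(x'))² = 2 E (F - E[F|Ξ])²`. -/
theorem integral_doub_sub_sq (hΞ : Measurable Ξ) {F : T → ℝ} (hF : Measurable F)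
    (hC : ∃ C, ∀ x, |F x| ≤ C) :
    ∫ z, (F z.1 - F z.2) ^ 2 ∂(Doub P Ξ) = 2 * ∫ x, (F x - cx P Ξ F x) ^ 2 ∂P := by
  have := isProbabilityMeasure_doub (P := P) hΞ
  obtain ⟨C, hC⟩ := hC
  have hone : ∃ C : ℝ, ∀ x : T, |(fun _ : T => (1 : ℝ)) x| ≤ C := ⟨1, fun x => by simp⟩
  have hsq : ∃ C : ℝ, ∀ x : T, |(fun x => F x ^ 2) x| ≤ C := by
    refine ⟨C ^ 2, fun x => ?_⟩
    rw [abs_pow]
    exact pow_le_pow_left₀ (abs_nonneg _) (hC x) 2
  have hcx1 : cx P Ξ (fun _ => (1 : ℝ)) = fun _ => (1 : ℝ) := condExp_const hΞ.comap_le (1 : ℝ)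
  have h1 := integral_doub_mul (P := P) hΞ (hF.pow_const 2) measurable_const hsq hone
  have h2 := integral_doub_mul (P := P) hΞ measurable_const (hF.pow_const 2) hone hsq
  have h3 := integral_doub_mul (P := P) hΞ hF hF ⟨C, hC⟩ ⟨C, hC⟩
  simp only [hcx1, mul_one, one_mul] at h1 h2
  rw [integral_condExp hΞ.comap_le] at h1 h2
  have hi : ∀ {g : T × T → ℝ} (D : ℝ), Measurable g → (∀ z, |g z| ≤ D) →
      Integrable g (Doub P Ξ) := by
    intro g D hg hD
    exact Integrable.of_bound hg.aestronglyMeasurable D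
      (Filter.Eventually.of_forall fun x => by simpa [Real.norm_eq_abs] using hD x)
  have hFsq : ∀ x, |F x ^ 2| ≤ C ^ 2 := fun x => by
    rw [abs_pow]
    exact pow_le_pow_left₀ (abs_nonneg _) (hC x) 2
  have i1 : Integrable (fun z : T × T => F z.1 ^ 2) (Doub P Ξ) :=
    hi (C ^ 2) (by fun_prop) fun z => hFsq _
  have i2 : Integrable (fun z : T × T => F z.2 ^ 2) (Doub P Ξ) :=
    hi (C ^ 2) (by fun_prop) fun z => hFsq _
  have i3 : Integrable (fun z : T × T => F z.1 * F z.2) (Doub P Ξ) :=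
    hi (C * C) (by fun_prop) fun z => by
      rw [abs_mul]
      exact mul_le_mul (hC _) (hC _) (abs_nonneg _) ((abs_nonneg _).trans (hC z.1))
  have h4 : ∫ z, (F z.1 - F z.2) ^ 2 ∂(Doub P Ξ) =
      ∫ z, F z.1 ^ 2 ∂(Doub P Ξ) + ∫ z, F z.2 ^ 2 ∂(Doub P Ξ) -
        2 * ∫ z, F z.1 * F z.2 ∂(Doub P Ξ) := by
    have i4 : Integrable (fun z : T × T => F z.1 ^ 2 + F z.2 ^ 2) (Doub P Ξ) := i1.add i2
    rw [← integral_add i1 i2, ← integral_const_mul, ← integral_sub i4 (i3.const_mul 2)]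
    refine integral_congr_ae (Filter.Eventually.of_forall fun z => ?_)
    ring
  have j1 : Integrable (fun x => F x ^ 2) P := integrable_of_bd (hF.pow_const 2) hsq
  have j2 : Integrable (fun x => F x * cx P Ξ F x) P := by
    refine Integrable.bdd_mul integrable_condExp hF.aestronglyMeasurable (c := C)
      (Filter.Eventually.of_forall fun x => ?_)
    simpa [Real.norm_eq_abs] using hC x
  have j3 : Integrable (fun x => cx P Ξ F x * cx P Ξ F x) P := by
    refine Integrable.bdd_mul integrable_condExp integrable_condExp.aestronglyMeasurable (c := C) ?_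
    filter_upwards [cx_bd (P := P) hΞ hF hC] with x hx
    simpa [Real.norm_eq_abs] using hx
  have h5 : ∫ x, (F x - cx P Ξ F x) ^ 2 ∂P =
      ∫ x, F x ^ 2 ∂P - 2 * ∫ x, F x * cx P Ξ F x ∂P + ∫ x, cx P Ξ F x * cx P Ξ F x ∂P := by
    have j4 : Integrable (fun x => F x ^ 2 - 2 * (F x * cx P Ξ F x)) P :=
      j1.sub (j2.const_mul 2)
    rw [← integral_const_mul, ← integral_sub j1 (j2.const_mul 2), ← integral_add j4 j3]
    refine integral_congr_ae (Filter.Eventually.of_forall fun z => ?_)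
    ring
  rw [h4, h5, h1, h2, h3, integral_cx_sq hΞ hF ⟨C, hC⟩]
  ring

/-- If the two copies of a bounded real function agree then it is a function of `Ξ`. -/
theorem exists_factor (hΞ : Measurable Ξ) {F : T → ℝ} (hF : Measurable F)
    (hC : ∃ C, ∀ x, |F x| ≤ C) (h : ∫ z, (F z.1 - F z.2) ^ 2 ∂(Doub P Ξ) = 0) :
    ∃ K : Y → ℝ, Measurable K ∧ ∀ᵐ x ∂P, F x = K (Ξ x) := by
  refine ⟨fun y => ∫ x, F x ∂(kp P Ξ y),
    (hF.stronglyMeasurable.integral_kernel).measurable, ?_⟩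
  have h1 := integral_doub_sub_sq (P := P) hΞ hF hC
  rw [h] at h1
  have h2 : ∫ x, (F x - cx P Ξ F x) ^ 2 ∂P = 0 := by linarith
  obtain ⟨C, hC⟩ := hC
  have hint : Integrable (fun x => (F x - cx P Ξ F x) ^ 2) P := by
    refine Integrable.of_bound ?_ ((2 * C) ^ 2) ?_
    · exact (hF.aestronglyMeasurable.sub integrable_condExp.aestronglyMeasurable).pow 2
    · filter_upwards [cx_bd (P := P) hΞ hF hC] with x hx
      rw [Real.norm_eq_abs, abs_pow]
      refine pow_le_pow_left₀ (abs_nonneg _) ?_ 2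
      have h3 := abs_sub (F x) (cx P Ξ F x)
      have h4 := hC x
      linarith
  rw [integral_eq_zero_iff_of_nonneg (fun x => sq_nonneg _) hint] at h2
  filter_upwards [h2, cx_ae (P := P) hΞ (integrable_of_bd hF ⟨C, hC⟩)] with x h3 h4
  have h5 : F x - cx P Ξ F x = 0 := by
    have : (F x - cx P Ξ F x) ^ 2 = 0 := h3
    exact pow_eq_zero_iff (two_ne_zero) |>.1 this
  rw [← h4]
  linarith

/-! ### General kernels -/

/-- A version of the conditional law gives the doubling. -/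
theorem doub_eq_of_kernel (η : Kernel Y T) [IsFiniteKernel η]
    (hη : P.map (fun x => (Ξ x, x)) = P.map Ξ ⊗ₘ η) :
    Doub P Ξ = (η ×ₖ η) ∘ₘ (P.map Ξ) := by
  have h1 : kp P Ξ =ᵐ[P.map Ξ] η :=
    condDistrib_ae_eq_of_measure_eq_compProd Ξ (aemeasurable_id (μ := P)) hη
  rw [doub_eq_comp]
  refine Measure.comp_congr ?_
  filter_upwards [h1] with y hy
  rw [Kernel.prod_apply, Kernel.prod_apply, hy]

/-- Transport: `φ` and `ψ` measurable, `ψ` with a measurable left inverse,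
`P' = P.map φ`, `Ξ' ∘ φ = ψ ∘ Ξ` a.s.; then `Doub P' Ξ' = (Doub P Ξ).map (φ × φ)`
(σ(Ξ' ∘ φ) = σ(Ξ)). -/
theorem doub_map {T' Y' : Type*} [MeasurableSpace T'] [StandardBorelSpace T'] [Nonempty T']
    [MeasurableSpace Y'] {P' : Measure T'} [IsProbabilityMeasure P'] {Ξ' : T' → Y'}
    (hΞ : Measurable Ξ) (hΞ' : Measurable Ξ') {φ : T → T'} (hφ : Measurable φ)
    (hP' : P' = P.map φ) {ψ : Y → Y'} {ψ' : Y' → Y} (hψ : Measurable ψ) (hψ' : Measurable ψ')
    (hinv : ∀ x, ψ' (ψ x) = x) (h : ∀ᵐ x ∂P, Ξ' (φ x) = ψ (Ξ x)) :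
    Doub P' Ξ' = (Doub P Ξ).map (Prod.map φ φ) := by
  have := doub_prob_map (P := P) hΞ
  have := doub_prob_map (P := P') hΞ'
  have := isProbabilityMeasure_doub (P := P) hΞ
  -- the conditional law given `Ξ'`
  let η : Kernel Y' T' := ((kp P Ξ).map φ).comap ψ' hψ'
  have : IsMarkovKernel ((kp P Ξ).map φ) := Kernel.IsMarkovKernel.map _ hφ
  have : IsMarkovKernel η := inferInstance
  have hηa : ∀ y, η (ψ y) = (kp P Ξ y).map φ := by
    intro y
    rw [Kernel.comap_apply, hinv, Kernel.map_apply _ hφ]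
  have hmap : P'.map Ξ' = (P.map Ξ).map ψ := by
    rw [hP', Measure.map_map hΞ' hφ, Measure.map_map hψ hΞ]
    exact Measure.map_congr h
  have hη : P'.map (fun x => (Ξ' x, x)) = P'.map Ξ' ⊗ₘ η := by
    have hm2 : Measurable fun x : T' => (Ξ' x, x) := hΞ'.prodMk measurable_id
    have hm1 : Measurable fun x : T => (Ξ x, x) := hΞ.prodMk measurable_id
    have := Measure.isProbabilityMeasure_map (μ := P') hm2.aemeasurable
    refine Measure.ext_prod fun {C A} hC hA => ?_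
    have e1 : (P'.map (fun x => (Ξ' x, x))) (C ×ˢ A) =
        (P.map (fun x => (Ξ x, x))) ((ψ ⁻¹' C) ×ˢ (φ ⁻¹' A)) := by
      rw [Measure.map_apply hm2 (hC.prod hA), hP', Measure.map_apply hφ (hm2 (hC.prod hA)),
        Measure.map_apply hm1 ((hψ hC).prod (hφ hA))]
      refine measure_congr ?_
      filter_upwards [h] with x hx
      have : (x ∈ φ ⁻¹' ((fun x => (Ξ' x, x)) ⁻¹' C ×ˢ A)) =
          (x ∈ (fun x => (Ξ x, x)) ⁻¹' (ψ ⁻¹' C) ×ˢ (φ ⁻¹' A)) := by
        simp only [Set.mem_preimage, Set.mem_prod, hx]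
      exact this
    rw [e1, kp_disint, Measure.compProd_apply_prod (hψ hC) (hφ hA), hmap,
      Measure.compProd_apply_prod hC hA, setLIntegral_map hC (Kernel.measurable_coe η hA) hψ]
    refine lintegral_congr fun y => ?_
    rw [hηa, Measure.map_apply hφ hA]
  rw [doub_eq_of_kernel η hη, hmap, doub_eq_comp]
  ext S hS
  have hS' : MeasurableSet (Prod.map φ φ ⁻¹' S) := (hφ.prodMap hφ) hS
  rw [Measure.bind_apply hS (Kernel.aemeasurable _), lintegral_map (Kernel.measurable_coe _ hS) hψ,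
    Measure.map_apply (hφ.prodMap hφ) hS, Measure.bind_apply hS' (Kernel.aemeasurable _)]
  refine lintegral_congr fun y => ?_
  rw [Kernel.prod_apply, Kernel.prod_apply, hηa, Measure.map_prod_map _ _ hφ hφ,
    Measure.map_apply (hφ.prodMap hφ) hS]

/-- Rectangle formula: `η` is a version of the conditional law of `r` given `Ξ`. -/
theorem doub_rect {T₁ : Type*} [MeasurableSpace T₁] (hΞ : Measurable Ξ) {r : T → T₁}
    (hr : Measurable r) (η : Kernel Y T₁) [IsMarkovKernel η]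
    (hη : P.map (fun x => (Ξ x, r x)) = P.map Ξ ⊗ₘ η) {A B : Set T₁} {C : Set Y}
    (hA : MeasurableSet A) (hB : MeasurableSet B) (hC : MeasurableSet C) :
    (Doub P Ξ) {z | (r z.1 ∈ A ∧ r z.2 ∈ B) ∧ Ξ z.1 ∈ C} =
      ∫⁻ y in C, η y A * η y B ∂(P.map Ξ) := by
  have := doub_prob_map (P := P) hΞ
  have hm1 : Measurable fun x : T => (Ξ x, x) := hΞ.prodMk measurable_id
  have key : ∀ (D : Set T₁) (E : Set Y), MeasurableSet D → MeasurableSet E →
      (fun y => kp P Ξ y (r ⁻¹' D ∩ Ξ ⁻¹' E)) =ᵐ[P.map Ξ] E.indicator (fun y => η y D) := by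
    intro D E hD hE
    refine ae_eq_of_forall_setLIntegral_eq_of_sigmaFinite
      (Kernel.measurable_coe _ ((hr hD).inter (hΞ hE)))
      ((Kernel.measurable_coe _ hD).indicator hE) fun S hS _ => ?_
    rw [← Measure.compProd_apply_prod hS ((hr hD).inter (hΞ hE)), ← kp_disint,
      Measure.map_apply hm1 (hS.prod ((hr hD).inter (hΞ hE))),
      setLIntegral_indicator hE, ← Measure.compProd_apply_prod (hE.inter hS) hD, ← hη,
      Measure.map_apply (hΞ.prodMk hr) ((hE.inter hS).prod hD)]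
    congr 1
    ext x
    simp only [Set.mem_preimage, Set.mem_prod, Set.mem_inter_iff]
    tauto
  have hset : {z : T × T | (r z.1 ∈ A ∧ r z.2 ∈ B) ∧ Ξ z.1 ∈ C} =
      (r ⁻¹' A ∩ Ξ ⁻¹' C) ×ˢ (r ⁻¹' B ∩ Ξ ⁻¹' Set.univ) := by
    ext z
    simp only [Set.mem_ofPred_eq, Set.mem_prod, Set.mem_inter_iff, Set.mem_preimage, Set.mem_univ]
    tauto
  rw [hset, doub_eq_comp, Measure.bind_apply (((hr hA).inter (hΞ hC)).prod
    ((hr hB).inter (hΞ MeasurableSet.univ))) (Kernel.aemeasurable _), ← lintegral_indicator hC]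
  refine lintegral_congr_ae ?_
  filter_upwards [key A C hA hC, key B Set.univ hB MeasurableSet.univ] with y h1 h2
  rw [Kernel.prod_apply, Measure.prod_prod, h1, h2]
  by_cases hy : y ∈ C
  · simp [hy]
  · simp [hy]

/-- Splitting off an independent coordinate in a set integral. -/
theorem setLIntegral_prod_fst {Y₁ Y₂ : Type*} [MeasurableSpace Y₁] [MeasurableSpace Y₂]
    (μ : Measure Y₁) (ν : Measure Y₂) [SFinite μ] [SFinite ν] {g : Y₁ → ENNReal}
    (hg : Measurable g) (C₁ : Set Y₁) (C₂ : Set Y₂) :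
    ∫⁻ y in C₁ ×ˢ C₂, g y.1 ∂(μ.prod ν) = (∫⁻ y in C₁, g y ∂μ) * ν C₂ := by
  rw [← Measure.prod_restrict, lintegral_prod _ (by fun_prop)]
  simp only [lintegral_const, Measure.restrict_apply_univ]
  rw [lintegral_mul_const _ hg]

/-- Restriction to the past. `Ξ = (Ξ₁, Ξ₂)` with `Ξ₁ = f ∘ r`, and `r` independent of `Ξ₂`
(so `r(x)`, in particular `Ξ₁`, is independent of `Ξ₂`). Then under `Doub P Ξ` the triple
`(r x, r x')`, `Ξ₂` has the law `Doub (P.map r) f ⊗ P.map Ξ₂`. -/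
theorem doub_restrict {T₁ Y₁ Y₂ : Type*} [MeasurableSpace T₁] [StandardBorelSpace T₁] [Nonempty T₁]
    [MeasurableSpace Y₁] [MeasurableSpace Y₂] {r : T → T₁} (hr : Measurable r) {f : T₁ → Y₁}
    (hf : Measurable f) {Ξ₂ : T → Y₂} (hΞ₂ : Measurable Ξ₂)
    (hind : P.map (fun x => (r x, Ξ₂ x)) = (P.map r).prod (P.map Ξ₂))
    [IsProbabilityMeasure (P.map r)] :
    (Doub P (fun x => (f (r x), Ξ₂ x))).map (fun z => ((r z.1, r z.2), Ξ₂ z.1)) =
      (Doub (P.map r) f).prod (P.map Ξ₂) := by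
  let Ξ : T → Y₁ × Y₂ := fun x => (f (r x), Ξ₂ x)
  have hΞ : Measurable Ξ := (hf.comp hr).prodMk hΞ₂
  have i1 := doub_prob_map (P := P) hΞ
  have i2 := doub_prob_map (P := P.map r) hf
  have i3 := doub_prob_map (P := P) hΞ₂
  have i4 := isProbabilityMeasure_doub (P := P) hΞ
  have i5 := isProbabilityMeasure_doub (P := P.map r) hf
  let η : Kernel (Y₁ × Y₂) T₁ := (kp (P.map r) f).comap Prod.fst measurable_fst
  have hη1 : ∀ (y : Y₁ × Y₂), η y = kp (P.map r) f y.1 := fun y => Kernel.comap_apply _ _ _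
  have hm1 : Measurable fun x : T₁ => (f x, x) := hf.prodMk measurable_id
  have hm2 : Measurable fun x : T => (r x, Ξ₂ x) := hr.prodMk hΞ₂
  have hm3 : Measurable fun x : T => (Ξ x, r x) := hΞ.prodMk hr
  have hmapΞ : P.map Ξ = ((P.map r).map f).prod (P.map Ξ₂) := by
    have h1 : P.map Ξ = (P.map (fun x => (r x, Ξ₂ x))).map (Prod.map f id) := by
      rw [Measure.map_map (hf.prodMap measurable_id) hm2]
      rfl
    rw [h1, hind, ← Measure.map_prod_map _ _ hf measurable_id, Measure.map_id]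
  have hη : P.map (fun x => (Ξ x, r x)) = P.map Ξ ⊗ₘ η := by
    have := Measure.isProbabilityMeasure_map (μ := P) hm3.aemeasurable
    refine Measure.ext_prod₃' fun {C₁ C₂ A} hC₁ hC₂ hA => ?_
    rw [Measure.map_apply hm3 ((hC₁.prod hC₂).prod hA),
      Measure.compProd_apply_prod (hC₁.prod hC₂) hA, hmapΞ]
    simp only [hη1]
    rw [setLIntegral_prod_fst _ _ (Kernel.measurable_coe _ hA),
      ← Measure.compProd_apply_prod hC₁ hA, ← kp_disint, Measure.map_apply hm1 (hC₁.prod hA),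
      ← Measure.prod_prod, ← hind, Measure.map_apply hm2 ((hm1 (hC₁.prod hA)).prod hC₂)]
    congr 1
    ext x
    simp only [Set.mem_preimage, Set.mem_prod, Ξ]
    tauto
  have hmain : Measurable fun z : T × T => ((r z.1, r z.2), Ξ₂ z.1) :=
    ((hr.comp measurable_fst).prodMk (hr.comp measurable_snd)).prodMk (hΞ₂.comp measurable_fst)
  have := Measure.isProbabilityMeasure_map (μ := Doub P Ξ) hmain.aemeasurable
  change (Doub P Ξ).map (fun z : T × T => ((r z.1, r z.2), Ξ₂ z.1)) = _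
  refine Measure.ext_prod₃' fun {A B C} hA hB hC => ?_
  rw [Measure.map_apply hmain ((hA.prod hB).prod hC), Measure.prod_prod]
  have e3 : (fun z : T × T => ((r z.1, r z.2), Ξ₂ z.1)) ⁻¹' ((A ×ˢ B) ×ˢ C) =
      {z | (r z.1 ∈ A ∧ r z.2 ∈ B) ∧ Ξ z.1 ∈ Set.univ ×ˢ C} := by
    ext z
    simp [Ξ]
  rw [e3, doub_rect hΞ hr η hη hA hB (MeasurableSet.univ.prod hC), hmapΞ]
  simp only [hη1]
  rw [setLIntegral_prod_fst (g := fun y => kp (P.map r) f y A * kp (P.map r) f y B) _ _
    ((Kernel.measurable_coe _ hA).mul (Kernel.measurable_coe _ hB)), Measure.restrict_univ]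
  congr 1
  rw [doub_eq_comp, Measure.bind_apply (hA.prod hB) (Kernel.aemeasurable _)]
  refine lintegral_congr fun y => ?_
  rw [Kernel.prod_apply, Measure.prod_prod]

/-- Disintegration over a parameter: `P₀` a law of labels `u`, `κ u` the law of `t` given `u`,
`Ξ (u, t) = (u, ξ_u(t))`. The doubling is over `u` the doubling of `κ u`. -/
theorem doub_disint {U T Y : Type*} [MeasurableSpace U] [StandardBorelSpace U] [Nonempty U]
    [MeasurableSpace T] [StandardBorelSpace T] [Nonempty T] [MeasurableSpace Y]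
    [StandardBorelSpace Y] (P₀ : Measure U) [IsProbabilityMeasure P₀] (κ : Kernel U T)
    [IsMarkovKernel κ] (ξ : U → T → Y) (hξ : Measurable (Function.uncurry ξ)) :
    ∃ K : Kernel U (T × T), IsMarkovKernel K ∧
      (Doub (P₀ ⊗ₘ κ) (fun x : U × T => (x.1, ξ x.1 x.2))).map
        (fun z => (z.1.1, (z.1.2, z.2.2))) = P₀ ⊗ₘ K ∧
      ∀ᵐ u ∂P₀, K u = Doub (κ u) (ξ u) := by
  have hξu : ∀ u, Measurable (ξ u) := fun u => hξ.comp measurable_prodMk_left
  have hξ' : Measurable fun p : U × T => ξ p.1 p.2 := hξ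
  have hg : Measurable fun p : U × T => (ξ p.1 p.2, p.2) := hξ'.prodMk measurable_snd
  let κ' : Kernel U (Y × T) := (Kernel.id ×ₖ κ).map (fun p => (ξ p.1 p.2, p.2))
  have i1 : IsMarkovKernel κ' := Kernel.IsMarkovKernel.map _ hg
  have hm0 : ∀ u, Measurable fun t : T => (ξ u t, t) := fun u => (hξu u).prodMk measurable_id
  have hκ' : ∀ u, κ' u = (κ u).map (fun t => (ξ u t, t)) := by
    intro u
    rw [Kernel.map_apply _ hg, Kernel.prod_apply, Kernel.id_apply, Measure.dirac_prod,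
      Measure.map_map hg measurable_prodMk_left]
    rfl
  have hfst : ∀ u, κ'.fst u = (κ u).map (ξ u) := by
    intro u
    rw [Kernel.fst_apply, hκ', Measure.map_map measurable_fst (hm0 u)]
    rfl
  let ck : Kernel (U × Y) T := κ'.condKernel
  have i2 : IsMarkovKernel ck := inferInstance
  have hdis : κ'.fst ⊗ₖ ck = κ' := κ'.disintegrate ck
  let K : Kernel U (T × T) := (κ'.fst ⊗ₖ (ck ×ₖ ck)).snd
  have i3 : IsMarkovKernel K := inferInstance
  have hsec : ∀ u, (κ u).map (fun t => (ξ u t, t)) =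
      (κ u).map (ξ u) ⊗ₘ (Kernel.sectR ck u) := by
    intro u
    rw [← hκ', ← hfst, ← Kernel.compProd_apply_eq_compProd_sectR, hdis]
  have hKrect : ∀ (u : U) (A B : Set T), MeasurableSet A → MeasurableSet B →
      K u (A ×ˢ B) = ∫⁻ y, ck (u, y) A * ck (u, y) B ∂(κ'.fst u) := by
    intro u A B hA hB
    have hs : (Prod.snd : Y × (T × T) → T × T) ⁻¹' (A ×ˢ B) = Set.univ ×ˢ (A ×ˢ B) := by
      ext z; simp
    rw [Kernel.snd_apply' _ _ (hA.prod hB)]
    rw [hs, Kernel.compProd_apply_prod MeasurableSet.univ (hA.prod hB), Measure.restrict_univ]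
    refine lintegral_congr fun y => ?_
    rw [Kernel.prod_apply, Measure.prod_prod]
  have hK : ∀ u, K u = Doub (κ u) (ξ u) := by
    intro u
    have i4 := doub_prob_map (P := κ u) (hξu u)
    rw [doub_eq_of_kernel (Kernel.sectR ck u) (hsec u)]
    refine Measure.ext_prod fun {A B} hA hB => ?_
    rw [hKrect u A B hA hB, hfst, Measure.bind_apply (hA.prod hB) (Kernel.aemeasurable _)]
    refine lintegral_congr fun y => ?_
    rw [Kernel.prod_apply, Measure.prod_prod, Kernel.sectR_apply]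
  refine ⟨K, i3, ?_, Filter.Eventually.of_forall hK⟩
  let Ξ : U × T → U × Y := fun x => (x.1, ξ x.1 x.2)
  have hΞ : Measurable Ξ := measurable_fst.prodMk hξ'
  have i5 := isProbabilityMeasure_doub (P := P₀ ⊗ₘ κ) hΞ
  have i6 := doub_prob_map (P := P₀ ⊗ₘ κ) hΞ
  have hm3 : Measurable fun x : U × T => (Ξ x, x.2) := hΞ.prodMk measurable_snd
  have hmapΞ : (P₀ ⊗ₘ κ).map Ξ = P₀ ⊗ₘ κ'.fst := by
    refine Measure.ext_prod fun {C D} hC hD => ?_
    rw [Measure.map_apply hΞ (hC.prod hD), Measure.compProd_apply (hΞ (hC.prod hD)),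
      Measure.compProd_apply_prod hC hD, ← lintegral_indicator hC]
    refine lintegral_congr fun u => ?_
    by_cases hu : u ∈ C
    · rw [Set.indicator_of_mem hu, hfst, Measure.map_apply (hξu u) hD]
      congr 1
      ext t
      simp [Ξ, hu]
    · rw [Set.indicator_of_notMem hu]
      have : Prod.mk u ⁻¹' (Ξ ⁻¹' C ×ˢ D) = (∅ : Set T) := by
        ext t
        simp [Ξ, hu]
      rw [this, measure_empty]
  have hη : (P₀ ⊗ₘ κ).map (fun x => (Ξ x, x.2)) = (P₀ ⊗ₘ κ).map Ξ ⊗ₘ ck := by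
    have := Measure.isProbabilityMeasure_map (μ := P₀ ⊗ₘ κ) hm3.aemeasurable
    refine Measure.ext_prod₃' fun {C D A} hC hD hA => ?_
    rw [Measure.map_apply hm3 ((hC.prod hD).prod hA),
      Measure.compProd_apply_prod (hC.prod hD) hA, hmapΞ,
      Measure.setLIntegral_compProd (Kernel.measurable_coe _ hA) hC hD,
      Measure.compProd_apply (hm3 ((hC.prod hD).prod hA)), ← lintegral_indicator hC]
    refine lintegral_congr fun u => ?_
    by_cases hu : u ∈ C
    · rw [Set.indicator_of_mem hu]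
      have h1 : (κ u).map (fun t => (ξ u t, t)) (D ×ˢ A) = ∫⁻ y in D, ck (u, y) A ∂(κ'.fst u) := by
        rw [hsec u, Measure.compProd_apply_prod hD hA, hfst]
        rfl
      rw [← h1, Measure.map_apply (hm0 u) (hD.prod hA)]
      congr 1
      ext t
      simp [Ξ, hu]
    · rw [Set.indicator_of_notMem hu]
      have : Prod.mk u ⁻¹' ((fun x => (Ξ x, x.2)) ⁻¹' (C ×ˢ D) ×ˢ A) = (∅ : Set T) := by
        ext t
        simp [Ξ, hu]
      rw [this, measure_empty]
  have hmain : Measurable fun z : (U × T) × (U × T) => (z.1.1, (z.1.2, z.2.2)) := by fun_prop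
  have := Measure.isProbabilityMeasure_map (μ := Doub (P₀ ⊗ₘ κ) Ξ) hmain.aemeasurable
  change (Doub (P₀ ⊗ₘ κ) Ξ).map (fun z => (z.1.1, (z.1.2, z.2.2))) = _
  refine Measure.ext_prod₃ fun {C A B} hC hA hB => ?_
  rw [Measure.map_apply hmain (hC.prod (hA.prod hB))]
  have e3 : (fun z : (U × T) × (U × T) => (z.1.1, (z.1.2, z.2.2))) ⁻¹' (C ×ˢ A ×ˢ B) =
      {z | (z.1.2 ∈ A ∧ z.2.2 ∈ B) ∧ Ξ z.1 ∈ C ×ˢ Set.univ} := by
    ext z
    simp only [Set.mem_preimage, Set.mem_prod, Set.mem_ofPred_eq, Set.mem_univ, Ξ]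
    tauto
  rw [e3, doub_rect hΞ measurable_snd ck hη hA hB (hC.prod MeasurableSet.univ), hmapΞ,
    Measure.setLIntegral_compProd (f := fun y => ck y A * ck y B)
      ((Kernel.measurable_coe _ hA).mul (Kernel.measurable_coe _ hB)) hC MeasurableSet.univ,
    Measure.compProd_apply_prod hC (hA.prod hB)]
  refine lintegral_congr fun u => ?_
  rw [hKrect u A B hA hB, Measure.restrict_univ]

end Vale.Agent.P161.Crit
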