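import Vale.Agent.Lib.P161.Crit.Levy

/-!
P161-CRIT, module Edge: the recursion of the posterior means at an edge and the decoupling formula.

Notation: `p ~ q`, `θ = tanh β`, `b = M (R ∩ side p q) p`, `a = M (R ∩ side q p) q`.
-/

open MeasureTheory Filter Topology

namespace Vale.Agent.P161.Crit

theorem integral_mul_eq_zero_of_setIntegral {Ω : Type*} {m mΩ : MeasurableSpace Ω}
    {P : Measure Ω} [IsFiniteMeasure P] (hm : m ≤ mΩ) {H K : Ω → ℝ} (hH : Integrable H P)
    (h0 : ∀ s, MeasurableSet[m] s → ∫ ω in s, H ω ∂P = 0) (hK : StronglyMeasurable[m] K)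
    (hKC : ∃ C, ∀ ω, |K ω| ≤ C) : ∫ ω, H ω * K ω ∂P = 0 := by
  have hcond : P[H | m] =ᵐ[P] 0 := by
    refine (ae_eq_condExp_of_forall_setIntegral_eq hm hH
      (fun s _ _ => (integrable_zero _ _ _).integrableOn) ?_
      aestronglyMeasurable_zero).symm
    intro s hs _
    rw [h0 s hs]
    simp
  obtain ⟨C, hC⟩ := hKC
  have hint : Integrable (H * K) P := by
    refine hH.mul_bdd (c := C) ?_ (Eventually.of_forall fun ω => hC _)
    exact (hK.mono hm).aestronglyMeasurable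
  have h1 := condExp_mul_of_stronglyMeasurable_right hK hint hH
  have h2 : ∫ ω, (H * K) ω ∂P = 0 := by
    rw [← integral_condExp hm]
    rw [integral_congr_ae h1]
    have h3 : (P[H | m] * K) =ᵐ[P] 0 := by
      filter_upwards [hcond] with ω hω
      simp [hω]
    rw [integral_congr_ae h3]
    simp
  exact h2

/-- A bounded function which is orthogonal to all finite products of indicators of coordinates in
`R` is orthogonal to all bounded functions of the coordinates in `R`. -/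
theorem integral_mul_eq_zero_of_cyl {ι Ω Y : Type*} [MeasurableSpace Ω] [MeasurableSpace Y]
    {P : Measure Ω} [IsFiniteMeasure P] {y : Ω → ι → Y} (hy : Measurable y) {R : Set ι}
    {H : Ω → ℝ} (hH : Integrable H P)
    (h0 : ∀ (S : Finset ι), (∀ e ∈ S, e ∈ R) → ∀ t : ι → Set Y, (∀ e, MeasurableSet (t e)) →
      ∫ ω, H ω * ∏ e ∈ S, (t e).indicator (fun _ => (1 : ℝ)) (y ω e) ∂P = 0)
    {F : (ι → Y) → ℝ} (hF : Measurable F) (hFC : ∃ C, ∀ x, |F x| ≤ C)
    (hdep : ∀ x x' : ι → Y, (∀ e ∈ R, x e = x' e) → F x = F x') :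
    ∫ ω, H ω * F (y ω) ∂P = 0 := by
  classical
  rcases isEmpty_or_nonempty Ω with hΩ | ⟨⟨ω₀⟩⟩
  · rw [integral_of_isEmpty]
  set r : Ω → (R → Y) := fun ω e => y ω e with hr
  have hrm : Measurable r := measurable_pi_iff.2 fun e => (measurable_pi_apply _).comp hy
  -- set integrals vanish
  have key : ∀ B : Set (R → Y), MeasurableSet B → ∫ ω in r ⁻¹' B, H ω ∂P = 0 := by
    have htot : ∫ ω, H ω ∂P = 0 := by
      have h1 := h0 ∅ (by simp) (fun _ => Set.univ) (fun _ => MeasurableSet.univ)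
      simpa using h1
    refine MeasurableSpace.induction_on_inter
      (C := fun B _ => ∫ ω in r ⁻¹' B, H ω ∂P = 0)
      (generateFrom_squareCylinders (α := fun _ : R => Y)).symm
      (isPiSystem_squareCylinders (fun _ => MeasurableSpace.isPiSystem_measurableSet)
        (fun _ => MeasurableSet.univ)) ?_ ?_ ?_ ?_
    · simp
    · rintro B ⟨S, t, ht, rfl⟩
      have ht' : ∀ i, MeasurableSet (t i) := fun i => ht i (Set.mem_univ i)
      let t' : ι → Set Y := fun e => if h : e ∈ R then t ⟨e, h⟩ else Set.univ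
      have ht'' : ∀ e, MeasurableSet (t' e) := by
        intro e
        by_cases h : e ∈ R
        · simp only [t', dif_pos h]; exact ht' _
        · simp only [t', dif_neg h]; exact MeasurableSet.univ
      have h1 := h0 (S.map (Function.Embedding.subtype _)) (by
        intro e he
        obtain ⟨i, _, rfl⟩ := Finset.mem_map.1 he
        exact i.2) t' ht''
      have hms : MeasurableSet (r ⁻¹' ((S : Set R).pi t)) :=
        hrm (MeasurableSet.pi (Finset.countable_toSet S) fun i _ => ht' i)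
      rw [← integral_indicator hms]
      rw [← h1]
      refine integral_congr_ae (Eventually.of_forall fun ω => ?_)
      show (r ⁻¹' ((S : Set R).pi t)).indicator H ω = H ω *
        ∏ e ∈ S.map (Function.Embedding.subtype _), (t' e).indicator (fun _ => (1 : ℝ)) (y ω e)
      rw [Finset.prod_map]
      by_cases hω : ω ∈ r ⁻¹' ((S : Set R).pi t)
      · rw [Set.indicator_of_mem hω, Finset.prod_eq_one, mul_one]
        intro i hi
        refine Set.indicator_of_mem ?_ _
        have h2 : r ω i ∈ t i := hω i hi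
        simp only [Function.Embedding.subtype_apply, t', dif_pos i.2]
        exact h2
      · rw [Set.indicator_of_notMem hω]
        have h2 : ∃ i ∈ S, r ω i ∉ t i := by
          by_contra hcon
          push Not at hcon
          exact hω fun i hi => hcon i hi
        obtain ⟨i, hi, hit⟩ := h2
        rw [Finset.prod_eq_zero hi, mul_zero]
        refine Set.indicator_of_notMem ?_ _
        simp only [Function.Embedding.subtype_apply, t', dif_pos i.2]
        exact hit
    · intro B hB hB0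
      have h1 := integral_add_compl (hrm hB) hH
      rw [hB0, htot, zero_add] at h1
      rw [Set.preimage_compl]
      exact h1
    · intro f hf hfm hf0
      rw [Set.preimage_iUnion, integral_iUnion (fun i => hrm (hfm i)) ?_ hH.integrableOn]
      · simp only [hf0, tsum_zero]
      · intro i j hij
        exact (hf hij).preimage r
  -- `F ∘ y` is a function of `r`
  let F' : (R → Y) → ℝ := fun x => F fun e => if h : e ∈ R then x ⟨e, h⟩ else y ω₀ e
  have hF' : Measurable F' := by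
    refine hF.comp (measurable_pi_iff.2 fun e => ?_)
    by_cases h : e ∈ R
    · simp only [dif_pos h]; exact measurable_pi_apply _
    · simp only [dif_neg h]; exact measurable_const
  have hFr : (fun ω => F (y ω)) = fun ω => F' (r ω) := by
    funext ω
    refine hdep _ _ fun e he => ?_
    simp only [dif_pos he, hr]
  obtain ⟨C, hC⟩ := hFC
  refine integral_mul_eq_zero_of_setIntegral (m := MeasurableSpace.comap r inferInstance)
    (measurable_iff_comap_le.1 hrm) hH ?_ ?_ ⟨C, fun ω => hC _⟩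
  · rintro s ⟨B, hB, rfl⟩
    exact key B hB
  · have h3 := (hF'.comp (comap_measurable r)).stronglyMeasurable
    rw [hFr]
    exact h3


section edge

variable {V : Type*} {G : SimpleGraph V}
variable {Ω Y : Type*} [MeasurableSpace Ω] [MeasurableSpace Y]
variable {μ : Measure (V → Bool)} {P : Measure Ω} {s : Ω → V → Bool} {y : Ω → V × ℕ → Y}
variable {Q : V × ℕ → Measure Y} {ζ : V × ℕ → Y → ℝ} {b : ℝ}

/-- In a tree every vertex is on exactly one side of an edge. -/
theorem mem_side_or (hG : G.IsTree) {p q : V} (hpq : G.Adj p q) (e : V × ℕ) :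
    (e ∈ side G p q ∧ e ∉ side G q p) ∨ (e ∉ side G p q ∧ e ∈ side G q p) := by
  simp only [side, Set.mem_ofPred_eq]
  rcases hG.dist_eq_dist_add_one_of_adj e.1 hpq with h | h
  · right; omega
  · left; omega

/-! ### finite volume -/

open Classical in
theorem depOn_lk (S : Finset (V × ℕ)) (w : V × ℕ → ℝ) :
    DepOn ((S.image Prod.fst : Finset V) : Set V) (lk S w) :=
  depOn_prod S Prod.fst fun e c => 1 + w e * spin c

open Classical in
/-- Finite volume recursion at an edge (deterministic identity, from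
`IsFreeIsing.integral_mul_edge` applied to the two halves of the likelihood). -/
theorem ES_edge [G.LocallyFinite] {β : ℝ} (hG : G.IsTree) (hμ : IsFreeIsing G β μ)
    {b : ℝ} (hb0 : 0 ≤ b) (hb : b < 1) {p q : V} (hpq : G.Adj p q) (S : Finset (V × ℕ))
    {w : V × ℕ → ℝ} (hw : ∀ e, |w e| ≤ b) :
    ES μ S w (sp p) =
      (ES μ (S.filter (· ∈ side G p q)) w (sp p) +
        Real.tanh β * ES μ (S.filter (· ∈ side G q p)) w (sp q)) /
      (1 + Real.tanh β * ES μ (S.filter (· ∈ side G p q)) w (sp p) *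
        ES μ (S.filter (· ∈ side G q p)) w (sp q)) := by
  have hne : Nonempty V := ⟨p⟩
  have := hμ.isProbabilityMeasure
  set Sp := S.filter (· ∈ side G p q) with hSp
  set Sq := S.filter (· ∈ side G q p) with hSq
  have hlk : ∀ σ, lk S w σ = lk Sp w σ * lk Sq w σ := by
    intro σ
    have h1 : Sq = S.filter (fun e => ¬ e ∈ side G p q) := by
      rw [hSq]
      refine Finset.filter_congr fun e _ => ?_
      rcases mem_side_or hG hpq e with h | h
      · exact ⟨fun h' => absurd h' h.2, fun h' => absurd h.1 h'⟩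
      · exact ⟨fun _ => h.1, fun _ => h.2⟩
    rw [h1, hSp]
    exact (Finset.prod_filter_mul_prod_filter_not S _ _).symm
  have hA : ∀ x ∈ insert p (Sp.image Prod.fst), G.dist x q = G.dist x p + 1 := by
    intro x hx
    rcases Finset.mem_insert.1 hx with rfl | hx
    · rw [SimpleGraph.dist_self, SimpleGraph.dist_eq_one_iff_adj.2 hpq]
    · obtain ⟨e, he, rfl⟩ := Finset.mem_image.1 hx
      exact (Finset.mem_filter.1 he).2
  have hB : ∀ x ∈ insert q (Sq.image Prod.fst), G.dist x p = G.dist x q + 1 := by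
    intro x hx
    rcases Finset.mem_insert.1 hx with rfl | hx
    · rw [SimpleGraph.dist_self, SimpleGraph.dist_eq_one_iff_adj.2 hpq.symm]
    · obtain ⟨e, he, rfl⟩ := Finset.mem_image.1 hx
      exact (Finset.mem_filter.1 he).2
  have dA : DepOn ((insert p (Sp.image Prod.fst) : Finset V) : Set V) (lk Sp w) :=
    (depOn_lk Sp w).mono (by rw [Finset.coe_insert]; exact Set.subset_insert _ _)
  have dB : DepOn ((insert q (Sq.image Prod.fst) : Finset V) : Set V) (lk Sq w) :=
    (depOn_lk Sq w).mono (by rw [Finset.coe_insert]; exact Set.subset_insert _ _)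
  have dpA : DepOn ((insert p (Sp.image Prod.fst) : Finset V) : Set V)
      (fun σ => spin (σ p) * lk Sp w σ) := (depOn_spin (by simp)).mul dA
  have E1 := hμ.integral_mul_edge hG hpq hA hB dA dB
  have E2 := hμ.integral_mul_edge hG hpq hA hB dpA dB
  have sq1 : ∀ (x : V) (z : ℝ) (σ : V → Bool), spin (σ x) * (spin (σ x) * z) = z :=
    fun x z σ => by rw [← mul_assoc, spin_mul_self, one_mul]
  simp only [sq1] at E2
  have hA0 := integral_lk_pos hb0 hb μ (S := Sp) (w := w) (fun e _ => hw e)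
  have hB0 := integral_lk_pos hb0 hb μ (S := Sq) (w := w) (fun e _ => hw e)
  have hZ0 := integral_lk_pos hb0 hb μ (S := S) (w := w) (fun e _ => hw e)
  unfold ES sp
  have I1 : ∫ σ, lk S w σ ∂μ = ∫ σ, lk Sp w σ * lk Sq w σ ∂μ :=
    integral_congr_ae (Filter.Eventually.of_forall hlk)
  have I2 : ∫ σ, spin (σ p) * lk S w σ ∂μ = ∫ σ, (spin (σ p) * lk Sp w σ) * lk Sq w σ ∂μ :=
    integral_congr_ae (Filter.Eventually.of_forall fun σ => by
      show spin (σ p) * lk S w σ = (spin (σ p) * lk Sp w σ) * lk Sq w σ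
      rw [hlk σ]; ring)
  rw [I1] at hZ0
  rw [I1, I2, E1, E2]
  rw [E1] at hZ0
  set A0 := ∫ σ, lk Sp w σ ∂μ
  set B0 := ∫ σ, lk Sq w σ ∂μ
  set A1 := ∫ σ, spin (σ p) * lk Sp w σ ∂μ
  set B1 := ∫ σ, spin (σ q) * lk Sq w σ ∂μ
  have e1 : A1 / A0 + Real.tanh β * (B1 / B0) = (A1 * B0 + Real.tanh β * A0 * B1) / (A0 * B0) := by
    field_simp
  have e2 : 1 + Real.tanh β * (A1 / A0) * (B1 / B0) =
      (A0 * B0 + Real.tanh β * A1 * B1) / (A0 * B0) := by
    field_simp
  rw [e1, e2, div_div_div_cancel_right₀ (mul_pos hA0 hB0).ne']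

/-! ### infinite volume -/

theorem one_add_tanh_pos {β x z : ℝ} (hx : |x| ≤ 1) (hz : |z| ≤ 1) :
    0 < 1 + Real.tanh β * x * z := by
  have h1 := Real.abs_tanh_lt_one β
  have h2 : |Real.tanh β * x * z| < 1 := by
    rw [abs_mul, abs_mul]
    calc |Real.tanh β| * |x| * |z| ≤ |Real.tanh β| * 1 * 1 := by gcongr
      _ < 1 := by simpa using h1
  linarith [(abs_lt.1 h2).1]

/-- Infinite volume recursion at an edge. -/
theorem Obs.M_edge [G.LocallyFinite] {β : ℝ} (hG : G.IsTree) (hμ : IsFreeIsing G β μ)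
    (h : Obs μ P s y Q ζ b) (R : Set (V × ℕ)) {p q : V} (hpq : G.Adj p q) :
    ∀ᵐ ω ∂P, M G μ R p (slp ζ (y ω)) =
      (M G μ (R ∩ side G p q) p (slp ζ (y ω)) +
        Real.tanh β * M G μ (R ∩ side G q p) q (slp ζ (y ω))) /
      (1 + Real.tanh β * M G μ (R ∩ side G p q) p (slp ζ (y ω)) *
        M G μ (R ∩ side G q p) q (slp ζ (y ω))) := by
  classical
  have hne : Nonempty V := ⟨p⟩
  have := hμ.isProbabilityMeasure
  have hc := hG.connected
  have T1 := h.tendsto_bev hc R p p (measurable_sp p) ⟨1, abs_sp p⟩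
  have T2 := h.tendsto_bev hc (R ∩ side G p q) p p (measurable_sp p) ⟨1, abs_sp p⟩
  have T3 := h.tendsto_bev hc (R ∩ side G q p) p q (measurable_sp q) ⟨1, abs_sp q⟩
  filter_upwards [T1, T2, T3] with ω t1 t2 t3
  have hslp : ∀ e, |slp ζ (y ω) e| ≤ b := h.abs_slp_le (y ω)
  have hx := abs_M_le (G := G) h.b_nonneg h.b_lt μ hslp (R ∩ side G p q) p
  have hz := abs_M_le (G := G) h.b_nonneg h.b_lt μ hslp (R ∩ side G q p) q
  have hden := one_add_tanh_pos (β := β) hx hz
  have T : Tendsto (fun n => ES μ (bev G R p n) (slp ζ (y ω)) (sp p)) atTop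
      (𝓝 ((M G μ (R ∩ side G p q) p (slp ζ (y ω)) +
        Real.tanh β * M G μ (R ∩ side G q p) q (slp ζ (y ω))) /
      (1 + Real.tanh β * M G μ (R ∩ side G p q) p (slp ζ (y ω)) *
        M G μ (R ∩ side G q p) q (slp ζ (y ω))))) := by
    have h1 : ∀ n, ES μ (bev G R p n) (slp ζ (y ω)) (sp p) =
        (ES μ (bev G (R ∩ side G p q) p n) (slp ζ (y ω)) (sp p) +
          Real.tanh β * ES μ (bev G (R ∩ side G q p) p n) (slp ζ (y ω)) (sp q)) /
        (1 + Real.tanh β * ES μ (bev G (R ∩ side G p q) p n) (slp ζ (y ω)) (sp p) *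
          ES μ (bev G (R ∩ side G q p) p n) (slp ζ (y ω)) (sp q)) := by
      intro n
      rw [bev_inter hc, bev_inter hc]
      exact ES_edge hG hμ h.b_nonneg h.b_lt hpq _ hslp
    simp only [h1]
    exact (t2.add (t3.const_mul _)).div (((t2.const_mul _).mul t3).const_add 1) hden.ne'
  exact tendsto_nhds_unique t1 T

/-- The special case `R = univ`, with messages. -/
theorem Obs.M_univ_edge [G.LocallyFinite] {β : ℝ} (hG : G.IsTree) (hμ : IsFreeIsing G β μ)
    (h : Obs μ P s y Q ζ b) {p q : V} (hpq : G.Adj p q) :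
    ∀ᵐ ω ∂P, M G μ Set.univ p (slp ζ (y ω)) =
      (msg G μ p q (slp ζ (y ω)) + Real.tanh β * msg G μ q p (slp ζ (y ω))) /
      (1 + Real.tanh β * msg G μ p q (slp ζ (y ω)) * msg G μ q p (slp ζ (y ω))) := by
  have h1 := h.M_edge hG hμ Set.univ hpq
  simp only [Set.univ_inter] at h1
  exact h1

/-- Posterior at `p` given observations beyond the neighbour `q` only. -/
theorem Obs.M_beyond [G.LocallyFinite] {β : ℝ} (hG : G.IsTree) (hμ : IsFreeIsing G β μ)
    (h : Obs μ P s y Q ζ b) {R : Set (V × ℕ)} {p q : V} (hpq : G.Adj p q)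
    (hR : R ⊆ side G q p) :
    ∀ᵐ ω ∂P, M G μ R p (slp ζ (y ω)) = Real.tanh β * M G μ R q (slp ζ (y ω)) := by
  have h1 := h.M_edge hG hμ R hpq
  have e1 : R ∩ side G p q = ∅ := by
    rw [Set.eq_empty_iff_forall_notMem]
    rintro e ⟨he, he'⟩
    have h2 := hR he
    simp only [side, Set.mem_ofPred_eq] at h2 he'
    omega
  have e2 : R ∩ side G q p = R := Set.inter_eq_left.2 hR
  rw [e1, e2] at h1
  filter_upwards [h1] with ω hω
  rw [M_empty G hG.connected hμ] at hω
  rw [hω]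
  simp

/-! ### decoupling -/

/-- the averaged channel -/
noncomputable def cE (Q : V × ℕ → Measure Y) (ζ : V × ℕ → Y → ℝ) (g : V × ℕ → Y → ℝ)
    (e : V × ℕ) (c : Bool) : ℝ := ∫ x, g e x * (1 + ζ e x * spin c) ∂(Q e)

theorem exists_bound_bool (w : Bool → ℝ) : ∀ c, |w c| ≤ |w true| + |w false| := by
  intro c
  cases c
  · linarith [abs_nonneg (w true)]
  · linarith [abs_nonneg (w false)]

theorem exists_bound_prod {ι Y : Type*} (T : Finset ι) {g : ι → Y → ℝ}
    (hgC : ∃ C, ∀ e x, |g e x| ≤ C) : ∃ C, ∀ x : ι → Y, |∏ e ∈ T, g e (x e)| ≤ C := by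
  obtain ⟨C, hC⟩ := hgC
  refine ⟨C ^ T.card, fun x => ?_⟩
  rw [Finset.abs_prod, ← Finset.prod_const]
  exact Finset.prod_le_prod (fun e _ => abs_nonneg _) fun e _ => hC e (x e)

theorem measurable_prodF {ι Y : Type*} [MeasurableSpace Y] (T : Finset ι) {g : ι → Y → ℝ}
    (hg : ∀ e, Measurable (g e)) : Measurable fun x : ι → Y => ∏ e ∈ T, g e (x e) :=
  Finset.measurable_prod _ fun e _ => (hg e).comp (measurable_pi_apply e)

theorem Obs.fd_many [Countable V] [IsProbabilityMeasure μ] (h : Obs μ P s y Q ζ b)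
    {R : Set (V × ℕ)} {F : (V × ℕ → Y) → ℝ} (hF : Measurable F) (hFC : ∃ C, ∀ x, |F x| ≤ C)
    (hdep : DepE R F) {g : V × ℕ → Y → ℝ} (hg : ∀ e, Measurable (g e))
    (hgC : ∃ C, ∀ e x, |g e x| ≤ C) (T : Finset (V × ℕ)) (hT : ∀ e ∈ T, e ∉ R) :
    ∀ {f : (V → Bool) → ℝ}, Measurable f → (∃ C, ∀ σ, |f σ| ≤ C) →
      ∫ ω, f (s ω) * F (y ω) * ∏ e ∈ T, g e (y ω e) ∂P =
        ∫ ω, f (s ω) * F (y ω) * ∏ e ∈ T, cE Q ζ g e (s ω e.1) ∂P := by
  classical
  induction T using Finset.induction_on with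
  | empty => intro f _ _; simp
  | insert a T ha ih =>
    intro f hf hfC
    have haR : a ∉ R := hT a (Finset.mem_insert_self a T)
    have hTR : ∀ e ∈ T, e ∉ R := fun e he => hT e (Finset.mem_insert_of_mem he)
    have hF'm : Measurable fun x : V × ℕ → Y => F x * ∏ e ∈ T, g e (x e) :=
      hF.mul (measurable_prodF T hg)
    obtain ⟨C₁, hC₁⟩ := hFC
    obtain ⟨C₂, hC₂⟩ := exists_bound_prod T hgC
    have hF'C : ∃ C, ∀ x : V × ℕ → Y, |F x * ∏ e ∈ T, g e (x e)| ≤ C := by
      refine ⟨C₁ * C₂, fun x => ?_⟩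
      rw [abs_mul]
      exact mul_le_mul (hC₁ x) (hC₂ x) (abs_nonneg _) ((abs_nonneg _).trans (hC₁ x))
    have hdep' : DepE {e' | e' ≠ a} (fun x : V × ℕ → Y => F x * ∏ e ∈ T, g e (x e)) := by
      intro x x' hxx
      have h1 : F x = F x' := hdep x x' fun e he => hxx e (fun h2 => haR (h2 ▸ he))
      have h2 : ∏ e ∈ T, g e (x e) = ∏ e ∈ T, g e (x' e) :=
        Finset.prod_congr rfl fun e he => by rw [hxx e (fun h3 => ha (h3 ▸ he))]
      show F x * ∏ e ∈ T, g e (x e) = F x' * ∏ e ∈ T, g e (x' e)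
      rw [h1, h2]
    have hk : ∃ C, ∀ x, |g a x| ≤ C := by
      obtain ⟨C, hC⟩ := hgC
      exact ⟨C, hC a⟩
    have e1 := h.fd_one (e := a) hf hfC hF'm hF'C hdep' (hg a) hk
    have hmw : Measurable fun σ : V → Bool => f σ * cE Q ζ g a (σ a.1) :=
      hf.mul ((measurable_of_countable (cE Q ζ g a)).comp (measurable_pi_apply a.1))
    have hwC : ∃ C, ∀ σ : V → Bool, |f σ * cE Q ζ g a (σ a.1)| ≤ C := by
      obtain ⟨C, hC⟩ := hfC
      refine ⟨C * (|cE Q ζ g a true| + |cE Q ζ g a false|), fun σ => ?_⟩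
      rw [abs_mul]
      exact mul_le_mul (hC σ) (exists_bound_bool _ _) (abs_nonneg _)
        ((abs_nonneg _).trans (hC σ))
    have e2 := ih hTR hmw hwC
    have l1 : ∫ ω, f (s ω) * F (y ω) * ∏ e ∈ insert a T, g e (y ω e) ∂P =
        ∫ ω, f (s ω) * (F (y ω) * ∏ e ∈ T, g e (y ω e)) * g a (y ω a) ∂P :=
      integral_congr_ae (Eventually.of_forall fun ω => by
        show f (s ω) * F (y ω) * ∏ e ∈ insert a T, g e (y ω e) =
          f (s ω) * (F (y ω) * ∏ e ∈ T, g e (y ω e)) * g a (y ω a)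
        rw [Finset.prod_insert ha]; ring)
    have l2 : ∫ ω, f (s ω) * F (y ω) * ∏ e ∈ insert a T, cE Q ζ g e (s ω e.1) ∂P =
        ∫ ω, f (s ω) * cE Q ζ g a (s ω a.1) * F (y ω) * ∏ e ∈ T, cE Q ζ g e (s ω e.1) ∂P :=
      integral_congr_ae (Eventually.of_forall fun ω => by
        show f (s ω) * F (y ω) * ∏ e ∈ insert a T, cE Q ζ g e (s ω e.1) =
          f (s ω) * cE Q ζ g a (s ω a.1) * F (y ω) * ∏ e ∈ T, cE Q ζ g e (s ω e.1)
        rw [Finset.prod_insert ha]; ring)
    rw [l1, e1, l2, ← e2]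
    refine integral_congr_ae (Eventually.of_forall fun ω => ?_)
    show f (s ω) * (F (y ω) * ∏ e ∈ T, g e (y ω e)) * cE Q ζ g a (s ω a.1) =
      f (s ω) * cE Q ζ g a (s ω a.1) * F (y ω) * ∏ e ∈ T, g e (y ω e)
    ring

/-- the posterior mean of a function of the spins beyond an edge -/
theorem Obs.EI_beyond [G.LocallyFinite] {β : ℝ} (hG : G.IsTree) (hμ : IsFreeIsing G β μ)
    (h : Obs μ P s y Q ζ b) {R : Set (V × ℕ)} {p q : V} (hpq : G.Adj p q)
    (hR : R ⊆ side G p q) {B : Finset V} (hB : ∀ x ∈ B, G.dist x p = G.dist x q + 1)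
    {f : (V → Bool) → ℝ} (hf : DepOn (B : Set V) f) :
    ∀ᵐ ω ∂P, EI G μ R p f (slp ζ (y ω)) =
      (∫ σ, f σ ∂μ) + Real.tanh β * (∫ σ, spin (σ q) * f σ ∂μ) * M G μ R p (slp ζ (y ω)) := by
  classical
  have hne : Nonempty V := ⟨p⟩
  have := hμ.isProbabilityMeasure
  have hc := hG.connected
  have T1 := h.tendsto_bev hc R p p hf.measurable hf.exists_bound
  have T2 := h.tendsto_bev hc R p p (measurable_sp p) ⟨1, abs_sp p⟩
  filter_upwards [T1, T2] with ω t1 t2
  have hslp : ∀ e, |slp ζ (y ω) e| ≤ b := h.abs_slp_le (y ω)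
  have key : ∀ n, ES μ (bev G R p n) (slp ζ (y ω)) f = (∫ σ, f σ ∂μ) +
      Real.tanh β * (∫ σ, spin (σ q) * f σ ∂μ) *
        ES μ (bev G R p n) (slp ζ (y ω)) (sp p) := by
    intro n
    set S := bev G R p n with hS
    have hA : ∀ x ∈ S.image Prod.fst, G.dist x q = G.dist x p + 1 := by
      intro x hx
      obtain ⟨e, he, rfl⟩ := Finset.mem_image.1 hx
      rw [hS, mem_bev hc] at he
      exact hR he.1
    have E1 := hμ.integral_mul_edge hG hpq hA hB (depOn_lk S (slp ζ (y ω))) hf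
    have hZ := integral_lk_pos h.b_nonneg h.b_lt μ (S := S) (w := slp ζ (y ω))
      (fun e _ => hslp e)
    unfold ES sp
    have I1 : ∫ σ, f σ * lk S (slp ζ (y ω)) σ ∂μ = ∫ σ, lk S (slp ζ (y ω)) σ * f σ ∂μ :=
      integral_congr_ae (Eventually.of_forall fun σ => mul_comm _ _)
    rw [I1, E1]
    field_simp
  have T : Tendsto (fun n => ES μ (bev G R p n) (slp ζ (y ω)) f) atTop
      (𝓝 ((∫ σ, f σ ∂μ) + Real.tanh β * (∫ σ, spin (σ q) * f σ ∂μ) *
        M G μ R p (slp ζ (y ω)))) := by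
    simp only [key]
    exact (t2.const_mul _).const_add _
  exact tendsto_nhds_unique t1 T


/-- Decoupling for a product function of the observations beyond the edge. -/
theorem Obs.decouple_prod [G.LocallyFinite] {β : ℝ} (hG : G.IsTree) (hμ : IsFreeIsing G β μ)
    (h : Obs μ P s y Q ζ b) {R R' : Set (V × ℕ)} {p q : V} (hpq : G.Adj p q)
    (hR : R ⊆ side G p q) (hR' : R' ⊆ side G q p)
    {F : (V × ℕ → Y) → ℝ} (hF : Measurable F) (hFC : ∃ C, ∀ x, |F x| ≤ C) (hdep : DepE R F)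
    {g : V × ℕ → Y → ℝ} (hg : ∀ e, Measurable (g e)) (hgC : ∃ C, ∀ e x, |g e x| ≤ C)
    (T : Finset (V × ℕ)) (hT : ∀ e ∈ T, e ∈ R') :
    ∫ ω, F (y ω) * ∏ e ∈ T, g e (y ω e) ∂P =
      (∫ ω, F (y ω) ∂P) * (∫ ω, ∏ e ∈ T, g e (y ω e) ∂P) +
      Real.tanh β * (∫ ω, F (y ω) * M G μ R p (slp ζ (y ω)) ∂P) *
        (∫ ω, M G μ R' q (slp ζ (y ω)) * ∏ e ∈ T, g e (y ω e) ∂P) := by
  classical
  have hne : Nonempty V := ⟨p⟩
  have := hμ.isProbabilityMeasure
  have hP := h.prob
  have hc := hG.connected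
  have hcount : Countable V := countable_of_locallyFinite hc
  have hTR : ∀ e ∈ T, e ∉ R := by
    intro e he he'
    have h1 := hR' (hT e he)
    have h2 := hR he'
    simp only [side, Set.mem_ofPred_eq] at h1 h2
    omega
  -- the function of the spins
  set f : (V → Bool) → ℝ := fun σ => ∏ e ∈ T, cE Q ζ g e (σ e.1) with hf
  have hfdep0 : DepOn ((T.image Prod.fst : Finset V) : Set V) f :=
    depOn_prod T Prod.fst fun e c => cE Q ζ g e c
  have hfdep : DepOn ((insert q (T.image Prod.fst) : Finset V) : Set V) f :=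
    hfdep0.mono (by rw [Finset.coe_insert]; exact Set.subset_insert _ _)
  have hB : ∀ x ∈ insert q (T.image Prod.fst), G.dist x p = G.dist x q + 1 := by
    intro x hx
    rcases Finset.mem_insert.1 hx with rfl | hx
    · rw [SimpleGraph.dist_self, SimpleGraph.dist_eq_one_iff_adj.2 hpq.symm]
    · obtain ⟨e, he, rfl⟩ := Finset.mem_image.1 hx
      exact hR' (hT e he)
  have hfm := hfdep.measurable
  have hfb := hfdep.exists_bound
  -- step 1
  have e1 := h.fd_many hF hFC hdep hg hgC T hTR (f := fun _ => 1) measurable_const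
    ⟨1, fun _ => by simp⟩
  simp only [one_mul] at e1
  -- step 2
  have e2 := h.EI_post hc R p hfm hfb hF hFC hdep
  have e3 := h.EI_beyond hG hμ hpq hR hB hfdep
  -- the two constants
  have c0 : ∫ σ, f σ ∂μ = ∫ ω, ∏ e ∈ T, g e (y ω e) ∂P := by
    have h1 := h.fd T (fun _ => 1) g measurable_const ⟨1, fun _ => by simp⟩ hg hgC
    simp only [one_mul] at h1
    exact h1.symm
  have c1 : ∫ σ, spin (σ q) * f σ ∂μ =
      ∫ ω, M G μ R' q (slp ζ (y ω)) * ∏ e ∈ T, g e (y ω e) ∂P := by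
    have h1 := h.fd T (fun σ => spin (σ q)) g (measurable_sp q) ⟨1, abs_sp q⟩ hg hgC
    have hdepT : DepE R' (fun x : V × ℕ → Y => ∏ e ∈ T, g e (x e)) := by
      intro x x' hxx
      exact Finset.prod_congr rfl fun e he => by rw [hxx e (hT e he)]
    have h2 := h.EI_post hc R' q (measurable_sp q) ⟨1, abs_sp q⟩ (measurable_prodF T hg)
      (exists_bound_prod T hgC) hdepT
    exact h1.symm.trans h2
  rw [← c0, ← c1]
  have l1 : ∫ ω, F (y ω) * ∏ e ∈ T, cE Q ζ g e (s ω e.1) ∂P =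
      ∫ ω, f (s ω) * F (y ω) ∂P :=
    integral_congr_ae (Eventually.of_forall fun ω => mul_comm _ _)
  rw [e1, l1, e2]
  obtain ⟨C, hC⟩ := hFC
  have hFm : AEStronglyMeasurable (fun ω => F (y ω)) P := (hF.comp h.measY).aestronglyMeasurable
  have i1 : Integrable (fun ω => F (y ω)) P :=
    Integrable.of_bound hFm C (Eventually.of_forall fun ω => hC _)
  have hMm : Measurable fun ω => M G μ R p (slp ζ (y ω)) :=
    (measurable_M G μ R p).comp (h.measurable_slp.comp h.measY)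
  have i2 : Integrable (fun ω => F (y ω) * M G μ R p (slp ζ (y ω))) P := by
    refine i1.mul_bdd (c := 1) hMm.aestronglyMeasurable (Eventually.of_forall fun ω => ?_)
    exact abs_M_le h.b_nonneg h.b_lt μ (h.abs_slp_le (y ω)) R p
  have l2 : ∫ ω, EI G μ R p f (slp ζ (y ω)) * F (y ω) ∂P =
      ∫ ω, ((∫ σ, f σ ∂μ) * F (y ω) + (Real.tanh β * (∫ σ, spin (σ q) * f σ ∂μ)) *
        (F (y ω) * M G μ R p (slp ζ (y ω)))) ∂P := by
    refine integral_congr_ae ?_
    filter_upwards [e3] with ω hω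
    rw [hω]
    ring
  rw [l2, integral_add (i1.const_mul _) (i2.const_mul _), integral_const_mul,
    integral_const_mul]
  ring

/-- Decoupling at an edge: for `F₁` a function of the observations in `R ∩ side p q` and `F₂` of
those in `R ∩ side q p`,
`E F₁ F₂ = E F₁ E F₂ + θ E[F₁ b] E[F₂ a]`. -/
theorem Obs.decouple [G.LocallyFinite] {β : ℝ} (hG : G.IsTree) (hμ : IsFreeIsing G β μ)
    (h : Obs μ P s y Q ζ b) (R : Set (V × ℕ)) {p q : V} (hpq : G.Adj p q)
    {F₁ F₂ : (V × ℕ → Y) → ℝ} (hF₁ : Measurable F₁) (hC₁ : ∃ C, ∀ x, |F₁ x| ≤ C)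
    (hD₁ : DepE (R ∩ side G p q) F₁)
    (hF₂ : Measurable F₂) (hC₂ : ∃ C, ∀ x, |F₂ x| ≤ C) (hD₂ : DepE (R ∩ side G q p) F₂) :
    ∫ ω, F₁ (y ω) * F₂ (y ω) ∂P = (∫ ω, F₁ (y ω) ∂P) * (∫ ω, F₂ (y ω) ∂P) +
      Real.tanh β *
        (∫ ω, F₁ (y ω) * M G μ (R ∩ side G p q) p (slp ζ (y ω)) ∂P) *
        (∫ ω, F₂ (y ω) * M G μ (R ∩ side G q p) q (slp ζ (y ω)) ∂P) := by
  classical
  have hne : Nonempty V := ⟨p⟩
  have := hμ.isProbabilityMeasure
  have hP := h.prob
  set m₂ : Ω → ℝ := fun ω => M G μ (R ∩ side G q p) q (slp ζ (y ω)) with hm₂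
  have hm₂m : Measurable m₂ :=
    (measurable_M G μ _ q).comp (h.measurable_slp.comp h.measY)
  have hm₂b : ∀ ω, |m₂ ω| ≤ 1 := fun ω =>
    abs_M_le h.b_nonneg h.b_lt μ (h.abs_slp_le (y ω)) _ q
  set I₀ := ∫ ω, F₁ (y ω) ∂P with hI₀
  set I₁ := ∫ ω, F₁ (y ω) * M G μ (R ∩ side G p q) p (slp ζ (y ω)) ∂P with hI₁
  obtain ⟨C₁, hC₁'⟩ := hC₁
  obtain ⟨C₂, hC₂'⟩ := hC₂
  have i1 : Integrable (fun ω => F₁ (y ω)) P :=
    Integrable.of_bound (hF₁.comp h.measY).aestronglyMeasurable C₁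
      (Eventually.of_forall fun ω => hC₁' _)
  have im : Integrable m₂ P :=
    Integrable.of_bound hm₂m.aestronglyMeasurable 1 (Eventually.of_forall hm₂b)
  have iH : Integrable (fun ω => F₁ (y ω) - I₀ - Real.tanh β * I₁ * m₂ ω) P :=
    (i1.sub (integrable_const _)).sub (im.const_mul _)
  have expand : ∀ K : Ω → ℝ, Measurable K → (∃ C, ∀ ω, |K ω| ≤ C) →
      ∫ ω, (F₁ (y ω) - I₀ - Real.tanh β * I₁ * m₂ ω) * K ω ∂P =
        (∫ ω, F₁ (y ω) * K ω ∂P) - I₀ * (∫ ω, K ω ∂P) -
          Real.tanh β * I₁ * ∫ ω, m₂ ω * K ω ∂P := by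
    intro K hK hKC
    obtain ⟨C, hC⟩ := hKC
    have j0 : Integrable K P :=
      Integrable.of_bound hK.aestronglyMeasurable C (Eventually.of_forall hC)
    have j1 : Integrable (fun ω => F₁ (y ω) * K ω) P :=
      i1.mul_bdd (c := C) hK.aestronglyMeasurable (Eventually.of_forall hC)
    have j2 : Integrable (fun ω => m₂ ω * K ω) P :=
      im.mul_bdd (c := C) hK.aestronglyMeasurable (Eventually.of_forall hC)
    have l1 : ∫ ω, (F₁ (y ω) - I₀ - Real.tanh β * I₁ * m₂ ω) * K ω ∂P =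
        ∫ ω, ((F₁ (y ω) * K ω - I₀ * K ω) - (Real.tanh β * I₁) * (m₂ ω * K ω)) ∂P :=
      integral_congr_ae (Eventually.of_forall fun ω => by
        show (F₁ (y ω) - I₀ - Real.tanh β * I₁ * m₂ ω) * K ω =
          (F₁ (y ω) * K ω - I₀ * K ω) - (Real.tanh β * I₁) * (m₂ ω * K ω)
        ring)
    have j3 : Integrable (fun ω => F₁ (y ω) * K ω - I₀ * K ω) P := j1.sub (j0.const_mul _)
    rw [l1, integral_sub j3 (j2.const_mul _),
      integral_sub j1 (j0.const_mul _), integral_const_mul, integral_const_mul]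
  have key : ∫ ω, (F₁ (y ω) - I₀ - Real.tanh β * I₁ * m₂ ω) * F₂ (y ω) ∂P = 0 := by
    refine integral_mul_eq_zero_of_cyl h.measY iH ?_ hF₂ ⟨C₂, hC₂'⟩ hD₂
    intro S hS t ht
    have hg : ∀ e, Measurable ((t e).indicator (fun _ => (1 : ℝ))) :=
      fun e => measurable_const.indicator (ht e)
    have hgC : ∃ C, ∀ e x, |(t e).indicator (fun _ => (1 : ℝ)) x| ≤ C := by
      refine ⟨1, fun e x => ?_⟩
      by_cases hx : x ∈ t e
      · rw [Set.indicator_of_mem hx, abs_one]
      · rw [Set.indicator_of_notMem hx, abs_zero]; exact zero_le_one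
    have hKm : Measurable fun ω => ∏ e ∈ S, (t e).indicator (fun _ => (1 : ℝ)) (y ω e) :=
      (measurable_prodF S hg).comp h.measY
    have hKb : ∃ C, ∀ ω, |∏ e ∈ S, (t e).indicator (fun _ => (1 : ℝ)) (y ω e)| ≤ C := by
      obtain ⟨C, hC⟩ := exists_bound_prod S hgC
      exact ⟨C, fun ω => hC (y ω)⟩
    rw [expand _ hKm hKb]
    rw [h.decouple_prod hG hμ hpq Set.inter_subset_right Set.inter_subset_right hF₁
      ⟨C₁, hC₁'⟩ hD₁ hg hgC S hS]
    ring
  rw [expand (fun ω => F₂ (y ω)) (hF₂.comp h.measY) ⟨C₂, fun ω => hC₂' _⟩] at key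
  have l3 : ∫ ω, m₂ ω * F₂ (y ω) ∂P = ∫ ω, F₂ (y ω) * m₂ ω ∂P :=
    integral_congr_ae (Eventually.of_forall fun ω => mul_comm _ _)
  rw [l3] at key
  linarith

end edge

end Vale.Agent.P161.Crit
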