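import Vale.Agent.Lib.P161.Crit.Orth
import Vale.Agent.Lib.P161.Crit.Decay

/-!
P161-CRIT, module EnergyB: uniform decay for dominated convergence.
-/

open MeasureTheory Filter Topology ProbabilityTheory

namespace Vale.Agent.P161.Crit

variable {V : Type*} {G : SimpleGraph V} {μ : Measure (V → Bool)}

namespace EnB

open Classical in
/-- The visible events: before `x0`, or in `Λ` and before `e`. -/
def Vis (x0 : ℝ) (Λ : Finset (V × ℕ)) (e : V × ℕ) (u : V × ℕ → unitInterval) : Set (V × ℕ) :=
  {f | tau u f < x0} ∪ {f | f ∈ Λ ∧ x0 ≤ tau u f ∧ tau u f < tau u e}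

/-- The masks for a fixed label `y` of the event `e`. -/
def mB (x0 : ℝ) (Λ : Finset (V × ℕ)) (e : V × ℕ) (y : unitInterval) :
    V × ℕ → Set unitInterval := fun f =>
  {z | f ≠ e ∧ ((f.2 : ℝ) + (z : ℝ) < x0 ∨
    (f ∈ Λ ∧ x0 ≤ (f.2 : ℝ) + (z : ℝ) ∧ (f.2 : ℝ) + (z : ℝ) < (e.2 : ℝ) + (y : ℝ)))}

theorem measurableSet_mB (x0 : ℝ) (Λ : Finset (V × ℕ)) (e : V × ℕ) (y : unitInterval)
    (f : V × ℕ) : MeasurableSet (mB x0 Λ e y f) := by
  unfold mB
  have h1 : Measurable fun z : unitInterval => (f.2 : ℝ) + (z : ℝ) := by fun_prop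
  have h2 : MeasurableSet {z : unitInterval | (f.2 : ℝ) + (z : ℝ) < x0} :=
    measurableSet_lt h1 measurable_const
  have h3 : MeasurableSet {z : unitInterval | x0 ≤ (f.2 : ℝ) + (z : ℝ)} :=
    measurableSet_le measurable_const h1
  have h4 : MeasurableSet {z : unitInterval | (f.2 : ℝ) + (z : ℝ) < (e.2 : ℝ) + (y : ℝ)} :=
    measurableSet_lt h1 measurable_const
  exact (MeasurableSet.const _).inter (h2.union ((MeasurableSet.const _).inter (h3.inter h4)))

open Classical in
/-- The masked slopes. -/
noncomputable def WB (a : ℝ) (x0 : ℝ) (Λ : Finset (V × ℕ)) (e : V × ℕ)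
    (u t : V × ℕ → unitInterval) : V × ℕ → ℝ :=
  fun f => if f ∈ Vis x0 Λ e u then wf a u t f else 0

open Classical in
theorem Cv_mask [G.LocallyFinite] (hc : G.Connected) (R R' : Set (V × ℕ)) (o v : V)
    (w : V × ℕ → ℝ) :
    Cv G μ R o v (fun e => if e ∈ R' then w e else 0) = Cv G μ (R ∩ R') o v w := by
  unfold Cv M
  rw [EI_mask hc, EI_mask hc, EI_mask hc]

theorem measurable_wf (a : ℝ) (f : V × ℕ) :
    Measurable fun p : (V × ℕ → unitInterval) × (V × ℕ → unitInterval) => wf a p.1 p.2 f := by
  unfold wf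
  have h1 : Measurable fun p : (V × ℕ → unitInterval) × (V × ℕ → unitInterval) =>
      str a f.2 (p.1 f) := (measurable_str a f.2).comp (by fun_prop)
  have h2 : Measurable fun p : (V × ℕ → unitInterval) × (V × ℕ → unitInterval) =>
      (2 * ((p.2 f : unitInterval) : ℝ) - 1) := by fun_prop
  exact h1.mul h2

theorem eb_measurable_tau (f : V × ℕ) :
    Measurable fun p : (V × ℕ → unitInterval) × (V × ℕ → unitInterval) => tau p.1 f := by
  unfold tau
  fun_prop

theorem measurable_WB (a x0 : ℝ) (Λ : Finset (V × ℕ)) (e : V × ℕ) :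
    Measurable fun p : (V × ℕ → unitInterval) × (V × ℕ → unitInterval) =>
      WB a x0 Λ e p.1 p.2 := by
  refine measurable_pi_iff.2 fun f => ?_
  unfold WB
  refine Measurable.ite ?_ (measurable_wf a f) measurable_const
  have h2 : MeasurableSet {p : (V × ℕ → unitInterval) × (V × ℕ → unitInterval) |
      tau p.1 f < x0} := measurableSet_lt (eb_measurable_tau f) measurable_const
  have h3 : MeasurableSet {p : (V × ℕ → unitInterval) × (V × ℕ → unitInterval) |
      x0 ≤ tau p.1 f} := measurableSet_le measurable_const (eb_measurable_tau f)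
  have h4 : MeasurableSet {p : (V × ℕ → unitInterval) × (V × ℕ → unitInterval) |
      tau p.1 f < tau p.1 e} := measurableSet_lt (eb_measurable_tau f) (eb_measurable_tau e)
  exact h2.union ((MeasurableSet.const _).inter (h3.inter h4))

/-- For a fixed label of `e` the masked slopes are those of the masks `mB`. -/
theorem WB_update [DecidableEq V] (a x0 : ℝ) (Λ : Finset (V × ℕ)) (e : V × ℕ) (y : unitInterval)
    (hy : x0 ≤ (e.2 : ℝ) + (y : ℝ)) (σ : V → Bool) (u ξ : V × ℕ → unitInterval) :
    WB a x0 Λ e (Function.update u e y) (tt a σ (Function.update u e y) ξ) =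
      wm a (mB x0 Λ e y) u (tt a σ u ξ) := by
  funext f
  unfold WB wm
  by_cases hf : f = e
  · subst hf
    have h1 : f ∉ Vis x0 Λ f (Function.update u f y) := by
      unfold Vis
      rintro (h | h)
      · simp only [Set.mem_ofPred_eq, tau, Function.update_self] at h
        linarith
      · exact absurd h.2.2 (lt_irrefl _)
    have h2 : u f ∉ mB x0 Λ f y f := fun h => h.1 rfl
    rw [if_neg h1, if_neg h2]
  · have h0 : Function.update u e y f = u f := Function.update_of_ne hf _ _
    have h1 : f ∈ Vis x0 Λ e (Function.update u e y) ↔ u f ∈ mB x0 Λ e y f := by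
      unfold Vis mB
      simp only [Set.mem_union, Set.mem_ofPred_eq, tau, h0, Function.update_self]
      constructor
      · intro h
        exact ⟨hf, h⟩
      · intro h
        exact h.2
    have h2 : wf a (Function.update u e y) (tt a σ (Function.update u e y) ξ) f =
        wf a u (tt a σ u ξ) f := by
      unfold wf tt
      rw [h0]
    by_cases h3 : u f ∈ mB x0 Λ e y f
    · rw [if_pos (h1.2 h3), if_pos h3, h2]
    · rw [if_neg fun h => h3 (h1.1 h), if_neg h3]

/-- Resampling the label of `e`. -/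
theorem mp_update [Countable V] [DecidableEq V] [IsProbabilityMeasure μ] (e : V × ℕ) :
    MeasurePreserving (fun p : Conf V × unitInterval =>
      (p.1.1, (Function.update p.1.2.1 e p.2, p.1.2.2)))
      ((PO μ).prod (volume : Measure unitInterval)) (PO μ) := by
  have : IsProbabilityMeasure (PO μ) := isProbabilityMeasure_PO
  have hm : Measurable (fun p : Conf V × unitInterval =>
      ((p.1.1, (Function.update p.1.2.1 e p.2, p.1.2.2)) : Conf V)) := by
    have h1 : Measurable fun p : Conf V × unitInterval => Function.update p.1.2.1 e p.2 :=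
      (measurable_update_uncurry e).comp (measurable_fst.snd.fst.prodMk measurable_snd)
    exact measurable_fst.fst.prodMk (h1.prodMk measurable_fst.snd.snd)
  refine ⟨hm, ?_⟩
  refine Measure.ext_of_lintegral _ fun g hg => ?_
  have hgc : Measurable fun p : Conf V × unitInterval =>
      g (p.1.1, (Function.update p.1.2.1 e p.2, p.1.2.2)) := hg.comp hm
  rw [lintegral_map hg hm, lintegral_prod _ hgc.aemeasurable]
  unfold PO
  have hg1 : Measurable fun ω : Conf V => ∫⁻ y : unitInterval,
      g (ω.1, (Function.update ω.2.1 e y, ω.2.2)) :=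
    Measurable.lintegral_prod_right' (f := fun p : Conf V × unitInterval =>
      g (p.1.1, (Function.update p.1.2.1 e p.2, p.1.2.2))) (hg.comp hm)
  rw [lintegral_prod _ hg1.aemeasurable, lintegral_prod _ hg.aemeasurable]
  refine lintegral_congr fun σ => ?_
  have hg2 : Measurable fun p : (V × ℕ → unitInterval) × (V × ℕ → unitInterval) =>
      ∫⁻ y : unitInterval, g (σ, (Function.update p.1 e y, p.2)) :=
    hg1.comp (measurable_const.prodMk measurable_id)
  have hg3 : Measurable fun p : (V × ℕ → unitInterval) × (V × ℕ → unitInterval) => g (σ, p) :=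
    hg.comp (measurable_const.prodMk measurable_id)
  rw [lintegral_prod_symm' _ hg2, lintegral_prod_symm' _ hg3]
  refine lintegral_congr fun ξ => ?_
  exact lintegral_update e (f := fun u => g (σ, (u, ξ)))
    (hg.comp (measurable_const.prodMk (measurable_id.prodMk measurable_const)))

end EnB

open EnB

/-- Decay for a fixed value of the label of `e`. -/
theorem EnB.fixed_decay [G.LocallyFinite] {d : ℕ} {β : ℝ} (hE : Env G d β μ) {a : ℝ} (ha : 0 ≤ a)
    (ha1 : a < 1) {x0 : ℝ} (q0 : ℝ) (hq0 : 0 ≤ q0)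
    (hq : ∀ p p', G.Adj p p' → q0 ≤ qx G μ a p p' x0) (Λ : Finset (V × ℕ)) (o : V) (e : V × ℕ)
    (y : unitInterval) :
    ∫ ω, Cv G μ Set.univ o e.1 (wm a (mB x0 Λ e y) ω.2.1 (tt a ω.1 ω.2.1 ω.2.2)) ^ 2 ∂(PO μ) ≤
      (Real.tanh β ^ 2) ^ G.dist o e.1 *
        (1 - (1 - Real.tanh β ^ 2) * Real.tanh β ^ 2 * q0) ^ G.dist o e.1 := by
  have := hE.prob
  have := hE.countable
  have hc := hE.tree.connected
  obtain ⟨p, hp0, hpn, hp⟩ := exists_geo hc o e.1
  obtain ⟨c, hcc⟩ := exists_side_branch hE p
  have hobs : Obs μ (PO μ) Prod.fst (ym a (mB x0 Λ e y)) (Qm (mB x0 Λ e y))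
      (zm a (mB x0 Λ e y)) a :=
    obs_mask ha ha1 _ (measurableSet_mB x0 Λ e y)
  have key := hobs.cov_decay hE hp c (fun i h1 _ => ⟨(hcc i).1, (hcc i).2.2 h1⟩)
    (fun i _ _ => (hcc i).2.1) q0 hq0 ?_
  · rw [hp0, hpn] at key
    simpa only [slp_ym] using key
  · intro i h1 hi
    refine (hq (c i) (p i) (hcc i).1.symm).trans ?_
    simp only [slp_ym]
    unfold qx msg
    have hmono := mask_mono hE ha ha1 (mx x0) (mB x0 Λ e y)
      (fun f => measurableSet_lt (by fun_prop) measurable_const) (measurableSet_mB x0 Λ e y)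
      (side G (c i) (p i)) ?_ (c i)
    · simpa only [wm_mx] using hmono
    · intro f hf z hz
      refine ⟨?_, Or.inl hz⟩
      rintro rfl
      -- `f` is not on the side of `c i`
      have hf' : G.dist f.1 (p i) = G.dist f.1 (c i) + 1 := hf
      have hd1 : G.dist (p i) (p (G.dist o f.1)) = G.dist o f.1 - i := hp.dist hc hi le_rfl
      rw [hpn, G.dist_comm] at hd1
      rcases Nat.lt_or_ge i (G.dist o f.1) with hlt | hge
      · have hd2 : G.dist (p (i + 1)) (p (G.dist o f.1)) = G.dist o f.1 - (i + 1) :=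
          hp.dist hc hlt le_rfl
        rw [hpn, G.dist_comm] at hd2
        have := parent_unique hE.tree (hcc i).1 (hp.1 i hlt) hf' (by omega)
        exact (hcc i).2.1 this
      · omega

/-- Uniform decay used for dominated convergence. Let `x0 > 0`, `Λ` a finite set of events, `e` an
event. Average over labels and signals, on `x0 ≤ tau u e`, of the squared covariance given the
events before `x0` and those of `Λ` before `e`. Proof: for a fixed value of the label of `e` this
is the environment with masks `m f = {y | f.2 + y < x0 ∨ (f ∈ Λ ∧ x0 ≤ f.2 + y < tau e)}` (`f ≠ e`),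
`m e = ∅`; use `obs_mask` and `Obs.cov_decay` with side branches `exists_side_branch`; their
information is at least `q(x0)` by `mask_mono` (`e.1` is an end point of the geodesic, so `e` is not
in the side branches). `κ = (1-θ²)θ²`. -/
theorem turned_on_decay [G.LocallyFinite] {d : ℕ} {β : ℝ} (hE : Env G d β μ) {a : ℝ} (ha : 0 ≤ a)
    (ha1 : a < 1) {x0 : ℝ} (q0 : ℝ) (hq0 : 0 ≤ q0)
    (hq : ∀ p p', G.Adj p p' → q0 ≤ qx G μ a p p' x0) (Λ : Finset (V × ℕ)) (o : V) (e : V × ℕ) :
    ∫ p, (if x0 ≤ tau p.1 e then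
        Cv G μ ({f | tau p.1 f < x0} ∪ {f | f ∈ Λ ∧ x0 ≤ tau p.1 f ∧ tau p.1 f < tau p.1 e})
          o e.1 (wf a p.1 p.2) ^ 2 else 0) ∂(PT μ a) ≤
      (Real.tanh β ^ 2) ^ G.dist o e.1 *
        (1 - (1 - Real.tanh β ^ 2) * Real.tanh β ^ 2 * q0) ^ G.dist o e.1 := by
  classical
  have := hE.prob
  have := hE.countable
  have hc := hE.tree.connected
  have : IsProbabilityMeasure (PO μ) := isProbabilityMeasure_PO
  set B : ℝ := (Real.tanh β ^ 2) ^ G.dist o e.1 *
        (1 - (1 - Real.tanh β ^ 2) * Real.tanh β ^ 2 * q0) ^ G.dist o e.1 with hB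
  -- the integrand as a measurable function
  set F : (V × ℕ → unitInterval) × (V × ℕ → unitInterval) → ℝ := fun p =>
    if x0 ≤ tau p.1 e then Cv G μ Set.univ o e.1 (WB a x0 Λ e p.1 p.2) ^ 2 else 0 with hF
  have hFm : Measurable F := by
    refine Measurable.ite (measurableSet_le measurable_const (eb_measurable_tau e)) ?_
      measurable_const
    exact ((measurable_Cv G μ Set.univ o e.1).comp (measurable_WB a x0 Λ e)).pow_const 2
  have hWB : ∀ (p : (V × ℕ → unitInterval) × (V × ℕ → unitInterval)) (f : V × ℕ),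
      |WB a x0 Λ e p.1 p.2 f| ≤ a := by
    intro p f
    unfold WB
    split_ifs
    · exact abs_wf_le ha p.1 p.2 f
    · simpa using ha
  have hFb : ∀ p, |F p| ≤ 4 := by
    intro p
    simp only [hF]
    split_ifs
    · have h1 := abs_Cv_le ha ha1 μ (hWB p) Set.univ o e.1 (G := G)
      rw [abs_of_nonneg (sq_nonneg _), ← sq_abs]
      nlinarith [abs_nonneg (Cv G μ Set.univ o e.1 (WB a x0 Λ e p.1 p.2))]
    · norm_num
  have e1 : ∀ p : (V × ℕ → unitInterval) × (V × ℕ → unitInterval),
      (if x0 ≤ tau p.1 e then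
        Cv G μ ({f | tau p.1 f < x0} ∪ {f | f ∈ Λ ∧ x0 ≤ tau p.1 f ∧ tau p.1 f < tau p.1 e})
          o e.1 (wf a p.1 p.2) ^ 2 else 0) = F p := by
    intro p
    simp only [hF]
    congr 2
    have h1 := Cv_mask (μ := μ) hc Set.univ (Vis x0 Λ e p.1) o e.1 (wf a p.1 p.2)
    rw [Set.univ_inter] at h1
    exact h1.symm
  simp only [e1]
  have hφ : Measurable fun ω : Conf V => (ω.2.1, tt a ω.1 ω.2.1 ω.2.2) :=
    measurable_snd.fst.prodMk (measurable_tt a)
  rw [PT, integral_map hφ.aemeasurable hFm.aestronglyMeasurable]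
  -- resample the label of `e`
  have hmp := mp_update (μ := μ) e
  have hH : Measurable fun ω : Conf V => F (ω.2.1, tt a ω.1 ω.2.1 ω.2.2) := hFm.comp hφ
  have e2 : ∫ ω : Conf V, F (ω.2.1, tt a ω.1 ω.2.1 ω.2.2) ∂(PO μ) =
      ∫ p : Conf V × unitInterval, F (Function.update p.1.2.1 e p.2,
        tt a p.1.1 (Function.update p.1.2.1 e p.2) p.1.2.2)
          ∂((PO μ).prod (volume : Measure unitInterval)) := by
    conv_lhs => rw [← hmp.map_eq]
    rw [integral_map hmp.measurable.aemeasurable hH.aestronglyMeasurable]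
  have hint : Integrable (fun p : Conf V × unitInterval => F (Function.update p.1.2.1 e p.2,
        tt a p.1.1 (Function.update p.1.2.1 e p.2) p.1.2.2))
          ((PO μ).prod (volume : Measure unitInterval)) := by
    refine Integrable.of_bound (C := 4) (hH.comp hmp.measurable).aestronglyMeasurable
      (Filter.Eventually.of_forall fun p => ?_)
    exact hFb _
  rw [e2, integral_prod_symm _ hint]
  have h3 : ∀ y : unitInterval, ∫ ω : Conf V, F (Function.update ω.2.1 e y,
      tt a ω.1 (Function.update ω.2.1 e y) ω.2.2) ∂(PO μ) ≤ B := by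
    intro y
    have hfix := fixed_decay hE ha ha1 q0 hq0 hq Λ o e y
    rw [← hB] at hfix
    by_cases hy : x0 ≤ (e.2 : ℝ) + (y : ℝ)
    · refine le_trans (le_of_eq ?_) hfix
      refine integral_congr_ae (Filter.Eventually.of_forall fun ω => ?_)
      simp only [hF]
      have hy' : x0 ≤ tau (Function.update ω.2.1 e y) e := by
        unfold tau
        rw [Function.update_self]
        exact hy
      rw [if_pos hy', WB_update a x0 Λ e y hy]
    · have h4 : ∀ ω : Conf V, F (Function.update ω.2.1 e y,
          tt a ω.1 (Function.update ω.2.1 e y) ω.2.2) = 0 := by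
        intro ω
        simp only [hF]
        refine if_neg fun h => hy ?_
        unfold tau at h
        rwa [Function.update_self] at h
      simp only [h4, integral_zero]
      exact le_trans (integral_nonneg fun ω => sq_nonneg _) hfix
  have h5 : Integrable (fun y : unitInterval => ∫ ω : Conf V, F (Function.update ω.2.1 e y,
      tt a ω.1 (Function.update ω.2.1 e y) ω.2.2) ∂(PO μ)) volume := hint.integral_prod_right
  calc ∫ y : unitInterval, ∫ ω : Conf V, F (Function.update ω.2.1 e y,
      tt a ω.1 (Function.update ω.2.1 e y) ω.2.2) ∂(PO μ)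
      ≤ ∫ _ : unitInterval, B := integral_mono h5 (integrable_const _) h3
    _ = B := by simp

end Vale.Agent.P161.Crit
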