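import Vale.Agent.Lib.P161.Crit.EnergyA
import Vale.Agent.Lib.P161.Crit.EnergyB

/-!
P161-CRIT, module Energy: the posterior mean is the `L²` sum of its jumps.
-/

set_option linter.unusedSectionVars false

open MeasureTheory Filter Topology ProbabilityTheory

namespace Vale.Agent.P161.Crit

variable {V : Type*} {G : SimpleGraph V} {μ : Measure (V → Bool)}

namespace En

/-! ### integration against `PT` -/

section disint
variable [Countable V] [IsProbabilityMeasure μ]

theorem integrable_PT {a : ℝ} {F : Arr V × Arr V → ℝ} (hF : Measurable F) {C : ℝ}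
    (hC : ∀ p, |F p| ≤ C) : Integrable F (PT μ a) := by
  have := isProbabilityMeasure_PT (μ := μ) a
  exact Integrable.of_bound hF.aestronglyMeasurable C (Eventually.of_forall hC)

theorem integral_PT {a : ℝ} {F : Arr V × Arr V → ℝ} (hF : Measurable F) {C : ℝ}
    (hC : ∀ p, |F p| ≤ C) :
    ∫ p, F p ∂(PT μ a) = ∫ u, ∫ t, F (u, t) ∂(Pu μ a u) ∂(PP (V × ℕ)) := by
  obtain ⟨κ, hκ, hκ1, hκ2⟩ := exists_kernel_Pu (V := V) (μ := μ) a
  have hint := integrable_PT (μ := μ) (a := a) hF hC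
  rw [hκ2] at hint ⊢
  rw [Measure.integral_compProd hint]
  simp only [hκ1]

theorem aesm_Pu {a : ℝ} {F : Arr V × Arr V → ℝ} (hF : Measurable F) {C : ℝ}
    (hC : ∀ p, |F p| ≤ C) :
    AEStronglyMeasurable (fun u => ∫ t, F (u, t) ∂(Pu μ a u)) (PP (V × ℕ)) := by
  obtain ⟨κ, hκ, hκ1, hκ2⟩ := exists_kernel_Pu (V := V) (μ := μ) a
  have hint := integrable_PT (μ := μ) (a := a) hF hC
  rw [hκ2] at hint
  have := (Measure.integrable_compProd_iff hint.aestronglyMeasurable).1 hint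
  have h2 : StronglyMeasurable (fun u => ∫ t, F (u, t) ∂(κ u)) :=
    hF.stronglyMeasurable.integral_kernel_prod_right'
  simp only [hκ1] at h2
  exact h2.aestronglyMeasurable

theorem measurable_tt_fixed (a : ℝ) (u : Arr V) :
    Measurable fun ω : (V → Bool) × Arr V => tt a ω.1 u ω.2 := by
  have h := measurable_tt (V := V) a
  exact h.comp (measurable_fst.prodMk (measurable_const.prodMk measurable_snd))

theorem integral_Pu {a : ℝ} (u : Arr V) {F : Arr V → ℝ} (hF : Measurable F) :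
    ∫ t, F t ∂(Pu μ a u) = ∫ ω, F (tt a ω.1 u ω.2) ∂(μ.prod (PP (V × ℕ))) := by
  unfold Pu
  exact integral_map (measurable_tt_fixed a u).aemeasurable hF.aestronglyMeasurable

theorem abs_integral_Pu_le {a : ℝ} (u : Arr V) {F : Arr V → ℝ} {C : ℝ} (hC : ∀ p, |F p| ≤ C) :
    |∫ t, F t ∂(Pu μ a u)| ≤ C := by
  have := isProbabilityMeasure_Pu (μ := μ) a u
  have h := norm_integral_le_of_norm_le_const (μ := Pu μ a u) (f := F) (C := C)
    (Eventually.of_forall hC)
  simpa using h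

theorem tendsto_PT {a : ℝ} {F : ℕ → Arr V × Arr V → ℝ} {F' : Arr V × Arr V → ℝ} {C : ℝ}
    (hF : ∀ n, Measurable (F n)) (hF' : Measurable F') (hC : ∀ n p, |F n p| ≤ C)
    (hC' : ∀ p, |F' p| ≤ C)
    (hlim : ∀ u : Arr V, ∀ᵐ ω ∂(μ.prod (PP (V × ℕ))),
      Tendsto (fun n => F n (u, tt a ω.1 u ω.2)) atTop (𝓝 (F' (u, tt a ω.1 u ω.2)))) :
    Tendsto (fun n => ∫ p, F n p ∂(PT μ a)) atTop (𝓝 (∫ p, F' p ∂(PT μ a))) := by
  simp only [integral_PT (hF _) (hC _), integral_PT hF' hC']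
  refine tendsto_integral_of_dominated_convergence (fun _ => C)
    (fun n => aesm_Pu (hF n) (hC n)) (integrable_const C) (fun n => ?_) ?_
  · exact Eventually.of_forall fun u => abs_integral_Pu_le u fun t => hC n (u, t)
  · refine Eventually.of_forall fun u => ?_
    have h1 : ∀ n, ∫ t, F n (u, t) ∂(Pu μ a u) =
        ∫ ω, F n (u, tt a ω.1 u ω.2) ∂(μ.prod (PP (V × ℕ))) := fun n =>
      integral_Pu u (F := fun t => F n (u, t)) ((hF n).comp measurable_prodMk_left)
    have h2 : ∫ t, F' (u, t) ∂(Pu μ a u) =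
        ∫ ω, F' (u, tt a ω.1 u ω.2) ∂(μ.prod (PP (V × ℕ))) :=
      integral_Pu u (F := fun t => F' (u, t)) (hF'.comp measurable_prodMk_left)
    simp only [h1, h2]
    refine tendsto_integral_of_dominated_convergence (fun _ => C) (fun n => ?_)
      (integrable_const C) (fun n => Eventually.of_forall fun ω => hC n _) (hlim u)
    exact (((hF n).comp measurable_prodMk_left).comp (measurable_tt_fixed a u)).aestronglyMeasurable

end disint

/-! ### masks -/

open Classical in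
/-- masked array -/
noncomputable def msk (R : Set (V × ℕ)) (w : V × ℕ → ℝ) : V × ℕ → ℝ :=
  fun e => if e ∈ R then w e else 0

theorem M_msk [G.LocallyFinite] (hc : G.Connected) (R : Set (V × ℕ)) (o : V) (w : V × ℕ → ℝ) :
    M G μ Set.univ o (msk R w) = M G μ R o w := by
  have h := EI_mask hc μ Set.univ R o (sp o) w
  rw [Set.univ_inter] at h
  exact h

theorem Cv_msk [G.LocallyFinite] (hc : G.Connected) (R : Set (V × ℕ)) (o x : V)
    (w : V × ℕ → ℝ) : Cv G μ Set.univ o x (msk R w) = Cv G μ R o x w := by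
  have h := EI_mask hc μ Set.univ R o (sp2 o x) w
  rw [Set.univ_inter] at h
  unfold Cv
  rw [M_msk hc, M_msk hc]
  exact congrArg (fun z => z - M G μ R o w * M G μ R x w) h

theorem measurable_wf_apply (a : ℝ) (e : V × ℕ) :
    Measurable fun p : Arr V × Arr V => wf a p.1 p.2 e := by
  unfold wf
  have h1 : Measurable fun p : Arr V × Arr V => ((p.1 e : unitInterval) : ℝ) :=
    measurable_subtype_coe.comp ((measurable_pi_apply e).comp measurable_fst)
  have h2 : Measurable fun p : Arr V × Arr V => ((p.2 e : unitInterval) : ℝ) :=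
    measurable_subtype_coe.comp ((measurable_pi_apply e).comp measurable_snd)
  exact ((measurable_str a e.2).comp h1).mul ((h2.const_mul 2).sub_const 1)

theorem measurable_tau (e : V × ℕ) : Measurable fun u : Arr V => tau u e := by
  unfold tau
  exact (measurable_subtype_coe.comp (measurable_pi_apply e)).const_add _

theorem measurable_msk (a : ℝ) {m : Arr V → Set (V × ℕ)}
    (hm : ∀ e, MeasurableSet {u | e ∈ m u}) :
    Measurable fun p : Arr V × Arr V => msk (m p.1) (wf a p.1 p.2) := by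
  classical
  refine measurable_pi_lambda _ fun e => ?_
  unfold msk
  exact Measurable.ite (measurable_fst (hm e)) (measurable_wf_apply a e) measurable_const

theorem measurable_M_mask [G.LocallyFinite] (hc : G.Connected) [IsProbabilityMeasure μ] (a : ℝ)
    {m : Arr V → Set (V × ℕ)} (hm : ∀ e, MeasurableSet {u | e ∈ m u}) (o : V) :
    Measurable fun p : Arr V × Arr V => M G μ (m p.1) o (wf a p.1 p.2) := by
  have h := (measurable_M G μ Set.univ o).comp (measurable_msk a hm)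
  have e : (fun p : Arr V × Arr V => M G μ (m p.1) o (wf a p.1 p.2)) =
      M G μ Set.univ o ∘ fun p : Arr V × Arr V => msk (m p.1) (wf a p.1 p.2) := by
    funext p
    exact (M_msk hc _ _ _).symm
  rw [e]
  exact h

theorem measurable_Cv_mask [G.LocallyFinite] (hc : G.Connected) [IsProbabilityMeasure μ] (a : ℝ)
    {m : Arr V → Set (V × ℕ)} (hm : ∀ e, MeasurableSet {u | e ∈ m u}) (o x : V) :
    Measurable fun p : Arr V × Arr V => Cv G μ (m p.1) o x (wf a p.1 p.2) := by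
  have h := (measurable_Cv G μ Set.univ o x).comp (measurable_msk a hm)
  have e : (fun p : Arr V × Arr V => Cv G μ (m p.1) o x (wf a p.1 p.2)) =
      Cv G μ Set.univ o x ∘ fun p : Arr V × Arr V => msk (m p.1) (wf a p.1 p.2) := by
    funext p
    exact (Cv_msk hc _ _ _ _).symm
  rw [e]
  exact h

/-- the jump given the events of `R` -/
noncomputable def JR (G : SimpleGraph V) (μ : Measure (V → Bool)) (R : Set (V × ℕ)) (o : V)
    (e : V × ℕ) (w : V × ℕ → ℝ) : ℝ :=
  Cv G μ R o e.1 w * w e / (1 + M G μ R e.1 w * w e)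

theorem measurable_JR_mask [G.LocallyFinite] (hc : G.Connected) [IsProbabilityMeasure μ] (a : ℝ)
    {m : Arr V → Set (V × ℕ)} (hm : ∀ e, MeasurableSet {u | e ∈ m u}) (o : V) (e : V × ℕ) :
    Measurable fun p : Arr V × Arr V => JR G μ (m p.1) o e (wf a p.1 p.2) := by
  unfold JR
  exact ((measurable_Cv_mask hc a hm o e.1).mul (measurable_wf_apply a e)).div
    (((measurable_M_mask hc a hm e.1).mul (measurable_wf_apply a e)).const_add 1)

theorem den_pos [G.LocallyFinite] [IsProbabilityMeasure μ] {a : ℝ} (ha : 0 ≤ a) (ha1 : a < 1)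
    (R : Set (V × ℕ)) (u t : Arr V) (e : V × ℕ) (v : V) :
    1 - a ≤ 1 + M G μ R v (wf a u t) * wf a u t e := by
  have h1 := abs_M_le ha ha1 μ (abs_wf_le ha u t) R (G := G) v
  have h2 := abs_wf_le ha u t e
  have h3 : |M G μ R v (wf a u t) * wf a u t e| ≤ a := by
    rw [abs_mul]
    calc |M G μ R v (wf a u t)| * |wf a u t e| ≤ 1 * a :=
          mul_le_mul h1 h2 (abs_nonneg _) zero_le_one
      _ = a := one_mul a
  have := (abs_le.1 h3).1
  linarith

theorem abs_JR_le [G.LocallyFinite] [IsProbabilityMeasure μ] {a : ℝ} (ha : 0 ≤ a) (ha1 : a < 1)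
    (R : Set (V × ℕ)) (o : V) (u t : Arr V) (e : V × ℕ) :
    |JR G μ R o e (wf a u t)| ≤ a / (1 - a) * |Cv G μ R o e.1 (wf a u t)| := by
  have h1 := den_pos (G := G) (μ := μ) ha ha1 R u t e e.1
  have h2 := abs_wf_le ha u t e
  have h3 : 0 < 1 - a := by linarith
  unfold JR
  rw [abs_div, abs_mul, abs_of_pos (h3.trans_le h1), div_le_iff₀ (h3.trans_le h1)]
  have h4 : a / (1 - a) * |Cv G μ R o e.1 (wf a u t)| * (1 - a) =
      |Cv G μ R o e.1 (wf a u t)| * a := by
    field_simp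
  calc |Cv G μ R o e.1 (wf a u t)| * |wf a u t e| ≤ |Cv G μ R o e.1 (wf a u t)| * a := by
        gcongr
    _ = a / (1 - a) * |Cv G μ R o e.1 (wf a u t)| * (1 - a) := h4.symm
    _ ≤ a / (1 - a) * |Cv G μ R o e.1 (wf a u t)| *
        (1 + M G μ R e.1 (wf a u t) * wf a u t e) := by
        gcongr

theorem abs_JR_le' [G.LocallyFinite] [IsProbabilityMeasure μ] {a : ℝ} (ha : 0 ≤ a) (ha1 : a < 1)
    (R : Set (V × ℕ)) (o : V) (u t : Arr V) (e : V × ℕ) :
    |JR G μ R o e (wf a u t)| ≤ a / (1 - a) * 2 := by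
  have h3 : 0 < 1 - a := by linarith
  refine (abs_JR_le ha ha1 R o u t e).trans ?_
  have := abs_Cv_le ha ha1 μ (abs_wf_le ha u t) R (G := G) o e.1
  gcongr

theorem JR_sq_le [G.LocallyFinite] [IsProbabilityMeasure μ] {a : ℝ} (ha : 0 ≤ a) (ha1 : a < 1)
    (R : Set (V × ℕ)) (o : V) (u t : Arr V) (e : V × ℕ) :
    JR G μ R o e (wf a u t) ^ 2 ≤ (a / (1 - a)) ^ 2 * Cv G μ R o e.1 (wf a u t) ^ 2 := by
  have h := abs_JR_le (G := G) (μ := μ) ha ha1 R o u t e
  rw [← sq_abs, ← sq_abs (Cv G μ R o e.1 (wf a u t)), ← mul_pow]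
  exact pow_le_pow_left₀ (abs_nonneg _) h 2

/-- the jump in terms of `JR` -/
theorem Jp_eq_JR [G.LocallyFinite] (hc : G.Connected) (a : ℝ) (o : V) (u t : Arr V)
    (e : V × ℕ) : Jp G μ a o u t e = JR G μ {f | tau u f < tau u e} o e (wf a u t) := by
  unfold Jp Me JR
  rw [Cv_ws hc, M_ws hc, Set.univ_inter]

/-- convergence along increasing sets of events, fixed labels -/
theorem tendsto_M_sets [G.LocallyFinite] (hc : G.Connected) [Countable V]
    [IsProbabilityMeasure μ] {a : ℝ} (ha : 0 ≤ a) (ha1 : a < 1) (u : Arr V)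
    (R : ℕ → Set (V × ℕ)) (hR : Monotone R) (o : V) {f : (V → Bool) → ℝ} (hf : Measurable f)
    (hfC : ∃ C, ∀ σ, |f σ| ≤ C) :
    ∀ᵐ ω ∂(μ.prod (PP (V × ℕ))), Tendsto
      (fun n => EI G μ (R n) o f (wf a u (tt a ω.1 u ω.2))) atTop
      (𝓝 (EI G μ (⋃ n, R n) o f (wf a u (tt a ω.1 u ω.2)))) :=
  Obs.tendsto_sets hc (obs_fixed (μ := μ) ha ha1 u) R hR o hf hfC

theorem tendsto_JR_sets [G.LocallyFinite] (hc : G.Connected) [Countable V]
    [IsProbabilityMeasure μ] {a : ℝ} (ha : 0 ≤ a) (ha1 : a < 1) (u : Arr V)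
    (R : ℕ → Set (V × ℕ)) (hR : Monotone R) (o : V) (e : V × ℕ) :
    ∀ᵐ ω ∂(μ.prod (PP (V × ℕ))), Tendsto
      (fun n => JR G μ (R n) o e (wf a u (tt a ω.1 u ω.2))) atTop
      (𝓝 (JR G μ (⋃ n, R n) o e (wf a u (tt a ω.1 u ω.2)))) := by
  have h1 := tendsto_M_sets (μ := μ) hc ha ha1 u R hR o (measurable_sp2 o e.1)
    ⟨1, abs_sp2 o e.1⟩
  have h2 := tendsto_M_sets (μ := μ) hc ha ha1 u R hR o (measurable_sp o) ⟨1, abs_sp o⟩
  have h3 := tendsto_M_sets (μ := μ) hc ha ha1 u R hR e.1 (measurable_sp e.1) ⟨1, abs_sp e.1⟩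
  filter_upwards [h1, h2, h3] with ω k1 k2 k3
  unfold JR Cv M
  refine Tendsto.div ?_ ?_ ?_
  · exact (k1.sub (k2.mul k3)).mul_const _
  · exact (k3.mul_const _).const_add 1
  · have := den_pos (G := G) (μ := μ) ha ha1 (⋃ n, R n) u (tt a ω.1 u ω.2) e e.1
    have h4 : 0 < 1 - a := by linarith
    exact (h4.trans_le this).ne'

/-! ### the finite energy identity with labels -/

/-- the events before `x0` and those of `Λ` between `x0` and `x` -/
def As (Λ : Finset (V × ℕ)) (x0 x : ℝ) (u : Arr V) : Set (V × ℕ) :=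
  {f | tau u f < x0} ∪ {f | f ∈ Λ ∧ x0 ≤ tau u f ∧ tau u f < x}

theorem measurable_As (Λ : Finset (V × ℕ)) (x0 : ℝ) {y : Arr V → ℝ} (hy : Measurable y)
    (e : V × ℕ) : MeasurableSet {u : Arr V | e ∈ As Λ x0 (y u) u} := by
  have h1 : MeasurableSet {u : Arr V | tau u e < x0} :=
    measurableSet_lt (measurable_tau e) measurable_const
  have h2 : MeasurableSet {u : Arr V | x0 ≤ tau u e} :=
    measurableSet_le measurable_const (measurable_tau e)
  have h3 : MeasurableSet {u : Arr V | tau u e < y u} :=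
    measurableSet_lt (measurable_tau e) hy
  by_cases he : e ∈ Λ
  · have : {u : Arr V | e ∈ As Λ x0 (y u) u} =
        {u : Arr V | tau u e < x0} ∪ ({u : Arr V | x0 ≤ tau u e} ∩ {u : Arr V | tau u e < y u}) := by
      ext u
      simp [As, he]
    rw [this]
    exact h1.union (h2.inter h3)
  · have : {u : Arr V | e ∈ As Λ x0 (y u) u} = {u : Arr V | tau u e < x0} := by
      ext u
      simp [As, he]
    rw [this]
    exact h1

theorem measurable_before (y : Arr V → ℝ) (hy : Measurable y) (e : V × ℕ) :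
    MeasurableSet {u : Arr V | e ∈ {f : V × ℕ | tau u f < y u}} :=
  measurableSet_lt (measurable_tau e) hy

open Classical in
/-- the averaged squared jumps at level `Λ` -/
noncomputable def TL (G : SimpleGraph V) (μ : Measure (V → Bool)) (a : ℝ) (o : V) (x0 x : ℝ)
    (Λ : Finset (V × ℕ)) (e : V × ℕ) : ℝ :=
  ∫ p, (if x0 ≤ tau p.1 e ∧ tau p.1 e < x then
    JR G μ (As Λ x0 (tau p.1 e) p.1) o e (wf a p.1 p.2) ^ 2 else 0) ∂(PT μ a)

theorem measurable_cond (x0 x : ℝ) (e : V × ℕ) :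
    MeasurableSet {p : Arr V × Arr V | x0 ≤ tau p.1 e ∧ tau p.1 e < x} :=
  (measurableSet_le measurable_const ((measurable_tau e).comp measurable_fst)).inter
    (measurableSet_lt ((measurable_tau e).comp measurable_fst) measurable_const)

open Classical in
theorem measurable_TLf [G.LocallyFinite] (hc : G.Connected) [IsProbabilityMeasure μ] (a : ℝ)
    (o : V) (x0 x : ℝ) (Λ : Finset (V × ℕ)) (e : V × ℕ) :
    Measurable fun p : Arr V × Arr V => (if x0 ≤ tau p.1 e ∧ tau p.1 e < x then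
      JR G μ (As Λ x0 (tau p.1 e) p.1) o e (wf a p.1 p.2) ^ 2 else 0) :=
  Measurable.ite (measurable_cond x0 x e)
    ((measurable_JR_mask hc a (m := fun u => As Λ x0 (tau u e) u)
      (fun f => measurable_As Λ x0 (measurable_tau e) f) o e).pow_const 2) measurable_const

theorem sq_JR_le [G.LocallyFinite] [IsProbabilityMeasure μ] {a : ℝ} (ha : 0 ≤ a) (ha1 : a < 1)
    (R : Set (V × ℕ)) (o : V) (u t : Arr V) (e : V × ℕ) :
    |JR G μ R o e (wf a u t) ^ 2| ≤ (a / (1 - a) * 2) ^ 2 := by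
  rw [abs_pow]
  exact pow_le_pow_left₀ (abs_nonneg _) (abs_JR_le' ha ha1 R o u t e) 2

theorem sq_M_le [G.LocallyFinite] [IsProbabilityMeasure μ] {a : ℝ} (ha : 0 ≤ a) (ha1 : a < 1)
    (R : Set (V × ℕ)) (o : V) (u t : Arr V) :
    |M G μ R o (wf a u t) ^ 2| ≤ 1 := by
  rw [abs_pow]
  exact pow_le_one₀ (abs_nonneg _) (abs_M_le ha ha1 μ (abs_wf_le ha u t) R o)

open Classical in
theorem abs_TLf_le [G.LocallyFinite] [IsProbabilityMeasure μ] {a : ℝ} (ha : 0 ≤ a) (ha1 : a < 1)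
    (o : V) (x0 x : ℝ) (Λ : Finset (V × ℕ)) (e : V × ℕ) (p : Arr V × Arr V) :
    |(if x0 ≤ tau p.1 e ∧ tau p.1 e < x then
      JR G μ (As Λ x0 (tau p.1 e) p.1) o e (wf a p.1 p.2) ^ 2 else 0)| ≤
      (a / (1 - a) * 2) ^ 2 := by
  split_ifs
  · exact sq_JR_le ha ha1 _ o _ _ e
  · rw [abs_zero]
    positivity

theorem energy_level [G.LocallyFinite] {d : ℕ} {β : ℝ} (hE : Env G d β μ) {a : ℝ} (ha : 0 ≤ a)
    (ha1 : a < 1) (o : V) (x0 x : ℝ) (Λ : Finset (V × ℕ)) :
    ∫ p, M G μ (As Λ x0 x p.1) o (wf a p.1 p.2) ^ 2 ∂(PT μ a) =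
      (∫ p, M G μ {f | tau p.1 f < x0} o (wf a p.1 p.2) ^ 2 ∂(PT μ a)) +
      ∑ e ∈ Λ, TL G μ a o x0 x Λ e := by
  classical
  have := hE.prob
  have := hE.countable
  have hc := hE.tree.connected
  have m1 : Measurable fun p : Arr V × Arr V => M G μ (As Λ x0 x p.1) o (wf a p.1 p.2) ^ 2 :=
    (measurable_M_mask hc a (m := fun u => As Λ x0 x u)
      (fun f => measurable_As Λ x0 measurable_const f) o).pow_const 2
  have m2 : Measurable fun p : Arr V × Arr V =>
      M G μ {f | tau p.1 f < x0} o (wf a p.1 p.2) ^ 2 :=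
    (measurable_M_mask hc a (m := fun u => {f | tau u f < x0})
      (fun f => measurable_before (fun _ => x0) measurable_const f) o).pow_const 2
  have b1 : ∀ p : Arr V × Arr V, |M G μ (As Λ x0 x p.1) o (wf a p.1 p.2) ^ 2| ≤ 1 :=
    fun p => sq_M_le ha ha1 _ o _ _
  have b2 : ∀ p : Arr V × Arr V, |M G μ {f | tau p.1 f < x0} o (wf a p.1 p.2) ^ 2| ≤ 1 :=
    fun p => sq_M_le ha ha1 _ o _ _
  unfold TL
  rw [← integral_finsetSum _ fun e _ => integrable_PT (measurable_TLf hc a o x0 x Λ e)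
    (abs_TLf_le ha ha1 o x0 x Λ e), ← integral_add (integrable_PT m2 b2)
    (integrable_finsetSum _ fun e _ => integrable_PT (measurable_TLf hc a o x0 x Λ e)
      (abs_TLf_le ha ha1 o x0 x Λ e))]
  have m3 : Measurable fun p : Arr V × Arr V => M G μ {f | tau p.1 f < x0} o (wf a p.1 p.2) ^ 2 +
      ∑ e ∈ Λ, (if x0 ≤ tau p.1 e ∧ tau p.1 e < x then
        JR G μ (As Λ x0 (tau p.1 e) p.1) o e (wf a p.1 p.2) ^ 2 else 0) :=
    m2.add (Finset.measurable_sum _ fun e _ => measurable_TLf hc a o x0 x Λ e)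
  have b3 : ∀ p : Arr V × Arr V, |M G μ {f | tau p.1 f < x0} o (wf a p.1 p.2) ^ 2 +
      ∑ e ∈ Λ, (if x0 ≤ tau p.1 e ∧ tau p.1 e < x then
        JR G μ (As Λ x0 (tau p.1 e) p.1) o e (wf a p.1 p.2) ^ 2 else 0)| ≤
      1 + ∑ e ∈ Λ, (a / (1 - a) * 2) ^ 2 := by
    intro p
    refine (abs_add_le _ _).trans (add_le_add (b2 p) ?_)
    refine (Finset.abs_sum_le_sum_abs _ _).trans (Finset.sum_le_sum fun e _ => ?_)
    exact abs_TLf_le ha ha1 o x0 x Λ e p
  rw [integral_PT m1 b1, integral_PT m3 b3]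
  refine integral_congr_ae ?_
  filter_upwards [ae_tau_injective (V := V)] with u hu
  have hfin := Pu_energy_fin (μ := μ) hE ha ha1 hu {f | tau u f < x0}
    (Λ.filter fun f => x0 ≤ tau u f ∧ tau u f < x) (fun e he h => by
      have h1 := (Finset.mem_filter.1 he).2.1
      have h2 : tau u e < x0 := h
      linarith) o
  have e1 : {f | tau u f < x0} ∪ ↑(Λ.filter fun f => x0 ≤ tau u f ∧ tau u f < x) =
      As Λ x0 x u := by
    ext f
    simp [As]
  rw [e1] at hfin
  have hprob := isProbabilityMeasure_Pu (μ := μ) a u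
  have hint : ∀ e ∈ Λ, Integrable (fun t => (if x0 ≤ tau u e ∧ tau u e < x then
        JR G μ (As Λ x0 (tau u e) u) o e (wf a u t) ^ 2 else 0)) (Pu μ a u) := by
    intro e _
    refine Integrable.of_bound (C := (a / (1 - a) * 2) ^ 2) ?_
      (Eventually.of_forall fun t => abs_TLf_le ha ha1 o x0 x Λ e (u, t))
    exact ((measurable_TLf hc a o x0 x Λ e).comp measurable_prodMk_left).aestronglyMeasurable
  have hint0 : Integrable (fun t => M G μ {f | tau u f < x0} o (wf a u t) ^ 2) (Pu μ a u) := by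
    refine Integrable.of_bound (C := 1) ?_ (Eventually.of_forall fun t => b2 (u, t))
    exact (m2.comp measurable_prodMk_left).aestronglyMeasurable
  change ∫ t, M G μ (As Λ x0 x u) o (wf a u t) ^ 2 ∂(Pu μ a u) =
    ∫ t, (M G μ {f | tau u f < x0} o (wf a u t) ^ 2 +
      ∑ e ∈ Λ, (if x0 ≤ tau u e ∧ tau u e < x then
        JR G μ (As Λ x0 (tau u e) u) o e (wf a u t) ^ 2 else 0)) ∂(Pu μ a u)
  rw [integral_add hint0 (integrable_finsetSum _ hint), integral_finsetSum _ hint, hfin,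
    Finset.sum_filter]
  congr 1
  refine Finset.sum_congr rfl fun e he => ?_
  split_ifs with hcond
  · have e2 : {f | tau u f < x0} ∪ {f | f ∈ Λ.filter (fun f => x0 ≤ tau u f ∧ tau u f < x) ∧
        tau u f < tau u e} = As Λ x0 (tau u e) u := by
      ext f
      simp only [As, Set.mem_union, Set.mem_ofPred_eq, Finset.mem_filter]
      constructor
      · rintro (h | ⟨⟨h1, h2, _⟩, h4⟩)
        · exact Or.inl h
        · exact Or.inr ⟨h1, h2, h4⟩
      · rintro (h | ⟨h1, h2, h3⟩)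
        · exact Or.inl h
        · exact Or.inr ⟨⟨h1, h2, h3.trans hcond.2⟩, h3⟩
    rw [e2]
    rfl
  · simp

/-! ### the limit over `Λ` -/

theorem mem_lam [G.LocallyFinite] (hc : G.Connected) (o : V) {n : ℕ} {e : V × ℕ} :
    e ∈ bev G Set.univ o n ↔ G.dist o e.1 ≤ n ∧ e.2 < n := by
  rw [mem_bev hc]
  simp

theorem As_mono [G.LocallyFinite] (hc : G.Connected) (o : V) (x0 x : ℝ) (u : Arr V) :
    Monotone fun n => As (bev G Set.univ o n) x0 x u := by
  intro m n hmn f hf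
  rcases hf with hf | ⟨h1, h2⟩
  · exact Or.inl hf
  · exact Or.inr ⟨bev_mono hc _ _ hmn h1, h2⟩

theorem iUnion_As [G.LocallyFinite] (hc : G.Connected) (o : V) {x0 x : ℝ} (hx : x0 ≤ x)
    (u : Arr V) : ⋃ n, As (bev G Set.univ o n) x0 x u = {f | tau u f < x} := by
  ext f
  simp only [As, Set.mem_iUnion, Set.mem_union, Set.mem_ofPred_eq]
  constructor
  · rintro ⟨n, h | ⟨_, _, h⟩⟩
    · exact h.trans_le hx
    · exact h
  · intro h
    rcases lt_or_ge (tau u f) x0 with h1 | h1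
    · exact ⟨0, Or.inl h1⟩
    · refine ⟨max (G.dist o f.1) (f.2 + 1), Or.inr ⟨?_, h1, h⟩⟩
      rw [mem_lam hc]
      exact ⟨le_max_left _ _, lt_of_lt_of_le (Nat.lt_succ_self _) (le_max_right _ _)⟩

theorem tendsto_left [G.LocallyFinite] {d : ℕ} {β : ℝ} (hE : Env G d β μ) {a : ℝ} (ha : 0 ≤ a)
    (ha1 : a < 1) (o : V) {x0 x : ℝ} (hx : x0 ≤ x) :
    Tendsto (fun n => ∫ p, M G μ (As (bev G Set.univ o n) x0 x p.1) o (wf a p.1 p.2) ^ 2
      ∂(PT μ a)) atTop (𝓝 (∫ p, M G μ {f | tau p.1 f < x} o (wf a p.1 p.2) ^ 2 ∂(PT μ a))) := by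
  have := hE.prob
  have := hE.countable
  have hc := hE.tree.connected
  refine tendsto_PT (C := 1)
    (F := fun n p => M G μ (As (bev G Set.univ o n) x0 x p.1) o (wf a p.1 p.2) ^ 2)
    (F' := fun p => M G μ {f | tau p.1 f < x} o (wf a p.1 p.2) ^ 2)
    (fun n => ?_) ?_ (fun n p => sq_M_le ha ha1 _ o _ _) (fun p => sq_M_le ha ha1 _ o _ _) ?_
  · exact (measurable_M_mask hc a (m := fun u => As (bev G Set.univ o n) x0 x u)
      (fun f => measurable_As _ x0 measurable_const f) o).pow_const 2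
  · exact (measurable_M_mask hc a (m := fun u => {f | tau u f < x})
      (fun f => measurable_before (fun _ => x) measurable_const f) o).pow_const 2
  · intro u
    have h := tendsto_M_sets (μ := μ) hc ha ha1 u _ (As_mono hc o x0 x u) o (measurable_sp o)
      ⟨1, abs_sp o⟩
    rw [iUnion_As hc o hx u] at h
    filter_upwards [h] with ω hω
    exact hω.pow 2

theorem tendsto_TL [G.LocallyFinite] {d : ℕ} {β : ℝ} (hE : Env G d β μ) {a : ℝ} (ha : 0 ≤ a)
    (ha1 : a < 1) (o : V) (x0 x : ℝ) (e : V × ℕ) :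
    Tendsto (fun n => TL G μ a o x0 x (bev G Set.univ o n) e) atTop
      (𝓝 (∫ p, (if x0 ≤ tau p.1 e ∧ tau p.1 e < x then Jp G μ a o p.1 p.2 e ^ 2 else 0)
        ∂(PT μ a))) := by
  classical
  have := hE.prob
  have := hE.countable
  have hc := hE.tree.connected
  have hb : ∀ p : Arr V × Arr V, |(if x0 ≤ tau p.1 e ∧ tau p.1 e < x then
      Jp G μ a o p.1 p.2 e ^ 2 else 0)| ≤ (a / (1 - a) * 2) ^ 2 := by
    intro p
    split_ifs
    · rw [Jp_eq_JR hc]
      exact sq_JR_le ha ha1 _ o _ _ e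
    · rw [abs_zero]
      positivity
  refine tendsto_PT (C := (a / (1 - a) * 2) ^ 2)
    (F := fun n p => (if x0 ≤ tau p.1 e ∧ tau p.1 e < x then
      JR G μ (As (bev G Set.univ o n) x0 (tau p.1 e) p.1) o e (wf a p.1 p.2) ^ 2 else 0))
    (F' := fun p => (if x0 ≤ tau p.1 e ∧ tau p.1 e < x then Jp G μ a o p.1 p.2 e ^ 2 else 0))
    (fun n => measurable_TLf hc a o x0 x _ e)
    (Measurable.ite (measurable_cond x0 x e) ((measurable_Jp G a o e).pow_const 2)
      measurable_const)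
    (fun n p => abs_TLf_le ha ha1 o x0 x _ e p) hb ?_
  intro u
  by_cases hcond : x0 ≤ tau u e ∧ tau u e < x
  · have h := tendsto_JR_sets (μ := μ) hc ha ha1 u _ (As_mono hc o x0 (tau u e) u) o e
    rw [iUnion_As hc o hcond.1 u] at h
    filter_upwards [h] with ω hω
    simp only [if_pos hcond]
    rw [Jp_eq_JR hc]
    exact hω.pow 2
  · refine Eventually.of_forall fun ω => ?_
    simp only [if_neg hcond]
    exact tendsto_const_nhds

theorem TL_nonneg (G : SimpleGraph V) (μ : Measure (V → Bool)) (a : ℝ) (o : V) (x0 x : ℝ)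
    (Λ : Finset (V × ℕ)) (e : V × ℕ) : 0 ≤ TL G μ a o x0 x Λ e := by
  unfold TL
  refine integral_nonneg fun p => ?_
  simp only [Pi.zero_apply]
  split_ifs
  · positivity
  · exact le_rfl

theorem TL_le [G.LocallyFinite] {d : ℕ} {β : ℝ} (hE : Env G d β μ) {a : ℝ} (ha : 0 ≤ a)
    (ha1 : a < 1) (o : V) {x0 x : ℝ} {J : ℕ} (hJ : x ≤ J) (q0 : ℝ) (hq0 : 0 ≤ q0)
    (hq : ∀ p p', G.Adj p p' → q0 ≤ qx G μ a p p' x0)
    (Λ : Finset (V × ℕ)) (e : V × ℕ) :
    TL G μ a o x0 x Λ e ≤ (Real.tanh β ^ 2 *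
      (1 - (1 - Real.tanh β ^ 2) * Real.tanh β ^ 2 * q0)) ^ G.dist o e.1 *
        (if e.2 < J then (a / (1 - a)) ^ 2 else 0) := by
  classical
  have := hE.prob
  have := hE.countable
  have hc := hE.tree.connected
  have h1a : 0 < 1 - a := by linarith
  by_cases hJe : e.2 < J
  · rw [if_pos hJe]
    have hdec := turned_on_decay hE ha ha1 (x0 := x0) q0 hq0 hq Λ o e
    have mCv : Measurable fun p : Arr V × Arr V =>
        Cv G μ (As Λ x0 (tau p.1 e) p.1) o e.1 (wf a p.1 p.2) :=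
      measurable_Cv_mask hc a (m := fun u => As Λ x0 (tau u e) u)
        (fun f => measurable_As Λ x0 (measurable_tau e) f) o e.1
    have m1 : Measurable fun p : Arr V × Arr V => (if x0 ≤ tau p.1 e then
        Cv G μ (As Λ x0 (tau p.1 e) p.1) o e.1 (wf a p.1 p.2) ^ 2 else 0) :=
      Measurable.ite (measurableSet_le measurable_const ((measurable_tau e).comp measurable_fst))
        (mCv.pow_const 2) measurable_const
    have b1 : ∀ p : Arr V × Arr V, |(if x0 ≤ tau p.1 e then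
        Cv G μ (As Λ x0 (tau p.1 e) p.1) o e.1 (wf a p.1 p.2) ^ 2 else 0)| ≤ 4 := by
      intro p
      split_ifs
      · rw [abs_pow]
        have h := abs_Cv_le ha ha1 μ (abs_wf_le ha p.1 p.2)
          (As Λ x0 (tau p.1 e) p.1) (G := G) o e.1
        calc |Cv G μ (As Λ x0 (tau p.1 e) p.1) o e.1 (wf a p.1 p.2)| ^ 2 ≤ 2 ^ 2 :=
              pow_le_pow_left₀ (abs_nonneg _) h 2
          _ = 4 := by norm_num
      · rw [abs_zero]; norm_num
    calc TL G μ a o x0 x Λ e ≤ ∫ p, (a / (1 - a)) ^ 2 * (if x0 ≤ tau p.1 e then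
          Cv G μ (As Λ x0 (tau p.1 e) p.1) o e.1 (wf a p.1 p.2) ^ 2 else 0) ∂(PT μ a) := by
          unfold TL
          refine integral_mono (integrable_PT (measurable_TLf hc a o x0 x Λ e)
            (abs_TLf_le ha ha1 o x0 x Λ e)) ((integrable_PT m1 b1).const_mul _) fun p => ?_
          by_cases h1 : x0 ≤ tau p.1 e
          · by_cases h2 : tau p.1 e < x
            · simp only [if_pos h1, if_pos (And.intro h1 h2)]
              exact JR_sq_le ha ha1 _ o _ _ e
            · simp only [if_pos h1, if_neg (fun h : x0 ≤ tau p.1 e ∧ tau p.1 e < x => h2 h.2)]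
              positivity
          · simp only [if_neg h1, if_neg (fun h : x0 ≤ tau p.1 e ∧ tau p.1 e < x => h1 h.1)]
            simp
      _ = (a / (1 - a)) ^ 2 * ∫ p, (if x0 ≤ tau p.1 e then
          Cv G μ (As Λ x0 (tau p.1 e) p.1) o e.1 (wf a p.1 p.2) ^ 2 else 0) ∂(PT μ a) :=
          integral_const_mul _ _
      _ ≤ (a / (1 - a)) ^ 2 * ((Real.tanh β ^ 2) ^ G.dist o e.1 *
          (1 - (1 - Real.tanh β ^ 2) * Real.tanh β ^ 2 * q0) ^ G.dist o e.1) := by
          exact mul_le_mul_of_nonneg_left hdec (sq_nonneg _)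
      _ = _ := by rw [← mul_pow]; ring
  · rw [if_neg hJe, mul_zero]
    refine le_of_eq ?_
    unfold TL
    have h0 : ∀ p : Arr V × Arr V, (if x0 ≤ tau p.1 e ∧ tau p.1 e < x then
        JR G μ (As Λ x0 (tau p.1 e) p.1) o e (wf a p.1 p.2) ^ 2 else 0) = 0 := by
      intro p
      rw [if_neg]
      rintro ⟨_, h2⟩
      have h3 : (J : ℝ) ≤ e.2 := by exact_mod_cast not_lt.1 hJe
      have h4 : (0 : ℝ) ≤ (p.1 e : ℝ) := (p.1 e).2.1
      unfold tau at h2
      linarith
    simp only [h0, integral_zero]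

theorem sum_dist_le [G.LocallyFinite] {d : ℕ} {β : ℝ} (hE : Env G d β μ) {r : ℝ}
    (hr0 : 0 ≤ r) (hr1 : r < 1) :
    ∃ S : ℝ, ∀ (o : V) (A : Finset V), ∑ w ∈ A, (Real.tanh β ^ 2 * r) ^ G.dist o w ≤ S := by
  have h3 := hE.three
  have hs := hE.theta_sq
  have hr2 : 0 ≤ Real.tanh β ^ 2 * r := mul_nonneg (sq_nonneg _) hr0
  have hr3 : Real.tanh β ^ 2 * r * ((d : ℝ) - 1) < 1 := by
    calc Real.tanh β ^ 2 * r * ((d : ℝ) - 1) = (Real.tanh β ^ 2 * ((d : ℝ) - 1)) * r := by ring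
      _ = r := by rw [hs, one_mul]
      _ < 1 := hr1
  have h2 : 2 ≤ d := by omega
  exact sum_pow_dist_le hE.tree h2 hE.reg hr2 hr3

theorem summable_bound' {ρ : ℝ} (o : V) (hr2 : 0 ≤ ρ) (S : ℝ)
    (hS : ∀ (o : V) (A : Finset V), ∑ w ∈ A, ρ ^ G.dist o w ≤ S) (J : ℕ) (c : ℝ) (hc : 0 ≤ c) :
    Summable fun e : V × ℕ => ρ ^ G.dist o e.1 * (if e.2 < J then c else 0) := by
  have h0 : ∀ v : V, 0 ≤ ρ ^ G.dist o v := fun v => pow_nonneg hr2 _
  have h1 : Summable fun v : V => ρ ^ G.dist o v := summable_of_sum_le h0 (fun A => hS o A)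
  have h2 : Summable fun j : ℕ => (if j < J then c else 0) := by
    refine summable_of_ne_finset_zero (s := Finset.range J) fun j hj => ?_
    rw [if_neg]
    simpa using hj
  have h4 : ∀ j : ℕ, 0 ≤ (if j < J then c else 0) := by
    intro j
    split_ifs
    · exact hc
    · exact le_rfl
  have := Summable.mul_of_nonneg h1 h2 h0 h4
  exact this

theorem summable_bound [G.LocallyFinite] {d : ℕ} {β : ℝ} (hE : Env G d β μ) (o : V) {r : ℝ}
    (hr0 : 0 ≤ r) (hr1 : r < 1) (J : ℕ) (c : ℝ) (hc : 0 ≤ c) :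
    Summable fun e : V × ℕ => (Real.tanh β ^ 2 * r) ^ G.dist o e.1 *
      (if e.2 < J then c else 0) := by
  obtain ⟨S, hS⟩ := sum_dist_le hE hr0 hr1
  exact summable_bound' o (mul_nonneg (sq_nonneg _) hr0) S hS J c hc

theorem hasSum_x0 [G.LocallyFinite] {d : ℕ} {β : ℝ} (hE : Env G d β μ) {a : ℝ} (ha : 0 < a)
    (ha1 : a < 1) (o : V) {x0 x : ℝ} (h0 : 0 < x0) (hx : x0 ≤ x) :
    HasSum (fun e : V × ℕ => ∫ p, (if x0 ≤ tau p.1 e ∧ tau p.1 e < x then
        Jp G μ a o p.1 p.2 e ^ 2 else 0) ∂(PT μ a))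
      ((∫ p, M G μ Set.univ o (ws a p.1 p.2 x) ^ 2 ∂(PT μ a)) -
        ∫ p, M G μ Set.univ o (ws a p.1 p.2 x0) ^ 2 ∂(PT μ a)) := by
  classical
  have := hE.prob
  have := hE.countable
  have hc := hE.tree.connected
  obtain ⟨J, hJ⟩ := exists_nat_ge x
  obtain ⟨c, hc0, hcq⟩ := qx_lower hE ha ha1
  have hθ0 := hE.theta_pos
  have hθ1 := hE.theta_lt_one
  set q0 : ℝ := min 1 (c * (min x0 (1 / 2)) ^ ((3 : ℝ) / 2)) with hq0def
  have hq0 : 0 < q0 := by
    refine lt_min one_pos (mul_pos hc0 (Real.rpow_pos_of_pos (lt_min h0 (by norm_num)) _))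
  have hq01 : q0 ≤ 1 := min_le_left _ _
  have hq : ∀ p p', G.Adj p p' → q0 ≤ qx G μ a p p' x0 := fun p p' hp =>
    (min_le_right _ _).trans (hcq p p' hp x0 h0)
  have hκ0 : 0 < (1 - Real.tanh β ^ 2) * Real.tanh β ^ 2 := by
    have : Real.tanh β ^ 2 < 1 := by nlinarith
    have h2 : 0 < Real.tanh β ^ 2 := by positivity
    exact mul_pos (by linarith) h2
  have hκ1 : (1 - Real.tanh β ^ 2) * Real.tanh β ^ 2 ≤ 1 := by
    have : Real.tanh β ^ 2 < 1 := by nlinarith
    have h2 : 0 < Real.tanh β ^ 2 := by positivity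
    nlinarith
  set r : ℝ := 1 - (1 - Real.tanh β ^ 2) * Real.tanh β ^ 2 * q0 with hr
  have hr0 : 0 ≤ r := by
    rw [hr]
    nlinarith
  have hr1 : r < 1 := by
    rw [hr]
    have := mul_pos hκ0 hq0
    linarith
  have hbs := summable_bound hE o hr0 hr1 J ((a / (1 - a)) ^ 2) (by positivity)
  set bd : V × ℕ → ℝ := fun e => (Real.tanh β ^ 2 * r) ^ G.dist o e.1 *
      (if e.2 < J then (a / (1 - a)) ^ 2 else 0) with hbd
  set g : V × ℕ → ℝ := fun e => ∫ p, (if x0 ≤ tau p.1 e ∧ tau p.1 e < x then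
        Jp G μ a o p.1 p.2 e ^ 2 else 0) ∂(PT μ a) with hg
  have hTle : ∀ n e, TL G μ a o x0 x (bev G Set.univ o n) e ≤ bd e := fun n e =>
    TL_le hE ha.le ha1 o hJ q0 hq0.le hq _ e
  have hgle : ∀ e, g e ≤ bd e := fun e =>
    le_of_tendsto' (tendsto_TL hE ha.le ha1 o x0 x e) fun n => hTle n e
  have hg0 : ∀ e, 0 ≤ g e := fun e =>
    ge_of_tendsto' (tendsto_TL hE ha.le ha1 o x0 x e) fun n => TL_nonneg _ _ _ _ _ _ _ _
  have hgs : Summable g := Summable.of_nonneg_of_le hg0 hgle hbs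
  let F : ℕ → V × ℕ → ℝ := fun n e =>
    if e ∈ bev G Set.univ o n then TL G μ a o x0 x (bev G Set.univ o n) e else 0
  have hFt : ∀ e, Tendsto (fun n => F n e) atTop (𝓝 (g e)) := by
    intro e
    refine (tendsto_TL hE ha.le ha1 o x0 x e).congr' ?_
    filter_upwards [eventually_ge_atTop (max (G.dist o e.1) (e.2 + 1))] with n hn
    have hmem : e ∈ bev G Set.univ o n := by
      rw [mem_lam hc]
      exact ⟨(le_max_left _ _).trans hn,
        lt_of_lt_of_le (Nat.lt_succ_self _) ((le_max_right _ _).trans hn)⟩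
    change _ = if e ∈ bev G Set.univ o n then TL G μ a o x0 x (bev G Set.univ o n) e else 0
    rw [if_pos hmem]
  have hFb : ∀ n e, ‖F n e‖ ≤ bd e := by
    intro n e
    change ‖if e ∈ bev G Set.univ o n then TL G μ a o x0 x (bev G Set.univ o n) e else 0‖ ≤ bd e
    split_ifs
    · rw [Real.norm_of_nonneg (TL_nonneg _ _ _ _ _ _ _ _)]
      exact hTle n e
    · rw [norm_zero]
      exact (hg0 e).trans (hgle e)
  have htan := tendsto_tsum_of_dominated_convergence hbs hFt (Eventually.of_forall hFb)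
  have hFsum : ∀ n, ∑' e, F n e =
      (∫ p, M G μ (As (bev G Set.univ o n) x0 x p.1) o (wf a p.1 p.2) ^ 2 ∂(PT μ a)) -
      ∫ p, M G μ {f | tau p.1 f < x0} o (wf a p.1 p.2) ^ 2 ∂(PT μ a) := by
    intro n
    rw [energy_level hE ha.le ha1 o x0 x (bev G Set.univ o n), add_sub_cancel_left]
    rw [tsum_eq_sum (s := bev G Set.univ o n) (fun e he => if_neg he)]
    exact Finset.sum_congr rfl fun e he => if_pos he
  simp only [hFsum] at htan
  have hlim := (tendsto_left hE ha.le ha1 o hx).sub_const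
    (∫ p, M G μ {f | tau p.1 f < x0} o (wf a p.1 p.2) ^ 2 ∂(PT μ a))
  have heq := tendsto_nhds_unique htan hlim
  have hws : ∀ y : ℝ, ∫ p, M G μ Set.univ o (ws a p.1 p.2 y) ^ 2 ∂(PT μ a) =
      ∫ p, M G μ {f | tau p.1 f < y} o (wf a p.1 p.2) ^ 2 ∂(PT μ a) := by
    intro y
    congr 1
    funext p
    rw [M_ws hc, Set.univ_inter]
  rw [hws, hws, ← heq]
  exact hgs.hasSum

/-! ### the limit `x0 → 0` -/

theorem tau_nonneg (u : Arr V) (e : V × ℕ) : 0 ≤ tau u e := by
  unfold tau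
  have := (u e).2.1
  positivity

theorem Jp_eq_zero {a : ℝ} (o : V) (u t : Arr V) (e : V × ℕ) (h : tau u e = 0) :
    Jp G μ a o u t e = 0 := by
  unfold tau at h
  have h1 : (0 : ℝ) ≤ (u e : ℝ) := (u e).2.1
  have h2 : (0 : ℝ) ≤ (e.2 : ℝ) := Nat.cast_nonneg _
  have h3 : (e.2 : ℝ) = 0 := by linarith
  have h4 : (u e : ℝ) = 0 := by linarith
  have h5 : e.2 = 0 := by exact_mod_cast h3
  have h6 : wf a u t e = 0 := by
    unfold wf str
    rw [h4, h5]
    simp
  unfold Jp
  rw [h6]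
  simp

theorem abs_Jp_le [G.LocallyFinite] (hc : G.Connected) [IsProbabilityMeasure μ] {a : ℝ}
    (ha : 0 ≤ a) (ha1 : a < 1) (o : V) (u t : Arr V) (e : V × ℕ) :
    |Jp G μ a o u t e| ≤ a / (1 - a) * 2 := by
  rw [Jp_eq_JR hc]
  exact abs_JR_le' ha ha1 _ o u t e

theorem measurable_if_lt (x : ℝ) (e : V × ℕ) {F : Arr V × Arr V → ℝ} (hF : Measurable F) :
    Measurable fun p : Arr V × Arr V => (if tau p.1 e < x then F p else 0) :=
  Measurable.ite (measurableSet_lt ((measurable_tau e).comp measurable_fst) measurable_const) hF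
    measurable_const

theorem tendsto_x0 [G.LocallyFinite] {d : ℕ} {β : ℝ} (hE : Env G d β μ) {a : ℝ} (ha : 0 ≤ a)
    (ha1 : a < 1) (o : V) (x : ℝ) (e : V × ℕ) :
    Tendsto (fun n : ℕ => ∫ p, (if 1 / ((n : ℝ) + 1) ≤ tau p.1 e ∧ tau p.1 e < x then
        Jp G μ a o p.1 p.2 e ^ 2 else 0) ∂(PT μ a)) atTop
      (𝓝 (∫ p, (if tau p.1 e < x then Jp G μ a o p.1 p.2 e ^ 2 else 0) ∂(PT μ a))) := by
  have := hE.prob
  have := hE.countable
  have hc := hE.tree.connected
  have hsq : ∀ p : Arr V × Arr V, |Jp G μ a o p.1 p.2 e ^ 2| ≤ (a / (1 - a) * 2) ^ 2 := by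
    intro p
    rw [abs_pow]
    exact pow_le_pow_left₀ (abs_nonneg _) (abs_Jp_le hc ha ha1 o _ _ e) 2
  have hnn : (0 : ℝ) ≤ (a / (1 - a) * 2) ^ 2 := sq_nonneg _
  refine tendsto_PT (C := (a / (1 - a) * 2) ^ 2)
    (F := fun n p => (if 1 / ((n : ℝ) + 1) ≤ tau p.1 e ∧ tau p.1 e < x then
        Jp G μ a o p.1 p.2 e ^ 2 else 0))
    (F' := fun p => (if tau p.1 e < x then Jp G μ a o p.1 p.2 e ^ 2 else 0))
    (fun n => Measurable.ite (measurable_cond _ x e) ((measurable_Jp G a o e).pow_const 2)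
      measurable_const)
    (measurable_if_lt x e ((measurable_Jp G a o e).pow_const 2))
    (fun n p => ?_) (fun p => ?_) ?_
  · split_ifs
    · exact hsq p
    · rw [abs_zero]; exact hnn
  · split_ifs
    · exact hsq p
    · rw [abs_zero]; exact hnn
  · intro u
    refine Eventually.of_forall fun ω => ?_
    rcases (tau_nonneg u e).eq_or_lt with h0 | h0
    · have hz : Jp G μ a o u (tt a ω.1 u ω.2) e = 0 := Jp_eq_zero o u _ e h0.symm
      simp only [hz]
      simp
    · have hev : ∀ᶠ n : ℕ in atTop, 1 / ((n : ℝ) + 1) ≤ tau u e :=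
        (tendsto_one_div_add_atTop_nhds_zero_nat.eventually (gt_mem_nhds h0)).mono
          fun n hn => hn.le
      refine tendsto_const_nhds.congr' ?_
      filter_upwards [hev] with n hn
      simp only [hn, true_and]

theorem tendsto_M_zero [G.LocallyFinite] {d : ℕ} {β : ℝ} (hE : Env G d β μ) {a : ℝ}
    (ha : 0 < a) (ha1 : a < 1) (o : V) :
    Tendsto (fun n : ℕ => ∫ p, M G μ Set.univ o (ws a p.1 p.2 (1 / ((n : ℝ) + 1))) ^ 2
      ∂(PT μ a)) atTop (𝓝 0) := by
  have := hE.prob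
  have := hE.countable
  obtain ⟨C, hC0, hC⟩ := M_moment hE ha ha1 1 le_rfl
  have hmap : ∀ y : ℝ, ∫ p, M G μ Set.univ o (ws a p.1 p.2 y) ^ 2 ∂(PT μ a) =
      ∫ ω, M G μ Set.univ o (ws a ω.2.1 (tt a ω.1 ω.2.1 ω.2.2) y) ^ 2 ∂(PO μ) := by
    intro y
    have h1 : Measurable fun p : Conf V => (p.2.1, tt a p.1 p.2.1 p.2.2) :=
      (measurable_fst.comp measurable_snd).prodMk (measurable_tt a)
    have h2 : Measurable fun p : Arr V × Arr V => M G μ Set.univ o (ws a p.1 p.2 y) ^ 2 :=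
      (((measurable_M G μ Set.univ o).comp ((measurable_ws a).comp
        (measurable_const.prodMk measurable_id))).pow_const 2)
    unfold PT
    exact integral_map h1.aemeasurable h2.aestronglyMeasurable
  have hsm : Tendsto (fun n : ℕ => C * (1 / ((n : ℝ) + 1)) ^ ((3 : ℝ) / 2 * (1 : ℕ))) atTop
      (𝓝 0) := by
    have h3 : Tendsto (fun n : ℕ => (1 / ((n : ℝ) + 1)) ^ ((3 : ℝ) / 2 * (1 : ℕ))) atTop
        (𝓝 ((0 : ℝ) ^ ((3 : ℝ) / 2 * (1 : ℕ)))) :=
      tendsto_one_div_add_atTop_nhds_zero_nat.rpow_const (Or.inr (by positivity))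
    rw [Real.zero_rpow (by norm_num)] at h3
    simpa using h3.const_mul C
  refine squeeze_zero' (Eventually.of_forall fun n => integral_nonneg fun p => sq_nonneg _) ?_ hsm
  filter_upwards [eventually_ge_atTop 1] with n hn
  rw [hmap]
  have hn' : (1 : ℝ) ≤ n := by exact_mod_cast hn
  refine hC o _ (by positivity) ?_
  exact one_div_le_one_div_of_le (by norm_num) (by linarith)

end En

/-- The energy identity. For `0 < x0 < x`: let `Λ n ↑` all events of the rounds `< J`, `x ≤ J`; the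
identity `Pu_energy_fin` with `R = {tau < x0}`, `S = {f ∈ Λ n | x0 ≤ tau f < x}` is integrated over
the labels; the left side converges to `E M_o(x)²` (`Obs.tendsto_sets`), every term on the right
converges to `E 1(x0 ≤ tau e < x) J_e²`, dominated by `C θ^{2m} (1-κ q0)^m`, `m = dist o e.1`,
which is summable over `V × {0..J-1}` (`|S_m| θ^{2m} ≤ 2`, `q0 > 0` by `qx_lower`). Then `x0 → 0`:
`E M_o(x0)² → 0` (`M_moment` with `i = 1`). -/
theorem energy [G.LocallyFinite] {d : ℕ} {β : ℝ} (hE : Env G d β μ) {a : ℝ} (ha : 0 < a)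
    (ha1 : a < 1) (o : V) {x : ℝ} (hx : 0 < x) :
    HasSum (fun e : V × ℕ => ∫ p, (if tau p.1 e < x then Jp G μ a o p.1 p.2 e ^ 2 else 0) ∂(PT μ a))
      (∫ p, M G μ Set.univ o (ws a p.1 p.2 x) ^ 2 ∂(PT μ a)) := by
  classical
  have := hE.prob
  have := hE.countable
  have hc := hE.tree.connected
  set g : V × ℕ → ℝ := fun e =>
    ∫ p, (if tau p.1 e < x then Jp G μ a o p.1 p.2 e ^ 2 else 0) ∂(PT μ a) with hg
  have hg0 : ∀ e, 0 ≤ g e := by
    intro e
    refine integral_nonneg fun p => ?_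
    simp only [Pi.zero_apply]
    split_ifs
    · exact sq_nonneg _
    · exact le_rfl
  have hev : ∀ᶠ n : ℕ in atTop, 1 / ((n : ℝ) + 1) ≤ x :=
    (tendsto_one_div_add_atTop_nhds_zero_nat.eventually (gt_mem_nhds hx)).mono
      fun n hn => hn.le
  have hpos : ∀ n : ℕ, 0 < 1 / ((n : ℝ) + 1) := fun n => by positivity
  have hterm0 : ∀ (n : ℕ) (e : V × ℕ), 0 ≤ ∫ p, (if 1 / ((n : ℝ) + 1) ≤ tau p.1 e ∧
      tau p.1 e < x then Jp G μ a o p.1 p.2 e ^ 2 else 0) ∂(PT μ a) := by
    intro n e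
    refine integral_nonneg fun p => ?_
    simp only [Pi.zero_apply]
    split_ifs
    · exact sq_nonneg _
    · exact le_rfl
  have hle : ∀ A : Finset (V × ℕ), ∑ e ∈ A, g e ≤
      ∫ p, M G μ Set.univ o (ws a p.1 p.2 x) ^ 2 ∂(PT μ a) := by
    intro A
    refine le_of_tendsto (tendsto_finsetSum A fun e _ => En.tendsto_x0 hE ha.le ha1 o x e) ?_
    filter_upwards [hev] with n hn
    have hs := En.hasSum_x0 hE ha ha1 o (hpos n) hn
    refine (sum_le_hasSum A (fun e _ => hterm0 n e) hs).trans ?_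
    have : 0 ≤ ∫ p, M G μ Set.univ o (ws a p.1 p.2 (1 / ((n : ℝ) + 1))) ^ 2 ∂(PT μ a) :=
      integral_nonneg fun p => sq_nonneg _
    linarith
  have hsum : Summable g := summable_of_sum_le hg0 hle
  have hub : ∑' e, g e ≤ ∫ p, M G μ Set.univ o (ws a p.1 p.2 x) ^ 2 ∂(PT μ a) :=
    hsum.tsum_le_of_sum_le hle
  have hlb : ∫ p, M G μ Set.univ o (ws a p.1 p.2 x) ^ 2 ∂(PT μ a) ≤ ∑' e, g e := by
    have hlim := (En.tendsto_M_zero hE ha ha1 o).const_sub
      (∫ p, M G μ Set.univ o (ws a p.1 p.2 x) ^ 2 ∂(PT μ a))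
    rw [sub_zero] at hlim
    refine le_of_tendsto hlim ?_
    filter_upwards [hev] with n hn
    have hs := En.hasSum_x0 hE ha ha1 o (hpos n) hn
    rw [← hs.tsum_eq]
    refine hs.summable.tsum_le_tsum (fun e => ?_) hsum
    have hsq : ∀ p : Arr V × Arr V, |Jp G μ a o p.1 p.2 e ^ 2| ≤ (a / (1 - a) * 2) ^ 2 := by
      intro p
      rw [abs_pow]
      exact pow_le_pow_left₀ (abs_nonneg _) (En.abs_Jp_le hc ha.le ha1 o _ _ e) 2
    have hnn : (0 : ℝ) ≤ (a / (1 - a) * 2) ^ 2 := sq_nonneg _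
    refine integral_mono (En.integrable_PT (C := (a / (1 - a) * 2) ^ 2)
      (Measurable.ite (En.measurable_cond _ x e) ((measurable_Jp G a o e).pow_const 2)
        measurable_const) (fun p => ?_)) (En.integrable_PT (C := (a / (1 - a) * 2) ^ 2)
      (En.measurable_if_lt x e ((measurable_Jp G a o e).pow_const 2)) (fun p => ?_))
      (fun p => ?_)
    · split_ifs
      · exact hsq p
      · rw [abs_zero]; exact hnn
    · split_ifs
      · exact hsq p
      · rw [abs_zero]; exact hnn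
    · by_cases h2 : tau p.1 e < x
      · by_cases h1 : 1 / ((n : ℝ) + 1) ≤ tau p.1 e
        · simp only [h1, h2, and_self, if_true, le_refl]
        · simp only [h1, h2, false_and, if_false, if_true]
          exact sq_nonneg _
      · simp only [h2, and_false, if_false, le_refl]
  have heq := le_antisymm hub hlb
  rw [← heq]
  exact hsum.hasSum

/-- Consequence (with `Pu_inc`, `Pu_orth`): the posterior mean is the `L²` limit of the finite sums
of jumps. -/
theorem energy_L2 [G.LocallyFinite] {d : ℕ} {β : ℝ} (hE : Env G d β μ) {a : ℝ} (ha : 0 < a)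
    (ha1 : a < 1) (o : V) {x : ℝ} (hx : 0 < x) {ε : ℝ} (hε : 0 < ε) :
    ∃ S0 : Finset (V × ℕ), ∀ S : Finset (V × ℕ), S0 ⊆ S →
      ∫ p, (M G μ Set.univ o (ws a p.1 p.2 x) -
        ∑ e ∈ S, (if tau p.1 e < x then Jp G μ a o p.1 p.2 e else 0)) ^ 2 ∂(PT μ a) ≤ ε := by
  classical
  have := hE.prob
  have := hE.countable
  have hc := hE.tree.connected
  have hen := energy hE ha ha1 o hx
  obtain ⟨S0, hS0⟩ := (Metric.tendsto_atTop.1 hen) ε hε
  refine ⟨S0, fun S hS => ?_⟩
  have h1 := hS0 S hS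
  rw [Real.dist_eq] at h1
  have h2 := (abs_lt.1 h1).1
  set D : Arr V × Arr V → ℝ := fun p => M G μ Set.univ o (ws a p.1 p.2 x) with hD
  set jj : V × ℕ → Arr V × Arr V → ℝ := fun e p =>
    if tau p.1 e < x then Jp G μ a o p.1 p.2 e else 0 with hjj
  have mD : Measurable D := (measurable_M G μ Set.univ o).comp ((measurable_ws a).comp
        (measurable_const.prodMk measurable_id))
  have bD : ∀ p, |D p| ≤ 1 := fun p =>
    abs_M_le ha.le ha1 μ (abs_ws_le ha.le p.1 p.2 x) Set.univ o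
  have mj : ∀ e, Measurable (jj e) := fun e => En.measurable_if_lt x e (measurable_Jp G a o e)
  have h1a : 0 < 1 - a := by linarith
  have hc0 : 0 ≤ a / (1 - a) * 2 := by positivity
  have bj : ∀ e p, |jj e p| ≤ a / (1 - a) * 2 := by
    intro e p
    change |if tau p.1 e < x then Jp G μ a o p.1 p.2 e else 0| ≤ _
    split_ifs
    · exact En.abs_Jp_le hc ha.le ha1 o _ _ e
    · rw [abs_zero]; exact hc0
  have bprod : ∀ {F F' : Arr V × Arr V → ℝ} {C C' : ℝ}, (∀ p, |F p| ≤ C) → (∀ p, |F' p| ≤ C') →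
      ∀ p, |F p * F' p| ≤ C * C' := by
    intro F F' C C' h h' p
    rw [abs_mul]
    exact mul_le_mul (h p) (h' p) (abs_nonneg _) ((abs_nonneg _).trans (h p))
  have hij : ∀ u : Arr V, Function.Injective (tau u) → ∀ e f t,
      jj e (u, t) * jj f (u, t) = if tau u e < x ∧ tau u f < x then
        Jp G μ a o u t e * Jp G μ a o u t f else 0 := by
    intro u _ e f t
    change (if tau u e < x then Jp G μ a o u t e else 0) *
      (if tau u f < x then Jp G μ a o u t f else 0) = _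
    by_cases k1 : tau u e < x
    · by_cases k2 : tau u f < x
      · simp [k1, k2]
      · simp [k1, k2]
    · simp [k1]
  -- the cross terms
  have hDj : ∀ e, ∫ p, D p * jj e p ∂(PT μ a) =
      ∫ p, (if tau p.1 e < x then Jp G μ a o p.1 p.2 e ^ 2 else 0) ∂(PT μ a) := by
    intro e
    have b3 : ∀ p : Arr V × Arr V, |(if tau p.1 e < x then Jp G μ a o p.1 p.2 e ^ 2 else 0)| ≤
        (a / (1 - a) * 2) ^ 2 := by
      intro p
      split_ifs
      · rw [abs_pow]
        exact pow_le_pow_left₀ (abs_nonneg _) (En.abs_Jp_le hc ha.le ha1 o _ _ e) 2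
      · rw [abs_zero]; positivity
    rw [En.integral_PT (F := fun p => D p * jj e p) (mD.mul (mj e)) (bprod bD (bj e)),
      En.integral_PT (En.measurable_if_lt x e ((measurable_Jp G a o e).pow_const 2)) b3]
    refine integral_congr_ae ?_
    filter_upwards [ae_tau_injective (V := V)] with u hu
    by_cases k1 : tau u e < x
    · have := Pu_inc hE ha.le ha1 hu o k1
      simp only [hD, hjj, k1, if_true]
      exact this
    · simp only [hjj, k1, if_false, mul_zero]
  have hjj2 : ∀ e f, ∫ p, jj e p * jj f p ∂(PT μ a) =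
      if e = f then ∫ p, (if tau p.1 e < x then Jp G μ a o p.1 p.2 e ^ 2 else 0) ∂(PT μ a)
        else 0 := by
    intro e f
    by_cases hef : e = f
    · subst hef
      rw [if_pos rfl]
      congr 1
      funext p
      simp only [hjj]
      split_ifs
      · ring
      · ring
    · rw [if_neg hef, En.integral_PT (F := fun p => jj e p * jj f p) ((mj e).mul (mj f))
        (bprod (bj e) (bj f))]
      rw [integral_eq_zero_of_ae]
      filter_upwards [ae_tau_injective (V := V)] with u hu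
      simp only [Pi.zero_apply]
      by_cases k : tau u e < x ∧ tau u f < x
      · have := Pu_orth hE ha.le ha1 hu o hef
        rw [← this]
        congr 1
        funext t
        rw [hij u hu, if_pos k]
      · simp only [hij u hu, if_neg k, integral_zero]
  have iD : Integrable (fun p => D p ^ 2) (PT μ a) := by
    refine En.integrable_PT (mD.pow_const 2) (C := 1) fun p => ?_
    rw [abs_pow]
    exact pow_le_one₀ (abs_nonneg _) (bD p)
  have iDj : ∀ e, Integrable (fun p => D p * jj e p) (PT μ a) := fun e =>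
    En.integrable_PT (mD.mul (mj e)) (bprod bD (bj e))
  have ijj : ∀ e f, Integrable (fun p => jj e p * jj f p) (PT μ a) := fun e f =>
    En.integrable_PT ((mj e).mul (mj f)) (bprod (bj e) (bj f))
  have hexp : ∀ p, (D p - ∑ e ∈ S, jj e p) ^ 2 =
      D p ^ 2 - 2 * ∑ e ∈ S, D p * jj e p + ∑ e ∈ S, ∑ f ∈ S, jj e p * jj f p := by
    intro p
    rw [← Finset.sum_mul_sum, ← Finset.mul_sum]
    ring
  have hfinal : ∫ p, (D p - ∑ e ∈ S, jj e p) ^ 2 ∂(PT μ a) = ∫ p, D p ^ 2 ∂(PT μ a) -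
      ∑ e ∈ S, ∫ p, (if tau p.1 e < x then Jp G μ a o p.1 p.2 e ^ 2 else 0) ∂(PT μ a) := by
    have i2 : Integrable (fun p => 2 * ∑ e ∈ S, D p * jj e p) (PT μ a) :=
      (integrable_finsetSum _ fun e _ => iDj e).const_mul 2
    have i3 : Integrable (fun p => ∑ e ∈ S, ∑ f ∈ S, jj e p * jj f p) (PT μ a) :=
      integrable_finsetSum _ fun e _ => integrable_finsetSum _ fun f _ => ijj e f
    have i1 : Integrable (fun p => D p ^ 2 - 2 * ∑ e ∈ S, D p * jj e p) (PT μ a) := iD.sub i2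
    simp only [hexp]
    rw [integral_add i1 i3, integral_sub iD i2, integral_const_mul,
      integral_finsetSum _ fun e _ => iDj e,
      integral_finsetSum _ fun e _ => integrable_finsetSum _ fun f _ => ijj e f]
    have h5 : ∑ e ∈ S, ∫ p, ∑ f ∈ S, jj e p * jj f p ∂(PT μ a) =
        ∑ e ∈ S, ∫ p, (if tau p.1 e < x then Jp G μ a o p.1 p.2 e ^ 2 else 0) ∂(PT μ a) := by
      refine Finset.sum_congr rfl fun e he => ?_
      rw [integral_finsetSum _ fun f _ => ijj e f]
      simp only [hjj2]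
      rw [Finset.sum_ite_eq, if_pos he]
    rw [h5]
    simp only [hDj]
    ring
  change ∫ p, (D p - ∑ e ∈ S, jj e p) ^ 2 ∂(PT μ a) ≤ ε
  rw [hfinal]
  linarith

end Vale.Agent.P161.Crit
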