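import Vale.Agent.Lib.P161.Crit.Orth

/-!
P161-CRIT, module EnergyA: finite energy identities for fixed labels.
-/

open MeasureTheory Filter Topology ProbabilityTheory

namespace Vale.Agent.P161.Crit

variable {V : Type*} {G : SimpleGraph V} {μ : Measure (V → Bool)}

/-- the σ-algebra of the observations in `A` -/
@[reducible] def obsAlg {Ω Y : Type*} [MeasurableSpace Y] (y : Ω → V × ℕ → Y) (A : Set (V × ℕ)) :
    MeasurableSpace Ω :=
  MeasurableSpace.comap (fun ω (e : A) => y ω e) inferInstance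

theorem obsAlg_le {Ω Y : Type*} [mΩ : MeasurableSpace Ω] [MeasurableSpace Y]
    {y : Ω → V × ℕ → Y} (hy : Measurable y) (A : Set (V × ℕ)) : obsAlg y A ≤ mΩ := by
  refine Measurable.comap_le ?_
  exact measurable_pi_iff.mpr fun e => (measurable_pi_apply (e : V × ℕ)).comp hy

theorem measurable_obsAlg {Ω Y : Type*} [MeasurableSpace Y] (y : Ω → V × ℕ → Y)
    (A : Set (V × ℕ)) : Measurable[obsAlg y A] (fun ω (e : A) => y ω e) :=
  comap_measurable _

theorem obsAlg_mono {Ω Y : Type*} [MeasurableSpace Y] (y : Ω → V × ℕ → Y)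
    {A B : Set (V × ℕ)} (h : A ⊆ B) : obsAlg y A ≤ obsAlg y B := by
  let _ : MeasurableSpace Ω := obsAlg y B
  have h1 : Measurable fun ω (e : A) => y ω e :=
    measurable_pi_iff.mpr fun e =>
      (measurable_pi_apply (⟨e.1, h e.2⟩ : B)).comp (measurable_obsAlg y B)
  exact h1.comap_le

theorem obsAlg_iUnion {Ω Y : Type*} [MeasurableSpace Y] (y : Ω → V × ℕ → Y)
    (R : ℕ → Set (V × ℕ)) : (⨆ n, obsAlg y (R n)) = obsAlg y (⋃ n, R n) := by
  refine le_antisymm (iSup_le fun n => obsAlg_mono y (Set.subset_iUnion R n)) ?_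
  let _ : MeasurableSpace Ω := ⨆ n, obsAlg y (R n)
  have h1 : Measurable fun ω (e : (⋃ n, R n : Set (V × ℕ))) => y ω e := by
    refine measurable_pi_iff.mpr fun e => ?_
    obtain ⟨n, hn⟩ := Set.mem_iUnion.mp e.2
    have h1 : Measurable[obsAlg y (R n)] fun ω => y ω e.1 :=
      (measurable_pi_apply (⟨e.1, hn⟩ : R n)).comp (measurable_obsAlg y (R n))
    exact h1.mono (le_iSup (fun n => obsAlg y (R n)) n) le_rfl
  exact h1.comap_le

/-- `EI` is the conditional expectation. -/
theorem Obs.EI_condExp {Ω Y : Type*} [MeasurableSpace Ω] [MeasurableSpace Y] {P : Measure Ω}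
    {s : Ω → V → Bool} {y : Ω → V × ℕ → Y} {Q : V × ℕ → Measure Y} {ζ : V × ℕ → Y → ℝ} {b : ℝ}
    [G.LocallyFinite] (hc : G.Connected) [IsProbabilityMeasure μ]
    (h : Obs μ P s y Q ζ b) (R : Set (V × ℕ)) (o : V)
    {f : (V → Bool) → ℝ} (hf : Measurable f) (hfC : ∃ C, ∀ σ, |f σ| ≤ C) :
    (fun ω => EI G μ R o f (slp ζ (y ω))) =ᵐ[P] P[fun ω => f (s ω) | obsAlg y R] := by
  classical
  have := h.prob
  have hm := obsAlg_le h.measY R
  obtain ⟨C, hC⟩ := hfC
  have hslp : Measurable (slp ζ) := h.measurable_slp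
  have hg : Measurable fun ω => EI G μ R o f (slp ζ (y ω)) :=
    (measurable_EI G μ R o hf ⟨C, hC⟩).comp (hslp.comp h.measY)
  have hgC : ∀ ω, |EI G μ R o f (slp ζ (y ω))| ≤ C := fun ω =>
    abs_EI_le h.b_nonneg h.b_lt μ (fun e => h.abs_slp_le (y ω) e) R o hf hC
  have hgi : Integrable (fun ω => EI G μ R o f (slp ζ (y ω))) P :=
    Integrable.of_bound hg.aestronglyMeasurable C (Eventually.of_forall hgC)
  have hfi : Integrable (fun ω => f (s ω)) P :=
    Integrable.of_bound (hf.comp h.measS).aestronglyMeasurable C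
      (Eventually.of_forall fun ω => hC (s ω))
  refine ae_eq_condExp_of_forall_setIntegral_eq hm hfi (fun A _ _ => hgi.integrableOn) ?_ ?_
  · rintro A hA -
    obtain ⟨B, hB, rfl⟩ := hA
    have hAm : MeasurableSet ((fun ω (e : R) => y ω e) ⁻¹' B) := hm _ ⟨B, hB, rfl⟩
    set F : (V × ℕ → Y) → ℝ := fun x => if (fun e : R => x e) ∈ B then 1 else 0 with hF
    have hFm : Measurable F := by
      refine Measurable.ite ?_ measurable_const measurable_const
      have : Measurable fun (x : V × ℕ → Y) (e : R) => x e :=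
        measurable_pi_iff.mpr fun e => measurable_pi_apply _
      exact this hB
    have hFC : ∃ C, ∀ x, |F x| ≤ C := ⟨1, fun x => by
      simp only [hF]; split_ifs <;> simp⟩
    have hdep : DepE R F := by
      intro x x' hx
      have : (fun e : R => x e) = fun e : R => x' e := funext fun e => hx e e.2
      simp only [hF, this]
    have h1 := h.EI_post hc R o hf ⟨C, hC⟩ hFm hFC hdep
    have h2 : ∀ g : Ω → ℝ, ∫ ω in (fun ω (e : R) => y ω e) ⁻¹' B, g ω ∂P =
        ∫ ω, g ω * F (y ω) ∂P := by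
      intro g
      rw [← integral_indicator hAm]
      congr 1
      ext ω
      by_cases hω : (fun e : R => y ω e) ∈ B
      · rw [Set.indicator_of_mem (by exact hω)]
        simp only [hF, if_pos hω, mul_one]
      · rw [Set.indicator_of_notMem (by exact hω)]
        simp only [hF, if_neg hω, mul_zero]
    rw [h2, h2]
    exact h1.symm
  · -- measurability
    set E : (↥R → Y) → V × ℕ → ℝ := fun x e =>
      if he : e ∈ R then ζ e (x ⟨e, he⟩) else 0 with hE
    have hEm : Measurable E := by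
      refine measurable_pi_iff.mpr fun e => ?_
      by_cases he : e ∈ R
      · simp only [hE, dif_pos he]
        exact (h.measZ e).comp (measurable_pi_apply _)
      · simp only [hE, dif_neg he]
        exact measurable_const
    have h1 : (fun ω => EI G μ R o f (slp ζ (y ω))) =
        (fun x => EI G μ R o f (E x)) ∘ fun ω (e : R) => y ω e := by
      ext ω
      refine EI_congr hc μ (fun e he => ?_) o f
      simp only [hE, dif_pos he, slp]
    rw [h1]
    have h2 : Measurable[obsAlg y R]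
        ((fun x => EI G μ R o f (E x)) ∘ fun ω (e : R) => y ω e) :=
      ((measurable_EI G μ R o hf ⟨C, hC⟩).comp hEm).comp (measurable_obsAlg y R)
    exact h2.aestronglyMeasurable

/-- Lévy's upward theorem for increasing sets of events (any observation structure). -/
theorem Obs.tendsto_sets {Ω Y : Type*} [MeasurableSpace Ω] [MeasurableSpace Y] {P : Measure Ω}
    {s : Ω → V → Bool} {y : Ω → V × ℕ → Y} {Q : V × ℕ → Measure Y} {ζ : V × ℕ → Y → ℝ} {b : ℝ}
    [G.LocallyFinite] (hc : G.Connected) [IsProbabilityMeasure μ]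
    (h : Obs μ P s y Q ζ b) (R : ℕ → Set (V × ℕ)) (hR : Monotone R) (o : V)
    {f : (V → Bool) → ℝ} (hf : Measurable f) (hfC : ∃ C, ∀ σ, |f σ| ≤ C) :
    ∀ᵐ ω ∂P, Tendsto (fun n => EI G μ (R n) o f (slp ζ (y ω))) atTop
      (𝓝 (EI G μ (⋃ n, R n) o f (slp ζ (y ω)))) := by
  have := h.prob
  let ℱ : Filtration ℕ (inferInstance : MeasurableSpace Ω) :=
    { seq := fun n => obsAlg y (R n)
      mono' := fun m n hmn => obsAlg_mono y (hR hmn)
      le' := fun n => obsAlg_le h.measY (R n) }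
  have h1 := MeasureTheory.tendsto_ae_condExp (μ := P) (ℱ := ℱ) (fun ω => f (s ω))
  have h2 : (⨆ n, ℱ n) = obsAlg y (⋃ n, R n) := obsAlg_iUnion y R
  rw [h2] at h1
  have h3 : ∀ᵐ ω ∂P, ∀ n, EI G μ (R n) o f (slp ζ (y ω)) =
      (P[fun ω => f (s ω) | obsAlg y (R n)]) ω :=
    ae_all_iff.mpr fun n => h.EI_condExp hc (R n) o hf hfC
  filter_upwards [h1, h3, h.EI_condExp hc (⋃ n, R n) o hf hfC] with ω h1 h3 h4
  rw [h4]
  simp only [h3]
  exact h1

/-- The energy identity for one more event. -/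
theorem Obs.energy_one {Ω Y : Type*} [MeasurableSpace Ω] [MeasurableSpace Y] {P : Measure Ω}
    {s : Ω → V → Bool} {y : Ω → V × ℕ → Y} {Q : V × ℕ → Measure Y} {ζ : V × ℕ → Y → ℝ} {b : ℝ}
    [G.LocallyFinite] (hc : G.Connected) [IsProbabilityMeasure μ]
    (h : Obs μ P s y Q ζ b) (R : Set (V × ℕ)) {e : V × ℕ} (he : e ∉ R) (o : V) :
    ∫ ω, M G μ (insert e R) o (slp ζ (y ω)) ^ 2 ∂P =
      (∫ ω, M G μ R o (slp ζ (y ω)) ^ 2 ∂P) +
      ∫ ω, (Cv G μ R o e.1 (slp ζ (y ω)) * slp ζ (y ω) e /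
        (1 + M G μ R e.1 (slp ζ (y ω)) * slp ζ (y ω) e)) ^ 2 ∂P := by
  have := h.prob
  have hslp : Measurable (slp ζ) := h.measurable_slp
  have hMm : ∀ A : Set (V × ℕ), Measurable fun ω => M G μ A o (slp ζ (y ω)) := fun A =>
    (measurable_M G μ A o).comp (hslp.comp h.measY)
  have hM1 : ∀ (A : Set (V × ℕ)) (x : V × ℕ → Y), |M G μ A o (slp ζ x)| ≤ 1 := fun A x =>
    abs_M_le h.b_nonneg h.b_lt μ (fun e => h.abs_slp_le x e) A o
  have hMd : DepE R (fun x : V × ℕ → Y => M G μ R o (slp ζ x)) := M_depE hc μ R o ζ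
  have hMd' : DepE (insert e R) (fun x : V × ℕ → Y => M G μ R o (slp ζ x)) := by
    intro x x' hx
    exact hMd x x' fun e' he' => hx e' (Set.mem_insert_of_mem _ he')
  have hFm : Measurable fun x : V × ℕ → Y => M G μ R o (slp ζ x) :=
    (measurable_M G μ R o).comp hslp
  have hspC : ∃ C, ∀ σ, |sp o σ| ≤ C := ⟨1, fun σ => abs_sp o σ⟩
  have h1 := h.EI_post hc (insert e R) o (measurable_sp o) hspC hFm ⟨1, hM1 R⟩ hMd'
  have h2 := h.EI_post hc R o (measurable_sp o) hspC hFm ⟨1, hM1 R⟩ hMd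
  rw [h1] at h2
  change ∫ ω, M G μ (insert e R) o (slp ζ (y ω)) * M G μ R o (slp ζ (y ω)) ∂P =
    ∫ ω, M G μ R o (slp ζ (y ω)) * M G μ R o (slp ζ (y ω)) ∂P at h2
  have h3 : ∫ ω, (Cv G μ R o e.1 (slp ζ (y ω)) * slp ζ (y ω) e /
        (1 + M G μ R e.1 (slp ζ (y ω)) * slp ζ (y ω) e)) ^ 2 ∂P =
      ∫ ω, (M G μ (insert e R) o (slp ζ (y ω)) - M G μ R o (slp ζ (y ω))) ^ 2 ∂P := by
    refine integral_congr_ae ?_
    filter_upwards [h.M_insert hc R he o] with ω hω
    rw [hω]
    ring
  have hi : ∀ A B : Set (V × ℕ), Integrable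
      (fun ω => M G μ A o (slp ζ (y ω)) * M G μ B o (slp ζ (y ω))) P := fun A B =>
    Integrable.of_bound ((hMm A).mul (hMm B)).aestronglyMeasurable 1
      (Eventually.of_forall fun ω => by
        rw [Real.norm_eq_abs, abs_mul]
        exact mul_le_one₀ (hM1 A _) (abs_nonneg _) (hM1 B _))
  rw [h3]
  have h4 : ∫ ω, (M G μ (insert e R) o (slp ζ (y ω)) - M G μ R o (slp ζ (y ω))) ^ 2 ∂P =
      (∫ ω, M G μ (insert e R) o (slp ζ (y ω)) * M G μ (insert e R) o (slp ζ (y ω)) ∂P) -
      2 * (∫ ω, M G μ (insert e R) o (slp ζ (y ω)) * M G μ R o (slp ζ (y ω)) ∂P) +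
      ∫ ω, M G μ R o (slp ζ (y ω)) * M G μ R o (slp ζ (y ω)) ∂P := by
    have e1 := integral_sub (hi (insert e R) (insert e R)) ((hi (insert e R) R).const_mul 2)
    have e2 := integral_add ((hi (insert e R) (insert e R)).sub
      ((hi (insert e R) R).const_mul 2)) (hi R R)
    rw [integral_const_mul] at e1
    rw [← e1]
    refine Eq.trans ?_ e2
    refine integral_congr_ae (Eventually.of_forall fun ω => ?_)
    simp only [Pi.sub_apply]
    ring
  rw [h4, h2]
  simp only [sq]
  ring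

/-- One more event, any past `R` (fixed labels): the second moment grows by that of the jump. -/
theorem Pu_energy_one [G.LocallyFinite] {d : ℕ} {β : ℝ} (hE : Env G d β μ) {a : ℝ} (ha : 0 ≤ a)
    (ha1 : a < 1) (u : Arr V) (R : Set (V × ℕ)) {e : V × ℕ} (he : e ∉ R) (o : V) :
    ∫ t, M G μ (insert e R) o (wf a u t) ^ 2 ∂(Pu μ a u) =
      (∫ t, M G μ R o (wf a u t) ^ 2 ∂(Pu μ a u)) +
      ∫ t, (Cv G μ R o e.1 (wf a u t) * wf a u t e / (1 + M G μ R e.1 (wf a u t) * wf a u t e)) ^ 2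
        ∂(Pu μ a u) := by
  have := hE.prob
  have := hE.countable
  have hc : G.Connected := hE.tree.connected
  have hobs := obs_fixed (μ := μ) ha ha1 u
  have h1 := hobs.energy_one hc R he o
  have hmt : Measurable fun p : (V → Bool) × (V × ℕ → unitInterval) => tt a p.1 u p.2 :=
    hobs.measY
  have hslp : Measurable (wf a u) := hobs.measurable_slp
  have hint : ∀ g : (V × ℕ → unitInterval) → ℝ, Measurable g →
      ∫ t, g t ∂(Pu μ a u) = ∫ p, g (tt a p.1 u p.2) ∂(μ.prod (PP (V × ℕ))) := by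
    intro g hg
    rw [Pu, integral_map hmt.aemeasurable hg.aestronglyMeasurable]
  rw [hint, hint, hint]
  · exact h1
  · refine Measurable.pow_const ?_ 2
    refine Measurable.div ?_ ?_
    · exact ((measurable_Cv G μ R o e.1).comp hslp).mul ((measurable_pi_apply e).comp hslp)
    · exact measurable_const.add
        (((measurable_M G μ R e.1).comp hslp).mul ((measurable_pi_apply e).comp hslp))
  · exact ((measurable_M G μ R o).comp hslp).pow_const 2
  · exact ((measurable_M G μ (insert e R) o).comp hslp).pow_const 2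

/-- Finitely many more events, in the order of their times. -/
theorem Pu_energy_fin [G.LocallyFinite] {d : ℕ} {β : ℝ} (hE : Env G d β μ) {a : ℝ} (ha : 0 ≤ a)
    (ha1 : a < 1) {u : Arr V} (hu : Function.Injective (tau u)) (R : Set (V × ℕ))
    (S : Finset (V × ℕ)) (hS : ∀ e ∈ S, e ∉ R) (o : V) :
    ∫ t, M G μ (R ∪ ↑S) o (wf a u t) ^ 2 ∂(Pu μ a u) =
      (∫ t, M G μ R o (wf a u t) ^ 2 ∂(Pu μ a u)) +
      ∑ e ∈ S, ∫ t, (Cv G μ (R ∪ {f | f ∈ S ∧ tau u f < tau u e}) o e.1 (wf a u t) * wf a u t e /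
        (1 + M G μ (R ∪ {f | f ∈ S ∧ tau u f < tau u e}) e.1 (wf a u t) * wf a u t e)) ^ 2
        ∂(Pu μ a u) := by
  classical
  induction S using Finset.induction_on_max_value (tau u) with
  | empty => simp
  | insert e S heS hmax ih =>
    have hlt : ∀ f ∈ S, tau u f < tau u e := by
      intro f hf
      refine lt_of_le_of_ne (hmax f hf) fun hh => heS ?_
      rw [← hu hh]; exact hf
    have h1 : R ∪ ↑(insert e S) = insert e (R ∪ (↑S : Set (V × ℕ))) := by
      rw [Finset.coe_insert, Set.union_insert]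
    have h2 : e ∉ R ∪ (↑S : Set (V × ℕ)) := by
      rintro (h | h)
      · exact hS e (Finset.mem_insert_self _ _) h
      · exact heS h
    rw [h1, Pu_energy_one hE ha ha1 u _ h2 o,
      ih fun f hf => hS f (Finset.mem_insert_of_mem hf), Finset.sum_insert heS]
    have h3 : {f | f ∈ insert e S ∧ tau u f < tau u e} = (↑S : Set (V × ℕ)) := by
      ext f
      simp only [Set.mem_ofPred_eq, Finset.mem_insert, Finset.mem_coe]
      constructor
      · rintro ⟨rfl | hf, h⟩
        · exact absurd h (lt_irrefl _)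
        · exact hf
      · intro hf
        exact ⟨Or.inr hf, hlt f hf⟩
    rw [h3]
    have h4 : ∀ g ∈ S, {f | f ∈ insert e S ∧ tau u f < tau u g} =
        {f | f ∈ S ∧ tau u f < tau u g} := by
      intro g hg
      ext f
      simp only [Set.mem_ofPred_eq, Finset.mem_insert]
      constructor
      · rintro ⟨rfl | hf, h⟩
        · exact absurd h (not_lt.mpr (hlt g hg).le)
        · exact ⟨hf, h⟩
      · rintro ⟨hf, h⟩
        exact ⟨Or.inr hf, h⟩
    rw [add_assoc]
    congr 1
    rw [add_comm]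
    congr 1
    exact Finset.sum_congr rfl fun g hg => by rw [h4 g hg]

end Vale.Agent.P161.Crit
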