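import Vale.Agent.Lib.P161.Crit.Defs
import Vale.Agent.Lib.P161.Ising
import Vale.Agent.Lib.P161.Tree
import Vale.Agent.Lib.P161.Core3

/-!
P161-CRIT, module Fin: elementary facts on the finite volume posteriors `ES` and on `EI`, `M`,
`Cv`, `msg`, `gam`: positivity, bounds, measurability, masks, equivariance.
-/

open MeasureTheory Filter

namespace Vale.Agent.P161.Crit

variable {V : Type*} {G : SimpleGraph V}

/-! ### Standing facts -/

theorem Env.nonempty_aux [G.LocallyFinite] {d : ℕ} {β : ℝ} {μ : Measure (V → Bool)}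
    (h : Env G d β μ) : Nonempty V := h.tree.connected.nonempty

theorem Env.prob [G.LocallyFinite] {d : ℕ} {β : ℝ} {μ : Measure (V → Bool)} (h : Env G d β μ) :
    IsProbabilityMeasure μ := by
  have := h.nonempty_aux
  exact h.ising.isProbabilityMeasure

theorem Env.countable [G.LocallyFinite] {d : ℕ} {β : ℝ} {μ : Measure (V → Bool)}
    (h : Env G d β μ) : Countable V := countable_of_locallyFinite h.tree.connected

theorem Env.nonempty [G.LocallyFinite] {d : ℕ} {β : ℝ} {μ : Measure (V → Bool)}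
    (h : Env G d β μ) : Nonempty V := h.nonempty_aux

theorem Env.theta_pos [G.LocallyFinite] {d : ℕ} {β : ℝ} {μ : Measure (V → Bool)}
    (h : Env G d β μ) : 0 < Real.tanh β := by
  have h0 := Real.sqrt_nonneg ((d : ℝ) - 1)
  have hc := h.crit
  by_contra hle
  push Not at hle
  nlinarith

theorem Env.theta_lt_one [G.LocallyFinite] {d : ℕ} {β : ℝ} {μ : Measure (V → Bool)}
    (h : Env G d β μ) : Real.tanh β < 1 := (abs_lt.1 (Real.abs_tanh_lt_one β)).2

theorem Env.theta_sq [G.LocallyFinite] {d : ℕ} {β : ℝ} {μ : Measure (V → Bool)}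
    (h : Env G d β μ) : Real.tanh β ^ 2 * ((d : ℝ) - 1) = 1 := by
  have h3 : (3 : ℝ) ≤ d := by exact_mod_cast h.three
  have h1 : Real.sqrt ((d : ℝ) - 1) ^ 2 = (d : ℝ) - 1 := Real.sq_sqrt (by linarith)
  have hc := h.crit
  calc Real.tanh β ^ 2 * ((d : ℝ) - 1) = Real.tanh β ^ 2 * Real.sqrt ((d : ℝ) - 1) ^ 2 := by
        rw [h1]
    _ = (Real.tanh β * Real.sqrt ((d : ℝ) - 1)) ^ 2 := by ring
    _ = 1 := by rw [hc]; norm_num

/-! ### Likelihoods -/

theorem abs_mul_spin (x : ℝ) (b : Bool) : |x * spin b| = |x| := by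
  rw [abs_mul, abs_spin, mul_one]

theorem lk_factor_ge {b x : ℝ} (hx : |x| ≤ b) (c : Bool) : 1 - b ≤ 1 + x * spin c := by
  have h := abs_mul_spin x c
  have h2 := (abs_le.1 (h.le.trans hx)).1
  linarith

theorem lk_factor_abs_le {b x : ℝ} (hx : |x| ≤ b) (c : Bool) : |1 + x * spin c| ≤ 1 + b := by
  have h := abs_mul_spin x c
  calc |1 + x * spin c| ≤ |(1 : ℝ)| + |x * spin c| := abs_add_le _ _
    _ ≤ 1 + b := by rw [h, abs_one]; linarith

theorem lk_ge {b : ℝ} (hb : b < 1) {S : Finset (V × ℕ)} {w : V × ℕ → ℝ}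
    (hw : ∀ e ∈ S, |w e| ≤ b) (σ : V → Bool) : (1 - b) ^ S.card ≤ lk S w σ := by
  unfold lk
  rw [← Finset.prod_const]
  exact Finset.prod_le_prod (fun _ _ => by linarith) fun e he => lk_factor_ge (hw e he) _

theorem lk_pos {b : ℝ} (hb : b < 1) {S : Finset (V × ℕ)} {w : V × ℕ → ℝ}
    (hw : ∀ e ∈ S, |w e| ≤ b) (σ : V → Bool) : 0 < lk S w σ :=
  lt_of_lt_of_le (pow_pos (by linarith) _) (lk_ge hb hw σ)

theorem lk_le {b : ℝ} (hb0 : 0 ≤ b) {S : Finset (V × ℕ)} {w : V × ℕ → ℝ}
    (hw : ∀ e ∈ S, |w e| ≤ b) (σ : V → Bool) : |lk S w σ| ≤ (1 + b) ^ S.card := by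
  unfold lk
  rw [Finset.abs_prod, ← Finset.prod_const]
  exact Finset.prod_le_prod (fun _ _ => abs_nonneg _) fun e he => lk_factor_abs_le (hw e he) _

theorem measurable_spin' : Measurable spin := Measurable.of_discrete

theorem measurable_lk (S : Finset (V × ℕ)) :
    Measurable fun p : (V × ℕ → ℝ) × (V → Bool) => lk S p.1 p.2 := by
  unfold lk
  refine Finset.measurable_prod S fun e _ => ?_
  have h1 : Measurable fun p : (V × ℕ → ℝ) × (V → Bool) => p.1 e :=
    (measurable_pi_apply e).comp measurable_fst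
  have h2 : Measurable fun p : (V × ℕ → ℝ) × (V → Bool) => spin (p.2 e.1) :=
    measurable_spin'.comp ((measurable_pi_apply e.1).comp measurable_snd)
  exact measurable_const.add (h1.mul h2)

theorem measurable_lk_right (S : Finset (V × ℕ)) (w : V × ℕ → ℝ) : Measurable (lk S w) :=
  (measurable_lk S).comp (measurable_const.prodMk measurable_id)

theorem lk_abs_bound (S : Finset (V × ℕ)) (w : V × ℕ → ℝ) :
    ∃ C, ∀ σ : V → Bool, |lk S w σ| ≤ C := by
  refine ⟨∏ e ∈ S, (1 + |w e|), fun σ => ?_⟩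
  unfold lk
  rw [Finset.abs_prod]
  exact Finset.prod_le_prod (fun _ _ => abs_nonneg _) fun e _ => lk_factor_abs_le le_rfl _

theorem integrable_lk (μ : Measure (V → Bool)) [IsProbabilityMeasure μ] (S : Finset (V × ℕ))
    (w : V × ℕ → ℝ) : Integrable (lk S w) μ := by
  obtain ⟨C, hC⟩ := lk_abs_bound S w
  refine Integrable.of_bound (measurable_lk_right S w).aestronglyMeasurable C ?_
  exact Filter.Eventually.of_forall fun σ => by rw [Real.norm_eq_abs]; exact hC σ

theorem integral_lk_pos {b : ℝ} (hb0 : 0 ≤ b) (hb : b < 1) (μ : Measure (V → Bool))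
    [IsProbabilityMeasure μ] {S : Finset (V × ℕ)} {w : V × ℕ → ℝ}
    (hw : ∀ e ∈ S, |w e| ≤ b) : 0 < ∫ σ, lk S w σ ∂μ := by
  have h1 : ∫ _σ : V → Bool, (1 - b) ^ S.card ∂μ ≤ ∫ σ, lk S w σ ∂μ :=
    integral_mono (integrable_const _) (integrable_lk μ S w) fun σ => lk_ge hb hw σ
  rw [integral_const, probReal_univ, one_smul] at h1
  exact lt_of_lt_of_le (pow_pos (by linarith) _) h1

theorem ES_abs_le {b : ℝ} (hb0 : 0 ≤ b) (hb : b < 1) (μ : Measure (V → Bool))
    [IsProbabilityMeasure μ] {S : Finset (V × ℕ)} {w : V × ℕ → ℝ}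
    (hw : ∀ e ∈ S, |w e| ≤ b) {f : (V → Bool) → ℝ} (hf : Measurable f) {C : ℝ}
    (hC : ∀ σ, |f σ| ≤ C) : |ES μ S w f| ≤ C := by
  have hpos := integral_lk_pos hb0 hb μ hw
  unfold ES
  rw [abs_div, abs_of_pos hpos, div_le_iff₀ hpos, ← integral_const_mul, ← Real.norm_eq_abs]
  refine norm_integral_le_of_norm_le ((integrable_lk μ S w).const_mul C) ?_
  refine Filter.Eventually.of_forall fun σ => ?_
  have h2 := (lk_pos hb hw σ)
  rw [Real.norm_eq_abs, abs_mul, abs_of_pos h2]
  exact mul_le_mul_of_nonneg_right (hC σ) h2.le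

theorem measurable_ES (μ : Measure (V → Bool)) [IsProbabilityMeasure μ] (S : Finset (V × ℕ))
    {f : (V → Bool) → ℝ} (hf : Measurable f) (hC : ∃ C, ∀ σ, |f σ| ≤ C) :
    Measurable fun w => ES μ S w f := by
  unfold ES
  refine Measurable.div ?_ ?_
  · have h : StronglyMeasurable
        (Function.uncurry fun (w : V × ℕ → ℝ) (σ : V → Bool) => f σ * lk S w σ) :=
      ((hf.comp measurable_snd).mul (measurable_lk S)).stronglyMeasurable
    exact h.integral_prod_right.measurable
  · have h : StronglyMeasurable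
        (Function.uncurry fun (w : V × ℕ → ℝ) (σ : V → Bool) => lk S w σ) :=
      (measurable_lk S).stronglyMeasurable
    exact h.integral_prod_right.measurable

theorem lk_congr {S : Finset (V × ℕ)} {w w' : V × ℕ → ℝ}
    (h : ∀ e ∈ S, w e = w' e) (σ : V → Bool) : lk S w σ = lk S w' σ := by
  unfold lk
  exact Finset.prod_congr rfl fun e he => by rw [h e he]

theorem ES_congr (μ : Measure (V → Bool)) {S : Finset (V × ℕ)} {w w' : V × ℕ → ℝ}
    (h : ∀ e ∈ S, w e = w' e) (f : (V → Bool) → ℝ) : ES μ S w f = ES μ S w' f := by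
  unfold ES
  simp only [lk_congr h]

open Classical in
theorem lk_mask (S : Finset (V × ℕ)) (R : Set (V × ℕ)) (w : V × ℕ → ℝ) (σ : V → Bool) :
    lk S (fun e => if e ∈ R then w e else 0) σ = lk (S.filter (· ∈ R)) w σ := by
  unfold lk
  rw [Finset.prod_filter]
  refine Finset.prod_congr rfl fun e _ => ?_
  by_cases he : e ∈ R <;> simp [he]

open Classical in
/-- Masking slopes is the same as removing events. -/
theorem ES_mask (μ : Measure (V → Bool)) (S : Finset (V × ℕ)) (R : Set (V × ℕ))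
    (w : V × ℕ → ℝ) (f : (V → Bool) → ℝ) :
    ES μ S (fun e => if e ∈ R then w e else 0) f = ES μ (S.filter (· ∈ R)) w f := by
  unfold ES
  simp only [lk_mask]

theorem measurable_sp (v : V) : Measurable (sp v) :=
  measurable_spin'.comp (measurable_pi_apply v)
theorem measurable_sp2 (v x : V) : Measurable (sp2 v x) :=
  (measurable_sp v).mul (measurable_sp x)
theorem abs_sp (v : V) (σ : V → Bool) : |sp v σ| ≤ 1 := (abs_spin _).le
theorem abs_sp2 (v x : V) (σ : V → Bool) : |sp2 v x σ| ≤ 1 := by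
  unfold sp2
  rw [abs_mul, abs_spin, abs_spin, mul_one]

/-! ### Balls of events -/

theorem mem_bev [G.LocallyFinite] (hc : G.Connected) {R : Set (V × ℕ)} {o : V} {n : ℕ}
    {e : V × ℕ} : e ∈ bev G R o n ↔ e ∈ R ∧ G.dist o e.1 ≤ n ∧ e.2 < n := by
  have hfin : {e : V × ℕ | e ∈ R ∧ G.dist o e.1 ≤ n ∧ e.2 < n}.Finite := by
    refine ((finite_ball hc o n).prod (Set.finite_Iio n)).subset ?_
    rintro ⟨v, j⟩ ⟨_, h1, h2⟩
    exact ⟨h1, h2⟩
  unfold bev
  rw [dif_pos hfin, Set.Finite.mem_toFinset]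
  rfl

theorem bev_mono [G.LocallyFinite] (hc : G.Connected) (R : Set (V × ℕ)) (o : V) :
    Monotone (bev G R o) := by
  intro m n hmn e he
  rw [mem_bev hc] at he ⊢
  exact ⟨he.1, he.2.1.trans hmn, lt_of_lt_of_le he.2.2 hmn⟩

open Classical in
theorem bev_inter [G.LocallyFinite] (hc : G.Connected) (R R' : Set (V × ℕ)) (o : V) (n : ℕ) :
    bev G (R ∩ R') o n = (bev G R o n).filter (· ∈ R') := by
  ext e
  rw [mem_bev hc, Finset.mem_filter, mem_bev hc, Set.mem_inter_iff]
  tauto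

/-! ### Infinite volume quantities -/

theorem abs_limsup_le {u : ℕ → ℝ} {C : ℝ} (h : ∀ n, |u n| ≤ C) : |limsup u atTop| ≤ C := by
  rw [abs_le]
  have hb : IsBoundedUnder (· ≤ ·) atTop u :=
    isBoundedUnder_of ⟨C, fun n => (abs_le.1 (h n)).2⟩
  have hb' : IsBoundedUnder (· ≥ ·) atTop u :=
    isBoundedUnder_of ⟨-C, fun n => (abs_le.1 (h n)).1⟩
  constructor
  · exact le_limsup_of_frequently_le (Frequently.of_forall fun n => (abs_le.1 (h n)).1) hb
  · exact limsup_le_of_le hb'.isCoboundedUnder_le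
      (Eventually.of_forall fun n => (abs_le.1 (h n)).2)

/-- Everything is bounded when the slopes are bounded by `b < 1`. -/
theorem abs_EI_le [G.LocallyFinite] {b : ℝ} (hb0 : 0 ≤ b) (hb : b < 1) (μ : Measure (V → Bool))
    [IsProbabilityMeasure μ] {w : V × ℕ → ℝ} (hw : ∀ e, |w e| ≤ b) (R : Set (V × ℕ)) (o : V)
    {f : (V → Bool) → ℝ} (hf : Measurable f) {C : ℝ} (hC : ∀ σ, |f σ| ≤ C) :
    |EI G μ R o f w| ≤ C :=
  abs_limsup_le fun _ => ES_abs_le hb0 hb μ (fun e _ => hw e) hf hC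

theorem abs_M_le [G.LocallyFinite] {b : ℝ} (hb0 : 0 ≤ b) (hb : b < 1) (μ : Measure (V → Bool))
    [IsProbabilityMeasure μ] {w : V × ℕ → ℝ} (hw : ∀ e, |w e| ≤ b) (R : Set (V × ℕ)) (v : V) :
    |M G μ R v w| ≤ 1 :=
  abs_EI_le hb0 hb μ hw R v (measurable_sp v) (abs_sp v)

theorem abs_Cv_le [G.LocallyFinite] {b : ℝ} (hb0 : 0 ≤ b) (hb : b < 1) (μ : Measure (V → Bool))
    [IsProbabilityMeasure μ] {w : V × ℕ → ℝ} (hw : ∀ e, |w e| ≤ b) (R : Set (V × ℕ)) (o x : V) :
    |Cv G μ R o x w| ≤ 2 := by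
  have h1 : |EI G μ R o (sp2 o x) w| ≤ 1 :=
    abs_EI_le hb0 hb μ hw R o (measurable_sp2 o x) (abs_sp2 o x)
  have h2 := abs_M_le (G := G) hb0 hb μ hw R o
  have h3 := abs_M_le (G := G) hb0 hb μ hw R x
  have h4 : |M G μ R o w * M G μ R x w| ≤ 1 := by
    rw [abs_mul]
    calc _ ≤ (1 : ℝ) * 1 := mul_le_mul h2 h3 (abs_nonneg _) (by norm_num)
      _ = 1 := one_mul 1
  unfold Cv
  calc _ ≤ |EI G μ R o (sp2 o x) w| + |M G μ R o w * M G μ R x w| := abs_sub _ _
    _ ≤ 2 := by linarith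

theorem measurable_EI (G : SimpleGraph V) (μ : Measure (V → Bool)) [IsProbabilityMeasure μ]
    (R : Set (V × ℕ)) (o : V) {f : (V → Bool) → ℝ} (hf : Measurable f)
    (hC : ∃ C, ∀ σ, |f σ| ≤ C) : Measurable (EI G μ R o f) := by
  unfold EI
  exact Measurable.limsup fun n => measurable_ES μ (bev G R o n) hf hC

theorem measurable_M (G : SimpleGraph V) (μ : Measure (V → Bool)) [IsProbabilityMeasure μ]
    (R : Set (V × ℕ)) (v : V) : Measurable (M G μ R v) :=
  measurable_EI G μ R v (measurable_sp v) ⟨1, abs_sp v⟩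

theorem measurable_Cv (G : SimpleGraph V) (μ : Measure (V → Bool)) [IsProbabilityMeasure μ]
    (R : Set (V × ℕ)) (o x : V) : Measurable (Cv G μ R o x) :=
  (measurable_EI G μ R o (measurable_sp2 o x) ⟨1, abs_sp2 o x⟩).sub
    ((measurable_M G μ R o).mul (measurable_M G μ R x))

theorem measurable_msg (G : SimpleGraph V) (μ : Measure (V → Bool)) [IsProbabilityMeasure μ]
    (p q : V) : Measurable (msg G μ p q) := measurable_M G μ _ p

theorem measurable_ph (θ : ℝ) : Measurable (ph θ) := by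
  unfold ph
  fun_prop

theorem measurable_gam (G : SimpleGraph V) (μ : Measure (V → Bool)) [IsProbabilityMeasure μ]
    (θ : ℝ) (p q : V) : Measurable (gam G μ θ p q) := by
  unfold gam
  exact ((Real.measurable_log.comp ((measurable_ph θ).comp (measurable_msg G μ p q))).add
    (Real.measurable_log.comp ((measurable_ph θ).comp (measurable_msg G μ q p)))).div_const 2

theorem gam_symm (G : SimpleGraph V) (μ : Measure (V → Bool)) (θ : ℝ) (p q : V)
    (w : V × ℕ → ℝ) : gam G μ θ p q w = gam G μ θ q p w := by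
  unfold gam
  rw [add_comm]

theorem EI_congr [G.LocallyFinite] (hc : G.Connected) (μ : Measure (V → Bool))
    {R : Set (V × ℕ)} {w w' : V × ℕ → ℝ} (h : ∀ e ∈ R, w e = w' e) (o : V)
    (f : (V → Bool) → ℝ) : EI G μ R o f w = EI G μ R o f w' := by
  unfold EI
  congr 1
  funext n
  exact ES_congr μ (fun e he => h e ((mem_bev hc).1 he).1) f

open Classical in
theorem EI_mask [G.LocallyFinite] (hc : G.Connected) (μ : Measure (V → Bool))
    (R R' : Set (V × ℕ)) (o : V) (f : (V → Bool) → ℝ) (w : V × ℕ → ℝ) :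
    EI G μ R o f (fun e => if e ∈ R' then w e else 0) = EI G μ (R ∩ R') o f w := by
  unfold EI
  congr 1
  funext n
  rw [ES_mask, bev_inter hc]

theorem integral_sp {β : ℝ} {μ : Measure (V → Bool)} (hμ : IsFreeIsing G β μ) (v : V) :
    ∫ σ, sp v σ ∂μ = 0 := by
  classical
  have : Nonempty V := ⟨v⟩
  have := hμ.isProbabilityMeasure
  have hdep : DepOn (({v} : Finset V) : Set V) (sp v) := depOn_spin (by simp)
  rw [hdep.integral_eq]
  have hr : ∀ T : Finset V, μ.real (cyl {v} (pat T)) = 1 / 2 := by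
    intro T
    rw [hμ.real_cyl (connected_singleton v), wt_singleton, mul_one]
  simp only [hr]
  have hps : ({v} : Finset V).powerset = {∅, {v}} := by
    ext T
    simp [Finset.subset_singleton_iff]
  rw [hps, Finset.sum_pair (by simp)]
  simp [sp, pat, spin]

theorem M_empty (G : SimpleGraph V) [G.LocallyFinite] (hc : G.Connected) {β : ℝ}
    {μ : Measure (V → Bool)} (hμ : IsFreeIsing G β μ) (v : V) (w : V × ℕ → ℝ) :
    M G μ ∅ v w = 0 := by
  have hb : ∀ n, bev G ∅ v n = ∅ := by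
    intro n
    ext e
    rw [mem_bev hc]
    simp
  have hE : ∀ n, ES μ (bev G ∅ v n) w (sp v) = 0 := by
    intro n
    rw [hb]
    unfold ES lk
    simp only [Finset.prod_empty, mul_one]
    rw [integral_sp hμ, zero_div]
  unfold M EI
  simp only [hE]
  exact limsup_const 0

/-! ### Equivariance -/

theorem dist_actG_le (hc : G.Connected) (g : G ≃g G) (u v : V) :
    G.dist (g u) (g v) ≤ G.dist u v := by
  obtain ⟨p, hp⟩ := hc.exists_walk_length_eq_dist u v
  have h := SimpleGraph.dist_le (p.map g.toHom)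
  rw [SimpleGraph.Walk.length_map, hp] at h
  exact h

theorem dist_actG (hc : G.Connected) (g : G ≃g G) (u v : V) :
    G.dist (g u) (g v) = G.dist u v := by
  refine le_antisymm (dist_actG_le hc g u v) ?_
  have h := dist_actG_le hc g.symm (g u) (g v)
  simpa using h

theorem bev_act [G.LocallyFinite] (hc : G.Connected) (g : G ≃g G) (R : Set (V × ℕ)) (o : V)
    (n : ℕ) : bev G (actR g.toEquiv R) (g o) n = actS g.toEquiv (bev G R o n) := by
  ext e
  rw [mem_bev hc, mem_actS, mem_bev hc]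
  have h : G.dist (g o) e.1 = G.dist o (g.toEquiv.symm e.1) := by
    have := dist_actG hc g o (g.toEquiv.symm e.1)
    rw [← this]
    congr 1
    exact (g.toEquiv.apply_symm_apply e.1).symm
  rw [h]
  rfl

theorem lk_act (g : V ≃ V) (S : Finset (V × ℕ)) (w : V × ℕ → ℝ) (σ : V → Bool) :
    lk (actS g S) (actE g w) (actC g σ) = lk S w σ := by
  unfold lk actS
  rw [Finset.prod_map]
  refine Finset.prod_congr rfl fun x _ => ?_
  simp [actE, actC]

theorem ES_act (g : V ≃ V) {μ : Measure (V → Bool)} (hμ : μ.map (actC g) = μ)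
    (S : Finset (V × ℕ)) {f f' : (V → Bool) → ℝ} (hff : ∀ σ, f' (actC g σ) = f σ)
    (w : V × ℕ → ℝ) : ES μ (actS g S) (actE g w) f' = ES μ S w f := by
  have hμ' : μ.map (actV g) = μ := hμ
  unfold ES
  have h1 : ∫ σ, f' σ * lk (actS g S) (actE g w) σ ∂μ = ∫ σ, f σ * lk S w σ ∂μ := by
    rw [← integral_act g hμ' fun σ => f' σ * lk (actS g S) (actE g w) σ]
    refine integral_congr_ae (Eventually.of_forall fun σ => ?_)
    have e1 : f' (actV g σ) = f σ := hff σ
    have e2 : lk (actS g S) (actE g w) (actV g σ) = lk S w σ := lk_act g S w σ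
    simp only [e1, e2]
  have h2 : ∫ σ, lk (actS g S) (actE g w) σ ∂μ = ∫ σ, lk S w σ ∂μ := by
    rw [← integral_act g hμ' fun σ => lk (actS g S) (actE g w) σ]
    refine integral_congr_ae (Eventually.of_forall fun σ => ?_)
    exact lk_act g S w σ
  rw [h1, h2]

theorem EI_act [G.LocallyFinite] (hc : G.Connected) {μ : Measure (V → Bool)}
    [IsProbabilityMeasure μ] (g : G ≃g G) (hμ : μ.map (actC g.toEquiv) = μ) (R : Set (V × ℕ))
    (o : V) {f f' : (V → Bool) → ℝ} (hff : ∀ σ, f' (actC g.toEquiv σ) = f σ)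
    (hf : Measurable f) (hf' : Measurable f') (w : V × ℕ → ℝ) :
    EI G μ (actR g.toEquiv R) (g o) f' (actE g.toEquiv w) = EI G μ R o f w := by
  unfold EI
  congr 1
  funext n
  rw [bev_act hc, ES_act g.toEquiv hμ _ hff]

theorem M_act [G.LocallyFinite] (hc : G.Connected) {μ : Measure (V → Bool)}
    [IsProbabilityMeasure μ] (g : G ≃g G) (hμ : μ.map (actC g.toEquiv) = μ) (R : Set (V × ℕ))
    (v : V) (w : V × ℕ → ℝ) :
    M G μ (actR g.toEquiv R) (g v) (actE g.toEquiv w) = M G μ R v w := by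
  unfold M
  refine EI_act hc g hμ R v (fun σ => ?_) (measurable_sp v) (measurable_sp _) w
  have : g.toEquiv.symm (g v) = v := g.toEquiv.symm_apply_apply v
  simp only [sp, actC, this]

theorem Cv_act [G.LocallyFinite] (hc : G.Connected) {μ : Measure (V → Bool)}
    [IsProbabilityMeasure μ] (g : G ≃g G) (hμ : μ.map (actC g.toEquiv) = μ) (R : Set (V × ℕ))
    (o x : V) (w : V × ℕ → ℝ) :
    Cv G μ (actR g.toEquiv R) (g o) (g x) (actE g.toEquiv w) = Cv G μ R o x w := by
  unfold Cv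
  rw [M_act hc g hμ, M_act hc g hμ]
  congr 1
  refine EI_act hc g hμ R o (fun σ => ?_) (measurable_sp2 o x) (measurable_sp2 _ _) w
  have h1 : g.toEquiv.symm (g o) = o := g.toEquiv.symm_apply_apply o
  have h2 : g.toEquiv.symm (g x) = x := g.toEquiv.symm_apply_apply x
  simp only [sp2, actC, h1, h2]

theorem actR_univ (g : V ≃ V) : actR g Set.univ = Set.univ := by
  ext e
  simp [actR]

theorem M_univ_act [G.LocallyFinite] (hc : G.Connected) {μ : Measure (V → Bool)}
    [IsProbabilityMeasure μ] (g : G ≃g G) (hμ : μ.map (actC g.toEquiv) = μ)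
    (v : V) (w : V × ℕ → ℝ) :
    M G μ Set.univ (g v) (actE g.toEquiv w) = M G μ Set.univ v w := by
  have h := M_act hc g hμ Set.univ v w
  rwa [actR_univ] at h

theorem Cv_univ_act [G.LocallyFinite] (hc : G.Connected) {μ : Measure (V → Bool)}
    [IsProbabilityMeasure μ] (g : G ≃g G) (hμ : μ.map (actC g.toEquiv) = μ)
    (o x : V) (w : V × ℕ → ℝ) :
    Cv G μ Set.univ (g o) (g x) (actE g.toEquiv w) = Cv G μ Set.univ o x w := by
  have h := Cv_act hc g hμ Set.univ o x w
  rwa [actR_univ] at h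

theorem actR_side (hc : G.Connected) (g : G ≃g G) (p q : V) :
    actR g.toEquiv (side G p q) = side G (g p) (g q) := by
  ext e
  have h : ∀ x : V, G.dist e.1 (g x) = G.dist (g.toEquiv.symm e.1) x := by
    intro x
    have := dist_actG hc g (g.toEquiv.symm e.1) x
    rw [← this]
    congr 1
    exact (g.toEquiv.apply_symm_apply e.1).symm
  change G.dist (g.toEquiv.symm e.1) q = G.dist (g.toEquiv.symm e.1) p + 1 ↔
    G.dist e.1 (g q) = G.dist e.1 (g p) + 1
  rw [h, h]

theorem msg_act [G.LocallyFinite] (hc : G.Connected) {μ : Measure (V → Bool)}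
    [IsProbabilityMeasure μ] (g : G ≃g G) (hμ : μ.map (actC g.toEquiv) = μ)
    (p q : V) (w : V × ℕ → ℝ) :
    msg G μ (g p) (g q) (actE g.toEquiv w) = msg G μ p q w := by
  unfold msg
  rw [← actR_side hc g p q]
  exact M_act hc g hμ _ p w

theorem gam_act [G.LocallyFinite] (hc : G.Connected) {μ : Measure (V → Bool)}
    [IsProbabilityMeasure μ] (g : G ≃g G) (hμ : μ.map (actC g.toEquiv) = μ)
    (θ : ℝ) (p q : V) (w : V × ℕ → ℝ) :
    gam G μ θ (g p) (g q) (actE g.toEquiv w) = gam G μ θ p q w := by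
  unfold gam
  rw [msg_act hc g hμ, msg_act hc g hμ]

end Vale.Agent.P161.Crit
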