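import Vale.Agent.Lib.P161.Crit.Palm

/-!
P161-CRIT, module Fin1: from `D = 0` to the signals as a function of labels and innovations.
-/

open MeasureTheory Filter Topology ProbabilityTheory

namespace Vale.Agent.P161.Crit

variable {V : Type*} {G : SimpleGraph V} {μ : Measure (V → Bool)}

/-- for one event: the posterior means of the two copies agree if the label is `< 1/2` -/
theorem fin1_Me_eq [G.LocallyFinite] [Countable V] [IsProbabilityMeasure μ] {d : ℕ} {β : ℝ}
    (hE : Env G d β μ) {a : ℝ} (ha : 0 < a) (ha1 : a < 1)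
    (hD : ∀ (o : V) (x : ℝ), 0 < x →
      ∫⁻ p, ENNReal.ofReal ((M G μ Set.univ o p.1 - M G μ Set.univ o p.2) ^ 2)
        ∂(nuX G μ a x) = 0) (e : V × ℕ) :
    ∀ᵐ z ∂(PD G μ a), (z.1.1 e : ℝ) < 1 / 2 →
      Me G μ a z.1.1 z.1.2 e = Me G μ a z.2.1 z.2.2 e := by
  set Φ : (V × ℕ → ℝ) × (V × ℕ → ℝ) → ENNReal :=
    fun p => ENNReal.ofReal ((M G μ Set.univ e.1 p.1 - M G μ Set.univ e.1 p.2) ^ 2) with hΦ
  have hM := measurable_M G μ Set.univ e.1
  have hΦm : Measurable Φ :=
    (((hM.comp measurable_fst).sub (hM.comp measurable_snd)).pow_const 2).ennreal_ofReal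
  have hp := palm hE ha.le ha1 e (h := fun _ => 1) measurable_const hΦm
  have hR : ∫⁻ y : unitInterval, (if (y : ℝ) < 1 / 2 then
        1 * ∫⁻ x, Φ x ∂(nuX G μ a ((e.2 : ℝ) + (y : ℝ))) else 0) = 0 := by
    refine (lintegral_congr_ae (g := fun _ => 0) ?_).trans lintegral_zero
    have h0 : ∀ᵐ y : unitInterval, y ≠ 0 := by
      rw [ae_iff]
      simp
    filter_upwards [h0] with y hy
    split_ifs
    · rw [one_mul]
      apply hD
      have h1 : 0 < (y : ℝ) := by
        rcases lt_or_eq_of_le y.2.1 with h | h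
        · exact h
        · exact absurd (Subtype.ext h.symm) hy
      positivity
    · rfl
  rw [hR, mul_zero, nonpos_iff_eq_zero] at hp
  have htau : Measurable fun z : (Arr V × Arr V) × (Arr V × Arr V) => tau z.1.1 e := by
    unfold tau
    exact measurable_const.add
      (measurable_subtype_coe.comp ((measurable_pi_apply e).comp
        (measurable_fst.comp measurable_fst)))
  have htau2 : Measurable fun z : (Arr V × Arr V) × (Arr V × Arr V) => tau z.2.1 e := by
    unfold tau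
    exact measurable_const.add
      (measurable_subtype_coe.comp ((measurable_pi_apply e).comp
        (measurable_fst.comp measurable_snd)))
  have hlab : Measurable fun z : (Arr V × Arr V) × (Arr V × Arr V) => (z.1.1 e : ℝ) :=
    measurable_subtype_coe.comp ((measurable_pi_apply e).comp
        (measurable_fst.comp measurable_fst))
  have hws := measurable_ws (V := V) a
  have m1 : Measurable fun z : (Arr V × Arr V) × (Arr V × Arr V) =>
      ws a z.1.1 z.1.2 (tau z.1.1 e) :=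
    hws.comp (htau.prodMk measurable_fst)
  have m2 : Measurable fun z : (Arr V × Arr V) × (Arr V × Arr V) =>
      ws a z.2.1 z.2.2 (tau z.2.1 e) :=
    hws.comp (htau2.prodMk measurable_snd)
  have hmeas : Measurable fun z : (Arr V × Arr V) × (Arr V × Arr V) =>
      (if (z.1.1 e : ℝ) < 1 / 2 then (1 : ENNReal) *
        Φ (ws a z.1.1 z.1.2 (tau z.1.1 e), ws a z.2.1 z.2.2 (tau z.2.1 e)) else 0) := by
    refine Measurable.ite (measurableSet_lt hlab measurable_const) ?_ measurable_const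
    exact measurable_const.mul (hΦm.comp (m1.prodMk m2))
  rw [lintegral_eq_zero_iff hmeas] at hp
  filter_upwards [hp] with z hz hlt
  simp only [Pi.zero_apply] at hz
  rw [if_pos hlt, one_mul] at hz
  have h1 : (M G μ Set.univ e.1 (ws a z.1.1 z.1.2 (tau z.1.1 e)) -
      M G μ Set.univ e.1 (ws a z.2.1 z.2.2 (tau z.2.1 e))) ^ 2 ≤ 0 :=
    ENNReal.ofReal_eq_zero.mp hz
  have h2 := pow_eq_zero_iff (two_ne_zero) |>.mp (le_antisymm h1 (sq_nonneg _))
  unfold Me
  linarith

/-- If the posterior means of the two copies agree at all times then the signals agree: for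
`u_e < 1/2`, `Me = Me'` a.s. by `palm` with `h = 1`, `Φ = (M_{e.1} - M_{e.1}')²`; for `u_e ≥ 1/2` the
strength is `0`. Then `tt_of_Xi` (same `Xi`). -/
theorem signals_eq [G.LocallyFinite] [Countable V] [IsProbabilityMeasure μ] {d : ℕ} {β : ℝ}
    (hE : Env G d β μ) {a : ℝ} (ha : 0 < a) (ha1 : a < 1)
    (hD : ∀ (o : V) (x : ℝ), 0 < x →
      ∫⁻ p, ENNReal.ofReal ((M G μ Set.univ o p.1 - M G μ Set.univ o p.2) ^ 2)
        ∂(nuX G μ a x) = 0) :
    ∀ᵐ z ∂(PD G μ a), z.1.2 = z.2.2 := by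
  have h1 : ∀ᵐ z ∂(PD G μ a), ∀ e : V × ℕ, (z.1.1 e : ℝ) < 1 / 2 →
      Me G μ a z.1.1 z.1.2 e = Me G μ a z.2.1 z.2.2 e := by
    rw [ae_all_iff]
    exact fun e => fin1_Me_eq hE ha ha1 hD e
  filter_upwards [h1, PD_ae_eq (G := G) (μ := μ) a] with z hz hz2
  funext e
  rw [tt_of_Xi hE ha.le ha1 z.1.1 z.1.2 e, tt_of_Xi hE ha.le ha1 z.2.1 z.2.2 e, ← hz2.2]
  have h3 : str a e.2 (z.1.1 e) * Me G μ a z.1.1 z.1.2 e =
      str a e.2 (z.2.1 e) * Me G μ a z.2.1 z.2.2 e := by
    by_cases hlt : (z.1.1 e : ℝ) < 1 / 2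
    · rw [hz e hlt, hz2.1]
    · have h4 : str a e.2 (z.1.1 e) = 0 := by
        unfold str
        rw [if_neg hlt]
      have h5 : str a e.2 (z.2.1 e) = 0 := by
        rw [← hz2.1]; exact h4
      rw [h4, h5, zero_mul, zero_mul]
  rw [h3]

/-- The signals are a function of labels and innovations (`exists_factor` for every coordinate). -/
theorem exists_Psi [G.LocallyFinite] [Countable V] [IsProbabilityMeasure μ] {d : ℕ} {β : ℝ}
    (hE : Env G d β μ) {a : ℝ} (ha : 0 < a) (ha1 : a < 1)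
    (h : ∀ᵐ z ∂(PD G μ a), z.1.2 = z.2.2) :
    ∃ Ψ : Arr V × Arr V → Arr V, Measurable Ψ ∧
      ∀ᵐ p ∂(PT μ a), p.2 = Ψ (p.1, Xi G μ a p.1 p.2) := by
  have := isProbabilityMeasure_PT (μ := μ) a
  have hΞ : Measurable fun p : Arr V × Arr V => (p.1, Xi G μ a p.1 p.2) :=
    measurable_fst.prodMk (measurable_Xi G a)
  have hK : ∀ e : V × ℕ, ∃ K : Arr V × Arr V → ℝ, Measurable K ∧
      ∀ᵐ p ∂(PT μ a), (p.2 e : ℝ) = K (p.1, Xi G μ a p.1 p.2) := by
    intro e
    refine exists_factor (P := PT μ a) hΞ (F := fun p : Arr V × Arr V => (p.2 e : ℝ)) ?_ ?_ ?_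
    · exact measurable_subtype_coe.comp ((measurable_pi_apply e).comp measurable_snd)
    · refine ⟨1, fun x => ?_⟩
      rw [abs_of_nonneg (x.2 e).2.1]
      exact (x.2 e).2.2
    · change ∫ z, ((z.1.2 e : ℝ) - (z.2.2 e : ℝ)) ^ 2 ∂(PD G μ a) = 0
      rw [integral_eq_zero_of_ae]
      filter_upwards [h] with z hz
      rw [hz]
      simp
  choose K hKm hKe using hK
  refine ⟨fun x e => Set.projIcc 0 1 zero_le_one (K e x), ?_, ?_⟩
  · rw [measurable_pi_iff]
    intro e
    exact (continuous_projIcc.measurable).comp (hKm e)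
  · have hall : ∀ᵐ p ∂(PT μ a), ∀ e, (p.2 e : ℝ) = K e (p.1, Xi G μ a p.1 p.2) := by
      rw [ae_all_iff]
      exact hKe
    filter_upwards [hall] with p hp
    funext e
    rw [← hp e]
    exact (Set.projIcc_val zero_le_one (p.2 e)).symm

end Vale.Agent.P161.Crit
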