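import Vale.Agent.Lib.P161.Crit.Defs
import Vale.Agent.Lib.P161.Decode

/-!
P161-CRIT, module Fin2: the spins are a function of labels and signals (law of large numbers);
decoding one uniform variable per vertex into two arrays.
-/

open MeasureTheory Filter Topology ProbabilityTheory

namespace Vale.Agent.P161.Crit

variable {V : Type*} {G : SimpleGraph V} {μ : Measure (V → Bool)}

namespace Fin2

theorem measurable_mergeS (ι κ : Type*) :
    Measurable (fun p : (ι → unitInterval) × (κ → unitInterval) =>
      (Sum.elim p.1 p.2 : ι ⊕ κ → unitInterval)) := by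
  refine measurable_pi_lambda _ fun x => ?_
  rcases x with i | j
  · exact (measurable_pi_apply i).comp measurable_fst
  · exact (measurable_pi_apply j).comp measurable_snd

theorem map_mergeS (ι κ : Type*) :
    ((PP ι).prod (PP κ)).map (fun p : (ι → unitInterval) × (κ → unitInterval) =>
      (Sum.elim p.1 p.2 : ι ⊕ κ → unitInterval)) = PP (ι ⊕ κ) := by
  classical
  refine Measure.eq_infinitePi _ fun s t ht => ?_
  have hset : MeasurableSet ((s : Set (ι ⊕ κ)).pi t) := .pi s.countable_toSet fun i _ => ht i
  rw [Measure.map_apply (measurable_mergeS ι κ) hset]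
  have hpre : (fun p : (ι → unitInterval) × (κ → unitInterval) =>
        (Sum.elim p.1 p.2 : ι ⊕ κ → unitInterval)) ⁻¹' ((s : Set (ι ⊕ κ)).pi t) =
      ((s.toLeft : Set ι).pi fun i => t (Sum.inl i)) ×ˢ
        ((s.toRight : Set κ).pi fun j => t (Sum.inr j)) := by
    ext p
    simp only [Set.mem_preimage, Set.mem_pi, Finset.mem_coe, Set.mem_prod, Finset.mem_toLeft,
      Finset.mem_toRight]
    constructor
    · intro h
      exact ⟨fun i hi => h (Sum.inl i) hi, fun j hj => h (Sum.inr j) hj⟩
    · rintro ⟨h1, h2⟩ (i | j) hx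
      · exact h1 i hx
      · exact h2 j hx
  rw [hpre, Measure.prod_prod, Measure.infinitePi_pi _ (fun i _ => ht (Sum.inl i)),
    Measure.infinitePi_pi _ (fun j _ => ht (Sum.inr j))]
  conv_rhs => rw [← Finset.toLeft_disjSum_toRight (u := s), Finset.prod_disjSum]

/-- Split an array indexed by a sum type. -/
def splitS (ι κ : Type*) (t : ι ⊕ κ → unitInterval) :
    (ι → unitInterval) × (κ → unitInterval) := (fun i => t (Sum.inl i), fun j => t (Sum.inr j))

theorem measurable_splitS (ι κ : Type*) : Measurable (splitS ι κ) :=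
  Measurable.prodMk (measurable_pi_lambda _ fun _ => measurable_pi_apply _)
    (measurable_pi_lambda _ fun _ => measurable_pi_apply _)

theorem map_splitS (ι κ : Type*) :
    (PP (ι ⊕ κ)).map (splitS ι κ) = (PP ι).prod (PP κ) := by
  have h : splitS ι κ ∘ (fun p : (ι → unitInterval) × (κ → unitInterval) =>
      (Sum.elim p.1 p.2 : ι ⊕ κ → unitInterval)) = id := by
    funext p
    rfl
  rw [← map_mergeS ι κ, Measure.map_map (measurable_splitS ι κ) (measurable_mergeS ι κ), h,
    Measure.map_id]

/-- One signal with its label. -/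
noncomputable def gS (a : ℝ) (p : unitInterval × unitInterval) : ℝ :=
  (if (p.1 : ℝ) < 1 / 2 then 1 else 0) * (2 * (qK a p.2 : ℝ) - 1)

theorem measurable_gS (a : ℝ) : Measurable (gS a) := by
  have hq : Measurable (fun p : unitInterval × unitInterval => (qK a p.2 : ℝ)) :=
    measurable_subtype_coe.comp
      (measurable_qK.comp (f := fun p : unitInterval × unitInterval => (a, p.2))
        (measurable_const.prodMk measurable_snd))
  have h1 : Measurable (fun p : unitInterval × unitInterval =>
      (if (p.1 : ℝ) < 1 / 2 then (1 : ℝ) else 0)) := by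
    refine Measurable.ite ?_ measurable_const measurable_const
    exact measurableSet_lt (measurable_subtype_coe.comp measurable_fst) measurable_const
  exact h1.mul ((hq.const_mul 2).sub_const 1)

theorem abs_gS_le (a : ℝ) (p : unitInterval × unitInterval) : |gS a p| ≤ 1 := by
  unfold gS
  have h1 : |2 * (qK a p.2 : ℝ) - 1| ≤ 1 :=
    abs_le.2 ⟨by linarith [(qK a p.2).2.1], by linarith [(qK a p.2).2.2]⟩
  split_ifs
  · rw [one_mul]; exact h1
  · rw [zero_mul, abs_zero]; exact zero_le_one

theorem integral_qK {a : ℝ} (ha : |a| < 1) :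
    ∫ x : unitInterval, (qK a x : ℝ) = 1 / 2 + a / 6 := by
  have hq : Measurable (fun x : unitInterval => (qK a x : ℝ)) :=
    measurable_subtype_coe.comp (measurable_qK.comp (f := fun y => (a, y))
      (measurable_const.prodMk measurable_id))
  have h1 := lintegral_qK ha (f := fun t : unitInterval => ENNReal.ofReal (t : ℝ))
    (ENNReal.measurable_ofReal.comp measurable_subtype_coe)
  rw [integral_eq_lintegral_of_nonneg_ae (Eventually.of_forall fun x => (qK a x).2.1)
    hq.aestronglyMeasurable, h1]
  have h2 : ∀ t : unitInterval, ENNReal.ofReal (t : ℝ) * ENNReal.ofReal (1 + a * (2 * t - 1)) =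
      ENNReal.ofReal ((t : ℝ) * (1 + a * (2 * t - 1))) := by
    intro t
    rw [ENNReal.ofReal_mul t.2.1]
  simp only [h2]
  rw [← integral_eq_lintegral_of_nonneg_ae]
  · rw [integral_unitInterval_cubic (fun t => t * (1 + a * (2 * t - 1))) 0 (1 - a) (2 * a) 0
      (fun t => by ring)]
    ring
  · exact Eventually.of_forall fun t => mul_nonneg t.2.1 (density_nonneg ha.le t)
  · have : Measurable (fun t : unitInterval => (t : ℝ) * (1 + a * (2 * (t : ℝ) - 1))) := by
      fun_prop
    exact this.aestronglyMeasurable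

theorem integral_gS {a : ℝ} (ha : |a| < 1) :
    ∫ p, gS a p ∂((volume : Measure unitInterval).prod volume) = a / 6 := by
  unfold gS
  rw [integral_prod_mul (fun y : unitInterval => if (y : ℝ) < 1 / 2 then (1 : ℝ) else 0)
    (fun x : unitInterval => 2 * (qK a x : ℝ) - 1)]
  have hq : Measurable (fun x : unitInterval => (qK a x : ℝ)) :=
    measurable_subtype_coe.comp (measurable_qK.comp (f := fun y => (a, y))
      (measurable_const.prodMk measurable_id))
  have h1 : ∫ x : unitInterval, (2 * (qK a x : ℝ) - 1) = a / 3 := by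
    have hi : Integrable (fun x : unitInterval => (qK a x : ℝ)) := by
      refine Integrable.of_bound (C := 1) hq.aestronglyMeasurable (Eventually.of_forall fun x => ?_)
      rw [Real.norm_eq_abs, abs_of_nonneg (qK a x).2.1]
      exact (qK a x).2.2
    rw [integral_sub (hi.const_mul 2) (integrable_const _), integral_const_mul, integral_qK ha]
    simp
    ring
  have h2 : ∫ y : unitInterval, (if (y : ℝ) < 1 / 2 then (1 : ℝ) else 0) = 1 / 2 := by
    have e : (fun y : unitInterval => if (y : ℝ) < 1 / 2 then (1 : ℝ) else 0) =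
        (Set.Iio (⟨1 / 2, by norm_num, by norm_num⟩ : unitInterval)).indicator (fun _ => 1) := by
      funext y
      by_cases h : (y : ℝ) < 1 / 2
      · rw [if_pos h, Set.indicator_of_mem]
        exact h
      · rw [if_neg h, Set.indicator_of_notMem]
        exact h
    rw [e, integral_indicator measurableSet_Iio, setIntegral_const, measureReal_def,
      unitInterval.volume_Iio]
    simp
  rw [h1, h2]
  ring

/-- the law of large numbers for the signals at `v` -/
theorem slln (a : ℝ) (v : V) :
    ∀ᵐ t ∂(PP ((V × ℕ) ⊕ (V × ℕ))), Tendsto (fun n : ℕ =>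
      (∑ j ∈ Finset.range n, gS a (t (Sum.inl (v, j + 1)), t (Sum.inr (v, j + 1)))) / (n : ℝ))
      atTop (𝓝 (∫ p, gS a p ∂((volume : Measure unitInterval).prod volume))) := by
  set X : ℕ → (((V × ℕ) ⊕ (V × ℕ)) → unitInterval) → ℝ :=
    fun j t => gS a (t (Sum.inl (v, j + 1)), t (Sum.inr (v, j + 1))) with hX
  have hpair : ∀ j : ℕ, Measurable (fun t : ((V × ℕ) ⊕ (V × ℕ)) → unitInterval =>
      (t (Sum.inl (v, j + 1)), t (Sum.inr (v, j + 1)))) := fun j =>
    (measurable_pi_apply _).prodMk (measurable_pi_apply _)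
  have hlaw : ∀ j : ℕ, (PP ((V × ℕ) ⊕ (V × ℕ))).map
      (fun t : ((V × ℕ) ⊕ (V × ℕ)) → unitInterval =>
        (t (Sum.inl (v, j + 1)), t (Sum.inr (v, j + 1)))) =
      (volume : Measure unitInterval).prod volume := fun j =>
    Measure.infinitePi_map_eval_prod (P := fun _ : (V × ℕ) ⊕ (V × ℕ) =>
      (volume : Measure unitInterval)) (by simp)
  have hXm : ∀ j, Measurable (X j) := fun j => (measurable_gS a).comp (hpair j)
  have hint : Integrable (X 0) (PP ((V × ℕ) ⊕ (V × ℕ))) := by
    refine Integrable.of_bound (C := 1) (hXm 0).aestronglyMeasurable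
      (Eventually.of_forall fun t => ?_)
    rw [Real.norm_eq_abs]
    exact abs_gS_le a _
  have hind : iIndepFun (fun (x : (V × ℕ) ⊕ (V × ℕ)) (t : ((V × ℕ) ⊕ (V × ℕ)) → unitInterval) =>
      t x) (PP ((V × ℕ) ⊕ (V × ℕ))) :=
    iIndepFun_infinitePi (P := fun _ : (V × ℕ) ⊕ (V × ℕ) => (volume : Measure unitInterval))
      (X := fun _ x => x) (fun _ => measurable_id)
  have hindep : Pairwise (Function.onFun (fun f g => IndepFun f g (PP ((V × ℕ) ⊕ (V × ℕ)))) X) := by
    intro i j hij
    have h := hind.indepFun_prodMk_prodMk (fun x => measurable_pi_apply x)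
      (Sum.inl (v, i + 1)) (Sum.inr (v, i + 1)) (Sum.inl (v, j + 1)) (Sum.inr (v, j + 1))
      (by simpa using hij) (by simp) (by simp) (by simpa using hij)
    exact h.comp (measurable_gS a) (measurable_gS a)
  have hident : ∀ i, IdentDistrib (X i) (X 0) (PP ((V × ℕ) ⊕ (V × ℕ)))
      (PP ((V × ℕ) ⊕ (V × ℕ))) := by
    intro i
    refine ⟨(hXm i).aemeasurable, (hXm 0).aemeasurable, ?_⟩
    have e : ∀ j, (PP ((V × ℕ) ⊕ (V × ℕ))).map (X j) =
        ((volume : Measure unitInterval).prod volume).map (gS a) := by
      intro j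
      rw [← hlaw j, Measure.map_map (measurable_gS a) (hpair j)]
      rfl
    rw [e i, e 0]
  have h := strong_law_ae_real X hint hindep hident
  have hmean : ∫ t, X 0 t ∂(PP ((V × ℕ) ⊕ (V × ℕ))) =
      ∫ p, gS a p ∂((volume : Measure unitInterval).prod volume) := by
    rw [← hlaw 0, integral_map (hpair 0).aemeasurable (measurable_gS a).aestronglyMeasurable]
  rw [hmean] at h
  exact h

/-- averages of the signals with small labels -/
noncomputable def avgF (n : ℕ) (p : (V × ℕ → unitInterval) × (V × ℕ → unitInterval)) (v : V) : ℝ :=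
  (∑ j ∈ Finset.range n, (if (p.1 (v, j + 1) : ℝ) < 1 / 2 then 1 else 0) *
    (2 * (p.2 (v, j + 1) : ℝ) - 1)) / (n : ℝ)

theorem measurable_avgF (n : ℕ) (v : V) : Measurable
    (fun p : (V × ℕ → unitInterval) × (V × ℕ → unitInterval) => avgF n p v) := by
  unfold avgF
  refine Measurable.div_const (Finset.measurable_sum _ fun j _ => Measurable.mul ?_ ?_) _
  · refine Measurable.ite ?_ measurable_const measurable_const
    exact measurableSet_lt (measurable_subtype_coe.comp
      ((measurable_pi_apply _).comp measurable_fst)) measurable_const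
  · exact ((measurable_subtype_coe.comp
      ((measurable_pi_apply _).comp measurable_snd)).const_mul 2).sub_const 1

theorem avgF_tt (a : ℝ) (n : ℕ) (σ : V → Bool) (u ξ : V × ℕ → unitInterval) (v : V) :
    avgF n (u, tt a σ u ξ) v = spin (σ v) *
      ((∑ j ∈ Finset.range n, gS a (u (v, j + 1), ξ (v, j + 1))) / (n : ℝ)) := by
  unfold avgF
  rw [← mul_div_assoc, Finset.mul_sum]
  congr 1
  refine Finset.sum_congr rfl fun j _ => ?_
  unfold gS
  by_cases h : ((u (v, j + 1) : unitInterval) : ℝ) < 1 / 2
  · simp only [h, if_true, one_mul]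
    have hs : str a (j + 1) (u (v, j + 1)) = a := by
      unfold str
      rw [if_pos h, if_neg (Nat.succ_ne_zero j)]
    unfold tt
    simp only [hs]
    cases hσ : σ v
    · simp only [Bool.false_eq_true, if_false, unitInterval.coe_symm_eq, spin]
      ring
    · simp only [if_true, spin]
      ring
  · simp only [h, if_false, zero_mul, mul_zero]

end Fin2

/-- For every vertex `v` the variables `1(u_(v,j) < 1/2) (2 t_(v,j) - 1)`, `j ≥ 1`, are
`σ_v` times i.i.d. variables with mean `a/6 > 0` (strong law of large numbers). -/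
theorem exists_dec [Countable V] [IsProbabilityMeasure μ] {a : ℝ} (ha : 0 < a) (ha1 : a < 1) :
    ∃ dec : (V × ℕ → unitInterval) × (V × ℕ → unitInterval) → (V → Bool), Measurable dec ∧
      ∀ᵐ ω ∂(PO μ), dec (ω.2.1, tt a ω.1 ω.2.1 ω.2.2) = ω.1 := by
  have habs : |a| < 1 := by rw [abs_of_pos ha]; exact ha1
  classical
  refine ⟨fun p v => decide (0 < limsup (fun n => Fin2.avgF n p v) atTop), ?_, ?_⟩
  · refine measurable_pi_lambda _ fun v => ?_
    have hm : Measurable (fun p : (V × ℕ → unitInterval) × (V × ℕ → unitInterval) =>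
        limsup (fun n => Fin2.avgF n p v) atTop) :=
      Measurable.limsup fun n => Fin2.measurable_avgF n v
    refine measurable_to_bool ?_
    have e : (fun p : (V × ℕ → unitInterval) × (V × ℕ → unitInterval) =>
        decide (0 < limsup (fun n => Fin2.avgF n p v) atTop)) ⁻¹' {true} =
        {p | 0 < limsup (fun n => Fin2.avgF n p v) atTop} := by
      ext p
      simp
    rw [e]
    exact measurableSet_lt measurable_const hm
  · have hall : ∀ᵐ ω ∂(PO μ), ∀ v : V, Tendsto (fun n : ℕ =>
        (∑ j ∈ Finset.range n, Fin2.gS a (ω.2.1 (v, j + 1), ω.2.2 (v, j + 1))) / (n : ℝ))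
        atTop (𝓝 (a / 6)) := by
      rw [ae_all_iff]
      intro v
      have h1 := Fin2.slln a v
      rw [Fin2.integral_gS habs] at h1
      have hmeas : MeasurableSet {q : (V × ℕ → unitInterval) × (V × ℕ → unitInterval) |
          Tendsto (fun n : ℕ =>
            (∑ j ∈ Finset.range n, Fin2.gS a (q.1 (v, j + 1), q.2 (v, j + 1))) / (n : ℝ))
            atTop (𝓝 (a / 6))} := by
        refine measurableSet_tendsto _ fun n => ?_
        refine Measurable.div_const (Finset.measurable_sum _ fun j _ => ?_) _
        exact (Fin2.measurable_gS a).comp (((measurable_pi_apply _).comp measurable_fst).prodMk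
          ((measurable_pi_apply _).comp measurable_snd))
      have h2 : ∀ᵐ q ∂((PP (V × ℕ)).prod (PP (V × ℕ))), Tendsto (fun n : ℕ =>
            (∑ j ∈ Finset.range n, Fin2.gS a (q.1 (v, j + 1), q.2 (v, j + 1))) / (n : ℝ))
            atTop (𝓝 (a / 6)) := by
        rw [← Fin2.map_splitS (V × ℕ) (V × ℕ),
          ae_map_iff (Fin2.measurable_splitS _ _).aemeasurable hmeas]
        exact h1
      unfold PO
      exact Measure.quasiMeasurePreserving_snd.ae h2
    filter_upwards [hall] with ω hω
    funext v
    have h3 : Tendsto (fun n : ℕ => Fin2.avgF n (ω.2.1, tt a ω.1 ω.2.1 ω.2.2) v) atTop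
        (𝓝 (spin (ω.1 v) * (a / 6))) := by
      simp only [Fin2.avgF_tt]
      exact (hω v).const_mul _
    rw [h3.limsup_eq]
    cases hσ : ω.1 v
    · simp only [spin, Bool.false_eq_true, if_false, decide_eq_false_iff_not, not_lt]
      linarith
    · simp only [spin, if_true, one_mul, decide_eq_true_eq]
      positivity

/-- Decoding, see `Vale.Agent.P161.exists_decode`. -/
theorem exists_decode2 (V : Type*) : ∃ dec : unitInterval → (ℕ → unitInterval) × (ℕ → unitInterval),
    Measurable dec ∧ (PP V).map (fun U => ((fun x => (dec (U x.1)).1 x.2 : V × ℕ → unitInterval),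
      (fun x => (dec (U x.1)).2 x.2 : V × ℕ → unitInterval))) =
        (PP (V × ℕ)).prod (PP (V × ℕ)) := by
  obtain ⟨f, hf, hfl⟩ := Measure.exists_measurable_map_eq (PP ℕ)
  refine ⟨fun x => (fun k => f x (2 * k), fun k => f x (2 * k + 1)), ?_, ?_⟩
  · exact Measurable.prodMk (measurable_pi_lambda _ fun k => (measurable_pi_apply _).comp hf)
      (measurable_pi_lambda _ fun k => (measurable_pi_apply _).comp hf)
  · have h1 : (PP V).map (fun (U : V → unitInterval) (v : V) => f (U v)) =
        Measure.infinitePi fun _ : V => PP ℕ := by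
      have := Measure.infinitePi_map_pi (fun _ : V => (volume : Measure unitInterval))
        (f := fun _ => f) (fun _ => hf)
      simp only [hfl] at this
      exact this
    have hm1 : Measurable fun (U : V → unitInterval) (v : V) => f (U v) :=
      measurable_pi_lambda _ fun v => hf.comp (measurable_pi_apply v)
    have h2 : (PP V).map (fun (U : V → unitInterval) (x : V × ℕ) => f (U x.1) x.2) =
        PP (V × ℕ) := by
      have h3 := Measure.infinitePi_map_curry_symm
        (fun (_ : V) (_ : ℕ) => (volume : Measure unitInterval))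
      rw [← h1, Measure.map_map (MeasurableEquiv.measurable _) hm1] at h3
      exact h3
    have hm2 : Measurable fun (U : V → unitInterval) (x : V × ℕ) => f (U x.1) x.2 :=
      measurable_pi_lambda _ fun x =>
        (measurable_pi_apply x.2).comp (hf.comp (measurable_pi_apply x.1))
    let φ : (V × ℕ) ⊕ (V × ℕ) → V × ℕ :=
      Sum.elim (fun x => (x.1, 2 * x.2)) (fun x => (x.1, 2 * x.2 + 1))
    have hφ : Function.Injective φ := by
      rintro (⟨v, i⟩ | ⟨v, i⟩) (⟨w, j⟩ | ⟨w, j⟩) h
      · simp only [φ, Sum.elim_inl, Prod.mk.injEq] at h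
        rw [h.1, show i = j by omega]
      · simp only [φ, Sum.elim_inl, Sum.elim_inr, Prod.mk.injEq] at h
        omega
      · simp only [φ, Sum.elim_inl, Sum.elim_inr, Prod.mk.injEq] at h
        omega
      · simp only [φ, Sum.elim_inr, Prod.mk.injEq] at h
        rw [h.1, show i = j by omega]
    have h5 : (PP (V × ℕ)).map (fun (ω : V × ℕ → unitInterval) (i : (V × ℕ) ⊕ (V × ℕ)) =>
        ω (φ i)) = PP ((V × ℕ) ⊕ (V × ℕ)) :=
      Measure.map_infinitePi_infinitePi_of_inj
        (P := fun _ : V × ℕ => (volume : Measure unitInterval)) hφ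
    have hm3 : Measurable fun (ω : V × ℕ → unitInterval) (i : (V × ℕ) ⊕ (V × ℕ)) => ω (φ i) :=
      measurable_pi_lambda _ fun i => measurable_pi_apply _
    rw [← Fin2.map_splitS (V × ℕ) (V × ℕ), ← h5, ← h2, Measure.map_map hm3 hm2,
      Measure.map_map (Fin2.measurable_splitS _ _) (hm3.comp hm2)]
    rfl

end Vale.Agent.P161.Crit
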