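import Vale.Agent.Lib.P161.Crit.Defs

/-!
P161-CRIT, module Ode: the Grönwall argument. Pure real analysis.
-/

open MeasureTheory Filter Topology

namespace Vale.Agent.P161.Crit

namespace Ode

/-! ### The change of variables -/

theorem sum_indicator_le (J : ℕ) (G : ℝ → ENNReal) (v : ℝ) :
    ∑ j ∈ Finset.range J, (Set.Ico (j : ℝ) (j + 1)).indicator G v ≤ G v := by
  classical
  have h : ∀ j ∈ Finset.range J, (Set.Ico (j : ℝ) (j + 1)).indicator G v =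
      if j = ⌊v⌋₊ then (Set.Ico (j : ℝ) (j + 1)).indicator G v else 0 := by
    intro j _
    split_ifs with hj
    · rfl
    · rw [Set.indicator_of_notMem]
      intro hv
      apply hj
      exact ((Nat.floor_eq_iff ((Nat.cast_nonneg j).trans hv.1)).2 hv).symm
  rw [Finset.sum_congr rfl h, Finset.sum_ite_eq']
  split_ifs
  · exact Set.indicator_le_self _ _ _
  · exact zero_le

theorem lint_le (J : ℕ) (x : ℝ) {g : ℝ → ENNReal} (hg : Measurable g) :
    ∑ j ∈ Finset.range J, ∫⁻ y : unitInterval,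
      (if (y : ℝ) < 1 / 2 ∧ (j : ℝ) + y < x ∧ 0 < (j : ℝ) + y then g ((j : ℝ) + y) else 0) ≤
      ∫⁻ v in Set.Ioo 0 x, g v := by
  set G : ℝ → ENNReal := (Set.Ioo 0 x).indicator g with hG
  have hGm : Measurable G := hg.indicator measurableSet_Ioo
  have h1 : ∀ j : ℕ, ∫⁻ y : unitInterval,
      (if (y : ℝ) < 1 / 2 ∧ (j : ℝ) + y < x ∧ 0 < (j : ℝ) + y then g ((j : ℝ) + y) else 0) ≤
      ∫⁻ v, (Set.Ico (j : ℝ) (j + 1)).indicator G v := by
    intro j
    set H : ℝ → ENNReal := fun y =>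
      (if y < 1 / 2 ∧ (j : ℝ) + y < x ∧ 0 < (j : ℝ) + y then g ((j : ℝ) + y) else 0) with hH
    have e1 : ∫⁻ y : unitInterval, H (y : ℝ) = ∫⁻ y in Set.Icc (0 : ℝ) 1, H y :=
      lintegral_subtype_comap measurableSet_Icc H
    change ∫⁻ y : unitInterval, H (y : ℝ) ≤ _
    rw [e1]
    calc ∫⁻ y in Set.Icc (0 : ℝ) 1, H y
        ≤ ∫⁻ y in Set.Icc (0 : ℝ) 1, (Set.Ico (j : ℝ) (j + 1)).indicator G ((j : ℝ) + y) := by
          refine setLIntegral_mono' measurableSet_Icc fun y hy => ?_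
          simp only [hH]
          split_ifs with hc
          · rw [Set.indicator_of_mem, hG, Set.indicator_of_mem]
            · exact ⟨hc.2.2, hc.2.1⟩
            · constructor
              · linarith [hy.1]
              · linarith [hc.1]
          · exact zero_le
      _ ≤ ∫⁻ y : ℝ, (Set.Ico (j : ℝ) (j + 1)).indicator G ((j : ℝ) + y) :=
          setLIntegral_le_lintegral _ _
      _ = ∫⁻ v, (Set.Ico (j : ℝ) (j + 1)).indicator G v :=
          lintegral_add_left_eq_self (fun v => (Set.Ico (j : ℝ) (j + 1)).indicator G v) (j : ℝ)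
  calc _ ≤ ∑ j ∈ Finset.range J, ∫⁻ v, (Set.Ico (j : ℝ) (j + 1)).indicator G v :=
        Finset.sum_le_sum fun j _ => h1 j
    _ = ∫⁻ v, ∑ j ∈ Finset.range J, (Set.Ico (j : ℝ) (j + 1)).indicator G v :=
        (lintegral_finsetSum _ fun j _ => hGm.indicator measurableSet_Ico).symm
    _ ≤ ∫⁻ v, G v := lintegral_mono fun v => sum_indicator_le J G v
    _ = ∫⁻ v in Set.Ioo 0 x, g v := lintegral_indicator measurableSet_Ioo g

theorem str_sq_le {a : ℝ} (ha : 0 < a) (ha1 : a < 1) (j : ℕ) {y : ℝ} (hy : 0 ≤ y)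
    (hy2 : y < 1 / 2) : str a j y ^ 2 ≤ 4 * (min ((j : ℝ) + y) (1 / 2)) ^ 2 := by
  unfold str
  rw [if_pos hy2]
  split_ifs with hj
  · rw [hj, Nat.cast_zero, zero_add, min_eq_left hy2.le, mul_pow]
    have h1 : a ^ 2 ≤ 1 := pow_le_one₀ ha.le ha1.le
    nlinarith only [sq_nonneg y, h1]
  · have hj1 : (1 : ℝ) ≤ j := by
      exact_mod_cast Nat.one_le_iff_ne_zero.2 hj
    rw [min_eq_right (by linarith)]
    have h1 : a ^ 2 ≤ 1 := pow_le_one₀ ha.le ha1.le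
    linarith

/-- The integral inequality, for a measurable bound of the integrand. -/
theorem master {D Gt : ℝ → ENNReal} {a : ℝ} (ha : 0 < a) (ha1 : a < 1) (J : ℕ) {C : ℝ}
    (h1 : ∀ x : ℝ, 0 < x → x ≤ J → D x ≤ ENNReal.ofReal C *
      ∑ j ∈ Finset.range J, ∫⁻ y : unitInterval, (if (y : ℝ) < 1 / 2 ∧ (j : ℝ) + y < x then
        ENNReal.ofReal (str a j y ^ 2) * Gt ((j : ℝ) + y) else 0))
    {x : ℝ} (hx : 0 < x) (hxJ : x ≤ J) {g : ℝ → ENNReal} (hg : Measurable g)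
    (h : ∀ v, 0 < v → v < x → ENNReal.ofReal ((min v (1 / 2)) ^ 2) * Gt v ≤ g v) :
    D x ≤ ENNReal.ofReal C * (ENNReal.ofReal 4 * ∫⁻ v in Set.Ioo 0 x, g v) := by
  refine (h1 x hx hxJ).trans ?_
  gcongr
  rw [← lintegral_const_mul _ hg]
  refine le_trans (Finset.sum_le_sum fun j _ => lintegral_mono fun y => ?_)
    (lint_le J x (hg.const_mul (ENNReal.ofReal 4)))
  have hy0 : (0 : ℝ) ≤ (y : ℝ) := y.2.1
  dsimp only
  by_cases hc : (y : ℝ) < 1 / 2 ∧ (j : ℝ) + y < x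
  · rw [if_pos hc]
    by_cases hpos : 0 < (j : ℝ) + y
    · rw [if_pos ⟨hc.1, hc.2, hpos⟩]
      have e1 : ENNReal.ofReal (str a j y ^ 2) ≤
          ENNReal.ofReal 4 * ENNReal.ofReal ((min ((j : ℝ) + y) (1 / 2)) ^ 2) := by
        rw [← ENNReal.ofReal_mul (by norm_num)]
        exact ENNReal.ofReal_le_ofReal (str_sq_le ha ha1 j hy0 hc.1)
      calc ENNReal.ofReal (str a j y ^ 2) * Gt ((j : ℝ) + y)
          ≤ (ENNReal.ofReal 4 * ENNReal.ofReal ((min ((j : ℝ) + y) (1 / 2)) ^ 2)) *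
            Gt ((j : ℝ) + y) := by gcongr
        _ = ENNReal.ofReal 4 * (ENNReal.ofReal ((min ((j : ℝ) + y) (1 / 2)) ^ 2) *
            Gt ((j : ℝ) + y)) := by ring
        _ ≤ ENNReal.ofReal 4 * g ((j : ℝ) + y) := by
            gcongr
            exact h _ hpos hc.2
    · have hj0 : (0 : ℝ) ≤ (j : ℝ) := Nat.cast_nonneg j
      have hy1 : (y : ℝ) = 0 := by linarith
      have hj1 : (j : ℝ) = 0 := by linarith
      have hj2 : j = 0 := by exact_mod_cast hj1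
      have hs : str a j (y : ℝ) = 0 := by
        unfold str
        rw [hy1, hj2]
        simp
      rw [hs]
      simp
  · rw [if_neg hc]
    exact zero_le

/-! ### The choice of `N` -/

theorem exists_N {c5 m : ℝ} (hc5 : 0 < c5) (hm : 0 < m) (hm1 : m ≤ 1 / 2) (n : ℕ) :
    ∃ N : ℕ, 1 ≤ N ∧ 1 ≤ N * (c5 * m ^ ((3 : ℝ) / 2)) ∧
      1 / (c5 * m ^ ((3 : ℝ) / 2)) + n ≤ N ∧
      m ^ 2 * (N : ℝ) ^ 2 ≤ 3 * (1 / c5 ^ 2 + 1) * (1 / m + (n : ℝ) ^ 2) ∧
      m ^ 2 * (N : ℝ) ≤ 1 / c5 + 1 + n := by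
  set t : ℝ := m ^ ((3 : ℝ) / 2) with ht
  have ht0 : 0 < t := Real.rpow_pos_of_pos hm _
  have ht2 : t ^ 2 = m ^ 3 := by
    rw [ht, ← Real.rpow_natCast (m ^ ((3 : ℝ) / 2)) 2, ← Real.rpow_mul hm.le]
    norm_num
  have hmt : m ^ 2 ≤ t := by
    have h1 : (m ^ 2) ^ 2 ≤ t ^ 2 := by
      rw [ht2]
      have : (m ^ 2) ^ 2 = m ^ 3 * m := by ring
      rw [this]
      exact mul_le_of_le_one_right (by positivity) (by linarith)
    exact (sq_le_sq₀ (by positivity) ht0.le).1 h1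
  have hct : 0 < c5 * t := by positivity
  set N0 : ℕ := ⌈1 / (c5 * t)⌉₊ with hN0
  have h1 : 1 ≤ N0 := Nat.ceil_pos.2 (by positivity)
  have h2 : 1 / (c5 * t) ≤ N0 := Nat.le_ceil _
  have h3 : (N0 : ℝ) ≤ 1 / (c5 * t) + 1 := (Nat.ceil_lt_add_one (by positivity)).le
  have hn : (0 : ℝ) ≤ n := Nat.cast_nonneg n
  refine ⟨N0 + n, by omega, ?_, ?_, ?_, ?_⟩
  · push_cast
    have h4 : 1 ≤ (N0 : ℝ) * (c5 * t) := by
      rwa [div_le_iff₀ hct] at h2
    linarith only [mul_nonneg hn hct.le, h4]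
  · push_cast
    linarith
  · push_cast
    have h4 : ((N0 : ℝ) + n) ^ 2 ≤ 3 * ((1 / (c5 * t)) ^ 2 + 1 + (n : ℝ) ^ 2) := by
      have h5 : (N0 : ℝ) + n ≤ 1 / (c5 * t) + 1 + n := by linarith
      have h6 : 0 ≤ (N0 : ℝ) + n := by positivity
      have h7 := pow_le_pow_left₀ h6 h5 2
      linarith only [sq_nonneg (1 / (c5 * t) - 1), sq_nonneg (1 / (c5 * t) - n), sq_nonneg ((n : ℝ) - 1), h7]
    have h8 : m ^ 2 * (1 / (c5 * t)) ^ 2 = 1 / c5 ^ 2 * (1 / m) := by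
      rw [div_pow, one_pow, mul_pow, ht2]
      field_simp
    have h9 : m ^ 2 ≤ 1 := by nlinarith only [hm, hm1]
    have h10 : 1 ≤ 1 / m := by
      rw [le_div_iff₀ hm]
      linarith
    calc m ^ 2 * ((N0 : ℝ) + n) ^ 2
        ≤ m ^ 2 * (3 * ((1 / (c5 * t)) ^ 2 + 1 + (n : ℝ) ^ 2)) :=
          mul_le_mul_of_nonneg_left h4 (by positivity)
      _ = 3 * (m ^ 2 * (1 / (c5 * t)) ^ 2 + m ^ 2 * (1 + (n : ℝ) ^ 2)) := by ring
      _ ≤ 3 * (1 / c5 ^ 2 * (1 / m) + 1 * (1 + (n : ℝ) ^ 2)) := by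
          rw [h8]
          gcongr
      _ ≤ 3 * (1 / c5 ^ 2 + 1) * (1 / m + (n : ℝ) ^ 2) := by
          have : 0 ≤ 1 / c5 ^ 2 * (n : ℝ) ^ 2 := by positivity
          linarith only [h10, this]
  · push_cast
    have h4 : m ^ 2 * (1 / (c5 * t)) ≤ 1 / c5 := by
      rw [mul_one_div, div_le_div_iff₀ hct hc5]
      nlinarith only [hc5, hmt]
    have h9 : m ^ 2 ≤ 1 := by nlinarith only [hm, hm1]
    calc m ^ 2 * ((N0 : ℝ) + n) ≤ m ^ 2 * (1 / (c5 * t) + 1 + n) := by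
          apply mul_le_mul_of_nonneg_left _ (by positivity)
          linarith
      _ = m ^ 2 * (1 / (c5 * t)) + m ^ 2 * (1 + n) := by ring
      _ ≤ 1 / c5 + 1 * (1 + n) := by gcongr
      _ = 1 / c5 + 1 + n := by ring

theorem err_le {c c5 m : ℝ} (hc : 0 < c) (hc5 : 0 < c5) (hm : 0 < m) (hm1 : m ≤ 1 / 2) (n : ℕ)
    (j : ℕ) {N : ℝ} (hN : 1 / (c5 * m ^ ((3 : ℝ) / 2)) + n ≤ N) :
    Real.exp (-c * Real.exp (c * N)) ≤
      (j.factorial : ℝ) * (2 * c5 / c ^ 2) ^ j * m ^ j *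
        Real.exp (-(c / 2) * Real.exp (c * n)) := by
  set t : ℝ := m ^ ((3 : ℝ) / 2) with ht
  have ht0 : 0 < t := Real.rpow_pos_of_pos hm _
  have htm : t ≤ m := by
    calc t ≤ m ^ (1 : ℝ) := Real.rpow_le_rpow_of_exponent_ge hm (by linarith) (by norm_num)
      _ = m := Real.rpow_one m
  have hct : 0 < c5 * t := by positivity
  set p : ℝ := c / (c5 * t) with hp
  have hp0 : 0 < p := by positivity
  have hn : (0 : ℝ) ≤ n := Nat.cast_nonneg n
  have hcn : 0 ≤ c * n := by positivity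
  have h1 : Real.exp p * Real.exp (c * n) ≤ Real.exp (c * N) := by
    rw [← Real.exp_add]
    apply Real.exp_le_exp.2
    have := mul_le_mul_of_nonneg_left hN hc.le
    have e : c * (1 / (c5 * t) + n) = p + c * n := by
      rw [hp]
      ring
    linarith
  have h2 : 1 ≤ Real.exp p := Real.one_le_exp hp0.le
  have h3 : 1 ≤ Real.exp (c * n) := Real.one_le_exp hcn
  have h4 : (Real.exp p + Real.exp (c * n)) / 2 ≤ Real.exp (c * N) := by
    linarith only [mul_nonneg (sub_nonneg.2 h2) (sub_nonneg.2 h3), h1, h2, h3]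
  have h5 : p ≤ Real.exp p := by linarith [Real.add_one_le_exp p]
  have h6 : -c * Real.exp (c * N) ≤ -(c * p / 2) + -(c / 2) * Real.exp (c * n) := by
    have := mul_le_mul_of_nonneg_left h4 hc.le
    linarith only [mul_le_mul_of_nonneg_left h5 hc.le, this]
  have hz0 : 0 < c * p / 2 := by positivity
  have h7 : Real.exp (-(c * p / 2)) ≤ (j.factorial : ℝ) * (2 * c5 / c ^ 2) ^ j * m ^ j := by
    have h8 := Real.pow_div_factorial_le_exp (c * p / 2) hz0.le j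
    have hf : (0 : ℝ) < j.factorial := by exact_mod_cast j.factorial_pos
    rw [Real.exp_neg]
    have h9 : (Real.exp (c * p / 2))⁻¹ ≤ ((c * p / 2) ^ j / j.factorial)⁻¹ :=
      inv_anti₀ (by positivity) h8
    refine h9.trans ?_
    have h10 : ((c * p / 2) ^ j / (j.factorial : ℝ))⁻¹ =
        (j.factorial : ℝ) * (2 * c5 / c ^ 2) ^ j * t ^ j := by
      rw [inv_div, mul_assoc, ← mul_pow, div_eq_mul_inv, ← inv_pow]
      congr 2
      rw [hp]
      field_simp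
    rw [h10]
    gcongr
  calc Real.exp (-c * Real.exp (c * N))
      ≤ Real.exp (-(c * p / 2) + -(c / 2) * Real.exp (c * n)) := Real.exp_le_exp.2 h6
    _ = Real.exp (-(c * p / 2)) * Real.exp (-(c / 2) * Real.exp (c * n)) := Real.exp_add _ _
    _ ≤ _ := mul_le_mul_of_nonneg_right h7 (Real.exp_pos _).le

/-- Arithmetic in `ENNReal`. -/
theorem arith (m2 C2 C3 e : ℝ) (hm2 : 0 ≤ m2) (hC2 : 0 ≤ C2) (hC3 : 0 ≤ C3) (he : 0 ≤ e)
    (N : ℕ) (D : ENNReal) :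
    ENNReal.ofReal m2 * (ENNReal.ofReal C2 * ((N : ENNReal) ^ 2 * (ENNReal.ofReal C3 * D) + N * D +
      ENNReal.ofReal e)) =
      ENNReal.ofReal (C2 * (m2 * (N : ℝ) ^ 2 * C3 + m2 * N)) * D + ENNReal.ofReal (C2 * m2 * e) := by
  have hN : (0 : ℝ) ≤ N := Nat.cast_nonneg N
  rw [← ENNReal.ofReal_natCast N, ENNReal.ofReal_mul hC2, ENNReal.ofReal_add (by positivity)
    (by positivity), ENNReal.ofReal_mul (by positivity), ENNReal.ofReal_mul hm2,
    ENNReal.ofReal_pow hN, ENNReal.ofReal_mul hm2, ENNReal.ofReal_mul (by positivity),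
    ENNReal.ofReal_mul hC2]
  ring

/-- The pointwise bound, phase B. -/
theorem pointB {D Gt K : ℝ → ENNReal} {q : ℝ → ℝ} {J : ℕ} {C2 c C3 c5 : ℝ} (hC2 : 0 ≤ C2)
    (hc : 0 < c) (hC3 : 0 ≤ C3) (hc5 : 0 < c5)
    (h2 : ∀ x : ℝ, 0 < x → x ≤ J → ∀ N : ℕ, 1 ≤ N → 1 ≤ N * q x →
      Gt x ≤ ENNReal.ofReal C2 * ((N : ENNReal) ^ 2 * K x + N * D x +
        ENNReal.ofReal (Real.exp (- c * Real.exp (c * N)))))
    (h3 : ∀ x : ℝ, 0 < x → x ≤ J → K x ≤ ENNReal.ofReal C3 * D x)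
    (h5 : ∀ x : ℝ, 0 < x → x ≤ J → c5 * (min x (1 / 2)) ^ ((3 : ℝ) / 2) ≤ q x) (n j : ℕ)
    {v : ℝ} (hv : 0 < v) (hvJ : v ≤ J) :
    ENNReal.ofReal ((min v (1 / 2)) ^ 2) * Gt v ≤
      ENNReal.ofReal (C2 * (C3 + 1) * (3 * (1 / c5 ^ 2 + 1)) *
        (1 / min v (1 / 2) + (n : ℝ) ^ 2)) * D v +
      ENNReal.ofReal (C2 * ((j.factorial : ℝ) * (2 * c5 / c ^ 2) ^ j) *
        Real.exp (-(c / 2) * Real.exp (c * n)) * (min v (1 / 2)) ^ j) := by
  set m := min v (1 / 2) with hm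
  have hm0 : 0 < m := lt_min hv (by norm_num)
  have hm1 : m ≤ 1 / 2 := min_le_right _ _
  obtain ⟨N, hN1, hN2, hN3, hN4, hN5⟩ := exists_N hc5 hm0 hm1 n
  have hq : 1 ≤ (N : ℝ) * q v := by
    refine hN2.trans ?_
    exact mul_le_mul_of_nonneg_left (h5 v hv hvJ) (Nat.cast_nonneg N)
  have h6 := h2 v hv hvJ N hN1 hq
  have h7 := h3 v hv hvJ
  have he := err_le hc hc5 hm0 hm1 n j hN3
  have hN1' : (1 : ℝ) ≤ N := by exact_mod_cast hN1
  have hm2 : m ^ 2 ≤ 1 := by nlinarith only [hm0, hm1]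
  calc ENNReal.ofReal (m ^ 2) * Gt v
      ≤ ENNReal.ofReal (m ^ 2) * (ENNReal.ofReal C2 * ((N : ENNReal) ^ 2 *
        (ENNReal.ofReal C3 * D v) + N * D v +
        ENNReal.ofReal (Real.exp (- c * Real.exp (c * N))))) := by
        gcongr
        refine h6.trans ?_
        gcongr
    _ = ENNReal.ofReal (C2 * (m ^ 2 * (N : ℝ) ^ 2 * C3 + m ^ 2 * N)) * D v +
        ENNReal.ofReal (C2 * m ^ 2 * Real.exp (- c * Real.exp (c * N))) :=
        arith _ _ _ _ (by positivity) hC2 hC3 (Real.exp_pos _).le N (D v)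
    _ ≤ _ := by
        gcongr ?_ * D v + ?_
        · apply ENNReal.ofReal_le_ofReal
          have h8 : m ^ 2 * (N : ℝ) ≤ m ^ 2 * (N : ℝ) ^ 2 := by
            apply mul_le_mul_of_nonneg_left _ (by positivity)
            nlinarith only [hN1']
          calc C2 * (m ^ 2 * (N : ℝ) ^ 2 * C3 + m ^ 2 * N)
              ≤ C2 * (m ^ 2 * (N : ℝ) ^ 2 * C3 + m ^ 2 * (N : ℝ) ^ 2) := by gcongr
            _ = C2 * (C3 + 1) * (m ^ 2 * (N : ℝ) ^ 2) := by ring
            _ ≤ C2 * (C3 + 1) * (3 * (1 / c5 ^ 2 + 1) * (1 / m + (n : ℝ) ^ 2)) := by gcongr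
            _ = _ := by ring
        · apply ENNReal.ofReal_le_ofReal
          calc C2 * m ^ 2 * Real.exp (- c * Real.exp (c * N))
              ≤ C2 * 1 * ((j.factorial : ℝ) * (2 * c5 / c ^ 2) ^ j * m ^ j *
                Real.exp (-(c / 2) * Real.exp (c * n))) := by gcongr
            _ = _ := by ring

/-- The pointwise bound, phase A. -/
theorem pointA {D Gt K : ℝ → ENNReal} {Pr : ℝ → ℝ → ENNReal} {q : ℝ → ℝ} {J : ℕ}
    {C2 c C3 c5 : ℝ} (hC2 : 0 ≤ C2) (hc : 0 < c) (hC3 : 0 ≤ C3) (hc5 : 0 < c5)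
    (h2 : ∀ x : ℝ, 0 < x → x ≤ J → ∀ N : ℕ, 1 ≤ N → 1 ≤ N * q x →
      Gt x ≤ ENNReal.ofReal C2 * ((N : ENNReal) ^ 2 * K x + N * D x +
        ENNReal.ofReal (Real.exp (- c * Real.exp (c * N)))))
    (h3 : ∀ x : ℝ, 0 < x → x ≤ J →
      ∀ ε : ℝ, 0 < ε → ε ≤ 1 → K x ≤ ENNReal.ofReal C3 * (ENNReal.ofReal (ε ^ 2) * D x + Pr x ε))
    (h4 : ∀ i : ℕ, 1 ≤ i → ∃ C : ℝ, 0 ≤ C ∧ ∀ x : ℝ, 0 < x → x ≤ 1 / 2 → ∀ ε : ℝ, 0 < ε → ε ≤ 1 →
      Pr x ε ≤ ENNReal.ofReal (C * x ^ ((3 : ℝ) / 2 * i) / ε ^ (2 * i)))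
    (h5 : ∀ x : ℝ, 0 < x → x ≤ J → c5 * (min x (1 / 2)) ^ ((3 : ℝ) / 2) ≤ q x) (k : ℕ) :
    ∃ B : ℝ, 0 ≤ B ∧ ∀ v : ℝ, 0 < v → v ≤ 1 / 2 → v ≤ J →
      ENNReal.ofReal ((min v (1 / 2)) ^ 2) * Gt v ≤
        ENNReal.ofReal B * (D v + ENNReal.ofReal (v ^ k)) := by
  obtain ⟨C4, hC4, h4'⟩ := h4 (2 * (k + 1)) (by omega)
  set A' : ℝ := 3 * (1 / c5 ^ 2 + 1) with hA'
  have hA'0 : 0 ≤ A' := by positivity
  set E : ℝ := (k.factorial : ℝ) * (2 * c5 / c ^ 2) ^ k with hE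
  have hE0 : 0 ≤ E := by positivity
  refine ⟨C2 * (A' * C3 + (1 / c5 + 1)) + C2 * (A' * C3 * C4 + E), by positivity,
    fun v hv hv2 hvJ => ?_⟩
  have hmin : min v (1 / 2) = v := min_eq_left hv2
  obtain ⟨N, hN1, hN2, hN3, hN4, hN5⟩ := exists_N hc5 hv hv2 0
  have hq : 1 ≤ (N : ℝ) * q v := by
    refine hN2.trans ?_
    have := h5 v hv hvJ
    rw [hmin] at this
    exact mul_le_mul_of_nonneg_left this (Nat.cast_nonneg N)
  have h6 := h2 v hv hvJ N hN1 hq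
  set ε : ℝ := Real.sqrt v with hε
  have hε0 : 0 < ε := Real.sqrt_pos.2 hv
  have hε2 : ε ^ 2 = v := Real.sq_sqrt hv.le
  have hε1 : ε ≤ 1 := by
    rw [hε]
    exact Real.sqrt_le_one.2 (by linarith)
  have h7 := h3 v hv hvJ ε hε0 hε1
  have h8 := h4' v hv hv2 ε hε0 hε1
  have hpr : C4 * v ^ ((3 : ℝ) / 2 * ((2 * (k + 1) : ℕ) : ℝ)) / ε ^ (2 * (2 * (k + 1))) =
      C4 * v ^ (k + 1) := by
    have e1 : v ^ ((3 : ℝ) / 2 * ((2 * (k + 1) : ℕ) : ℝ)) = v ^ (3 * (k + 1)) := by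
      rw [← Real.rpow_natCast]
      congr 1
      push_cast
      ring
    have e2 : ε ^ (2 * (2 * (k + 1))) = v ^ (2 * (k + 1)) := by
      rw [pow_mul, hε2]
    have e3 : v ^ (3 * (k + 1)) = v ^ (k + 1) * v ^ (2 * (k + 1)) := by ring
    rw [e1, e2, e3, mul_div_assoc, mul_div_assoc, div_self (pow_pos hv _).ne', mul_one]
  rw [hpr] at h8
  rw [hε2] at h7
  have he := err_le hc hc5 hv hv2 0 k hN3
  have hN1' : (1 : ℝ) ≤ N := by exact_mod_cast hN1
  have hN0 : (0 : ℝ) ≤ N := by linarith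
  simp only [Nat.cast_zero, ne_eq, OfNat.ofNat_ne_zero, not_false_eq_true, zero_pow, add_zero,
    mul_zero, Real.exp_zero, mul_one] at hN4 hN5 he
  rw [← hA'] at hN4
  rw [← hE] at he
  have hec : Real.exp (-(c / 2)) ≤ 1 := Real.exp_le_one_iff.2 (by linarith)
  have he' : Real.exp (-c * Real.exp (c * N)) ≤ E * v ^ k := by
    refine he.trans ?_
    exact mul_le_of_le_one_right (by positivity) hec
  rw [hmin]
  have hv2' : v ^ 2 ≤ 1 := by nlinarith only [hv, hv2]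
  have hvk : (0 : ℝ) ≤ v ^ k := by positivity
  have hv2nn : (0 : ℝ) ≤ v ^ 2 := by positivity
  have hcoef1 : C2 * (v ^ 2 * (N : ℝ) ^ 2 * C3 * v + v ^ 2 * N) ≤
      C2 * (A' * C3 + (1 / c5 + 1)) := by
    have a1 : v ^ 2 * (N : ℝ) ^ 2 * v ≤ A' := by
      calc v ^ 2 * (N : ℝ) ^ 2 * v ≤ A' * (1 / v) * v := by gcongr
        _ = A' := by field_simp
    have a2 : v ^ 2 * (N : ℝ) ^ 2 * C3 * v = v ^ 2 * (N : ℝ) ^ 2 * v * C3 := by ring
    rw [a2]
    gcongr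
  have hcoef2 : C2 * (v ^ 2 * (N : ℝ) ^ 2 * C3 * (C4 * v ^ (k + 1)) +
      v ^ 2 * Real.exp (-c * Real.exp (c * N))) ≤ C2 * (A' * C3 * C4 + E) * v ^ k := by
    have a1 : v ^ 2 * (N : ℝ) ^ 2 * v ≤ A' := by
      calc v ^ 2 * (N : ℝ) ^ 2 * v ≤ A' * (1 / v) * v := by gcongr
        _ = A' := by field_simp
    have a2 : v ^ 2 * (N : ℝ) ^ 2 * C3 * (C4 * v ^ (k + 1)) ≤ A' * C3 * C4 * v ^ k := by
      calc v ^ 2 * (N : ℝ) ^ 2 * C3 * (C4 * v ^ (k + 1)) =
            (v ^ 2 * (N : ℝ) ^ 2 * v) * (C3 * C4 * v ^ k) := by ring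
        _ ≤ A' * (C3 * C4 * v ^ k) := by gcongr
        _ = _ := by ring
    have a3 : v ^ 2 * Real.exp (-c * Real.exp (c * N)) ≤ E * v ^ k := by
      calc v ^ 2 * Real.exp (-c * Real.exp (c * N)) ≤ 1 * (E * v ^ k) :=
            mul_le_mul hv2' he' (Real.exp_pos _).le zero_le_one
        _ = _ := one_mul _
    calc C2 * (v ^ 2 * (N : ℝ) ^ 2 * C3 * (C4 * v ^ (k + 1)) +
      v ^ 2 * Real.exp (-c * Real.exp (c * N))) ≤ C2 * (A' * C3 * C4 * v ^ k + E * v ^ k) := by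
          gcongr
      _ = _ := by ring
  calc ENNReal.ofReal (v ^ 2) * Gt v
      ≤ ENNReal.ofReal (v ^ 2) * (ENNReal.ofReal C2 * ((N : ENNReal) ^ 2 *
        (ENNReal.ofReal C3 * (ENNReal.ofReal v * D v + ENNReal.ofReal (C4 * v ^ (k + 1)))) +
        N * D v + ENNReal.ofReal (Real.exp (- c * Real.exp (c * N))))) := by
        gcongr
        refine h6.trans ?_
        gcongr
        refine h7.trans ?_
        gcongr
    _ = ENNReal.ofReal (C2 * (v ^ 2 * (N : ℝ) ^ 2 * C3 * v + v ^ 2 * N)) * D v +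
        ENNReal.ofReal (C2 * (v ^ 2 * (N : ℝ) ^ 2 * C3 * (C4 * v ^ (k + 1)) +
          v ^ 2 * Real.exp (-c * Real.exp (c * N)))) := by
        have p1 : 0 ≤ v ^ 2 * (N : ℝ) ^ 2 := by positivity
        have p2 : 0 ≤ v ^ 2 * (N : ℝ) ^ 2 * C3 := by positivity
        have p3 : 0 ≤ C4 * v ^ (k + 1) := by positivity
        rw [← ENNReal.ofReal_natCast N, ENNReal.ofReal_mul hC2, ENNReal.ofReal_mul hC2,
          ENNReal.ofReal_add (by positivity) (by positivity),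
          ENNReal.ofReal_add (by positivity) (by positivity),
          ENNReal.ofReal_mul p2, ENNReal.ofReal_mul p2, ENNReal.ofReal_mul p1,
          ENNReal.ofReal_mul hv2nn, ENNReal.ofReal_pow hN0, ENNReal.ofReal_mul hv2nn,
          ENNReal.ofReal_mul hv2nn]
        ring
    _ ≤ ENNReal.ofReal (C2 * (A' * C3 + (1 / c5 + 1))) * D v +
        ENNReal.ofReal (C2 * (A' * C3 * C4 + E) * v ^ k) := by
        gcongr
    _ ≤ ENNReal.ofReal (C2 * (A' * C3 + (1 / c5 + 1)) + C2 * (A' * C3 * C4 + E)) * D v +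
        ENNReal.ofReal (C2 * (A' * C3 + (1 / c5 + 1)) + C2 * (A' * C3 * C4 + E)) *
          ENNReal.ofReal (v ^ k) := by
        rw [← ENNReal.ofReal_mul (by positivity)]
        have p4 : 0 ≤ C2 * (A' * C3 + (1 / c5 + 1)) := by positivity
        have p5 : 0 ≤ C2 * (A' * C3 * C4 + E) := by positivity
        gcongr
        · linarith
        · linarith
    _ = _ := by ring

/-- Phase A. -/
theorem phaseA {D Gt : ℝ → ENNReal} {a : ℝ} (ha : 0 < a) (ha1 : a < 1) (J : ℕ) {C : ℝ}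
    (hC : 0 ≤ C) (hD4 : ∀ x, D x ≤ 4) (hDm : Measurable D)
    (h1 : ∀ x : ℝ, 0 < x → x ≤ J → D x ≤ ENNReal.ofReal C *
      ∑ j ∈ Finset.range J, ∫⁻ y : unitInterval, (if (y : ℝ) < 1 / 2 ∧ (j : ℝ) + y < x then
        ENNReal.ofReal (str a j y ^ 2) * Gt ((j : ℝ) + y) else 0))
    (hA : ∀ k : ℕ, ∃ B : ℝ, 0 ≤ B ∧ ∀ v : ℝ, 0 < v → v ≤ 1 / 2 → v ≤ J →
      ENNReal.ofReal ((min v (1 / 2)) ^ 2) * Gt v ≤
        ENNReal.ofReal B * (D v + ENNReal.ofReal (v ^ k))) (k : ℕ) :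
    ∃ M : ℝ, 0 ≤ M ∧ ∀ x : ℝ, 0 < x → x ≤ 1 / 2 → x ≤ J → D x ≤ ENNReal.ofReal (M * x ^ k) := by
  induction k with
  | zero =>
    refine ⟨4, by norm_num, fun x _ _ _ => ?_⟩
    rw [pow_zero, mul_one]
    refine (hD4 x).trans (le_of_eq ?_)
    norm_num
  | succ k ih =>
    obtain ⟨M, hM, ihM⟩ := ih
    obtain ⟨B, hB, hAB⟩ := hA k
    refine ⟨C * (4 * (B * (M + 1))), by positivity, fun x hx hx2 hxJ => ?_⟩
    have hgm : Measurable (fun v : ℝ => ENNReal.ofReal B * (D v + ENNReal.ofReal (v ^ k))) := by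
      fun_prop
    have hmas := master ha ha1 J h1 hx hxJ hgm fun v hv hvx =>
      hAB v hv (hvx.le.trans hx2) (hvx.le.trans hxJ)
    refine hmas.trans ?_
    have hint : ∫⁻ v in Set.Ioo 0 x, ENNReal.ofReal B * (D v + ENNReal.ofReal (v ^ k)) ≤
        ENNReal.ofReal (B * (M + 1) * x ^ k) * ENNReal.ofReal x := by
      calc ∫⁻ v in Set.Ioo 0 x, ENNReal.ofReal B * (D v + ENNReal.ofReal (v ^ k))
          ≤ ∫⁻ _ in Set.Ioo 0 x, ENNReal.ofReal (B * (M + 1) * x ^ k) := by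
            refine setLIntegral_mono' measurableSet_Ioo fun v hv => ?_
            have h3 := ihM v hv.1 (hv.2.le.trans hx2) (hv.2.le.trans hxJ)
            have hvk : v ^ k ≤ x ^ k := pow_le_pow_left₀ hv.1.le hv.2.le k
            have hvk0 : 0 ≤ v ^ k := pow_nonneg hv.1.le k
            calc ENNReal.ofReal B * (D v + ENNReal.ofReal (v ^ k))
                ≤ ENNReal.ofReal B * (ENNReal.ofReal (M * v ^ k) + ENNReal.ofReal (v ^ k)) := by
                  gcongr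
              _ = ENNReal.ofReal (B * (M * v ^ k + v ^ k)) := by
                  rw [← ENNReal.ofReal_add (by positivity) hvk0, ← ENNReal.ofReal_mul hB]
              _ ≤ ENNReal.ofReal (B * (M + 1) * x ^ k) := by
                  apply ENNReal.ofReal_le_ofReal
                  have : B * (M * v ^ k + v ^ k) = B * (M + 1) * v ^ k := by ring
                  rw [this]
                  gcongr
        _ = ENNReal.ofReal (B * (M + 1) * x ^ k) * ENNReal.ofReal x := by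
            rw [setLIntegral_const, Real.volume_Ioo, sub_zero]
    calc ENNReal.ofReal C * (ENNReal.ofReal 4 *
          ∫⁻ v in Set.Ioo 0 x, ENNReal.ofReal B * (D v + ENNReal.ofReal (v ^ k)))
        ≤ ENNReal.ofReal C * (ENNReal.ofReal 4 *
          (ENNReal.ofReal (B * (M + 1) * x ^ k) * ENNReal.ofReal x)) := by gcongr
      _ = ENNReal.ofReal (C * (4 * (B * (M + 1))) * x ^ (k + 1)) := by
          rw [← ENNReal.ofReal_mul (by positivity), ← ENNReal.ofReal_mul (by norm_num),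
            ← ENNReal.ofReal_mul hC]
          congr 1
          ring

/-! ### Phase B -/

/-- The comparison function. -/
noncomputable def Psi (j : ℕ) (lam v : ℝ) : ℝ := v ^ (j + 1) * Real.exp (lam * v)

noncomputable def Psi' (j : ℕ) (lam v : ℝ) : ℝ :=
  ((j : ℝ) + 1) * v ^ j * Real.exp (lam * v) + v ^ (j + 1) * (Real.exp (lam * v) * lam)

theorem hasDerivAt_Psi (j : ℕ) (lam v : ℝ) : HasDerivAt (Psi j lam) (Psi' j lam v) v := by
  unfold Psi Psi'
  have h1 : HasDerivAt (fun v : ℝ => v ^ (j + 1)) (((j : ℝ) + 1) * v ^ j) v := by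
    have := hasDerivAt_pow (j + 1) v
    simpa using this
  have h2 : HasDerivAt (fun v : ℝ => Real.exp (lam * v)) (Real.exp (lam * v) * lam) v := by
    have h3 : HasDerivAt (fun v : ℝ => lam * v) lam v := by
      simpa using (hasDerivAt_id v).const_mul lam
    exact h3.exp
  exact h1.mul h2

theorem continuous_Psi' (j : ℕ) (lam : ℝ) : Continuous (Psi' j lam) := by
  unfold Psi'
  fun_prop

theorem Psi'_nonneg (j : ℕ) {lam v : ℝ} (hl : 0 ≤ lam) (hv : 0 ≤ v) : 0 ≤ Psi' j lam v := by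
  unfold Psi'
  positivity

theorem lint_Psi' (j : ℕ) {lam : ℝ} (hl : 0 ≤ lam) {x : ℝ} (hx : 0 < x) :
    ∫⁻ v in Set.Ioo 0 x, ENNReal.ofReal (Psi' j lam v) = ENNReal.ofReal (Psi j lam x) := by
  have h1 : ∫ v in (0 : ℝ)..x, Psi' j lam v = Psi j lam x := by
    rw [intervalIntegral.integral_eq_sub_of_hasDerivAt (f := Psi j lam)
      (fun v _ => hasDerivAt_Psi j lam v) ((continuous_Psi' j lam).intervalIntegrable 0 x)]
    unfold Psi
    simp
  have h2 : IntegrableOn (Psi' j lam) (Set.Ioo 0 x) :=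
    ((continuous_Psi' j lam).integrableOn_Icc (a := 0) (b := x)).mono_set Set.Ioo_subset_Icc_self
  rw [← h1, intervalIntegral.integral_of_le hx.le, integral_Ioc_eq_integral_Ioo,
    ofReal_integral_eq_lintegral_ofReal h2]
  refine (ae_restrict_iff' measurableSet_Ioo).2 (ae_of_all _ fun v hv => ?_)
  exact Psi'_nonneg j hl hv.1.le

/-- One step of the comparison. -/
theorem stepB {D Gt : ℝ → ENNReal} {a : ℝ} (ha : 0 < a) (ha1 : a < 1) (J : ℕ) {C : ℝ}
    (hC : 0 ≤ C) (hDm : Measurable D)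
    (h1 : ∀ x : ℝ, 0 < x → x ≤ J → D x ≤ ENNReal.ofReal C *
      ∑ j ∈ Finset.range J, ∫⁻ y : unitInterval, (if (y : ℝ) < 1 / 2 ∧ (j : ℝ) + y < x then
        ENNReal.ofReal (str a j y ^ 2) * Gt ((j : ℝ) + y) else 0))
    {A B n : ℝ} (hA : 0 ≤ A) (hB : 0 ≤ B) (hn : 0 ≤ n) {j : ℕ}
    (hp : ∀ v : ℝ, 0 < v → v ≤ J → ENNReal.ofReal ((min v (1 / 2)) ^ 2) * Gt v ≤
      ENNReal.ofReal (A * (1 / min v (1 / 2) + n ^ 2)) * D v +
      ENNReal.ofReal (B * (min v (1 / 2)) ^ j))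
    (hj : 8 * C * A ≤ (j : ℝ) + 1) {s : ℝ} (hs : 0 ≤ s)
    (hP : ∀ x : ℝ, 0 < x → x ≤ J →
      D x ≤ ENNReal.ofReal (s * Psi j (8 * C * A * (2 + n ^ 2)) x)) :
    ∀ x : ℝ, 0 < x → x ≤ J →
      D x ≤ ENNReal.ofReal ((s / 2 + 4 * C * B) * Psi j (8 * C * A * (2 + n ^ 2)) x) := by
  intro x hx hxJ
  set lam : ℝ := 8 * C * A * (2 + n ^ 2) with hlam
  have hlam0 : 0 ≤ lam := by positivity
  have hgm : Measurable (fun v : ℝ => ENNReal.ofReal (A * (1 / min v (1 / 2) + n ^ 2)) * D v +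
      ENNReal.ofReal (B * (min v (1 / 2)) ^ j)) := by
    have hmm : Measurable (fun v : ℝ => min v (1 / 2)) := measurable_id.min measurable_const
    have e1 : Measurable (fun v : ℝ => A * (1 / min v (1 / 2) + n ^ 2)) :=
      measurable_const.mul ((measurable_const.div hmm).add measurable_const)
    have e2 : Measurable (fun v : ℝ => B * (min v (1 / 2)) ^ j) :=
      measurable_const.mul (hmm.pow_const j)
    exact (e1.ennreal_ofReal.mul hDm).add e2.ennreal_ofReal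
  have hmas := master ha ha1 J h1 hx hxJ hgm fun v hv hvx => hp v hv (hvx.le.trans hxJ)
  refine hmas.trans ?_
  rw [← mul_assoc, ← ENNReal.ofReal_mul hC, ← lintegral_const_mul _ hgm]
  have hs' : 0 ≤ s / 2 + 4 * C * B := by positivity
  rw [ENNReal.ofReal_mul hs', ← lint_Psi' j hlam0 hx, ← lintegral_const_mul _
    ((continuous_Psi' j lam).measurable.ennreal_ofReal)]
  refine setLIntegral_mono' measurableSet_Ioo fun v hv => ?_
  have hv0 : 0 < v := hv.1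
  have hD := hP v hv0 (hv.2.le.trans hxJ)
  set m := min v (1 / 2) with hm
  have hm0 : 0 < m := lt_min hv0 (by norm_num)
  have hm1 : 1 / m ≤ 1 / v + 2 := by
    rw [hm]
    rcases le_total v (1 / 2) with h | h
    · rw [min_eq_left h]
      linarith
    · rw [min_eq_right h]
      have : 0 < 1 / v := by positivity
      norm_num
      linarith
  have hmv : m ≤ v := min_le_left _ _
  have hPsi0 : 0 ≤ Psi j lam v := by
    unfold Psi
    positivity
  have he1 : 1 ≤ Real.exp (lam * v) := Real.one_le_exp (by positivity)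
  calc ENNReal.ofReal (C * 4) * (ENNReal.ofReal (A * (1 / m + n ^ 2)) * D v +
        ENNReal.ofReal (B * m ^ j))
      ≤ ENNReal.ofReal (C * 4) * (ENNReal.ofReal (A * (1 / m + n ^ 2)) *
        ENNReal.ofReal (s * Psi j lam v) + ENNReal.ofReal (B * m ^ j)) := by gcongr
    _ = ENNReal.ofReal (C * 4 * (A * (1 / m + n ^ 2) * (s * Psi j lam v) + B * m ^ j)) := by
        rw [← ENNReal.ofReal_mul (by positivity), ← ENNReal.ofReal_add (by positivity)
          (by positivity), ← ENNReal.ofReal_mul (by positivity)]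
    _ ≤ ENNReal.ofReal ((s / 2 + 4 * C * B) * Psi' j lam v) := by
        apply ENNReal.ofReal_le_ofReal
        have a1 : A * (1 / m + n ^ 2) * (s * Psi j lam v) ≤
            A * (1 / v + 2 + n ^ 2) * (s * Psi j lam v) := by
          gcongr
        have a2 : B * m ^ j ≤ B * v ^ j := by gcongr
        have a3 : 1 / v * v ^ (j + 1) = v ^ j := by
          rw [pow_succ]
          field_simp
        set X := v ^ j * Real.exp (lam * v) with hX
        set Y := v ^ (j + 1) * Real.exp (lam * v) with hY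
        have hX0 : 0 ≤ X := by positivity
        have hY0 : 0 ≤ Y := by positivity
        have hXv : v ^ j ≤ X := by
          rw [hX]
          exact le_mul_of_one_le_right (by positivity) he1
        have hPe : Psi j lam v = Y := rfl
        have hPe' : Psi' j lam v = ((j : ℝ) + 1) * X + lam * Y := by
          unfold Psi'
          rw [hX, hY]
          ring
        have hYX : 1 / v * Y = X := by
          rw [hX, hY, ← mul_assoc, a3]
        have hj1 : (1 : ℝ) ≤ (j : ℝ) + 1 := by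
          have : (0 : ℝ) ≤ j := Nat.cast_nonneg j
          linarith
        calc C * 4 * (A * (1 / m + n ^ 2) * (s * Psi j lam v) + B * m ^ j)
            ≤ C * 4 * (A * (1 / v + 2 + n ^ 2) * (s * Psi j lam v) + B * v ^ j) := by gcongr
          _ = s / 2 * ((8 * C * A) * X + lam * Y) + 4 * C * B * v ^ j := by
              rw [hPe, ← hYX, hlam]
              ring
          _ ≤ s / 2 * (((j : ℝ) + 1) * X + lam * Y) +
              4 * C * B * (((j : ℝ) + 1) * X + lam * Y) := by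
              have b1 : v ^ j ≤ ((j : ℝ) + 1) * X + lam * Y := by
                have : X ≤ ((j : ℝ) + 1) * X := le_mul_of_one_le_left hX0 hj1
                have : 0 ≤ lam * Y := by positivity
                linarith
              gcongr
          _ = (s / 2 + 4 * C * B) * Psi' j lam v := by
              rw [hPe']
              ring
    _ = ENNReal.ofReal (s / 2 + 4 * C * B) * ENNReal.ofReal (Psi' j lam v) :=
        ENNReal.ofReal_mul hs'

/-- Iteration of the comparison. -/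
theorem iterB {D : ℝ → ENNReal} {J : ℕ} {F : ℝ → ℝ} {s0 E : ℝ} (hs0 : 0 ≤ s0) (hE : 0 ≤ E)
    (h0 : ∀ x : ℝ, 0 < x → x ≤ J → D x ≤ ENNReal.ofReal (s0 * F x))
    (hF : ∀ x : ℝ, 0 < x → 0 ≤ F x)
    (hstep : ∀ s : ℝ, 0 ≤ s → (∀ x : ℝ, 0 < x → x ≤ J → D x ≤ ENNReal.ofReal (s * F x)) →
      ∀ x : ℝ, 0 < x → x ≤ J → D x ≤ ENNReal.ofReal ((s / 2 + E) * F x)) :
    ∀ x : ℝ, 0 < x → x ≤ J → D x ≤ ENNReal.ofReal (2 * E * F x) := by
  have key : ∀ k : ℕ, ∀ x : ℝ, 0 < x → x ≤ J →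
      D x ≤ ENNReal.ofReal ((s0 / 2 ^ k + 2 * E) * F x) := by
    intro k
    induction k with
    | zero =>
      intro x hx hxJ
      refine (h0 x hx hxJ).trans (ENNReal.ofReal_le_ofReal ?_)
      apply mul_le_mul_of_nonneg_right _ (hF x hx)
      rw [pow_zero, div_one]
      linarith
    | succ k ih =>
      intro x hx hxJ
      refine (hstep _ (by positivity) ih x hx hxJ).trans (le_of_eq ?_)
      congr 2
      rw [pow_succ]
      field_simp
      ring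
  intro x hx hxJ
  have hlim : Tendsto (fun k : ℕ => ENNReal.ofReal ((s0 / 2 ^ k + 2 * E) * F x)) atTop
      (𝓝 (ENNReal.ofReal ((0 + 2 * E) * F x))) := by
    apply ENNReal.tendsto_ofReal
    apply Tendsto.mul_const
    apply Tendsto.add_const
    have h1 : Tendsto (fun k : ℕ => s0 * (1 / 2 : ℝ) ^ k) atTop (𝓝 (s0 * 0)) :=
      (tendsto_pow_atTop_nhds_zero_of_lt_one (by norm_num) (by norm_num)).const_mul s0
    rw [mul_zero] at h1
    refine h1.congr fun k => ?_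
    rw [one_div, inv_pow, div_eq_mul_inv]
  rw [zero_add] at hlim
  exact ge_of_tendsto' hlim fun k => key k x hx hxJ

/-- The double exponential beats the Gaussian growth. -/
theorem tendsto_final (c κ W : ℝ) (hc : 0 < c) (hκ : 0 ≤ κ) :
    Tendsto (fun n : ℕ => W * (Real.exp (-(c / 2) * Real.exp (c * n)) *
      Real.exp (κ * (2 + (n : ℝ) ^ 2)))) atTop (𝓝 0) := by
  set c' : ℝ := c ^ 4 / 12 with hc'
  have hc'0 : 0 < c' := by positivity
  have h1 : ∀ᶠ n : ℕ in atTop, Real.exp (-(c / 2) * Real.exp (c * n)) *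
      Real.exp (κ * (2 + (n : ℝ) ^ 2)) ≤ Real.exp (-(n : ℝ)) := by
    have h2 : ∀ᶠ n : ℕ in atTop, (3 * κ + 1) / c' ≤ (n : ℝ) :=
      (tendsto_natCast_atTop_atTop (R := ℝ)).eventually_ge_atTop _
    filter_upwards [h2, eventually_ge_atTop 1] with n hn hn1
    have hn1' : (1 : ℝ) ≤ n := by exact_mod_cast hn1
    rw [← Real.exp_add]
    apply Real.exp_le_exp.2
    have h3 := Real.pow_div_factorial_le_exp (c * n) (by positivity) 3
    have h4 : (c / 2) * ((c * n) ^ 3 / 6) ≤ (c / 2) * Real.exp (c * n) := by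
      apply mul_le_mul_of_nonneg_left _ (by positivity)
      have : ((3 : ℕ).factorial : ℝ) = 6 := by norm_num [Nat.factorial]
      rw [this] at h3
      exact h3
    have h5 : (c / 2) * ((c * n) ^ 3 / 6) = c' * (n : ℝ) ^ 3 := by
      rw [hc']
      ring
    rw [h5] at h4
    have h6 : (3 * κ + 1) * (n : ℝ) ^ 2 ≤ c' * (n : ℝ) ^ 3 := by
      rw [div_le_iff₀ hc'0] at hn
      have := mul_le_mul_of_nonneg_right hn (sq_nonneg (n : ℝ))
      linarith only [this]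
    have h7 : κ * (2 + (n : ℝ) ^ 2) + n ≤ (3 * κ + 1) * (n : ℝ) ^ 2 := by
      have h8 : (1 : ℝ) ≤ (n : ℝ) ^ 2 := by nlinarith only [hn1']
      have h9 : (n : ℝ) ≤ (n : ℝ) ^ 2 := by nlinarith only [h8]
      linarith only [mul_le_mul_of_nonneg_left h8 hκ, h9]
    linarith
  have h10 : Tendsto (fun n : ℕ => Real.exp (-(n : ℝ))) atTop (𝓝 0) :=
    Real.tendsto_exp_neg_atTop_nhds_zero.comp tendsto_natCast_atTop_atTop
  have h11 : Tendsto (fun n : ℕ => Real.exp (-(c / 2) * Real.exp (c * n)) *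
      Real.exp (κ * (2 + (n : ℝ) ^ 2))) atTop (𝓝 0) :=
    tendsto_of_tendsto_of_tendsto_of_le_of_le' tendsto_const_nhds h10
      (Eventually.of_forall fun n => by positivity) h1
  simpa using h11.const_mul W

end Ode

open Ode

/-- `D` vanishes on `(0, J]`.

Phase A (small times `x ≤ 1/2`): take `N(v) = ⌈v^{-3/2}/c5⌉` (`c5` the constant of `h5`), so
`N q ≥ 1`, `N² ≤ C v^{-3}`, `exp(-c exp(c N)) ≤ C_k v^k`, and in `h3` take `ε² = v`, `i = 2(k+1)`, so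
`h4` gives `Pr ≤ C v^{k+1}`. With `str² ≤ v²` (`j = 0`) this gives for `x ≤ 1/2` and every `k`
`D(x) ≤ B_k ∫_0^x (D(v) + v^k) dv`. Starting from `D ≤ 4` and plugging in repeatedly,
`D(x) ≤ M_k x^k` on `(0, 1/2]` for every `k`.

Phase B: for `n : ℕ` take `N(v) = ⌈m^{-3/2}/c5⌉ + n`, `m = min(v, 1/2)`, and `K ≤ C D`. This gives with
constants `A, c` independent of `n` and `j`:
`D(x) ≤ ∫_0^x A (1/m + n²) D(v) dv + ∫_0^x B_j e_n m^j dv`, `e_n = exp(-(c/2) exp(c n))`.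
With `Ψ(x) = x^{j+1} exp(λ x)`, `j + 1 ≥ 2A`, `λ = 2A(2+n²)` one has `A (1/m + n²) Ψ ≤ Ψ'/2`, so
`D ≤ s Ψ` implies `D ≤ (s/2 + B_j e_n) Ψ`; phase A gives the start, and iteration gives
`D ≤ 2 B_j e_n Ψ`, which tends to zero as `n → ∞`. -/
theorem ode_zero {D Gt K : ℝ → ENNReal} {Pr : ℝ → ℝ → ENNReal} {q : ℝ → ℝ} {a : ℝ} (ha : 0 < a)
    (ha1 : a < 1) (J : ℕ) (hDm : Measurable D) (hD4 : ∀ x, D x ≤ 4)
    (h1 : ∃ C : ℝ, 0 ≤ C ∧ ∀ x : ℝ, 0 < x → x ≤ J → D x ≤ ENNReal.ofReal C *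
      ∑ j ∈ Finset.range J, ∫⁻ y : unitInterval, (if (y : ℝ) < 1 / 2 ∧ (j : ℝ) + y < x then
        ENNReal.ofReal (str a j y ^ 2) * Gt ((j : ℝ) + y) else 0))
    (h2 : ∃ C c : ℝ, 0 ≤ C ∧ 0 < c ∧ ∀ x : ℝ, 0 < x → x ≤ J → ∀ N : ℕ, 1 ≤ N → 1 ≤ N * q x →
      Gt x ≤ ENNReal.ofReal C * ((N : ENNReal) ^ 2 * K x + N * D x +
        ENNReal.ofReal (Real.exp (- c * Real.exp (c * N)))))
    (h3 : ∃ C : ℝ, 0 ≤ C ∧ ∀ x : ℝ, 0 < x → x ≤ J → K x ≤ ENNReal.ofReal C * D x ∧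
      ∀ ε : ℝ, 0 < ε → ε ≤ 1 → K x ≤ ENNReal.ofReal C * (ENNReal.ofReal (ε ^ 2) * D x + Pr x ε))
    (h4 : ∀ i : ℕ, 1 ≤ i → ∃ C : ℝ, 0 ≤ C ∧ ∀ x : ℝ, 0 < x → x ≤ 1 / 2 → ∀ ε : ℝ, 0 < ε → ε ≤ 1 →
      Pr x ε ≤ ENNReal.ofReal (C * x ^ ((3 : ℝ) / 2 * i) / ε ^ (2 * i)))
    (h5 : ∃ c : ℝ, 0 < c ∧ ∀ x : ℝ, 0 < x → x ≤ J → c * (min x (1 / 2)) ^ ((3 : ℝ) / 2) ≤ q x) :
    ∀ x : ℝ, 0 < x → x ≤ J → D x = 0 := by
  obtain ⟨C1, hC1, h1'⟩ := h1
  obtain ⟨C2, c, hC2, hc, h2'⟩ := h2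
  obtain ⟨C3, hC3, h3'⟩ := h3
  obtain ⟨c5, hc5, h5'⟩ := h5
  -- phase A
  have hA := phaseA ha ha1 J hC1 hD4 hDm h1' fun k =>
    pointA hC2 hc hC3 hc5 h2' (fun x hx hxJ => (h3' x hx hxJ).2) h4 h5' k
  -- constants of phase B
  set A : ℝ := C2 * (C3 + 1) * (3 * (1 / c5 ^ 2 + 1)) with hAdef
  have hA0 : 0 ≤ A := by positivity
  obtain ⟨j, hj⟩ := exists_nat_ge (8 * C1 * A)
  have hj' : 8 * C1 * A ≤ (j : ℝ) + 1 := by linarith
  set B0 : ℝ := C2 * ((j.factorial : ℝ) * (2 * c5 / c ^ 2) ^ j) with hB0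
  have hB0' : 0 ≤ B0 := by positivity
  obtain ⟨M, hM, hMb⟩ := hA (j + 1)
  have hmain : ∀ n : ℕ, ∀ x : ℝ, 0 < x → x ≤ J →
      D x ≤ ENNReal.ofReal (2 * (4 * C1 * (B0 * Real.exp (-(c / 2) * Real.exp (c * n)))) *
        Psi j (8 * C1 * A * (2 + (n : ℝ) ^ 2)) x) := by
    intro n
    have hn : (0 : ℝ) ≤ n := Nat.cast_nonneg n
    set B : ℝ := B0 * Real.exp (-(c / 2) * Real.exp (c * n)) with hB
    have hBnn : 0 ≤ B := by positivity
    have hpt : ∀ v : ℝ, 0 < v → v ≤ J → ENNReal.ofReal ((min v (1 / 2)) ^ 2) * Gt v ≤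
        ENNReal.ofReal (A * (1 / min v (1 / 2) + (n : ℝ) ^ 2)) * D v +
        ENNReal.ofReal (B * (min v (1 / 2)) ^ j) := fun v hv hvJ =>
      pointB hC2 hc hC3 hc5 h2' (fun x hx hxJ => (h3' x hx hxJ).1) h5' n j hv hvJ
    have hlam0 : 0 ≤ 8 * C1 * A * (2 + (n : ℝ) ^ 2) := by positivity
    refine iterB (s0 := M + 4 * 2 ^ (j + 1)) (by positivity) (by positivity) ?_ ?_ ?_
    · intro x hx hxJ
      have he1 : 1 ≤ Real.exp (8 * C1 * A * (2 + (n : ℝ) ^ 2) * x) :=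
        Real.one_le_exp (by positivity)
      have hPx : x ^ (j + 1) ≤ Psi j (8 * C1 * A * (2 + (n : ℝ) ^ 2)) x := by
        unfold Psi
        exact le_mul_of_one_le_right (by positivity) he1
      have hP0 : 0 ≤ Psi j (8 * C1 * A * (2 + (n : ℝ) ^ 2)) x :=
        le_trans (by positivity) hPx
      rcases le_total x (1 / 2) with hx2 | hx2
      · refine (hMb x hx hx2 hxJ).trans (ENNReal.ofReal_le_ofReal ?_)
        calc M * x ^ (j + 1) ≤ M * Psi j (8 * C1 * A * (2 + (n : ℝ) ^ 2)) x := by gcongr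
          _ ≤ (M + 4 * 2 ^ (j + 1)) * Psi j (8 * C1 * A * (2 + (n : ℝ) ^ 2)) x := by
              gcongr
              have : (0 : ℝ) ≤ 4 * 2 ^ (j + 1) := by positivity
              linarith
      · refine (hD4 x).trans ?_
        have e4 : (4 : ENNReal) = ENNReal.ofReal 4 := by norm_num
        rw [e4]
        apply ENNReal.ofReal_le_ofReal
        have h6 : (1 / 2 : ℝ) ^ (j + 1) ≤ Psi j (8 * C1 * A * (2 + (n : ℝ) ^ 2)) x :=
          (pow_le_pow_left₀ (by norm_num) hx2 (j + 1)).trans hPx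
        have h7 : (4 : ℝ) = 4 * 2 ^ (j + 1) * (1 / 2 : ℝ) ^ (j + 1) := by
          rw [mul_assoc, ← mul_pow]
          norm_num
        calc (4 : ℝ) = 4 * 2 ^ (j + 1) * (1 / 2 : ℝ) ^ (j + 1) := h7
          _ ≤ 4 * 2 ^ (j + 1) * Psi j (8 * C1 * A * (2 + (n : ℝ) ^ 2)) x := by gcongr
          _ ≤ (M + 4 * 2 ^ (j + 1)) * Psi j (8 * C1 * A * (2 + (n : ℝ) ^ 2)) x := by
              gcongr
              linarith
    · intro x hx
      unfold Psi
      positivity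
    · intro s hs hP
      exact stepB ha ha1 J hC1 hDm h1' hA0 hBnn hn hpt hj' hs hP
  intro x hx hxJ
  have hlim := tendsto_final c (8 * C1 * A * x) (2 * (4 * C1 * B0) * x ^ (j + 1)) hc
    (by positivity)
  have hlim2 := ENNReal.tendsto_ofReal hlim
  rw [ENNReal.ofReal_zero] at hlim2
  have hle : D x ≤ 0 := by
    refine ge_of_tendsto' hlim2 fun n => ?_
    refine (hmain n x hx hxJ).trans (le_of_eq ?_)
    congr 1
    unfold Psi
    have e : 8 * C1 * A * (2 + (n : ℝ) ^ 2) * x = 8 * C1 * A * x * (2 + (n : ℝ) ^ 2) := by ring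
    rw [e]
    ring
  exact le_antisymm hle (zero_le)

end Vale.Agent.P161.Crit
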