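import Vale.Agent.Lib.P161.Crit.Defs

/-!
P161-CRIT, module Real: one and two variable calculus.
-/

open MeasureTheory Filter

namespace Vale.Agent.P161.Crit

theorem re_log_sub_le {u v δ : ℝ} (hδ : 0 < δ) (hu : δ ≤ u) (hv : δ ≤ v) :
    Real.log u - Real.log v ≤ |u - v| / δ := by
  have hu0 : 0 < u := lt_of_lt_of_le hδ hu
  have hv0 : 0 < v := lt_of_lt_of_le hδ hv
  rw [← Real.log_div hu0.ne' hv0.ne']
  calc Real.log (u / v) ≤ u / v - 1 := Real.log_le_sub_one_of_pos (div_pos hu0 hv0)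
    _ = (u - v) / v := by field_simp
    _ ≤ |u - v| / v := by gcongr; exact le_abs_self _
    _ ≤ |u - v| / δ := by gcongr

theorem re_abs_log_sub_le {u v δ : ℝ} (hδ : 0 < δ) (hu : δ ≤ u) (hv : δ ≤ v) :
    |Real.log u - Real.log v| ≤ |u - v| / δ := by
  rw [abs_le]
  constructor
  · have := re_log_sub_le hδ hv hu
    rw [abs_sub_comm v u] at this
    linarith
  · exact re_log_sub_le hδ hu hv

theorem re_add_sq_le (x y : ℝ) : (x + y) ^ 2 ≤ 2 * (x ^ 2 + y ^ 2) := by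
  nlinarith [sq_nonneg (x - y)]

theorem re_sq_le {x z : ℝ} (hx : |x| ≤ z) : x ^ 2 ≤ z ^ 2 := by
  rw [← sq_abs x]
  exact pow_le_pow_left₀ (abs_nonneg x) hx 2

/-- `log (ph θ x)` is Lipschitz with a factor vanishing at `0`.
`log ph(x) = log(1-x²) - log(1-θ²x²)` is a smooth function of `x²` on `[0, z²]`. -/
theorem log_ph_sub_le (θ z : ℝ) (h0 : 0 ≤ θ) (h1 : θ < 1) (hz0 : 0 ≤ z) (hz : z < 1) :
    ∃ C : ℝ, 0 ≤ C ∧ ∀ x x' : ℝ, |x| ≤ z → |x'| ≤ z →
      |Real.log (ph θ x) - Real.log (ph θ x')| ≤ C * (|x| + |x'|) * |x - x'| := by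
  have hz2 : z ^ 2 < 1 := by nlinarith
  have hδ : 0 < 1 - z ^ 2 := by linarith
  have hθ2 : θ ^ 2 ≤ 1 := by nlinarith
  refine ⟨2 / (1 - z ^ 2), by positivity, fun x x' hx hx' => ?_⟩
  have hxz := re_sq_le hx
  have hxz' := re_sq_le hx'
  have a1 : 1 - z ^ 2 ≤ 1 - x ^ 2 := by linarith
  have a1' : 1 - z ^ 2 ≤ 1 - x' ^ 2 := by linarith
  have a2 : 1 - z ^ 2 ≤ 1 - θ ^ 2 * x ^ 2 := by nlinarith only [sq_nonneg x, hθ2, a1]
  have a2' : 1 - z ^ 2 ≤ 1 - θ ^ 2 * x' ^ 2 := by nlinarith only [sq_nonneg x', hθ2, a1']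
  have e1 : Real.log (ph θ x) = Real.log (1 - x ^ 2) - Real.log (1 - θ ^ 2 * x ^ 2) := by
    unfold ph
    exact Real.log_div (by linarith) (by linarith)
  have e2 : Real.log (ph θ x') = Real.log (1 - x' ^ 2) - Real.log (1 - θ ^ 2 * x' ^ 2) := by
    unfold ph
    exact Real.log_div (by linarith) (by linarith)
  rw [e1, e2]
  have b1 := re_abs_log_sub_le hδ a1 a1'
  have b2 := re_abs_log_sub_le hδ a2 a2'
  have hsq : |x ^ 2 - x' ^ 2| ≤ (|x| + |x'|) * |x - x'| := by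
    have : x ^ 2 - x' ^ 2 = (x + x') * (x - x') := by ring
    rw [this, abs_mul]
    exact mul_le_mul_of_nonneg_right (abs_add_le _ _) (abs_nonneg _)
  have c1 : |1 - x ^ 2 - (1 - x' ^ 2)| ≤ (|x| + |x'|) * |x - x'| := by
    have : 1 - x ^ 2 - (1 - x' ^ 2) = -(x ^ 2 - x' ^ 2) := by ring
    rw [this, abs_neg]; exact hsq
  have c2 : |1 - θ ^ 2 * x ^ 2 - (1 - θ ^ 2 * x' ^ 2)| ≤ (|x| + |x'|) * |x - x'| := by
    have : 1 - θ ^ 2 * x ^ 2 - (1 - θ ^ 2 * x' ^ 2) = -(θ ^ 2 * (x ^ 2 - x' ^ 2)) := by ring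
    rw [this, abs_neg, abs_mul, abs_of_nonneg (sq_nonneg θ)]
    calc θ ^ 2 * |x ^ 2 - x' ^ 2| ≤ 1 * |x ^ 2 - x' ^ 2| :=
          mul_le_mul_of_nonneg_right hθ2 (abs_nonneg _)
      _ ≤ _ := by rw [one_mul]; exact hsq
  calc |Real.log (1 - x ^ 2) - Real.log (1 - θ ^ 2 * x ^ 2) -
        (Real.log (1 - x' ^ 2) - Real.log (1 - θ ^ 2 * x' ^ 2))|
      = |(Real.log (1 - x ^ 2) - Real.log (1 - x' ^ 2)) -
        (Real.log (1 - θ ^ 2 * x ^ 2) - Real.log (1 - θ ^ 2 * x' ^ 2))| := by ring_nf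
    _ ≤ |Real.log (1 - x ^ 2) - Real.log (1 - x' ^ 2)| +
        |Real.log (1 - θ ^ 2 * x ^ 2) - Real.log (1 - θ ^ 2 * x' ^ 2)| := abs_sub _ _
    _ ≤ (|x| + |x'|) * |x - x'| / (1 - z ^ 2) + (|x| + |x'|) * |x - x'| / (1 - z ^ 2) := by
        refine add_le_add (b1.trans ?_) (b2.trans ?_)
        · gcongr
        · gcongr
    _ = 2 / (1 - z ^ 2) * (|x| + |x'|) * |x - x'| := by ring

theorem abs_log_ph_le (θ z : ℝ) (h0 : 0 ≤ θ) (h1 : θ < 1) (hz0 : 0 ≤ z) (hz : z < 1) :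
    ∃ C : ℝ, 0 ≤ C ∧ ∀ x : ℝ, |x| ≤ z → |Real.log (ph θ x)| ≤ C := by
  obtain ⟨C, hC0, hC⟩ := log_ph_sub_le θ z h0 h1 hz0 hz
  refine ⟨C, hC0, fun x hx => ?_⟩
  have h := hC x 0 hx (by simpa using hz0)
  have hp : ph θ 0 = 1 := by unfold ph; norm_num
  rw [hp, Real.log_one, sub_zero, sub_zero, abs_zero, add_zero] at h
  refine h.trans ?_
  have hx1 : |x| ≤ 1 := hx.trans hz.le
  calc C * |x| * |x| ≤ C * 1 * 1 := by gcongr
    _ = C := by ring

/-- Inversion of the edge recursion. With `m = (b + θa)/(1+θab)`, `n = (a+θb)/(1+θab)`: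
`m - m' = ((1-θ²aa')(b-b') + θ(1-bb')(a-a'))/(NN')`,
`n - n' = ((1-θ²bb')(a-a') + θ(1-aa')(b-b'))/(NN')`, `N = 1+θab`, and the determinant of this linear
system in `(b-b', a-a')` is `(1-θ²)(1-θ²aa'bb') ≥ (1-θ²)²`. -/
theorem edge_inv (θ : ℝ) (h0 : 0 ≤ θ) (h1 : θ < 1) :
    ∃ C : ℝ, 0 ≤ C ∧ ∀ a b a' b' : ℝ, |a| ≤ 1 → |b| ≤ 1 → |a'| ≤ 1 → |b'| ≤ 1 →
      |a - a'| ≤ C * (|(b + θ * a) / (1 + θ * b * a) - (b' + θ * a') / (1 + θ * b' * a')| +
        |(a + θ * b) / (1 + θ * a * b) - (a' + θ * b') / (1 + θ * a' * b')|) := by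
  have hθ2 : θ ^ 2 < 1 := by nlinarith
  have hδ : 0 < 1 - θ ^ 2 := by linarith
  refine ⟨8 / (1 - θ ^ 2) ^ 2, by positivity, fun a b a' b' ha hb ha' hb' => ?_⟩
  have hab : |a * b| ≤ 1 := by
    rw [abs_mul]; exact mul_le_one₀ ha (abs_nonneg _) hb
  have hab' : |a' * b'| ≤ 1 := by
    rw [abs_mul]; exact mul_le_one₀ ha' (abs_nonneg _) hb'
  have haa : |a * a'| ≤ 1 := by
    rw [abs_mul]; exact mul_le_one₀ ha (abs_nonneg _) ha'
  have hbb : |b * b'| ≤ 1 := by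
    rw [abs_mul]; exact mul_le_one₀ hb (abs_nonneg _) hb'
  have hNb : |θ * (a * b)| ≤ θ := by
    rw [abs_mul, abs_of_nonneg h0]; exact mul_le_of_le_one_right h0 hab
  have hNb' : |θ * (a' * b')| ≤ θ := by
    rw [abs_mul, abs_of_nonneg h0]; exact mul_le_of_le_one_right h0 hab'
  obtain ⟨n1, n2⟩ := abs_le.1 hNb
  obtain ⟨n1', n2'⟩ := abs_le.1 hNb'
  have hN : 0 < 1 + θ * (a * b) := by linarith
  have hN' : 0 < 1 + θ * (a' * b') := by linarith
  have r1 : (b + θ * a) / (1 + θ * b * a) = (b + θ * a) / (1 + θ * (a * b)) := by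
    rw [show θ * b * a = θ * (a * b) by ring]
  have r1' : (b' + θ * a') / (1 + θ * b' * a') = (b' + θ * a') / (1 + θ * (a' * b')) := by
    rw [show θ * b' * a' = θ * (a' * b') by ring]
  have r2 : (a + θ * b) / (1 + θ * a * b) = (a + θ * b) / (1 + θ * (a * b)) := by
    rw [show θ * a * b = θ * (a * b) by ring]
  have r2' : (a' + θ * b') / (1 + θ * a' * b') = (a' + θ * b') / (1 + θ * (a' * b')) := by
    rw [show θ * a' * b' = θ * (a' * b') by ring]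
  rw [r1, r1', r2, r2']
  set N := 1 + θ * (a * b) with hNdef
  set N' := 1 + θ * (a' * b') with hNdef'
  set D := (b + θ * a) / N - (b' + θ * a') / N' with hD
  set E := (a + θ * b) / N - (a' + θ * b') / N' with hE
  have hDeq : D * (N * N') = (1 - θ ^ 2 * (a * a')) * (b - b') + θ * (1 - b * b') * (a - a') := by
    have : D * (N * N') = (b + θ * a) * N' - (b' + θ * a') * N := by
      rw [hD]; field_simp
    rw [this, hNdef, hNdef']; ring
  have hEeq : E * (N * N') = (1 - θ ^ 2 * (b * b')) * (a - a') + θ * (1 - a * a') * (b - b') := by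
    have : E * (N * N') = (a + θ * b) * N' - (a' + θ * b') * N := by
      rw [hE]; field_simp
    rw [this, hNdef, hNdef']; ring
  have hdet : (a - a') * ((1 - θ ^ 2) * (1 - θ ^ 2 * ((a * a') * (b * b')))) =
      (1 - θ ^ 2 * (a * a')) * (E * (N * N')) - θ * (1 - a * a') * (D * (N * N')) := by
    rw [hDeq, hEeq]; ring
  have hq : |(a * a') * (b * b')| ≤ 1 := by
    rw [abs_mul]; exact mul_le_one₀ haa (abs_nonneg _) hbb
  have hdet1 : (1 - θ ^ 2) ^ 2 ≤ (1 - θ ^ 2) * (1 - θ ^ 2 * ((a * a') * (b * b'))) := by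
    rw [sq]
    refine mul_le_mul_of_nonneg_left ?_ hδ.le
    have := mul_le_mul_of_nonneg_left (abs_le.1 hq).2 (sq_nonneg θ)
    linarith
  have hNle : |N * N'| ≤ 4 := by
    rw [abs_mul, abs_of_pos hN, abs_of_pos hN']
    have h2 : N ≤ 2 := by linarith
    have h2' : N' ≤ 2 := by linarith
    calc N * N' ≤ 2 * 2 := mul_le_mul h2 h2' hN'.le (by norm_num)
      _ = 4 := by norm_num
  have hk1 : |1 - θ ^ 2 * (a * a')| ≤ 2 := by
    have : |θ ^ 2 * (a * a')| ≤ 1 := by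
      rw [abs_mul, abs_of_nonneg (sq_nonneg θ)]
      exact mul_le_one₀ hθ2.le (abs_nonneg _) haa
    obtain ⟨g1, g2⟩ := abs_le.1 this
    exact abs_le.2 ⟨by linarith, by linarith⟩
  have hk2 : |θ * (1 - a * a')| ≤ 2 := by
    obtain ⟨g1, g2⟩ := abs_le.1 haa
    rw [abs_mul, abs_of_nonneg h0]
    have : |1 - a * a'| ≤ 2 := abs_le.2 ⟨by linarith, by linarith⟩
    calc θ * |1 - a * a'| ≤ 1 * 2 := mul_le_mul h1.le this (abs_nonneg _) zero_le_one
      _ = 2 := by norm_num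
  have hmain : |a - a'| * (1 - θ ^ 2) ^ 2 ≤ 8 * (|D| + |E|) := by
    calc |a - a'| * (1 - θ ^ 2) ^ 2
        ≤ |a - a'| * ((1 - θ ^ 2) * (1 - θ ^ 2 * ((a * a') * (b * b')))) :=
          mul_le_mul_of_nonneg_left hdet1 (abs_nonneg _)
      _ = |(a - a') * ((1 - θ ^ 2) * (1 - θ ^ 2 * ((a * a') * (b * b'))))| := by
          rw [abs_mul (a - a'), abs_of_nonneg (le_trans (by positivity) hdet1)]
      _ = |(1 - θ ^ 2 * (a * a')) * (E * (N * N')) - θ * (1 - a * a') * (D * (N * N'))| := by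
          rw [hdet]
      _ ≤ |(1 - θ ^ 2 * (a * a')) * (E * (N * N'))| +
          |θ * (1 - a * a') * (D * (N * N'))| := abs_sub _ _
      _ = |1 - θ ^ 2 * (a * a')| * (|E| * |N * N'|) +
          |θ * (1 - a * a')| * (|D| * |N * N'|) := by
          rw [abs_mul, abs_mul E, abs_mul (θ * (1 - a * a')), abs_mul D]
      _ ≤ 2 * (|E| * 4) + 2 * (|D| * 4) := by gcongr
      _ = 8 * (|D| + |E|) := by ring
  rw [div_mul_eq_mul_div, le_div_iff₀ (by positivity)]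
  exact hmain

theorem edge_inv_abs (θ : ℝ) (h0 : 0 ≤ θ) (h1 : θ < 1) :
    ∃ C : ℝ, 0 ≤ C ∧ ∀ a b : ℝ, |a| ≤ 1 → |b| ≤ 1 →
      |a| ≤ C * (|(b + θ * a) / (1 + θ * b * a)| + |(a + θ * b) / (1 + θ * a * b)|) := by
  obtain ⟨C, hC0, hC⟩ := edge_inv θ h0 h1
  refine ⟨C, hC0, fun a b ha hb => ?_⟩
  have h := hC a b 0 0 ha hb (by simp) (by simp)
  simpa using h

theorem re_abs_sqrt_sub_le {z m m' : ℝ} (hz0 : 0 ≤ z) (hz : z < 1) (hm : |m| ≤ z)
    (hm' : |m'| ≤ z) :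
    |Real.sqrt (1 - m ^ 2) - Real.sqrt (1 - m' ^ 2)| * Real.sqrt (1 - z ^ 2) ≤ |m - m'| := by
  have hz2 : z ^ 2 < 1 := by nlinarith
  have hmz := re_sq_le hm
  have hmz' := re_sq_le hm'
  have hs : 0 < Real.sqrt (1 - z ^ 2) := Real.sqrt_pos.2 (by linarith)
  have s1 : Real.sqrt (1 - z ^ 2) ≤ Real.sqrt (1 - m ^ 2) := Real.sqrt_le_sqrt (by linarith)
  have s2 : Real.sqrt (1 - z ^ 2) ≤ Real.sqrt (1 - m' ^ 2) := Real.sqrt_le_sqrt (by linarith)
  have e1 : Real.sqrt (1 - m ^ 2) ^ 2 = 1 - m ^ 2 := Real.sq_sqrt (by linarith)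
  have e2 : Real.sqrt (1 - m' ^ 2) ^ 2 = 1 - m' ^ 2 := Real.sq_sqrt (by linarith)
  set p := Real.sqrt (1 - m ^ 2)
  set p' := Real.sqrt (1 - m' ^ 2)
  set s := Real.sqrt (1 - z ^ 2)
  have hprod : |p - p'| * (p + p') = |m - m'| * |m + m'| := by
    rw [← abs_of_nonneg (show 0 ≤ p + p' by linarith), ← abs_mul, ← abs_mul]
    have : (p - p') * (p + p') = -((m - m') * (m + m')) := by linarith only [e1, e2]
    rw [this, abs_neg]
  have hle2 : |m + m'| ≤ 2 := by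
    refine (abs_add_le _ _).trans ?_
    linarith
  have h1 : |p - p'| * (2 * s) ≤ |m - m'| * 2 := by
    calc |p - p'| * (2 * s) ≤ |p - p'| * (p + p') :=
          mul_le_mul_of_nonneg_left (by linarith) (abs_nonneg _)
      _ = |m - m'| * |m + m'| := hprod
      _ ≤ |m - m'| * 2 := mul_le_mul_of_nonneg_left hle2 (abs_nonneg _)
  linarith

theorem re_sq_sqrt_sub_le {z m m' : ℝ} (hz0 : 0 ≤ z) (hz : z < 1) (hm : |m| ≤ z)
    (hm' : |m'| ≤ z) :
    (Real.sqrt (1 - m ^ 2) - Real.sqrt (1 - m' ^ 2)) ^ 2 ≤ (m - m') ^ 2 / (1 - z ^ 2) := by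
  have hz2 : z ^ 2 < 1 := by nlinarith
  have h := re_abs_sqrt_sub_le hz0 hz hm hm'
  rw [le_div_iff₀ (by linarith)]
  have h2 := pow_le_pow_left₀ (by positivity) h 2
  rw [mul_pow, sq_abs, sq_abs, Real.sq_sqrt (by linarith)] at h2
  exact h2

theorem re_exp_sub_sq_le (Z Z' : ℝ) :
    (Real.exp Z - Real.exp Z') ^ 2 ≤ (Z - Z') ^ 2 * (Real.exp (2 * Z) + Real.exp (2 * Z')) := by
  have key : ∀ x y : ℝ, y ≤ x →
      (Real.exp x - Real.exp y) ^ 2 ≤ (x - y) ^ 2 * Real.exp (2 * x) := by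
    intro x y hxy
    have h1 : Real.exp x - Real.exp y ≤ (x - y) * Real.exp x := by
      have h2 : 1 - (x - y) ≤ Real.exp (-(x - y)) := by
        have := Real.add_one_le_exp (-(x - y)); linarith
      have h3 : Real.exp y = Real.exp x * Real.exp (-(x - y)) := by
        rw [← Real.exp_add]; congr 1; ring
      rw [h3]
      nlinarith [Real.exp_pos x]
    have h0 : 0 ≤ Real.exp x - Real.exp y := sub_nonneg.2 (Real.exp_le_exp.2 hxy)
    have h4 := pow_le_pow_left₀ h0 h1 2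
    rw [mul_pow, ← Real.exp_nat_mul] at h4
    simpa using h4
  rcases le_total Z' Z with h | h
  · refine (key Z Z' h).trans ?_
    refine mul_le_mul_of_nonneg_left ?_ (sq_nonneg _)
    linarith [Real.exp_pos (2 * Z')]
  · have h2 := key Z' Z h
    have e1 : (Real.exp Z' - Real.exp Z) ^ 2 = (Real.exp Z - Real.exp Z') ^ 2 := by ring
    have e2 : (Z' - Z) ^ 2 = (Z - Z') ^ 2 := by ring
    rw [e1, e2] at h2
    refine h2.trans ?_
    refine mul_le_mul_of_nonneg_left ?_ (sq_nonneg _)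
    linarith [Real.exp_pos (2 * Z)]

theorem re_prod_sqrt_diff {z m n m' n' : ℝ} (hz0 : 0 ≤ z) (hz : z < 1) (hm : |m| ≤ z)
    (hn : |n| ≤ z) (hm' : |m'| ≤ z) (hn' : |n'| ≤ z) :
    (Real.sqrt (1 - m ^ 2) * Real.sqrt (1 - n ^ 2) -
      Real.sqrt (1 - m' ^ 2) * Real.sqrt (1 - n' ^ 2)) ^ 2 ≤
      2 * (((m - m') ^ 2 + (n - n') ^ 2) / (1 - z ^ 2)) := by
  have hz2 : z ^ 2 < 1 := by nlinarith
  have hnz := re_sq_le hn
  have hmz' := re_sq_le hm'
  have er : Real.sqrt (1 - n ^ 2) ^ 2 = 1 - n ^ 2 := Real.sq_sqrt (by linarith)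
  have ep' : Real.sqrt (1 - m' ^ 2) ^ 2 = 1 - m' ^ 2 := Real.sq_sqrt (by linarith)
  have hP := re_sq_sqrt_sub_le hz0 hz hm hm'
  have hR := re_sq_sqrt_sub_le hz0 hz hn hn'
  have r1 : Real.sqrt (1 - n ^ 2) ^ 2 ≤ 1 := by rw [er]; linarith [sq_nonneg n]
  have p1' : Real.sqrt (1 - m' ^ 2) ^ 2 ≤ 1 := by rw [ep']; linarith [sq_nonneg m']
  generalize Real.sqrt (1 - m ^ 2) = p at *
  generalize Real.sqrt (1 - n ^ 2) = r at *
  generalize Real.sqrt (1 - m' ^ 2) = p' at *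
  generalize Real.sqrt (1 - n' ^ 2) = r' at *
  have e : p * r - p' * r' = (p - p') * r + p' * (r - r') := by ring
  have e1 : (p * r - p' * r') ^ 2 ≤ 2 * (((p - p') * r) ^ 2 + (p' * (r - r')) ^ 2) := by
    rw [e]; exact re_add_sq_le _ _
  have e2 : ((p - p') * r) ^ 2 ≤ (m - m') ^ 2 / (1 - z ^ 2) := by
    rw [mul_pow]
    calc (p - p') ^ 2 * r ^ 2 ≤ (p - p') ^ 2 * 1 :=
          mul_le_mul_of_nonneg_left r1 (sq_nonneg _)
      _ ≤ _ := by rw [mul_one]; exact hP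
  have e3 : (p' * (r - r')) ^ 2 ≤ (n - n') ^ 2 / (1 - z ^ 2) := by
    rw [mul_pow]
    calc p' ^ 2 * (r - r') ^ 2 ≤ 1 * (r - r') ^ 2 :=
          mul_le_mul_of_nonneg_right p1' (sq_nonneg _)
      _ ≤ _ := by rw [one_mul]; exact hR
  rw [add_div]
  linarith

theorem re_cov_combine (τ g g' E E' : ℝ) (hg : g ^ 2 ≤ 1) :
    (g * τ * E - g' * τ * E') ^ 2 ≤
      2 * τ ^ 2 * ((g - g') ^ 2 * E' ^ 2 + (E - E') ^ 2) := by
  have e : g * τ * E - g' * τ * E' = τ * ((g - g') * E' + g * (E - E')) := by ring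
  rw [e, mul_pow]
  have e2 := re_add_sq_le ((g - g') * E') (g * (E - E'))
  have e3 : (g * (E - E')) ^ 2 ≤ (E - E') ^ 2 := by
    rw [mul_pow]
    calc g ^ 2 * (E - E') ^ 2 ≤ 1 * (E - E') ^ 2 :=
          mul_le_mul_of_nonneg_right hg (sq_nonneg _)
      _ = _ := one_mul _
  rw [mul_pow (g - g') E' 2] at e2
  calc τ ^ 2 * ((g - g') * E' + g * (E - E')) ^ 2
      ≤ τ ^ 2 * (2 * ((g - g') ^ 2 * E' ^ 2 + (E - E') ^ 2)) :=
        mul_le_mul_of_nonneg_left (by linarith) (sq_nonneg _)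
    _ = _ := by ring

theorem re_cov_eq {m n τ Z c z : ℝ} (hz : z < 1) (hz0 : 0 ≤ z) (hm : |m| ≤ z) (hn : |n| ≤ z)
    (hτ : 0 ≤ τ) (hc : 0 ≤ c)
    (hceq : c ^ 2 = (1 - m ^ 2) * (1 - n ^ 2) * τ ^ 2 * Real.exp (2 * Z)) :
    c = Real.sqrt (1 - m ^ 2) * Real.sqrt (1 - n ^ 2) * τ * Real.exp Z := by
  have hz2 : z ^ 2 < 1 := by nlinarith only [hz, hz0]
  have hmz := re_sq_le hm
  have hnz := re_sq_le hn
  have ep : Real.sqrt (1 - m ^ 2) ^ 2 = 1 - m ^ 2 := Real.sq_sqrt (by linarith)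
  have er : Real.sqrt (1 - n ^ 2) ^ 2 = 1 - n ^ 2 := Real.sq_sqrt (by linarith)
  have eE : Real.exp (2 * Z) = Real.exp Z ^ 2 := by
    rw [← Real.exp_nat_mul]; norm_num
  rw [← sq_eq_sq₀ hc (by positivity), hceq, eE, mul_pow, mul_pow, mul_pow, ep, er]

/-- Difference of two covariances. `c, c' ≥ 0`, `c² = (1-m²)(1-n²) τ² e^{2Z}`,
`c'² = (1-m'²)(1-n'²) τ² e^{2Z'}`, `|m|,… ≤ z < 1`. -/
theorem cov_diff (z : ℝ) (hz0 : 0 ≤ z) (hz : z < 1) :
    ∃ C : ℝ, 0 ≤ C ∧ ∀ m n m' n' τ Z Z' c c' : ℝ, |m| ≤ z → |n| ≤ z → |m'| ≤ z → |n'| ≤ z →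
      0 ≤ τ → 0 ≤ c → 0 ≤ c' → c ^ 2 = (1 - m ^ 2) * (1 - n ^ 2) * τ ^ 2 * Real.exp (2 * Z) →
      c' ^ 2 = (1 - m' ^ 2) * (1 - n' ^ 2) * τ ^ 2 * Real.exp (2 * Z') →
      (c - c') ^ 2 ≤ C * τ ^ 2 * (((m - m') ^ 2 + (n - n') ^ 2) * Real.exp (2 * Z') +
        (Z - Z') ^ 2 * (Real.exp (2 * Z) + Real.exp (2 * Z'))) := by
  have hz2 : z ^ 2 < 1 := by nlinarith
  have hδ : 0 < 1 - z ^ 2 := by linarith
  refine ⟨4 / (1 - z ^ 2), by positivity, ?_⟩
  intro m n m' n' τ Z Z' c c' hm hn hm' hn' hτ hc hc' hceq hceq'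
  have hcv := re_cov_eq hz hz0 hm hn hτ hc hceq
  have hcv' := re_cov_eq hz hz0 hm' hn' hτ hc' hceq'
  have hpr := re_prod_sqrt_diff hz0 hz hm hn hm' hn'
  have hX := re_exp_sub_sq_le Z Z'
  have hg : (Real.sqrt (1 - m ^ 2) * Real.sqrt (1 - n ^ 2)) ^ 2 ≤ 1 := by
    rw [mul_pow, Real.sq_sqrt (by linarith [re_sq_le hm]), Real.sq_sqrt (by linarith [re_sq_le hn])]
    exact mul_le_one₀ (by linarith [sq_nonneg m]) (by linarith [re_sq_le hn])
      (by linarith [sq_nonneg n])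
  have hmain := re_cov_combine τ (Real.sqrt (1 - m ^ 2) * Real.sqrt (1 - n ^ 2))
    (Real.sqrt (1 - m' ^ 2) * Real.sqrt (1 - n' ^ 2)) (Real.exp Z) (Real.exp Z') hg
  rw [← hcv, ← hcv'] at hmain
  have eE : Real.exp Z' ^ 2 = Real.exp (2 * Z') := by
    rw [← Real.exp_nat_mul]; norm_num
  rw [eE] at hmain
  have hE2 : 0 < Real.exp (2 * Z') := Real.exp_pos _
  have hE1 : 0 < Real.exp (2 * Z) := Real.exp_pos _
  generalize (Real.sqrt (1 - m ^ 2) * Real.sqrt (1 - n ^ 2) -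
    Real.sqrt (1 - m' ^ 2) * Real.sqrt (1 - n' ^ 2)) ^ 2 = Q at hmain hpr
  generalize Real.exp (2 * Z') = X' at *
  generalize Real.exp (2 * Z) = X at *
  generalize (Real.exp Z - Real.exp Z') ^ 2 = W at *
  have hle1 : (1 : ℝ) ≤ 1 / (1 - z ^ 2) := by
    rw [le_div_iff₀ hδ]; linarith [sq_nonneg z]
  have hT : 0 ≤ (Z - Z') ^ 2 * (X + X') := by positivity
  have h5 : W ≤ 2 * (1 / (1 - z ^ 2)) * ((Z - Z') ^ 2 * (X + X')) := by
    calc W ≤ 1 * ((Z - Z') ^ 2 * (X + X')) := by rw [one_mul]; exact hX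
      _ ≤ 2 * (1 / (1 - z ^ 2)) * ((Z - Z') ^ 2 * (X + X')) :=
          mul_le_mul_of_nonneg_right (by linarith) hT
  have h6 : Q * X' ≤ 2 * (((m - m') ^ 2 + (n - n') ^ 2) / (1 - z ^ 2)) * X' :=
    mul_le_mul_of_nonneg_right hpr hE2.le
  calc (c - c') ^ 2 ≤ 2 * τ ^ 2 * (Q * X' + W) := hmain
    _ ≤ 2 * τ ^ 2 * (2 * (((m - m') ^ 2 + (n - n') ^ 2) / (1 - z ^ 2)) * X' +
      2 * (1 / (1 - z ^ 2)) * ((Z - Z') ^ 2 * (X + X'))) :=
        mul_le_mul_of_nonneg_left (add_le_add h6 h5) (by positivity)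
    _ = _ := by ring

/-- The jump `ρ(α, m, ξ) = w/(1+m w)`, `w = α (2 qK(α m) ξ - 1)`. -/
noncomputable def rho (α m : ℝ) (ξ : unitInterval) : ℝ :=
  α * (2 * (qK (α * m) ξ : ℝ) - 1) / (1 + m * (α * (2 * (qK (α * m) ξ : ℝ) - 1)))

theorem measurable_rho : Measurable fun p : ℝ × ℝ × unitInterval => rho p.1 p.2.1 p.2.2 := by
  unfold rho
  have h1 : Measurable fun p : ℝ × ℝ × unitInterval => ((qK (p.1 * p.2.1) p.2.2 : unitInterval) : ℝ) :=
    measurable_subtype_coe.comp (measurable_qK.comp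
      ((measurable_fst.mul (measurable_fst.comp measurable_snd)).prodMk
        (measurable_snd.comp measurable_snd)))
  have h2 : Measurable fun p : ℝ × ℝ × unitInterval =>
      p.1 * (2 * ((qK (p.1 * p.2.1) p.2.2 : unitInterval) : ℝ) - 1) :=
    measurable_fst.mul ((measurable_const.mul h1).sub measurable_const)
  exact h2.div (measurable_const.add ((measurable_fst.comp measurable_snd).mul h2))

theorem re_abs_signal (t : unitInterval) : |2 * (t : ℝ) - 1| ≤ 1 :=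
  abs_le.2 ⟨by linarith [t.2.1], by linarith [t.2.2]⟩

/-- Bounds for the jump: `|ρ| ≤ C α`, `|ρ(m) - ρ(m')| ≤ C α² |m - m'|`
(`Vale.Agent.P161.qK_lipschitz`). -/
theorem rho_bounds (a : ℝ) (h0 : 0 ≤ a) (h1 : a < 1) :
    ∃ C : ℝ, 0 ≤ C ∧ ∀ (α m m' : ℝ) (ξ : unitInterval), 0 ≤ α → α ≤ a → |m| ≤ 1 → |m'| ≤ 1 →
      |rho α m ξ| ≤ C * α ∧ |rho α m ξ - rho α m' ξ| ≤ C * α ^ 2 * |m - m'| := by
  have hδ : 0 < 1 - a := by linarith
  have hδ1 : 1 - a ≤ 1 := by linarith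
  refine ⟨2 / (1 - a) ^ 3, by positivity, fun α m m' ξ hα hαa hm hm' => ?_⟩
  have hw : ∀ m : ℝ, |α * (2 * (qK (α * m) ξ : ℝ) - 1)| ≤ α := fun m => by
    rw [abs_mul, abs_of_nonneg hα]
    exact mul_le_of_le_one_right hα (re_abs_signal _)
  have hden : ∀ m : ℝ, |m| ≤ 1 → 1 - a ≤ 1 + m * (α * (2 * (qK (α * m) ξ : ℝ) - 1)) := by
    intro m hm
    have : |m * (α * (2 * (qK (α * m) ξ : ℝ) - 1))| ≤ a := by
      rw [abs_mul]
      calc |m| * |α * (2 * (qK (α * m) ξ : ℝ) - 1)| ≤ 1 * α :=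
            mul_le_mul hm (hw m) (abs_nonneg _) zero_le_one
        _ ≤ a := by rw [one_mul]; exact hαa
    linarith [(abs_le.1 this).1]
  have hκ : ∀ m : ℝ, |m| ≤ 1 → |α * m| ≤ a := by
    intro m hm
    rw [abs_mul, abs_of_nonneg hα]
    calc α * |m| ≤ a * 1 := mul_le_mul hαa hm (abs_nonneg _) h0
      _ = a := mul_one a
  have hq := qK_lipschitz h0 h1 (hκ m hm) (hκ m' hm') ξ ξ
  rw [sub_self, abs_zero, mul_zero, zero_add] at hq
  have hw1 := hw m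
  have hw1' := hw m'
  have hd := hden m hm
  have hd' := hden m' hm'
  have hdiffw : |α * (2 * (qK (α * m) ξ : ℝ) - 1) - α * (2 * (qK (α * m') ξ : ℝ) - 1)| ≤
      1 / (1 - a) * (α ^ 2 * |m - m'|) := by
    have e : α * (2 * (qK (α * m) ξ : ℝ) - 1) - α * (2 * (qK (α * m') ξ : ℝ) - 1) =
        2 * α * ((qK (α * m) ξ : ℝ) - qK (α * m') ξ) := by ring
    have e2 : α * m - α * m' = α * (m - m') := by ring
    rw [e2, abs_mul, abs_of_nonneg hα] at hq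
    rw [e, abs_mul, abs_of_nonneg (by positivity : (0 : ℝ) ≤ 2 * α)]
    calc 2 * α * |(qK (α * m) ξ : ℝ) - qK (α * m') ξ|
        ≤ 2 * α * (1 / (4 * (1 - a)) * (α * |m - m'|)) :=
          mul_le_mul_of_nonneg_left hq (by positivity)
      _ = 1 / 2 * (1 / (1 - a) * (α ^ 2 * |m - m'|)) := by field_simp; ring
      _ ≤ 1 / (1 - a) * (α ^ 2 * |m - m'|) := by
          have : 0 ≤ 1 / (1 - a) * (α ^ 2 * |m - m'|) := by positivity
          linarith
  unfold rho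
  set w := α * (2 * (qK (α * m) ξ : ℝ) - 1) with hwd
  set w' := α * (2 * (qK (α * m') ξ : ℝ) - 1) with hwd'
  have hdp : 0 < 1 + m * w := lt_of_lt_of_le hδ hd
  have hdp' : 0 < 1 + m' * w' := lt_of_lt_of_le hδ hd'
  have hle : 1 / (1 - a) ≤ 2 / (1 - a) ^ 3 := by
    rw [div_le_div_iff₀ hδ (by positivity)]
    have h2 : (1 - a) ^ 3 ≤ (1 - a) * 1 := by
      have : (1 - a) ^ 3 = (1 - a) * (1 - a) ^ 2 := by ring
      rw [this]
      exact mul_le_mul_of_nonneg_left (pow_le_one₀ hδ.le hδ1) hδ.le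
    linarith
  constructor
  · rw [abs_div, abs_of_pos hdp, div_le_iff₀ hdp]
    calc |w| ≤ α := hw1
      _ = 1 / (1 - a) * α * (1 - a) := by field_simp
      _ ≤ 2 / (1 - a) ^ 3 * α * (1 + m * w) := by gcongr
  · have e : w / (1 + m * w) - w' / (1 + m' * w') =
        ((w - w') + w * w' * (m' - m)) / ((1 + m * w) * (1 + m' * w')) := by
      rw [div_sub_div _ _ hdp.ne' hdp'.ne']
      congr 1
      ring
    rw [e, abs_div, abs_of_pos (mul_pos hdp hdp'), div_le_iff₀ (mul_pos hdp hdp')]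
    have h3 : |(w - w') + w * w' * (m' - m)| ≤ 2 / (1 - a) * (α ^ 2 * |m - m'|) := by
      refine (abs_add_le _ _).trans ?_
      have h4 : |w * w' * (m' - m)| ≤ α ^ 2 * |m - m'| := by
        rw [abs_mul, abs_mul, abs_sub_comm m' m, sq]
        exact mul_le_mul_of_nonneg_right (mul_le_mul hw1 hw1' (abs_nonneg _) hα) (abs_nonneg _)
      have h5 : α ^ 2 * |m - m'| ≤ 1 / (1 - a) * (α ^ 2 * |m - m'|) := by
        have : 1 ≤ 1 / (1 - a) := by rw [le_div_iff₀ hδ]; linarith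
        have h6 : 0 ≤ α ^ 2 * |m - m'| := by positivity
        nlinarith only [this, h6]
      calc |w - w'| + |w * w' * (m' - m)|
          ≤ 1 / (1 - a) * (α ^ 2 * |m - m'|) + 1 / (1 - a) * (α ^ 2 * |m - m'|) :=
            add_le_add hdiffw (h4.trans h5)
        _ = 2 / (1 - a) * (α ^ 2 * |m - m'|) := by ring
    calc |(w - w') + w * w' * (m' - m)| ≤ 2 / (1 - a) * (α ^ 2 * |m - m'|) := h3
      _ = 2 / (1 - a) ^ 3 * α ^ 2 * |m - m'| * ((1 - a) * (1 - a)) := by field_simp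
      _ ≤ 2 / (1 - a) ^ 3 * α ^ 2 * |m - m'| * ((1 + m * w) * (1 + m' * w')) := by gcongr

theorem re_integral_qK {κ : ℝ} (hκ : |κ| < 1) {g : unitInterval → ℝ} (hg : Measurable g) :
    ∫ x, g (qK κ x) = ∫ t : unitInterval, g t * (1 + κ * (2 * (t : ℝ) - 1)) := by
  have hq : Measurable (qK κ) := measurable_qK.comp (f := fun y => (κ, y)) (measurable_const.prodMk measurable_id)
  have hden : Measurable fun t : unitInterval => ENNReal.ofReal (1 + κ * (2 * (t : ℝ) - 1)) := by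
    fun_prop
  have hmeas : (volume : Measure unitInterval).map (qK κ)
      = (volume : Measure unitInterval).withDensity
        fun t => ENNReal.ofReal (1 + κ * (2 * (t : ℝ) - 1)) := by
    refine Measure.ext fun s hs => ?_
    rw [← lintegral_indicator_one hs, lintegral_map (measurable_one.indicator hs) hq,
      lintegral_qK hκ (measurable_one.indicator hs), withDensity_apply _ hs,
      ← lintegral_indicator hs]
    refine lintegral_congr fun t => ?_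
    by_cases ht : t ∈ s
    · simp [ht]
    · simp [ht]
  rw [← integral_map hq.aemeasurable hg.aestronglyMeasurable, hmeas,
    integral_withDensity_eq_integral_toReal_smul hden (Eventually.of_forall fun t =>
      ENNReal.ofReal_lt_top)]
  refine integral_congr_ae (Eventually.of_forall fun t => ?_)
  simp only [smul_eq_mul]
  rw [ENNReal.toReal_ofReal (density_nonneg hκ.le t), mul_comm]

/-- The jump has mean zero (`lintegral_qK` / density `1 + α m (2t-1)`). -/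
theorem integral_rho (α m : ℝ) (h0 : 0 ≤ α) (h1 : α < 1) (hm : |m| ≤ 1) :
    ∫ ξ : unitInterval, rho α m ξ = 0 := by
  have hκ : |α * m| < 1 := by
    rw [abs_mul, abs_of_nonneg h0]
    calc α * |m| ≤ α * 1 := mul_le_mul_of_nonneg_left hm h0
      _ < 1 := by linarith
  let g : unitInterval → ℝ := fun t =>
    α * (2 * (t : ℝ) - 1) / (1 + m * (α * (2 * (t : ℝ) - 1)))
  have hg : Measurable g := by
    have h2 : Measurable fun t : unitInterval => α * (2 * (t : ℝ) - 1) := by fun_prop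
    exact h2.div (measurable_const.add (measurable_const.mul h2))
  have e1 : ∫ ξ : unitInterval, rho α m ξ = ∫ ξ, g (qK (α * m) ξ) := rfl
  rw [e1, re_integral_qK hκ hg]
  have e2 : ∀ t : unitInterval, g t * (1 + α * m * (2 * (t : ℝ) - 1)) = α * (2 * (t : ℝ) - 1) := by
    intro t
    have hpos : 0 < 1 + m * (α * (2 * (t : ℝ) - 1)) := by
      have : |m * (α * (2 * (t : ℝ) - 1))| < 1 := by
        have e3 : m * (α * (2 * (t : ℝ) - 1)) = (α * m) * (2 * (t : ℝ) - 1) := by ring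
        rw [e3, abs_mul]
        calc |α * m| * |2 * (t : ℝ) - 1| ≤ |α * m| * 1 :=
              mul_le_mul_of_nonneg_left (re_abs_signal t) (abs_nonneg _)
          _ < 1 := by linarith
      linarith [(abs_lt.1 this).1]
    have e4 : 1 + α * m * (2 * (t : ℝ) - 1) = 1 + m * (α * (2 * (t : ℝ) - 1)) := by ring
    rw [e4]
    exact div_mul_cancel₀ _ hpos.ne'
  simp only [e2]
  rw [integral_unitInterval_cubic (fun t => α * (2 * t - 1)) (-α) (2 * α) 0 0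
    (fun t => by ring)]
  ring

end Vale.Agent.P161.Crit
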