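import Vale.Agent.Lib.P161.Crit.Tail
import Vale.Agent.Lib.P161.Crit.Real

/-!
P161-CRIT, module PairAvg: a homogeneous pair environment and averaging over the ends of a
geodesic. `ν` is the joint law of two slope arrays `(w, w')`.
-/

open MeasureTheory Filter Topology

namespace Vale.Agent.P161.Crit

variable {V : Type*} {G : SimpleGraph V}

/-- Everything the static inequality needs to know about the pair `(w, w')`.
`θ = tanh β`, `k = d - 1`, `κ' = (1-θ²)θ²/4`. -/
structure PairEnv (G : SimpleGraph V) [G.LocallyFinite] (μ : Measure (V → Bool)) (θ : ℝ) (d : ℕ)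
    (zb C1 q : ℝ) (ν : Measure ((V × ℕ → ℝ) × (V × ℕ → ℝ))) : Prop where
  prob : IsProbabilityMeasure ν
  swap : ν.map Prod.swap = ν
  inv : ∀ g : G ≃g G, ν.map (Prod.map (actE g.toEquiv) (actE g.toEquiv)) = ν
  zb0 : 0 ≤ zb
  zb1 : zb < 1
  C10 : 0 ≤ C1
  q0 : 0 ≤ q
  bM : ∀ v, ∀ᵐ x ∂ν, |M G μ Set.univ v x.1| ≤ zb
  bm : ∀ p p', ∀ᵐ x ∂ν, |msg G μ p p' x.1| ≤ zb
  edge : ∀ p p', G.Adj p p' → ∀ᵐ x ∂ν, M G μ Set.univ p x.1 =
    (msg G μ p p' x.1 + θ * msg G μ p' p x.1) / (1 + θ * msg G μ p p' x.1 * msg G μ p' p x.1)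
  covn : ∀ o x', ∀ᵐ x ∂ν, 0 ≤ Cv G μ Set.univ o x' x.1
  cov2 : ∀ (p : ℕ → V) (n : ℕ), Geo G p n → ∀ᵐ x ∂ν, Cv G μ Set.univ (p 0) (p n) x.1 ^ 2 =
    (1 - M G μ Set.univ (p 0) x.1 ^ 2) * (1 - M G μ Set.univ (p n) x.1 ^ 2) * (θ ^ 2) ^ n *
      ∏ i ∈ Finset.range n, (ph θ (msg G μ (p (i + 1)) (p i) x.1) *
        ph θ (msg G μ (p i) (p (i + 1)) x.1))
  qdef : ∀ p p', G.Adj p p' → ∫ x, msg G μ p p' x.1 ^ 2 ∂ν = q
  t1 : ∀ (p : ℕ → V) (n : ℕ), Geo G p n →
    ∫ x, (∑ i ∈ Finset.range n, (gam G μ θ (p i) (p (i + 1)) x.1 -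
      gam G μ θ (p i) (p (i + 1)) x.2)) ^ 2 ∂ν ≤
    C1 * n * ∫ x, (gam G μ θ (p 0) (p 1) x.1 - gam G μ θ (p 0) (p 1) x.2) ^ 2 ∂ν
  betm : ∀ (l : ℕ) (v u : V), G.Adj v u → ∀ᵐ x ∂ν, bet G μ θ d l v u x.1 ∈ Set.Icc (0 : ℝ) 1
  tail : ∀ (l : ℕ) (v u : V), G.Adj v u →
    ν.real {x | 2 * (1 - (1 - θ ^ 2) * θ ^ 2 / 4 * q) ^ (l / 2) ≤ bet G μ θ d l v u x.1} ≤
      Real.exp (-2 * Real.sqrt ((d : ℝ) - 1) ^ (l / 2))

theorem pav_dist_iso (hc : G.Connected) (g : G ≃g G) (v w : V) :
    G.dist (g v) (g w) = G.dist v w := by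
  have h : ∀ (f : G ≃g G) (v w : V), G.dist (f v) (f w) ≤ G.dist v w := by
    intro f v w
    obtain ⟨p, hp⟩ := hc.exists_walk_length_eq_dist v w
    have := SimpleGraph.dist_le (p.map f.toHom)
    rw [SimpleGraph.Walk.length_map, hp] at this
    exact this
  refine le_antisymm (h g v w) ?_
  have := h g.symm (g v) (g w)
  simpa using this

/-- An automorphism maps a given geodesic to a given geodesic (`exists_iso_of_dist_eq` for the
end points; geodesics of a tree are unique). -/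
theorem geo_iso [G.LocallyFinite] (hG : G.IsTree) {d : ℕ} (hreg : G.IsRegularOfDegree d)
    {p p' : ℕ → V} {n : ℕ} (hp : Geo G p n) (hp' : Geo G p' n) :
    ∃ g : G ≃g G, ∀ i ≤ n, g (p i) = p' i := by
  have hc := hG.connected
  obtain ⟨g, h0, hn⟩ := exists_iso_of_dist_eq hG hreg (u := p 0) (v := p n) (u2 := p' 0)
    (v2 := p' n) (by rw [hp.2, hp'.2])
  refine ⟨g, fun i => ?_⟩
  induction i with
  | zero => intro _; exact h0
  | succ i ih =>
    intro hi
    have ih1 := ih (by omega)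
    have d1 := hp.dist hc (i := i) (j := n) (by omega) le_rfl
    have d2 := hp.dist hc (i := i + 1) (j := n) (by omega) le_rfl
    have d3 := hp'.dist hc (i := i) (j := n) (by omega) le_rfl
    have d4 := hp'.dist hc (i := i + 1) (j := n) (by omega) le_rfl
    refine parent_unique hG (u := p' n) (v := p' i) ?_ (hp'.1 i (by omega)) ?_ ?_
    · rw [← ih1]
      exact g.map_adj_iff.2 (hp.1 i (by omega))
    · rw [← hn, ← ih1, SimpleGraph.dist_comm, pav_dist_iso hc, SimpleGraph.dist_comm (u := g (p n)),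
        pav_dist_iso hc, d1, d2]
      omega
    · rw [SimpleGraph.dist_comm, d3, SimpleGraph.dist_comm, d4]
      omega

theorem pav_measurable_actE (g : V ≃ V) :
    Measurable (actE g : (V × ℕ → ℝ) → (V × ℕ → ℝ)) :=
  measurable_pi_iff.2 fun _ => measurable_pi_apply _

theorem pav_measurable_ph (θ : ℝ) : Measurable (ph θ) := by
  unfold ph
  fun_prop

theorem PairEnv.integral_act [G.LocallyFinite] {d : ℕ} {θ : ℝ} {μ : Measure (V → Bool)}
    {zb C1 q : ℝ} {ν : Measure ((V × ℕ → ℝ) × (V × ℕ → ℝ))} (h : PairEnv G μ θ d zb C1 q ν)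
    (g : G ≃g G) {F : (V × ℕ → ℝ) × (V × ℕ → ℝ) → ℝ} (hF : Measurable F) :
    ∫ x, F (actE g.toEquiv x.1, actE g.toEquiv x.2) ∂ν = ∫ x, F x ∂ν := by
  have hm : Measurable (Prod.map (actE g.toEquiv) (actE g.toEquiv) :
      (V × ℕ → ℝ) × (V × ℕ → ℝ) → (V × ℕ → ℝ) × (V × ℕ → ℝ)) :=
    (pav_measurable_actE _).prodMap (pav_measurable_actE _)
  conv_rhs => rw [← h.inv g]
  rw [integral_map hm.aemeasurable hF.aestronglyMeasurable]
  rfl

theorem Env.pav_map_actC [G.LocallyFinite] {d : ℕ} {β : ℝ} {μ : Measure (V → Bool)}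
    (hE : Env G d β μ) (g : G ≃g G) : μ.map (actC g.toEquiv) = μ :=
  IsFreeIsing.map_iso hE.tree hE.ising g

theorem PairEnv.ph_ae [G.LocallyFinite] {d : ℕ} {β : ℝ} {μ : Measure (V → Bool)}
    (hE : Env G d β μ) {zb C1 q : ℝ} {ν : Measure ((V × ℕ → ℝ) × (V × ℕ → ℝ))}
    (h : PairEnv G μ (Real.tanh β) d zb C1 q ν) (p p' : V) :
    ∀ᵐ x ∂ν, 0 ≤ ph (Real.tanh β) (msg G μ p p' x.1) ∧ ph (Real.tanh β) (msg G μ p p' x.1) ≤ 1 := by
  filter_upwards [h.bm p p'] with x hx
  have hx1 : |msg G μ p p' x.1| ≤ 1 := hx.trans h.zb1.le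
  exact ⟨ph_nonneg hE.theta_pos.le hE.theta_lt_one hx1, ph_le_one hE.theta_pos.le hE.theta_lt_one hx1⟩

/-- A neighbour of the last vertex which is not the last but one extends the geodesic. -/
theorem Geo.pav_extend [G.LocallyFinite] (hG : G.IsTree) {p : ℕ → V} {N : ℕ} (hN : 1 ≤ N)
    (hp : Geo G p N) {c : V} (hc : G.Adj (p N) c) (hne : c ≠ p (N - 1)) :
    Geo G (Function.update p (N + 1) c) (N + 1) := by
  refine ⟨fun i hi => ?_, ?_⟩
  · rcases Nat.lt_succ_iff_lt_or_eq.1 hi with h | h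
    · rw [Function.update_of_ne (by omega), Function.update_of_ne (by omega)]
      exact hp.1 i h
    · subst h
      rw [Function.update_of_ne (by omega), Function.update_self]
      exact hc
  · rw [Function.update_of_ne (by omega), Function.update_self]
    have h0 := hp.2
    rcases hG.dist_eq_dist_add_one_of_adj (p 0) hc with h | h
    · exfalso
      apply hne
      have h1 := hp.dist hG.connected (i := 0) (j := N - 1) (by omega) (by omega)
      have h2 := hp.1 (N - 1) (by omega)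
      rw [show N - 1 + 1 = N by omega] at h2
      exact parent_unique hG (u := p 0) (v := p N) hc h2.symm h (by omega)
    · omega

/-- Averaging over one end. -/
theorem PairEnv.one_end [G.LocallyFinite] {d : ℕ} {β : ℝ} {μ : Measure (V → Bool)}
    (hE : Env G d β μ) {zb C1 q : ℝ} {ν : Measure ((V × ℕ → ℝ) × (V × ℕ → ℝ))}
    (h : PairEnv G μ (Real.tanh β) d zb C1 q ν) {p : ℕ → V} (m : ℕ) :
    ∀ {N : ℕ}, 1 ≤ N → Geo G p (N + m) →
    ∀ {Z : (V × ℕ → ℝ) × (V × ℕ → ℝ) → ℝ}, Measurable Z → ∀ {B : ℝ}, (∀ᵐ x ∂ν, |Z x| ≤ B) →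
    (∀ g : G ≃g G, (∀ i ≤ N, g (p i) = p i) →
      ∀ x, Z (actE g.toEquiv x.1, actE g.toEquiv x.2) = Z x) →
    ∫ x, Z x * (∏ i ∈ Finset.range m,
        ph (Real.tanh β) (msg G μ (p (N + i + 1)) (p (N + i)) x.1)) ∂ν =
    ∫ x, Z x * bet G μ (Real.tanh β) d m (p N) (p (N - 1)) x.1 ∂ν := by
  classical
  have := hE.prob
  have := h.prob
  have hG := hE.tree
  have hc := hG.connected
  induction m with
  | zero =>
    intro N _ _ Z _ B _ _
    simp [bet]
  | succ m ih =>
    intro N hN hp Z hZ B hZB hinv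
    have hB0 : ∀ᵐ x ∂ν, 0 ≤ B := by
      filter_upwards [hZB] with x hx
      exact (abs_nonneg _).trans hx
    have hB : 0 ≤ B := by
      obtain ⟨x, hx⟩ := hB0.exists
      exact hx
    have hpN1 : Geo G p (N + 1) := by
      have := hp.sub hc (i := 0) (m := N + 1) (by omega)
      simpa using this
    have hpN : Geo G p N := by
      have := hp.sub hc (i := 0) (m := N) (by omega)
      simpa using this
    have hadj1 : G.Adj (p N) (p (N + 1)) := hp.1 N (by omega)
    have hadj0 : G.Adj (p (N - 1)) (p N) := by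
      have := hp.1 (N - 1) (by omega)
      rwa [show N - 1 + 1 = N by omega] at this
    have hne1 : p (N + 1) ≠ p (N - 1) := by
      intro he
      have h1 := hp.dist hc (i := N - 1) (j := N + 1) (by omega) (by omega)
      rw [he, SimpleGraph.dist_self] at h1
      omega
    -- the integral for the neighbour `c`
    have hI : ∀ c, G.Adj (p N) c → c ≠ p (N - 1) →
        ∫ x, Z x * (ph (Real.tanh β) (msg G μ c (p N) x.1) *
          bet G μ (Real.tanh β) d m c (p N) x.1) ∂ν =
        ∫ x, Z x * (ph (Real.tanh β) (msg G μ (p (N + 1)) (p N) x.1) *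
          bet G μ (Real.tanh β) d m (p (N + 1)) (p N) x.1) ∂ν := by
      intro c hc1 hc2
      obtain ⟨g, hg⟩ := geo_iso hG hE.reg hpN1 (hpN.pav_extend hG hN hc1 hc2)
      have hgi : ∀ i ≤ N, g (p i) = p i := by
        intro i hi
        have := hg i (by omega)
        rwa [Function.update_of_ne (by omega)] at this
      have hgc : g (p (N + 1)) = c := by
        have := hg (N + 1) le_rfl
        rwa [Function.update_self] at this
      have hF : Measurable (fun x : (V × ℕ → ℝ) × (V × ℕ → ℝ) =>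
          Z x * (ph (Real.tanh β) (msg G μ c (p N) x.1) *
            bet G μ (Real.tanh β) d m c (p N) x.1)) :=
        hZ.mul (((pav_measurable_ph _).comp ((measurable_msg G μ _ _).comp measurable_fst)).mul
          ((measurable_bet _ _ _ _ _).comp measurable_fst))
      rw [← h.integral_act g hF]
      refine integral_congr_ae (Eventually.of_forall fun x => ?_)
      simp only
      rw [hinv g hgi x]
      conv_lhs => rw [← hgc, ← hgi N le_rfl]
      rw [msg_act hc g (hE.pav_map_actC g), bet_act hE g]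
    -- the induction hypothesis
    have hW : Measurable (fun x : (V × ℕ → ℝ) × (V × ℕ → ℝ) =>
        Z x * ph (Real.tanh β) (msg G μ (p (N + 1)) (p N) x.1)) :=
      hZ.mul ((pav_measurable_ph _).comp ((measurable_msg G μ _ _).comp measurable_fst))
    have hWB : ∀ᵐ x ∂ν, |Z x * ph (Real.tanh β) (msg G μ (p (N + 1)) (p N) x.1)| ≤ B := by
      filter_upwards [hZB, h.ph_ae hE (p (N + 1)) (p N)] with x h1 h2
      rw [abs_mul, abs_of_nonneg h2.1]
      calc |Z x| * _ ≤ B * 1 := mul_le_mul h1 h2.2 h2.1 hB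
        _ = B := mul_one B
    have IH := ih (N := N + 1) (by omega) (by rwa [show N + 1 + m = N + (m + 1) by omega]) hW hWB
      (fun g hg x => by
        simp only
        rw [hinv g (fun i hi => hg i (by omega)) x]
        conv_lhs => rw [← hg (N + 1) le_rfl, ← hg N (by omega)]
        rw [msg_act hc g (hE.pav_map_actC g)])
    have hL : ∀ x : (V × ℕ → ℝ) × (V × ℕ → ℝ), Z x * (∏ i ∈ Finset.range (m + 1),
        ph (Real.tanh β) (msg G μ (p (N + i + 1)) (p (N + i)) x.1)) =
        Z x * ph (Real.tanh β) (msg G μ (p (N + 1)) (p N) x.1) * (∏ i ∈ Finset.range m,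
        ph (Real.tanh β) (msg G μ (p (N + 1 + i + 1)) (p (N + 1 + i)) x.1)) := by
      intro x
      rw [Finset.prod_range_succ', mul_comm (∏ i ∈ Finset.range m, _), ← mul_assoc]
      refine congrArg₂ (· * ·) rfl (Finset.prod_congr rfl fun i _ => ?_)
      rw [show N + (i + 1) = N + 1 + i by omega]
    rw [integral_congr_ae (Eventually.of_forall hL), IH]
    have hd : ((d : ℝ) - 1) ≠ 0 := by
      have : (3 : ℝ) ≤ d := by exact_mod_cast hE.three
      linarith
    -- expand `bet`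
    have hR : ∀ x : (V × ℕ → ℝ) × (V × ℕ → ℝ),
        Z x * bet G μ (Real.tanh β) d (m + 1) (p N) (p (N - 1)) x.1 =
        (∑ c ∈ (G.neighborFinset (p N)).erase (p (N - 1)),
          Z x * (ph (Real.tanh β) (msg G μ c (p N) x.1) *
          bet G μ (Real.tanh β) d m c (p N) x.1)) / ((d : ℝ) - 1) := by
      intro x
      rw [bet, mul_div_assoc', Finset.mul_sum]
    rw [integral_congr_ae (Eventually.of_forall hR), integral_div, integral_finsetSum]
    · rw [Finset.sum_congr rfl fun c hc' => hI c ?_ ?_]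
      · rw [Finset.sum_const, Finset.card_erase_of_mem, SimpleGraph.card_neighborFinset_eq_degree,
          hE.reg.degree_eq, nsmul_eq_mul, Nat.cast_sub (by have := hE.three; omega), Nat.cast_one,
          mul_div_cancel_left₀ _ hd]
        · refine integral_congr_ae (Eventually.of_forall fun x => ?_)
          simp only [Nat.add_sub_cancel]
          ring
        · rw [SimpleGraph.mem_neighborFinset]; exact hadj0.symm
      · exact (SimpleGraph.mem_neighborFinset _ _ _).1 (Finset.mem_of_mem_erase hc')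
      · exact Finset.ne_of_mem_erase hc'
    · intro c hc'
      have hadj : G.Adj (p N) c := (SimpleGraph.mem_neighborFinset _ _ _).1 (Finset.mem_of_mem_erase hc')
      have hF : Measurable (fun x : (V × ℕ → ℝ) × (V × ℕ → ℝ) =>
          Z x * (ph (Real.tanh β) (msg G μ c (p N) x.1) *
            bet G μ (Real.tanh β) d m c (p N) x.1)) :=
        hZ.mul (((pav_measurable_ph _).comp ((measurable_msg G μ _ _).comp measurable_fst)).mul
          ((measurable_bet _ _ _ _ _).comp measurable_fst))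
      refine Integrable.of_bound hF.aestronglyMeasurable B ?_
      filter_upwards [hZB, h.ph_ae hE c (p N), h.betm m c (p N) hadj.symm] with x h1 h2 h3
      rw [Real.norm_eq_abs, abs_mul, abs_of_nonneg (mul_nonneg h2.1 h3.1)]
      calc |Z x| * _ ≤ B * 1 := mul_le_mul h1 (mul_le_one₀ h2.2 h3.1 h3.2) (mul_nonneg h2.1 h3.1) hB
        _ = B := mul_one B

/-- Averaging over the two ends of a geodesic with `l + L + m` edges, `L ≥ 1`. `X` is a bounded
function of the pair which is invariant under the automorphisms fixing the block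
`p l, …, p (l+L)`.
Proof: for every geodesic `x_0 = p (l+L), x_1, …, x_m` avoiding `p (l+L-1)` (there are `k^m`) and
every geodesic on the left (`k^l`) the concatenation with the block is a geodesic; `geo_iso` gives
`g` with `g (p i) =` the concatenation, so `g` fixes the block; by `inv`, `msg_act` and the invariance
of `X` the integral on the left is the same for all of them. `bet` is the average. (Do one end at a
time, by induction on `m`: peel the last edge? or directly by expanding `bet` as a sum over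
geodesics.) -/
theorem PairEnv.avg_ends [G.LocallyFinite] {d : ℕ} {β : ℝ} {μ : Measure (V → Bool)}
    (hE : Env G d β μ) {zb C1 q : ℝ} {ν : Measure ((V × ℕ → ℝ) × (V × ℕ → ℝ))}
    (h : PairEnv G μ (Real.tanh β) d zb C1 q ν) {p : ℕ → V} {l L m : ℕ} (hL : 1 ≤ L)
    (hp : Geo G p (l + L + m)) {X : (V × ℕ → ℝ) × (V × ℕ → ℝ) → ℝ} (hX : Measurable X)
    {B : ℝ} (hXB : ∀ᵐ x ∂ν, |X x| ≤ B)
    (hinv : ∀ g : G ≃g G, (∀ i, l ≤ i → i ≤ l + L → g (p i) = p i) →
      ∀ x, X (actE g.toEquiv x.1, actE g.toEquiv x.2) = X x) :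
    ∫ x, X x * (∏ i ∈ Finset.range l, ph (Real.tanh β) (msg G μ (p i) (p (i + 1)) x.1)) *
      (∏ i ∈ Finset.range m,
        ph (Real.tanh β) (msg G μ (p (l + L + i + 1)) (p (l + L + i)) x.1)) ∂ν =
    ∫ x, X x * bet G μ (Real.tanh β) d l (p l) (p (l + 1)) x.1 *
      bet G μ (Real.tanh β) d m (p (l + L)) (p (l + L - 1)) x.1 ∂ν := by
  have := hE.prob
  have := h.prob
  have hG := hE.tree
  have hc := hG.connected
  have hB : 0 ≤ B := by
    have hB0 : ∀ᵐ x ∂ν, 0 ≤ B := by
      filter_upwards [hXB] with x hx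
      exact (abs_nonneg _).trans hx
    obtain ⟨x, hx⟩ := hB0.exists
    exact hx
  -- the right end
  have hZ : Measurable (fun x : (V × ℕ → ℝ) × (V × ℕ → ℝ) =>
      X x * (∏ i ∈ Finset.range l, ph (Real.tanh β) (msg G μ (p i) (p (i + 1)) x.1))) :=
    hX.mul (Finset.measurable_fun_prod _ fun i _ =>
      (pav_measurable_ph _).comp ((measurable_msg G μ _ _).comp measurable_fst))
  have hZB : ∀ᵐ x ∂ν, |X x * (∏ i ∈ Finset.range l,
      ph (Real.tanh β) (msg G μ (p i) (p (i + 1)) x.1))| ≤ B := by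
    have h1 : ∀ᵐ x ∂ν, ∀ i ∈ Finset.range l,
        0 ≤ ph (Real.tanh β) (msg G μ (p i) (p (i + 1)) x.1) ∧
        ph (Real.tanh β) (msg G μ (p i) (p (i + 1)) x.1) ≤ 1 := by
      rw [Finset.eventually_all]
      intro i _
      exact h.ph_ae hE _ _
    filter_upwards [hXB, h1] with x h1 h2
    have h3 : 0 ≤ ∏ i ∈ Finset.range l, ph (Real.tanh β) (msg G μ (p i) (p (i + 1)) x.1) :=
      Finset.prod_nonneg fun i hi => (h2 i hi).1
    have h4 : ∏ i ∈ Finset.range l, ph (Real.tanh β) (msg G μ (p i) (p (i + 1)) x.1) ≤ 1 :=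
      Finset.prod_le_one (fun i hi => (h2 i hi).1) fun i hi => (h2 i hi).2
    rw [abs_mul, abs_of_nonneg h3]
    calc |X x| * _ ≤ B * 1 := mul_le_mul h1 h4 h3 hB
      _ = B := mul_one B
  have hR := h.one_end hE m (N := l + L) (by omega) hp hZ hZB (fun g hg x => by
    simp only
    rw [hinv g (fun i _ hi => hg i hi) x]
    congr 1
    refine Finset.prod_congr rfl fun i hi => ?_
    rw [Finset.mem_range] at hi
    conv_lhs => rw [← hg i (by omega), ← hg (i + 1) (by omega)]
    rw [msg_act hc g (hE.pav_map_actC g)])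
  rw [hR]
  -- the left end
  have hZ' : Measurable (fun x : (V × ℕ → ℝ) × (V × ℕ → ℝ) =>
      X x * bet G μ (Real.tanh β) d m (p (l + L)) (p (l + L - 1)) x.1) :=
    hX.mul ((measurable_bet _ _ _ _ _).comp measurable_fst)
  have hadj : G.Adj (p (l + L)) (p (l + L - 1)) := by
    have := hp.1 (l + L - 1) (by omega)
    rw [show l + L - 1 + 1 = l + L by omega] at this
    exact this.symm
  have hZB' : ∀ᵐ x ∂ν, |X x * bet G μ (Real.tanh β) d m (p (l + L)) (p (l + L - 1)) x.1| ≤ B := by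
    filter_upwards [hXB, h.betm m _ _ hadj] with x h1 h2
    rw [abs_mul, abs_of_nonneg h2.1]
    calc |X x| * _ ≤ B * 1 := mul_le_mul h1 h2.2 h2.1 hB
      _ = B := mul_one B
  have hgeo : Geo G (fun k => p (l + L - k)) (L + l) := by
    have h1 : Geo G p (l + L) := by
      have := hp.sub hc (i := 0) (m := l + L) (by omega)
      simpa using this
    have := h1.reverse hc
    rwa [show L + l = l + L by omega]
  have hL' := h.one_end hE l (p := fun k => p (l + L - k)) (N := L) hL hgeo hZ' hZB' (fun g hg x => by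
    have hg' : ∀ i, l ≤ i → i ≤ l + L → g (p i) = p i := by
      intro i h1 h2
      have := hg (l + L - i) (by omega)
      rwa [show l + L - (l + L - i) = i by omega] at this
    simp only
    rw [hinv g hg' x]
    congr 1
    conv_lhs => rw [← hg' (l + L) (by omega) le_rfl, ← hg' (l + L - 1) (by omega) (by omega)]
    rw [bet_act hE g])
  rw [show l + L - L = l by omega, show l + L - (L - 1) = l + 1 by omega] at hL'
  have hprod : ∀ x : (V × ℕ → ℝ) × (V × ℕ → ℝ),
      ∏ i ∈ Finset.range l, ph (Real.tanh β) (msg G μ (p (l + L - (L + i + 1))) (p (l + L - (L + i))) x.1) =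
      ∏ i ∈ Finset.range l, ph (Real.tanh β) (msg G μ (p i) (p (i + 1)) x.1) := by
    intro x
    rw [← Finset.prod_range_reflect (fun i => ph (Real.tanh β) (msg G μ (p i) (p (i + 1)) x.1)) l]
    refine Finset.prod_congr rfl fun i hi => ?_
    rw [Finset.mem_range] at hi
    rw [show l + L - (L + i + 1) = l - 1 - i by omega, show l + L - (L + i) = l - 1 - i + 1 by omega]
  simp only [hprod] at hL'
  calc _ = ∫ x, X x * bet G μ (Real.tanh β) d m (p (l + L)) (p (l + L - 1)) x.1 *
        (∏ i ∈ Finset.range l, ph (Real.tanh β) (msg G μ (p i) (p (i + 1)) x.1)) ∂ν := by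
        refine integral_congr_ae (Eventually.of_forall fun x => ?_)
        simp only
        ring
    _ = _ := hL'
    _ = _ := by
        refine integral_congr_ae (Eventually.of_forall fun x => ?_)
        simp only
        ring


theorem pav_tail {T : Type*} [MeasurableSpace T] {ν : Measure T} [IsProbabilityMeasure ν]
    {X Y : T → ℝ} (hX : Measurable X) (hY : Measurable Y) {B t ε : ℝ} (hX0 : ∀ x, 0 ≤ X x)
    (hXB : ∀ᵐ x ∂ν, |X x| ≤ B) (hY1 : ∀ᵐ x ∂ν, Y x ∈ Set.Icc (0 : ℝ) 1) (ht : 0 ≤ t)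
    (hB : 0 ≤ B) (htail : ν.real {x | t ≤ Y x} ≤ ε) :
    ∫ x, X x * Y x ∂ν ≤ t * (∫ x, X x ∂ν) + B * ε := by
  have hXi : Integrable X ν := Integrable.of_bound hX.aestronglyMeasurable B hXB
  have hms : MeasurableSet {x | t ≤ Y x} := measurableSet_le measurable_const hY
  have hind : Integrable (Set.indicator {x | t ≤ Y x} fun _ => B) ν :=
    (integrable_const B).indicator hms
  calc ∫ x, X x * Y x ∂ν ≤ ∫ x, (t * X x + Set.indicator {x | t ≤ Y x} (fun _ => B) x) ∂ν := by
        refine integral_mono_ae ?_ ((hXi.const_mul t).add hind) ?_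
        · refine Integrable.of_bound (hX.mul hY).aestronglyMeasurable B ?_
          filter_upwards [hXB, hY1] with x h1 h2
          rw [Real.norm_eq_abs, abs_mul, abs_of_nonneg h2.1]
          calc |X x| * Y x ≤ B * 1 := mul_le_mul h1 h2.2 h2.1 hB
            _ = B := mul_one B
        · filter_upwards [hXB, hY1] with x h1 h2
          have h3 := hX0 x
          have h4 : X x ≤ B := (le_abs_self _).trans h1
          by_cases h5 : t ≤ Y x
          · rw [Set.indicator_of_mem (show x ∈ {x | t ≤ Y x} from h5)]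
            have h6 : X x * Y x ≤ X x := mul_le_of_le_one_right h3 h2.2
            have h7 : 0 ≤ t * X x := mul_nonneg ht h3
            linarith
          · rw [Set.indicator_of_notMem (show x ∉ {x | t ≤ Y x} from h5), add_zero, mul_comm]
            exact mul_le_mul_of_nonneg_right (not_le.1 h5).le h3
    _ = t * (∫ x, X x ∂ν) + B * ν.real {x | t ≤ Y x} := by
        rw [integral_add (hXi.const_mul t) hind, integral_const_mul, integral_indicator_const B hms,
          smul_eq_mul, mul_comm B]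
    _ ≤ _ := by
        have := mul_le_mul_of_nonneg_left htail hB
        linarith

/-- Consequence, with the tail bound. -/
theorem PairEnv.avg_tail [G.LocallyFinite] {d : ℕ} {β : ℝ} {μ : Measure (V → Bool)}
    (hE : Env G d β μ) {zb C1 q : ℝ} {ν : Measure ((V × ℕ → ℝ) × (V × ℕ → ℝ))}
    (h : PairEnv G μ (Real.tanh β) d zb C1 q ν) {p : ℕ → V} {l L m : ℕ} (hL : 1 ≤ L)
    (hp : Geo G p (l + L + m)) {X : (V × ℕ → ℝ) × (V × ℕ → ℝ) → ℝ} (hX : Measurable X)
    {B : ℝ} (hX0 : ∀ x, 0 ≤ X x) (hXB : ∀ᵐ x ∂ν, |X x| ≤ B)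
    (hinv : ∀ g : G ≃g G, (∀ i, l ≤ i → i ≤ l + L → g (p i) = p i) →
      ∀ x, X (actE g.toEquiv x.1, actE g.toEquiv x.2) = X x) {j : ℕ} (hj : j = max l m) :
    ∫ x, X x * (∏ i ∈ Finset.range l, ph (Real.tanh β) (msg G μ (p i) (p (i + 1)) x.1)) *
      (∏ i ∈ Finset.range m,
        ph (Real.tanh β) (msg G μ (p (l + L + i + 1)) (p (l + L + i)) x.1)) ∂ν ≤
    2 * (1 - (1 - Real.tanh β ^ 2) * Real.tanh β ^ 2 / 4 * q) ^ (j / 2) * (∫ x, X x ∂ν) +
      B * Real.exp (-2 * Real.sqrt ((d : ℝ) - 1) ^ (j / 2)) := by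
  have := hE.prob
  have := h.prob
  have hB : 0 ≤ B := by
    have hB0 : ∀ᵐ x ∂ν, 0 ≤ B := by
      filter_upwards [hXB] with x hx
      exact (abs_nonneg _).trans hx
    obtain ⟨x, hx⟩ := hB0.exists
    exact hx
  have hadj1 : G.Adj (p l) (p (l + 1)) := hp.1 l (by omega)
  have hadj2 : G.Adj (p (l + L)) (p (l + L - 1)) := by
    have := hp.1 (l + L - 1) (by omega)
    rw [show l + L - 1 + 1 = l + L by omega] at this
    exact this.symm
  have hm1 : Measurable (fun x : (V × ℕ → ℝ) × (V × ℕ → ℝ) =>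
      bet G μ (Real.tanh β) d l (p l) (p (l + 1)) x.1) := (measurable_bet _ _ _ _ _).comp measurable_fst
  have hm2 : Measurable (fun x : (V × ℕ → ℝ) × (V × ℕ → ℝ) =>
      bet G μ (Real.tanh β) d m (p (l + L)) (p (l + L - 1)) x.1) :=
    (measurable_bet _ _ _ _ _).comp measurable_fst
  have hq1 : q ≤ 1 := by
    rw [← h.qdef _ _ hadj1]
    calc ∫ x, msg G μ (p l) (p (l + 1)) x.1 ^ 2 ∂ν ≤ ∫ _x, (1 : ℝ) ∂ν := by
          refine integral_mono_ae ?_ (integrable_const _) ?_
          · refine Integrable.of_bound (((measurable_msg G μ _ _).comp measurable_fst).pow_const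
              2).aestronglyMeasurable 1 ?_
            filter_upwards [h.bm (p l) (p (l + 1))] with x hx
            have h1 := hx.trans h.zb1.le
            rw [Real.norm_eq_abs, abs_pow]
            exact pow_le_one₀ (abs_nonneg _) h1
          · filter_upwards [h.bm (p l) (p (l + 1))] with x hx
            have h1 := hx.trans h.zb1.le
            rw [← sq_abs]
            exact pow_le_one₀ (abs_nonneg _) h1
      _ = 1 := by simp
  have hκ : 0 ≤ 1 - (1 - Real.tanh β ^ 2) * Real.tanh β ^ 2 / 4 * q := by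
    have h1 := hE.theta_pos
    have h2 := hE.theta_lt_one
    have h3 : Real.tanh β ^ 2 ≤ 1 := pow_le_one₀ h1.le h2.le
    have h4 : 0 ≤ Real.tanh β ^ 2 := sq_nonneg _
    have h5 : (1 - Real.tanh β ^ 2) * Real.tanh β ^ 2 ≤ 1 := by nlinarith
    have h6 : 0 ≤ (1 - Real.tanh β ^ 2) * Real.tanh β ^ 2 := mul_nonneg (by linarith) h4
    have h7 := h.q0
    nlinarith
  have ht : ∀ j : ℕ, 0 ≤ 2 * (1 - (1 - Real.tanh β ^ 2) * Real.tanh β ^ 2 / 4 * q) ^ (j / 2) :=
    fun j => mul_nonneg zero_le_two (pow_nonneg hκ _)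
  rw [h.avg_ends hE hL hp hX hXB hinv]
  have hmono : ∀ (Y1 Y2 : (V × ℕ → ℝ) × (V × ℕ → ℝ) → ℝ), Measurable Y1 → Measurable Y2 →
      (∀ᵐ x ∂ν, Y1 x ∈ Set.Icc (0 : ℝ) 1) → (∀ᵐ x ∂ν, Y2 x ∈ Set.Icc (0 : ℝ) 1) →
      ∫ x, X x * Y1 x * Y2 x ∂ν ≤ ∫ x, X x * Y1 x ∂ν := by
    intro Y1 Y2 h1 h2 h3 h4
    refine integral_mono_ae ?_ ?_ ?_
    · refine Integrable.of_bound ((hX.mul h1).mul h2).aestronglyMeasurable B ?_
      filter_upwards [hXB, h3, h4] with x hx h3 h4
      rw [Real.norm_eq_abs, mul_assoc, abs_mul, abs_of_nonneg (mul_nonneg h3.1 h4.1)]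
      calc |X x| * _ ≤ B * 1 := mul_le_mul hx (mul_le_one₀ h3.2 h4.1 h4.2) (mul_nonneg h3.1 h4.1) hB
        _ = B := mul_one B
    · refine Integrable.of_bound (hX.mul h1).aestronglyMeasurable B ?_
      filter_upwards [hXB, h3] with x hx h3
      rw [Real.norm_eq_abs, abs_mul, abs_of_nonneg h3.1]
      calc |X x| * _ ≤ B * 1 := mul_le_mul hx h3.2 h3.1 hB
        _ = B := mul_one B
    · filter_upwards [h3, h4] with x h3 h4
      exact mul_le_of_le_one_right (mul_nonneg (hX0 x) h3.1) h4.2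
  have hb1 := h.betm l _ _ hadj1
  have hb2 := h.betm m _ _ hadj2
  rcases le_total l m with hlm | hlm
  · have hjm : j = m := by omega
    subst hjm
    refine le_trans ?_ (pav_tail hX hm2 hX0 hXB hb2 (ht j) hB (h.tail j _ _ hadj2))
    refine le_trans (le_of_eq ?_) (hmono _ _ hm2 hm1 hb2 hb1)
    refine integral_congr_ae (Eventually.of_forall fun x => ?_)
    simp only
    ring
  · have hjl : j = l := by omega
    subst hjl
    exact (hmono _ _ hm1 hm2 hb1 hb2).trans
      (pav_tail hX hm1 hX0 hXB hb1 (ht j) hB (h.tail j _ _ hadj1))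


/-- `D`. -/
noncomputable def pD (G : SimpleGraph V) (μ : Measure (V → Bool)) (o : V)
    (ν : Measure ((V × ℕ → ℝ) × (V × ℕ → ℝ))) : ℝ :=
  ∫ x, (M G μ Set.univ o x.1 - M G μ Set.univ o x.2) ^ 2 ∂ν

/-- `K`. -/
noncomputable def pK (G : SimpleGraph V) (μ : Measure (V → Bool)) (θ : ℝ) (p0 p1 : V)
    (ν : Measure ((V × ℕ → ℝ) × (V × ℕ → ℝ))) : ℝ :=
  ∫ x, (gam G μ θ p0 p1 x.1 - gam G μ θ p0 p1 x.2) ^ 2 ∂ν

end Vale.Agent.P161.Crit
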