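import Vale.Agent.Lib.P161.Crit.PairT1
import Vale.Agent.Lib.P161.Crit.PairAvg

/-!
P161-CRIT, module PairInst: the pair environment at time `x` of the doubled process is a `PairEnv`.
-/

open MeasureTheory Filter Topology ProbabilityTheory

namespace Vale.Agent.P161.Crit

variable {V : Type*} {G : SimpleGraph V} {μ : Measure (V → Bool)}

/-- The pair environment at time `x ≤ J`. -/
theorem pairEnv_nuX [G.LocallyFinite] [Countable V] [IsProbabilityMeasure μ] {d : ℕ} {β : ℝ}
    (hE : Env G d β μ) {a : ℝ} (ha : 0 ≤ a) (ha1 : a < 1) (J : ℕ) :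
    ∃ zb C1 : ℝ, ∀ x : ℝ, 0 < x → x ≤ J → ∀ p p' : V, G.Adj p p' →
      PairEnv G μ (Real.tanh β) d zb C1 (qx G μ a p p' x) (nuX G μ a x) := by
  obtain ⟨z, hz0, hz1, hz⟩ := exists_bound G hE.tree hE.reg hE.ising ha ha1 J
  obtain ⟨C1, hC1, ht1⟩ := nuX_t1 (G := G) (μ := μ) hE ha ha1
  refine ⟨z, C1, fun x hx hxJ p p' hpp' => ?_⟩
  have hmx : ∀ e : V × ℕ, MeasurableSet (mx x e) := fun e =>
    measurableSet_lt (measurable_const.add measurable_subtype_coe) measurable_const
  have hO : Obs μ (PO μ) Prod.fst (ym a (mx x)) (Qm (mx x)) (zm a (mx x)) a :=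
    obs_mask ha ha1 (mx x) hmx
  have hom : HomEnv G (PO μ) (ym a (mx x)) (zm a (mx x)) := hom_mx hE ha ha1 x
  have hfst := nuX_fst (G := G) (μ := μ) hE ha ha1 x
  set f : Conf V → (V × ℕ → ℝ) := fun ω => slp (zm a (mx x)) (ym a (mx x) ω) with hf
  have hfm : Measurable f := hO.measurable_slp.comp hO.measY
  have hfw : ∀ ω : Conf V, f ω = ws a ω.2.1 (tt a ω.1 ω.2.1 ω.2.2) x := fun ω => by
    rw [hf]
    simp only
    rw [slp_ym, wm_mx]
  have hfa : ∀ ω e, |f ω e| ≤ a := fun ω e => hO.abs_slp_le _ e
  have hfJ : ∀ ω e, J ≤ e.2 → f ω e = 0 := fun ω e he => by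
    rw [hfw]
    exact ws_eq_zero a _ _ hxJ e he
  have htr : ∀ {Pr : (V × ℕ → ℝ) → Prop}, MeasurableSet {w | Pr w} →
      (∀ᵐ ω ∂(PO μ), Pr (f ω)) → ∀ᵐ y ∂(nuX G μ a x), Pr y.1 := by
    intro Pr hPr h
    refine ae_of_ae_map (p := Pr) measurable_fst.aemeasurable ?_
    rw [hfst]
    exact (ae_map_iff hfm.aemeasurable hPr).2 h
  have hint : ∀ {F : (V × ℕ → ℝ) → ℝ}, Measurable F →
      ∫ y, F y.1 ∂(nuX G μ a x) = ∫ ω, F (f ω) ∂(PO μ) := by
    intro F hF
    rw [← integral_map measurable_fst.aemeasurable hF.aestronglyMeasurable, hfst,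
      integral_map hfm.aemeasurable hF.aestronglyMeasurable]
  have hreal : ∀ {S : Set (V × ℕ → ℝ)}, MeasurableSet S →
      (nuX G μ a x).real {y | y.1 ∈ S} = (PO μ).real {ω | f ω ∈ S} := by
    intro S hS
    have h1 : (nuX G μ a x) (Prod.fst ⁻¹' S) = (PO μ) (f ⁻¹' S) := by
      rw [← Measure.map_apply measurable_fst hS, hfst, Measure.map_apply hfm hS]
    exact congrArg ENNReal.toReal h1
  have hM := fun v => measurable_M G μ Set.univ v
  have hmsg := fun p q => measurable_msg G μ p q
  have hq : ∀ r r', G.Adj r r' →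
      ∫ ω, msg G μ r r' (slp (zm a (mx x)) (ym a (mx x) ω)) ^ 2 ∂(PO μ) =
        qx G μ a p p' x := by
    intro r r' hr
    rw [hO.msg_hom hE hom hr hpp' (F := fun t => t ^ 2) (measurable_id.pow_const 2)]
    unfold qx
    refine integral_congr_ae (Eventually.of_forall fun ω => ?_)
    simp only
    rw [← hfw ω]
  have hq0 : 0 ≤ qx G μ a p p' x := integral_nonneg fun ω => sq_nonneg _
  have hprob : IsProbabilityMeasure (nuX G μ a x) := by
    have := isProbabilityMeasure_PO (μ := μ)
    refine ⟨?_⟩
    have h1 : (nuX G μ a x) (Prod.fst ⁻¹' (Set.univ : Set (V × ℕ → ℝ))) =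
        (PO μ) (f ⁻¹' Set.univ) := by
      rw [← Measure.map_apply measurable_fst MeasurableSet.univ, hfst,
        Measure.map_apply hfm MeasurableSet.univ]
    rw [Set.preimage_univ, Set.preimage_univ] at h1
    rw [h1]
    exact measure_univ
  have hph : ∀ r r', Measurable fun w => ph (Real.tanh β) (msg G μ r r' w) := by
    intro r r'
    unfold ph
    have := hmsg r r'
    fun_prop
  exact
    { prob := hprob
      swap := nuX_swap hE ha ha1 x
      inv := nuX_act hE ha ha1 x
      zb0 := hz0
      zb1 := hz1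
      C10 := hC1
      q0 := hq0
      bM := fun v => by
        refine htr (Pr := fun w => |M G μ Set.univ v w| ≤ z)
          (measurableSet_le (hM v).abs measurable_const) (Eventually.of_forall fun ω => ?_)
        exact (hz (f ω) (hfa ω) (hfJ ω)).2 Set.univ v
      bm := fun r r' => by
        refine htr (Pr := fun w => |msg G μ r r' w| ≤ z)
          (measurableSet_le (hmsg r r').abs measurable_const) (Eventually.of_forall fun ω => ?_)
        exact (hz (f ω) (hfa ω) (hfJ ω)).2 (side G r r') r
      edge := fun r r' hr => by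
        refine htr (Pr := fun w => M G μ Set.univ r w =
          (msg G μ r r' w + Real.tanh β * msg G μ r' r w) /
            (1 + Real.tanh β * msg G μ r r' w * msg G μ r' r w)) ?_
          (hO.M_univ_edge hE.tree hE.ising hr)
        have h1 := hM r
        have h2 := hmsg r r'
        have h3 := hmsg r' r
        exact measurableSet_eq_fun h1 (by fun_prop)
      covn := fun o o' => by
        refine htr (Pr := fun w => 0 ≤ Cv G μ Set.univ o o' w)
          (measurableSet_le measurable_const (measurable_Cv G μ Set.univ o o')) ?_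
        exact hO.Cv_nonneg hE.theta_pos.le hE.tree hE.ising Set.univ o o'
      cov2 := fun r n hr => by
        refine htr (Pr := fun w => Cv G μ Set.univ (r 0) (r n) w ^ 2 =
          (1 - M G μ Set.univ (r 0) w ^ 2) * (1 - M G μ Set.univ (r n) w ^ 2) *
            (Real.tanh β ^ 2) ^ n *
            ∏ i ∈ Finset.range n, (ph (Real.tanh β) (msg G μ (r (i + 1)) (r i) w) *
              ph (Real.tanh β) (msg G μ (r i) (r (i + 1)) w))) ?_
          (hO.Cv_sq_geo hE.tree hE.ising hr)
        refine measurableSet_eq_fun ((measurable_Cv G μ Set.univ _ _).pow_const 2) ?_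
        refine Measurable.mul ?_ (Finset.measurable_prod _ fun i _ => (hph _ _).mul (hph _ _))
        have h1 := hM (r 0)
        have h2 := hM (r n)
        fun_prop
      qdef := fun r r' hr => by
        rw [hint (F := fun w => msg G μ r r' w ^ 2) ((hmsg r r').pow_const 2)]
        exact hq r r' hr
      t1 := fun r n hr => ht1 x r n hr
      betm := fun l v u hvu => by
        refine htr (Pr := fun w => bet G μ (Real.tanh β) d l v u w ∈ Set.Icc (0 : ℝ) 1)
          ((measurable_bet _ d l v u) measurableSet_Icc) (Eventually.of_forall fun ω => ?_)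
        exact bet_mem hE ha ha1 (hfa ω) l hvu
      tail := fun l v u hvu => by
        have h1 := hO.tail_bet hE hom hq0 hq l hvu
        refine le_trans (le_of_eq ?_) h1
        exact hreal (measurableSet_le measurable_const (measurable_bet _ d l v u)) }

end Vale.Agent.P161.Crit
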