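import Vale.Agent.Lib.P161.Crit.PairAvg

/-!
P161-CRIT, module PairLong: bound for one pair at a large distance.
Notation (for adjacent `p0 p1` and a vertex `o`): `D = E (M_o - M_o')²`, `K = E (γ - γ')²`.
-/

open MeasureTheory Filter Topology

namespace Vale.Agent.P161.Crit

variable {V : Type*} {G : SimpleGraph V}

/-! ### Real lemmas -/

theorem pl_rho (κ q : ℝ) (hκ0 : 0 ≤ κ) (hκ1 : κ ≤ 1) (hq0 : 0 ≤ q) (hq1 : q ≤ 1) {n j : ℕ}
    (hj : n ≤ 3 * j) : (1 - κ * q) ^ (j / 2) ≤ 3 * Real.exp (-κ * q * n / 8) := by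
  have h0 : 0 ≤ 1 - κ * q := by nlinarith
  have h1 : 1 - κ * q ≤ Real.exp (-(κ * q)) := by
    have := Real.add_one_le_exp (-(κ * q))
    linarith
  have h2 : (1 - κ * q) ^ (j / 2) ≤ Real.exp (-(κ * q)) ^ (j / 2) := pow_le_pow_left₀ h0 h1 _
  rw [← Real.exp_nat_mul] at h2
  have h3 : (n : ℝ) / 6 - 1 / 2 ≤ ((j / 2 : ℕ) : ℝ) := by
    have h4 : j ≤ 2 * (j / 2) + 1 := by omega
    have h5 : n ≤ 6 * (j / 2) + 3 := by omega
    have h6 : (n : ℝ) ≤ 6 * ((j / 2 : ℕ) : ℝ) + 3 := by exact_mod_cast h5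
    linarith
  have hκq : 0 ≤ κ * q := mul_nonneg hκ0 hq0
  have hκq1 : κ * q ≤ 1 := by linarith only [h0]
  have h7 : ((j / 2 : ℕ) : ℝ) * -(κ * q) ≤ 1 + (-κ * q * n / 8) := by
    have h8 : ((n : ℝ) / 6 - 1 / 2) * (κ * q) ≤ ((j / 2 : ℕ) : ℝ) * (κ * q) :=
      mul_le_mul_of_nonneg_right h3 hκq
    have h9 : 0 ≤ (n : ℝ) * (κ * q) := mul_nonneg (Nat.cast_nonneg _) hκq
    nlinarith only [h3, hκq, hκq1]
  calc (1 - κ * q) ^ (j / 2) ≤ Real.exp (((j / 2 : ℕ) : ℝ) * -(κ * q)) := h2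
    _ ≤ Real.exp (1 + (-κ * q * n / 8)) := Real.exp_le_exp.2 h7
    _ = Real.exp 1 * Real.exp (-κ * q * n / 8) := Real.exp_add _ _
    _ ≤ 3 * Real.exp (-κ * q * n / 8) := by
        refine mul_le_mul_of_nonneg_right ?_ (Real.exp_pos _).le
        have := Real.exp_one_lt_d9
        linarith

theorem pl_tail (k : ℝ) (hk0 : 1 ≤ k) {n j : ℕ} (hj : n ≤ 3 * j) :
    Real.exp (-2 * Real.sqrt k ^ (j / 2)) ≤
      Real.exp k * Real.exp (- Real.sqrt k ^ ((n : ℝ) / 8)) := by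
  have hk : 1 ≤ Real.sqrt k := by
    rw [show (1 : ℝ) = Real.sqrt 1 by simp]
    exact Real.sqrt_le_sqrt hk0
  rw [← Real.exp_add]
  refine Real.exp_le_exp.2 ?_
  have hpos : 0 ≤ Real.sqrt k ^ (j / 2) := by positivity
  rcases le_or_gt 12 n with h12 | h12
  · have h1 : (n : ℝ) / 8 ≤ ((j / 2 : ℕ) : ℝ) := by
      have h5 : 3 * n ≤ 24 * (j / 2) := by omega
      have h6 : 3 * (n : ℝ) ≤ 24 * ((j / 2 : ℕ) : ℝ) := by exact_mod_cast h5
      linarith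
    have h2 : Real.sqrt k ^ ((n : ℝ) / 8) ≤ Real.sqrt k ^ (j / 2) := by
      rw [← Real.rpow_natCast]
      exact Real.rpow_le_rpow_of_exponent_le hk h1
    linarith
  · have h1 : (n : ℝ) / 8 ≤ ((2 : ℕ) : ℝ) := by
      have h5 : (n : ℝ) ≤ 12 := by exact_mod_cast h12.le
      push_cast
      linarith
    have h2 : Real.sqrt k ^ ((n : ℝ) / 8) ≤ k := by
      calc Real.sqrt k ^ ((n : ℝ) / 8) ≤ Real.sqrt k ^ ((2 : ℕ) : ℝ) :=
            Real.rpow_le_rpow_of_exponent_le hk h1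
        _ = Real.sqrt k ^ 2 := Real.rpow_natCast _ _
        _ = k := Real.sq_sqrt (by linarith)
    linarith

theorem pl_prod_le (f g : ℕ → ℝ) (l L m : ℕ)
    (hf : ∀ i, i < l + L + m → f i ∈ Set.Icc (0 : ℝ) 1)
    (hg : ∀ i, i < l + L + m → g i ∈ Set.Icc (0 : ℝ) 1) :
    ∏ i ∈ Finset.range (l + L + m), (f i * g i) ≤
      (∏ i ∈ Finset.range l, g i) * ∏ i ∈ Finset.range m, f (l + L + i) := by
  rw [Finset.prod_range_add, Finset.prod_range_add]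
  have h1 : ∏ i ∈ Finset.range l, (f i * g i) ≤ ∏ i ∈ Finset.range l, g i := by
    refine Finset.prod_le_prod (fun i hi => ?_) (fun i hi => ?_)
    · have := Finset.mem_range.1 hi
      exact mul_nonneg (hf i (by omega)).1 (hg i (by omega)).1
    · have := Finset.mem_range.1 hi
      exact mul_le_of_le_one_left (hg i (by omega)).1 (hf i (by omega)).2
  have h2 : ∏ i ∈ Finset.range L, (f (l + i) * g (l + i)) ≤ 1 := by
    refine Finset.prod_le_one (fun i hi => ?_) (fun i hi => ?_)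
    · have := Finset.mem_range.1 hi
      exact mul_nonneg (hf _ (by omega)).1 (hg _ (by omega)).1
    · have := Finset.mem_range.1 hi
      exact mul_le_one₀ (hf _ (by omega)).2 (hg _ (by omega)).1 (hg _ (by omega)).2
  have h3 : ∏ i ∈ Finset.range m, (f (l + L + i) * g (l + L + i)) ≤
      ∏ i ∈ Finset.range m, f (l + L + i) := by
    refine Finset.prod_le_prod (fun i hi => ?_) (fun i hi => ?_)
    · have := Finset.mem_range.1 hi
      exact mul_nonneg (hf _ (by omega)).1 (hg _ (by omega)).1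
    · have := Finset.mem_range.1 hi
      exact mul_le_of_le_one_right (hf _ (by omega)).1 (hg _ (by omega)).2
  have n1 : 0 ≤ ∏ i ∈ Finset.range l, (f i * g i) := Finset.prod_nonneg fun i hi => by
    have := Finset.mem_range.1 hi
    exact mul_nonneg (hf _ (by omega)).1 (hg _ (by omega)).1
  have n1' : 0 ≤ ∏ i ∈ Finset.range l, g i := Finset.prod_nonneg fun i hi => by
    have := Finset.mem_range.1 hi
    exact (hg _ (by omega)).1
  have n3 : 0 ≤ ∏ i ∈ Finset.range m, (f (l + L + i) * g (l + L + i)) :=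
    Finset.prod_nonneg fun i hi => by
      have := Finset.mem_range.1 hi
      exact mul_nonneg (hf _ (by omega)).1 (hg _ (by omega)).1
  refine mul_le_mul ?_ h3 n3 n1'
  calc (∏ i ∈ Finset.range l, (f i * g i)) * ∏ i ∈ Finset.range L, (f (l + i) * g (l + i)) ≤
      (∏ i ∈ Finset.range l, (f i * g i)) * 1 := mul_le_mul_of_nonneg_left h2 n1
    _ ≤ _ := by rw [mul_one]; exact h1

theorem pl_blocks (δ : ℕ → ℝ) (N : ℕ) : ∀ (nb n : ℕ), n ≤ nb * N →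
    ∑ i ∈ Finset.range n, δ i =
      ∑ b ∈ Finset.range nb, ∑ i ∈ Finset.range (min N (n - b * N)), δ (b * N + i) := by
  intro nb
  induction nb with
  | zero =>
    intro n hn
    have : n = 0 := by omega
    subst this
    simp
  | succ nb ih =>
    intro n hn
    rw [Finset.sum_range_succ]
    rcases le_or_gt n (nb * N) with h | h
    · rw [ih n h]
      have : n - nb * N = 0 := by omega
      rw [this]
      simp
    · obtain ⟨r, rfl⟩ : ∃ r, n = nb * N + r := ⟨n - nb * N, by omega⟩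
      rw [Finset.sum_range_add, ih (nb * N) le_rfl]
      have hr : r ≤ N := by
        have : (nb + 1) * N = nb * N + N := by ring
        omega
      congr 1
      · refine Finset.sum_congr rfl fun b hb => ?_
        have hb' := Finset.mem_range.1 hb
        have h1 : (b + 1) * N ≤ nb * N := Nat.mul_le_mul_right N hb'
        have h2 : (b + 1) * N = b * N + N := by ring
        congr 2
        omega
      · congr 2
        omega

/-! ### Facts on the pair environment -/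

theorem pl_ph_pos {θ zb x : ℝ} (h0 : 0 ≤ θ) (h1 : θ < 1) (hzb : zb < 1) (hx : |x| ≤ zb) :
    0 < ph θ x := by
  have hx1 : |x| < 1 := hx.trans_lt hzb
  have h2 : x ^ 2 < 1 := by
    rw [← sq_abs]
    have := abs_nonneg x
    nlinarith only [hx1, this]
  have h3 : θ ^ 2 ≤ 1 := by nlinarith
  have h4 : 0 ≤ x ^ 2 := sq_nonneg x
  unfold ph
  refine div_pos (by linarith) ?_
  nlinarith

theorem pl_exp (μ : Measure (V → Bool)) (θ : ℝ) {p : ℕ → V} {n : ℕ} {w : V × ℕ → ℝ}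
    (hpos : ∀ i < n, 0 < ph θ (msg G μ (p (i + 1)) (p i) w) ∧
      0 < ph θ (msg G μ (p i) (p (i + 1)) w)) :
    Real.exp (2 * ∑ i ∈ Finset.range n, gam G μ θ (p i) (p (i + 1)) w) =
      ∏ i ∈ Finset.range n, (ph θ (msg G μ (p (i + 1)) (p i) w) *
        ph θ (msg G μ (p i) (p (i + 1)) w)) := by
  rw [Finset.mul_sum, Real.exp_sum]
  refine Finset.prod_congr rfl fun i hi => ?_
  have h := hpos i (Finset.mem_range.1 hi)
  unfold gam
  rw [show 2 * ((Real.log (ph θ (msg G μ (p i) (p (i + 1)) w)) +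
    Real.log (ph θ (msg G μ (p (i + 1)) (p i) w))) / 2) =
      Real.log (ph θ (msg G μ (p (i + 1)) (p i) w)) +
      Real.log (ph θ (msg G μ (p i) (p (i + 1)) w)) by ring, Real.exp_add,
    Real.exp_log h.1, Real.exp_log h.2]

/-- Swapping the two copies. -/
theorem PairEnv.pl_ae_swap [G.LocallyFinite] {d : ℕ} {θ : ℝ} {μ : Measure (V → Bool)}
    {zb C1 q : ℝ} {ν : Measure ((V × ℕ → ℝ) × (V × ℕ → ℝ))} (h : PairEnv G μ θ d zb C1 q ν)
    {P : (V × ℕ → ℝ) → Prop} (hP : ∀ᵐ x ∂ν, P x.1) : ∀ᵐ x ∂ν, P x.2 := by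
  have h1 : ∀ᵐ x ∂(ν.map Prod.swap), P x.1 := by
    rw [h.swap]
    exact hP
  exact ae_of_ae_map measurable_swap.aemeasurable h1

theorem PairEnv.pl_int_swap [G.LocallyFinite] {d : ℕ} {θ : ℝ} {μ : Measure (V → Bool)}
    {zb C1 q : ℝ} {ν : Measure ((V × ℕ → ℝ) × (V × ℕ → ℝ))} (h : PairEnv G μ θ d zb C1 q ν)
    {F : (V × ℕ → ℝ) × (V × ℕ → ℝ) → ℝ} (hF : Measurable F) :
    ∫ x, F x.swap ∂ν = ∫ x, F x ∂ν := by
  conv_rhs => rw [← h.swap]
  rw [integral_map measurable_swap.aemeasurable hF.aestronglyMeasurable]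

theorem PairEnv.pl_q_le_one [G.LocallyFinite] {d : ℕ} {β : ℝ} {μ : Measure (V → Bool)}
    (hE : Env G d β μ) {zb C1 q : ℝ} {ν : Measure ((V × ℕ → ℝ) × (V × ℕ → ℝ))}
    (h : PairEnv G μ (Real.tanh β) d zb C1 q ν) {v v' : V} (hadj : G.Adj v v') : q ≤ 1 := by
  have := hE.prob
  have := h.prob
  rw [← h.qdef _ _ hadj]
  calc ∫ x, msg G μ v v' x.1 ^ 2 ∂ν ≤ ∫ _x, (1 : ℝ) ∂ν := by
        refine integral_mono_ae ?_ (integrable_const _) ?_
        · refine Integrable.of_bound (((measurable_msg G μ _ _).comp measurable_fst).pow_const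
            2).aestronglyMeasurable 1 ?_
          filter_upwards [h.bm v v'] with x hx
          have h1 := hx.trans h.zb1.le
          rw [Real.norm_eq_abs, abs_pow]
          exact pow_le_one₀ (abs_nonneg _) h1
        · filter_upwards [h.bm v v'] with x hx
          have h1 := hx.trans h.zb1.le
          rw [← sq_abs]
          exact pow_le_one₀ (abs_nonneg _) h1
    _ = 1 := by simp

/-- Homogeneity of `D`. -/
theorem PairEnv.pl_pD [G.LocallyFinite] {d : ℕ} {β : ℝ} {μ : Measure (V → Bool)}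
    (hE : Env G d β μ) {zb C1 q : ℝ} {ν : Measure ((V × ℕ → ℝ) × (V × ℕ → ℝ))}
    (h : PairEnv G μ (Real.tanh β) d zb C1 q ν) (o o' : V) : pD G μ o' ν = pD G μ o ν := by
  have := hE.prob
  obtain ⟨g, hg⟩ := geo_iso hE.tree hE.reg (p := fun _ => o) (p' := fun _ => o') (n := 0)
    ⟨fun i hi => absurd hi (Nat.not_lt_zero i), by simp⟩
    ⟨fun i hi => absurd hi (Nat.not_lt_zero i), by simp⟩
  have hgo : g o = o' := hg 0 le_rfl
  unfold pD
  rw [← h.integral_act g (F := fun x => (M G μ Set.univ o' x.1 - M G μ Set.univ o' x.2) ^ 2)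
    ((((measurable_M G μ _ _).comp measurable_fst).sub
      ((measurable_M G μ _ _).comp measurable_snd)).pow_const 2)]
  refine integral_congr_ae (Eventually.of_forall fun x => ?_)
  simp only
  rw [← hgo, M_univ_act hE.tree.connected g (hE.pav_map_actC g),
    M_univ_act hE.tree.connected g (hE.pav_map_actC g)]

/-- Homogeneity of `K`. -/
theorem PairEnv.pl_pK [G.LocallyFinite] {d : ℕ} {β : ℝ} {μ : Measure (V → Bool)}
    (hE : Env G d β μ) {zb C1 q : ℝ} {ν : Measure ((V × ℕ → ℝ) × (V × ℕ → ℝ))}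
    (h : PairEnv G μ (Real.tanh β) d zb C1 q ν) {p : ℕ → V} {n i : ℕ} (hp : Geo G p n)
    (hi : i < n) :
    pK G μ (Real.tanh β) (p i) (p (i + 1)) ν = pK G μ (Real.tanh β) (p 0) (p 1) ν := by
  have := hE.prob
  have hg1 : Geo G (fun k => p (0 + k)) 1 := hp.sub hE.tree.connected (by omega)
  have hg2 : Geo G (fun k => p (i + k)) 1 := hp.sub hE.tree.connected (by omega)
  obtain ⟨g, hg⟩ := geo_iso hE.tree hE.reg hg1 hg2
  have e0 : g (p 0) = p i := by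
    have := hg 0 (by omega)
    simpa using this
  have e1 : g (p 1) = p (i + 1) := by
    have := hg 1 le_rfl
    simpa using this
  unfold pK
  rw [← h.integral_act g (F := fun x => (gam G μ (Real.tanh β) (p i) (p (i + 1)) x.1 -
    gam G μ (Real.tanh β) (p i) (p (i + 1)) x.2) ^ 2)
    ((((measurable_gam G μ _ _ _).comp measurable_fst).sub
      ((measurable_gam G μ _ _ _).comp measurable_snd)).pow_const 2)]
  refine integral_congr_ae (Eventually.of_forall fun x => ?_)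
  simp only
  rw [← e0, ← e1, gam_act hE.tree.connected g (hE.pav_map_actC g),
    gam_act hE.tree.connected g (hE.pav_map_actC g)]

/-- A nonnegative bounded function of the block times `e^{2Z}`. -/
theorem PairEnv.pl_term [G.LocallyFinite] {d : ℕ} {β : ℝ} {μ : Measure (V → Bool)}
    (hE : Env G d β μ) {zb C1 q : ℝ} {ν : Measure ((V × ℕ → ℝ) × (V × ℕ → ℝ))}
    (h : PairEnv G μ (Real.tanh β) d zb C1 q ν) {p : ℕ → V} {n l L m : ℕ} (hn : n = l + L + m)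
    (hL : 1 ≤ L) (hp : Geo G p n) {X : (V × ℕ → ℝ) × (V × ℕ → ℝ) → ℝ} (hX : Measurable X)
    {B : ℝ} (hB : 0 ≤ B) (hX0 : ∀ x, 0 ≤ X x) (hXB : ∀ᵐ x ∂ν, |X x| ≤ B)
    (hinv : ∀ g : G ≃g G, (∀ i, l ≤ i → i ≤ l + L → g (p i) = p i) →
      ∀ x, X (actE g.toEquiv x.1, actE g.toEquiv x.2) = X x) {j : ℕ} (hj : j = max l m)
    (hj3 : n ≤ 3 * j) :
    ∫ x, X x * Real.exp (2 * ∑ i ∈ Finset.range n,
        gam G μ (Real.tanh β) (p i) (p (i + 1)) x.1) ∂ν ≤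
      6 * Real.exp (-(1 - Real.tanh β ^ 2) * Real.tanh β ^ 2 / 4 * q * n / 8) * (∫ x, X x ∂ν) +
        B * (Real.exp ((d : ℝ) - 1) * Real.exp (- Real.sqrt ((d : ℝ) - 1) ^ ((n : ℝ) / 8))) := by
  have := hE.prob
  have := h.prob
  subst hn
  have hq1 : q ≤ 1 := h.pl_q_le_one hE (hp.1 0 (by omega))
  have hd3 : (3 : ℝ) ≤ d := by exact_mod_cast hE.three
  have hθ0 := hE.theta_pos
  have hθ1 := hE.theta_lt_one
  have hθ2 : Real.tanh β ^ 2 ≤ 1 := pow_le_one₀ hθ0.le hθ1.le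
  have hθ3 : 0 ≤ Real.tanh β ^ 2 := sq_nonneg _
  set κ : ℝ := (1 - Real.tanh β ^ 2) * Real.tanh β ^ 2 / 4 with hκ
  have hκ0 : 0 ≤ κ := by
    have : 0 ≤ (1 - Real.tanh β ^ 2) * Real.tanh β ^ 2 := mul_nonneg (by linarith) hθ3
    rw [hκ]
    linarith
  have hκ1 : κ ≤ 1 := by
    have : (1 - Real.tanh β ^ 2) * Real.tanh β ^ 2 ≤ 1 := by nlinarith only [hθ2]
    rw [hκ]
    linarith
  have hbm : ∀ᵐ x ∂ν, ∀ i < l + L + m, |msg G μ (p i) (p (i + 1)) x.1| ≤ zb ∧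
      |msg G μ (p (i + 1)) (p i) x.1| ≤ zb := by
    rw [ae_all_iff]
    intro i
    filter_upwards [h.bm (p i) (p (i + 1)), h.bm (p (i + 1)) (p i)] with x h1 h2 _
    exact ⟨h1, h2⟩
  have hIcc : ∀ᵐ x ∂ν, ∀ i < l + L + m,
      ph (Real.tanh β) (msg G μ (p (i + 1)) (p i) x.1) ∈ Set.Icc (0 : ℝ) 1 ∧
      ph (Real.tanh β) (msg G μ (p i) (p (i + 1)) x.1) ∈ Set.Icc (0 : ℝ) 1 := by
    filter_upwards [hbm] with x hx i hi
    obtain ⟨h1, h2⟩ := hx i hi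
    exact ⟨⟨ph_nonneg hθ0.le hθ1 (h2.trans h.zb1.le), ph_le_one hθ0.le hθ1 (h2.trans h.zb1.le)⟩,
      ⟨ph_nonneg hθ0.le hθ1 (h1.trans h.zb1.le), ph_le_one hθ0.le hθ1 (h1.trans h.zb1.le)⟩⟩
  have hexp : ∀ᵐ x ∂ν, Real.exp (2 * ∑ i ∈ Finset.range (l + L + m),
      gam G μ (Real.tanh β) (p i) (p (i + 1)) x.1) ≤
      (∏ i ∈ Finset.range l, ph (Real.tanh β) (msg G μ (p i) (p (i + 1)) x.1)) *
      (∏ i ∈ Finset.range m,
        ph (Real.tanh β) (msg G μ (p (l + L + i + 1)) (p (l + L + i)) x.1)) := by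
    filter_upwards [hbm, hIcc] with x hx hI
    rw [pl_exp μ (Real.tanh β) (fun i hi => ⟨pl_ph_pos hθ0.le hθ1 h.zb1 (hx i hi).2,
      pl_ph_pos hθ0.le hθ1 h.zb1 (hx i hi).1⟩)]
    exact pl_prod_le (fun i => ph (Real.tanh β) (msg G μ (p (i + 1)) (p i) x.1))
      (fun i => ph (Real.tanh β) (msg G μ (p i) (p (i + 1)) x.1)) l L m
      (fun i hi => (hI i hi).1) (fun i hi => (hI i hi).2)
  have hmP : Measurable fun x : (V × ℕ → ℝ) × (V × ℕ → ℝ) =>
      (∏ i ∈ Finset.range l, ph (Real.tanh β) (msg G μ (p i) (p (i + 1)) x.1)) *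
      (∏ i ∈ Finset.range m,
        ph (Real.tanh β) (msg G μ (p (l + L + i + 1)) (p (l + L + i)) x.1)) :=
    (Finset.measurable_prod _ fun i _ => (pav_measurable_ph _).comp
      ((measurable_msg G μ _ _).comp measurable_fst)).mul
      (Finset.measurable_prod _ fun i _ => (pav_measurable_ph _).comp
      ((measurable_msg G μ _ _).comp measurable_fst))
  have hP1 : ∀ᵐ x ∂ν, (∏ i ∈ Finset.range l, ph (Real.tanh β) (msg G μ (p i) (p (i + 1)) x.1)) *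
      (∏ i ∈ Finset.range m,
        ph (Real.tanh β) (msg G μ (p (l + L + i + 1)) (p (l + L + i)) x.1)) ∈
          Set.Icc (0 : ℝ) 1 := by
    filter_upwards [hIcc] with x hI
    have a1 : 0 ≤ ∏ i ∈ Finset.range l, ph (Real.tanh β) (msg G μ (p i) (p (i + 1)) x.1) :=
      Finset.prod_nonneg fun i hi => (hI i (by have := Finset.mem_range.1 hi; omega)).2.1
    have a2 : ∏ i ∈ Finset.range l, ph (Real.tanh β) (msg G μ (p i) (p (i + 1)) x.1) ≤ 1 :=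
      Finset.prod_le_one (fun i hi => (hI i (by have := Finset.mem_range.1 hi; omega)).2.1)
        (fun i hi => (hI i (by have := Finset.mem_range.1 hi; omega)).2.2)
    have a3 : 0 ≤ ∏ i ∈ Finset.range m,
        ph (Real.tanh β) (msg G μ (p (l + L + i + 1)) (p (l + L + i)) x.1) :=
      Finset.prod_nonneg fun i hi => (hI _ (by have := Finset.mem_range.1 hi; omega)).1.1
    have a4 : ∏ i ∈ Finset.range m,
        ph (Real.tanh β) (msg G μ (p (l + L + i + 1)) (p (l + L + i)) x.1) ≤ 1 :=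
      Finset.prod_le_one (fun i hi => (hI _ (by have := Finset.mem_range.1 hi; omega)).1.1)
        (fun i hi => (hI _ (by have := Finset.mem_range.1 hi; omega)).1.2)
    exact ⟨mul_nonneg a1 a3, mul_le_one₀ a2 a3 a4⟩
  have hmE : Measurable fun x : (V × ℕ → ℝ) × (V × ℕ → ℝ) =>
      Real.exp (2 * ∑ i ∈ Finset.range (l + L + m),
        gam G μ (Real.tanh β) (p i) (p (i + 1)) x.1) :=
    Real.measurable_exp.comp ((Finset.measurable_sum _ fun i _ =>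
      (measurable_gam G μ _ _ _).comp measurable_fst).const_mul 2)
  have step1 : ∫ x, X x * Real.exp (2 * ∑ i ∈ Finset.range (l + L + m),
        gam G μ (Real.tanh β) (p i) (p (i + 1)) x.1) ∂ν ≤
      ∫ x, X x * (∏ i ∈ Finset.range l, ph (Real.tanh β) (msg G μ (p i) (p (i + 1)) x.1)) *
        (∏ i ∈ Finset.range m,
          ph (Real.tanh β) (msg G μ (p (l + L + i + 1)) (p (l + L + i)) x.1)) ∂ν := by
    refine integral_mono_ae ?_ ?_ ?_
    · refine Integrable.of_bound (hX.mul hmE).aestronglyMeasurable B ?_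
      filter_upwards [hXB, hexp, hP1] with x h1 h2 h3
      rw [Real.norm_eq_abs, abs_mul, abs_of_nonneg (Real.exp_pos _).le]
      calc |X x| * _ ≤ B * 1 := mul_le_mul h1 (h2.trans h3.2) (Real.exp_pos _).le hB
        _ = B := mul_one B
    · have : (fun x : (V × ℕ → ℝ) × (V × ℕ → ℝ) =>
          X x * (∏ i ∈ Finset.range l, ph (Real.tanh β) (msg G μ (p i) (p (i + 1)) x.1)) *
          (∏ i ∈ Finset.range m,
            ph (Real.tanh β) (msg G μ (p (l + L + i + 1)) (p (l + L + i)) x.1))) =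
          fun x => X x * ((∏ i ∈ Finset.range l,
            ph (Real.tanh β) (msg G μ (p i) (p (i + 1)) x.1)) *
          (∏ i ∈ Finset.range m,
            ph (Real.tanh β) (msg G μ (p (l + L + i + 1)) (p (l + L + i)) x.1))) := by
        funext x
        ring
      rw [this]
      refine Integrable.of_bound (hX.mul hmP).aestronglyMeasurable B ?_
      filter_upwards [hXB, hP1] with x h1 h3
      rw [Real.norm_eq_abs, abs_mul, abs_of_nonneg h3.1]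
      calc |X x| * _ ≤ B * 1 := mul_le_mul h1 h3.2 h3.1 hB
        _ = B := mul_one B
    · filter_upwards [hexp] with x h2
      rw [mul_assoc]
      exact mul_le_mul_of_nonneg_left h2 (hX0 x)
  refine step1.trans ((h.avg_tail hE hL hp hX hX0 hXB hinv hj).trans ?_)
  have hXint : 0 ≤ ∫ x, X x ∂ν := integral_nonneg hX0
  have r1 := pl_rho κ q hκ0 hκ1 h.q0 hq1 hj3
  have r2 := pl_tail ((d : ℝ) - 1) (by linarith) hj3
  have r3 : -κ * q * ((l + L + m : ℕ) : ℝ) / 8 =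
      -(1 - Real.tanh β ^ 2) * Real.tanh β ^ 2 / 4 * q * ((l + L + m : ℕ) : ℝ) / 8 := by
    rw [hκ]
    ring
  rw [r3] at r1
  refine add_le_add ?_ (mul_le_mul_of_nonneg_left r2 hB)
  refine mul_le_mul_of_nonneg_right ?_ hXint
  linarith

/-- `Z`. -/
noncomputable def plZ (G : SimpleGraph V) (μ : Measure (V → Bool)) (θ : ℝ) (p : ℕ → V) (n : ℕ)
    (w : V × ℕ → ℝ) : ℝ := ∑ i ∈ Finset.range n, gam G μ θ (p i) (p (i + 1)) w

theorem measurable_plZ (G : SimpleGraph V) (μ : Measure (V → Bool)) [IsProbabilityMeasure μ]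
    (θ : ℝ) (p : ℕ → V) (n : ℕ) : Measurable (plZ G μ θ p n) :=
  Finset.measurable_sum _ fun _ _ => measurable_gam G μ _ _ _

theorem PairEnv.pl_bm1 [G.LocallyFinite] {d : ℕ} {θ : ℝ} {μ : Measure (V → Bool)}
    {zb C1 q : ℝ} {ν : Measure ((V × ℕ → ℝ) × (V × ℕ → ℝ))} (h : PairEnv G μ θ d zb C1 q ν)
    (p : ℕ → V) : ∀ᵐ x ∂ν, ∀ i, |msg G μ (p i) (p (i + 1)) x.1| ≤ zb ∧
      |msg G μ (p (i + 1)) (p i) x.1| ≤ zb := by
  rw [ae_all_iff]
  intro i
  filter_upwards [h.bm (p i) (p (i + 1)), h.bm (p (i + 1)) (p i)] with x h1 h2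
  exact ⟨h1, h2⟩

theorem PairEnv.pl_bm2 [G.LocallyFinite] {d : ℕ} {θ : ℝ} {μ : Measure (V → Bool)}
    {zb C1 q : ℝ} {ν : Measure ((V × ℕ → ℝ) × (V × ℕ → ℝ))} (h : PairEnv G μ θ d zb C1 q ν)
    (p : ℕ → V) : ∀ᵐ x ∂ν, ∀ i, |msg G μ (p i) (p (i + 1)) x.2| ≤ zb ∧
      |msg G μ (p (i + 1)) (p i) x.2| ≤ zb :=
  h.pl_ae_swap (P := fun w => ∀ i, |msg G μ (p i) (p (i + 1)) w| ≤ zb ∧
      |msg G μ (p (i + 1)) (p i) w| ≤ zb) (h.pl_bm1 p)

theorem plZ_exp_le {θ zb : ℝ} (hθ0 : 0 ≤ θ) (hθ1 : θ < 1) (hzb1 : zb < 1)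
    (μ : Measure (V → Bool)) (p : ℕ → V) (n : ℕ) (w : V × ℕ → ℝ)
    (hw : ∀ i, |msg G μ (p i) (p (i + 1)) w| ≤ zb ∧ |msg G μ (p (i + 1)) (p i) w| ≤ zb) :
    Real.exp (2 * plZ G μ θ p n w) ≤ 1 := by
  unfold plZ
  rw [pl_exp μ θ fun i _ => ⟨pl_ph_pos hθ0 hθ1 hzb1 (hw i).2, pl_ph_pos hθ0 hθ1 hzb1 (hw i).1⟩]
  refine Finset.prod_le_one (fun i _ => ?_) (fun i _ => ?_)
  · exact mul_nonneg (ph_nonneg hθ0 hθ1 ((hw i).2.trans hzb1.le))
      (ph_nonneg hθ0 hθ1 ((hw i).1.trans hzb1.le))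
  · exact mul_le_one₀ (ph_le_one hθ0 hθ1 ((hw i).2.trans hzb1.le))
      (ph_nonneg hθ0 hθ1 ((hw i).1.trans hzb1.le))
      (ph_le_one hθ0 hθ1 ((hw i).1.trans hzb1.le))

theorem pl_int {T : Type*} [MeasurableSpace T] {ν : Measure T} [IsProbabilityMeasure ν]
    {X E : T → ℝ} {B : ℝ} (hX : Measurable X) (hEm : Measurable E)
    (hXB : ∀ᵐ x ∂ν, |X x| ≤ B) (hE0 : ∀ x, 0 ≤ E x) (hE1 : ∀ᵐ x ∂ν, E x ≤ 1) :
    Integrable (fun x => X x * E x) ν := by
  refine Integrable.of_bound (hX.mul hEm).aestronglyMeasurable B ?_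
  filter_upwards [hXB, hE1] with x h1 h2
  rw [Real.norm_eq_abs, abs_mul, abs_of_nonneg (hE0 x)]
  exact (mul_le_of_le_one_right (abs_nonneg _) h2).trans h1

theorem PairEnv.pl_MB [G.LocallyFinite] {d : ℕ} {θ : ℝ} {μ : Measure (V → Bool)}
    {zb C1 q : ℝ} {ν : Measure ((V × ℕ → ℝ) × (V × ℕ → ℝ))} (h : PairEnv G μ θ d zb C1 q ν)
    (v : V) : ∀ᵐ x ∂ν, |(M G μ Set.univ v x.1 - M G μ Set.univ v x.2) ^ 2| ≤ 4 := by
  have hzb1 := h.zb1
  filter_upwards [h.bM v, h.pl_ae_swap (P := fun w => |M G μ Set.univ v w| ≤ zb) (h.bM v)]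
    with x h1 h2
  have h1' := abs_le.1 h1
  have h2' := abs_le.1 h2
  rw [abs_of_nonneg (sq_nonneg _)]
  have : |M G μ Set.univ v x.1 - M G μ Set.univ v x.2| ≤ 2 := by
    rw [abs_le]
    constructor <;> linarith [h1'.1, h1'.2, h2'.1, h2'.2]
  rw [← sq_abs]
  nlinarith only [abs_nonneg (M G μ Set.univ v x.1 - M G μ Set.univ v x.2), this]

theorem PairEnv.pl_ga [G.LocallyFinite] {d : ℕ} {θ : ℝ} {μ : Measure (V → Bool)}
    {zb C1 q : ℝ} {ν : Measure ((V × ℕ → ℝ) × (V × ℕ → ℝ))} (h : PairEnv G μ θ d zb C1 q ν)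
    {Cl : ℝ} (hCl : ∀ x : ℝ, |x| ≤ zb → |Real.log (ph θ x)| ≤ Cl) (p : ℕ → V) :
    ∀ᵐ x ∂ν, ∀ i, |gam G μ θ (p i) (p (i + 1)) x.1 - gam G μ θ (p i) (p (i + 1)) x.2| ≤
      2 * Cl := by
  have hlg : ∀ w : V × ℕ → ℝ, (∀ i, |msg G μ (p i) (p (i + 1)) w| ≤ zb ∧
      |msg G μ (p (i + 1)) (p i) w| ≤ zb) → ∀ i, |gam G μ θ (p i) (p (i + 1)) w| ≤ Cl := by
    intro w hw i
    have h1 := abs_le.1 (hCl _ (hw i).1)
    have h2 := abs_le.1 (hCl _ (hw i).2)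
    unfold gam
    rw [abs_le]
    constructor <;> linarith [h1.1, h1.2, h2.1, h2.2]
  filter_upwards [h.pl_bm1 p, h.pl_bm2 p] with x h1 h2 i
  have g1 := abs_le.1 (hlg _ h1 i)
  have g2 := abs_le.1 (hlg _ h2 i)
  rw [abs_le]
  constructor <;> linarith [g1.1, g1.2, g2.1, g2.2]

theorem PairEnv.pl_ZB [G.LocallyFinite] {d : ℕ} {θ : ℝ} {μ : Measure (V → Bool)}
    {zb C1 q : ℝ} {ν : Measure ((V × ℕ → ℝ) × (V × ℕ → ℝ))} (h : PairEnv G μ θ d zb C1 q ν)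
    {Cl : ℝ} (hCl : ∀ x : ℝ, |x| ≤ zb → |Real.log (ph θ x)| ≤ Cl) (p : ℕ → V) (n : ℕ) :
    ∀ᵐ x ∂ν, |(plZ G μ θ p n x.1 - plZ G μ θ p n x.2) ^ 2| ≤ (2 * n * Cl) ^ 2 := by
  filter_upwards [h.pl_ga hCl p] with x hx
  rw [abs_of_nonneg (sq_nonneg _), ← sq_abs (plZ G μ θ p n x.1 - plZ G μ θ p n x.2)]
  refine pow_le_pow_left₀ (abs_nonneg _) ?_ 2
  have e : plZ G μ θ p n x.1 - plZ G μ θ p n x.2 = ∑ i ∈ Finset.range n,
      (gam G μ θ (p i) (p (i + 1)) x.1 - gam G μ θ (p i) (p (i + 1)) x.2) :=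
    (Finset.sum_sub_distrib _ _).symm
  rw [e]
  calc |∑ i ∈ Finset.range n,
      (gam G μ θ (p i) (p (i + 1)) x.1 - gam G μ θ (p i) (p (i + 1)) x.2)| ≤
      ∑ i ∈ Finset.range n,
        |gam G μ θ (p i) (p (i + 1)) x.1 - gam G μ θ (p i) (p (i + 1)) x.2| :=
        Finset.abs_sum_le_sum_abs _ _
    _ ≤ ∑ _i ∈ Finset.range n, 2 * Cl := Finset.sum_le_sum fun i _ => hx i
    _ = 2 * n * Cl := by
        rw [Finset.sum_const, Finset.card_range, nsmul_eq_mul]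
        ring

/-- Pointwise bound, integrated. -/
theorem PairEnv.pl_stepA [G.LocallyFinite] {d : ℕ} {β : ℝ} {μ : Measure (V → Bool)}
    (hE : Env G d β μ) {zb C1 q : ℝ} {ν : Measure ((V × ℕ → ℝ) × (V × ℕ → ℝ))}
    (h : PairEnv G μ (Real.tanh β) d zb C1 q ν) {Cd : ℝ}
    (hCd : ∀ m n m' n' τ Z Z' c c' : ℝ, |m| ≤ zb → |n| ≤ zb → |m'| ≤ zb → |n'| ≤ zb →
      0 ≤ τ → 0 ≤ c → 0 ≤ c' → c ^ 2 = (1 - m ^ 2) * (1 - n ^ 2) * τ ^ 2 * Real.exp (2 * Z) →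
      c' ^ 2 = (1 - m' ^ 2) * (1 - n' ^ 2) * τ ^ 2 * Real.exp (2 * Z') →
      (c - c') ^ 2 ≤ Cd * τ ^ 2 * (((m - m') ^ 2 + (n - n') ^ 2) * Real.exp (2 * Z') +
        (Z - Z') ^ 2 * (Real.exp (2 * Z) + Real.exp (2 * Z'))))
    {Cl : ℝ} (hCl : ∀ x : ℝ, |x| ≤ zb → |Real.log (ph (Real.tanh β) x)| ≤ Cl)
    {p : ℕ → V} {n : ℕ} (hp : Geo G p n) :
    ∫ x, (Cv G μ Set.univ (p 0) (p n) x.1 - Cv G μ Set.univ (p 0) (p n) x.2) ^ 2 ∂ν ≤
      Cd * (Real.tanh β ^ n) ^ 2 *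
        ((∫ x, (M G μ Set.univ (p 0) x.1 - M G μ Set.univ (p 0) x.2) ^ 2 *
          Real.exp (2 * plZ G μ (Real.tanh β) p n x.1) ∂ν) +
        (∫ x, (M G μ Set.univ (p n) x.1 - M G μ Set.univ (p n) x.2) ^ 2 *
          Real.exp (2 * plZ G μ (Real.tanh β) p n x.1) ∂ν) +
        2 * ∫ x, (plZ G μ (Real.tanh β) p n x.1 - plZ G μ (Real.tanh β) p n x.2) ^ 2 *
          Real.exp (2 * plZ G μ (Real.tanh β) p n x.1) ∂ν) := by
  have := hE.prob
  have := h.prob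
  have hθ0 := hE.theta_pos
  have hθ1 := hE.theta_lt_one
  have hzb1 := h.zb1
  set θ : ℝ := Real.tanh β with hθ
  have hZm : Measurable (plZ G μ θ p n) := measurable_plZ G μ θ p n
  have hX0m : Measurable fun x : (V × ℕ → ℝ) × (V × ℕ → ℝ) =>
      (M G μ Set.univ (p 0) x.1 - M G μ Set.univ (p 0) x.2) ^ 2 :=
    (((measurable_M G μ _ _).comp measurable_fst).sub
      ((measurable_M G μ _ _).comp measurable_snd)).pow_const 2
  have hXnm : Measurable fun x : (V × ℕ → ℝ) × (V × ℕ → ℝ) =>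
      (M G μ Set.univ (p n) x.1 - M G μ Set.univ (p n) x.2) ^ 2 :=
    (((measurable_M G μ _ _).comp measurable_fst).sub
      ((measurable_M G μ _ _).comp measurable_snd)).pow_const 2
  have hXZm : Measurable fun x : (V × ℕ → ℝ) × (V × ℕ → ℝ) =>
      (plZ G μ θ p n x.1 - plZ G μ θ p n x.2) ^ 2 :=
    ((hZm.comp measurable_fst).sub (hZm.comp measurable_snd)).pow_const 2
  have hE1m : Measurable fun x : (V × ℕ → ℝ) × (V × ℕ → ℝ) =>
      Real.exp (2 * plZ G μ θ p n x.1) :=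
    Real.measurable_exp.comp ((hZm.comp measurable_fst).const_mul 2)
  have hE2m : Measurable fun x : (V × ℕ → ℝ) × (V × ℕ → ℝ) =>
      Real.exp (2 * plZ G μ θ p n x.2) :=
    Real.measurable_exp.comp ((hZm.comp measurable_snd).const_mul 2)
  have hE1 : ∀ᵐ x ∂ν, Real.exp (2 * plZ G μ θ p n x.1) ≤ 1 := by
    filter_upwards [h.pl_bm1 p] with x hx
    exact plZ_exp_le hθ0.le hθ1 hzb1 μ p n _ hx
  have hE2 : ∀ᵐ x ∂ν, Real.exp (2 * plZ G μ θ p n x.2) ≤ 1 := by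
    filter_upwards [h.pl_bm2 p] with x hx
    exact plZ_exp_le hθ0.le hθ1 hzb1 μ p n _ hx
  have hi01 := pl_int hX0m hE1m (h.pl_MB (p 0)) (fun x => (Real.exp_pos _).le) hE1
  have hi02 := pl_int hX0m hE2m (h.pl_MB (p 0)) (fun x => (Real.exp_pos _).le) hE2
  have hin1 := pl_int hXnm hE1m (h.pl_MB (p n)) (fun x => (Real.exp_pos _).le) hE1
  have hin2 := pl_int hXnm hE2m (h.pl_MB (p n)) (fun x => (Real.exp_pos _).le) hE2
  have hiZ1 := pl_int hXZm hE1m (h.pl_ZB hCl p n) (fun x => (Real.exp_pos _).le) hE1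
  have hiZ2 := pl_int hXZm hE2m (h.pl_ZB hCl p n) (fun x => (Real.exp_pos _).le) hE2
  -- swapping
  have sw : ∀ X : (V × ℕ → ℝ) × (V × ℕ → ℝ) → ℝ, Measurable X → (∀ x, X x.swap = X x) →
      ∫ x, X x * Real.exp (2 * plZ G μ θ p n x.2) ∂ν =
        ∫ x, X x * Real.exp (2 * plZ G μ θ p n x.1) ∂ν := by
    intro X hX hXs
    rw [← h.pl_int_swap (F := fun x => X x * Real.exp (2 * plZ G μ θ p n x.1)) (hX.mul hE1m)]
    refine integral_congr_ae (Eventually.of_forall fun x => ?_)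
    simp only [hXs, Prod.fst_swap]
  have sw0 := sw _ hX0m (fun x => by simp only [Prod.fst_swap, Prod.snd_swap]; ring)
  have swn := sw _ hXnm (fun x => by simp only [Prod.fst_swap, Prod.snd_swap]; ring)
  have swZ := sw _ hXZm (fun x => by simp only [Prod.fst_swap, Prod.snd_swap]; ring)
  have hM01 := h.bM (p 0)
  have hM02 := h.pl_ae_swap (P := fun w => |M G μ Set.univ (p 0) w| ≤ zb) hM01
  have hMn1 := h.bM (p n)
  have hMn2 := h.pl_ae_swap (P := fun w => |M G μ Set.univ (p n) w| ≤ zb) hMn1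
  have hc1 := h.covn (p 0) (p n)
  have hc2 := h.pl_ae_swap (P := fun w => 0 ≤ Cv G μ Set.univ (p 0) (p n) w) hc1
  have hs1 := h.cov2 p n hp
  have hs2 := h.pl_ae_swap (P := fun w => Cv G μ Set.univ (p 0) (p n) w ^ 2 =
    (1 - M G μ Set.univ (p 0) w ^ 2) * (1 - M G μ Set.univ (p n) w ^ 2) * (θ ^ 2) ^ n *
      ∏ i ∈ Finset.range n, (ph θ (msg G μ (p (i + 1)) (p i) w) *
        ph θ (msg G μ (p i) (p (i + 1)) w))) hs1
  have hZexp : ∀ w : V × ℕ → ℝ, (∀ i, |msg G μ (p i) (p (i + 1)) w| ≤ zb ∧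
      |msg G μ (p (i + 1)) (p i) w| ≤ zb) →
      Real.exp (2 * plZ G μ θ p n w) =
        ∏ i ∈ Finset.range n, (ph θ (msg G μ (p (i + 1)) (p i) w) *
        ph θ (msg G μ (p i) (p (i + 1)) w)) := fun w hw =>
    pl_exp μ θ fun i _ => ⟨pl_ph_pos hθ0.le hθ1 hzb1 (hw i).2, pl_ph_pos hθ0.le hθ1 hzb1 (hw i).1⟩
  have hpt : ∀ᵐ x ∂ν, (Cv G μ Set.univ (p 0) (p n) x.1 - Cv G μ Set.univ (p 0) (p n) x.2) ^ 2 ≤
      Cd * (θ ^ n) ^ 2 *
        ((M G μ Set.univ (p 0) x.1 - M G μ Set.univ (p 0) x.2) ^ 2 *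
          Real.exp (2 * plZ G μ θ p n x.2) +
        (M G μ Set.univ (p n) x.1 - M G μ Set.univ (p n) x.2) ^ 2 *
          Real.exp (2 * plZ G μ θ p n x.2) +
        ((plZ G μ θ p n x.1 - plZ G μ θ p n x.2) ^ 2 * Real.exp (2 * plZ G μ θ p n x.1) +
        (plZ G μ θ p n x.1 - plZ G μ θ p n x.2) ^ 2 * Real.exp (2 * plZ G μ θ p n x.2))) := by
    filter_upwards [h.pl_bm1 p, h.pl_bm2 p, hM01, hM02, hMn1, hMn2, hc1, hc2, hs1, hs2] with x b1
      b2 m01 m02 mn1 mn2 c1 c2 s1 s2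
    have key := hCd (M G μ Set.univ (p 0) x.1) (M G μ Set.univ (p n) x.1)
      (M G μ Set.univ (p 0) x.2) (M G μ Set.univ (p n) x.2) (θ ^ n) (plZ G μ θ p n x.1)
      (plZ G μ θ p n x.2)
      (Cv G μ Set.univ (p 0) (p n) x.1) (Cv G μ Set.univ (p 0) (p n) x.2) m01 mn1 m02 mn2
      (pow_nonneg hθ0.le _) c1 c2
      (by rw [hZexp _ b1, s1, ← pow_mul, ← pow_mul, mul_comm n 2])
      (by rw [hZexp _ b2, s2, ← pow_mul, ← pow_mul, mul_comm n 2])
    refine key.trans (le_of_eq ?_)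
    ring
  calc ∫ x, (Cv G μ Set.univ (p 0) (p n) x.1 - Cv G μ Set.univ (p 0) (p n) x.2) ^ 2 ∂ν ≤
      ∫ x, Cd * (θ ^ n) ^ 2 *
        ((M G μ Set.univ (p 0) x.1 - M G μ Set.univ (p 0) x.2) ^ 2 *
          Real.exp (2 * plZ G μ θ p n x.2) +
        (M G μ Set.univ (p n) x.1 - M G μ Set.univ (p n) x.2) ^ 2 *
          Real.exp (2 * plZ G μ θ p n x.2) +
        ((plZ G μ θ p n x.1 - plZ G μ θ p n x.2) ^ 2 * Real.exp (2 * plZ G μ θ p n x.1) +
        (plZ G μ θ p n x.1 - plZ G μ θ p n x.2) ^ 2 * Real.exp (2 * plZ G μ θ p n x.2))) ∂ν := by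
        refine integral_mono_of_nonneg (Eventually.of_forall fun x => sq_nonneg _)
          (((hi02.add hin2).add (hiZ1.add hiZ2)).const_mul _) hpt
    _ = Cd * (θ ^ n) ^ 2 *
        ((∫ x, (M G μ Set.univ (p 0) x.1 - M G μ Set.univ (p 0) x.2) ^ 2 *
          Real.exp (2 * plZ G μ θ p n x.2) ∂ν) +
        (∫ x, (M G μ Set.univ (p n) x.1 - M G μ Set.univ (p n) x.2) ^ 2 *
          Real.exp (2 * plZ G μ θ p n x.2) ∂ν) +
        ((∫ x, (plZ G μ θ p n x.1 - plZ G μ θ p n x.2) ^ 2 *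
          Real.exp (2 * plZ G μ θ p n x.1) ∂ν) +
        (∫ x, (plZ G μ θ p n x.1 - plZ G μ θ p n x.2) ^ 2 *
          Real.exp (2 * plZ G μ θ p n x.2) ∂ν))) := by
        rw [integral_const_mul]
        congr 1
        rw [← integral_add hi02 hin2, ← integral_add hiZ1 hiZ2]
        exact integral_add (hi02.add hin2) (hiZ1.add hiZ2)
    _ = _ := by
        rw [sw0, swn, swZ]
        ring

/-- The difference of `M` at an end point. -/
theorem PairEnv.pl_end [G.LocallyFinite] {d : ℕ} {β : ℝ} {μ : Measure (V → Bool)}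
    (hE : Env G d β μ) {zb C1 q : ℝ} {ν : Measure ((V × ℕ → ℝ) × (V × ℕ → ℝ))}
    (h : PairEnv G μ (Real.tanh β) d zb C1 q ν) {p : ℕ → V} {n : ℕ} (hn : 3 < n)
    (hp : Geo G p n) (v : V) (hv : v = p 0 ∨ v = p n) :
    ∫ x, (M G μ Set.univ v x.1 - M G μ Set.univ v x.2) ^ 2 *
        Real.exp (2 * plZ G μ (Real.tanh β) p n x.1) ∂ν ≤
      6 * Real.exp (-(1 - Real.tanh β ^ 2) * Real.tanh β ^ 2 / 4 * q * n / 8) *
          pD G μ (p 0) ν +
        4 * (Real.exp ((d : ℝ) - 1) * Real.exp (- Real.sqrt ((d : ℝ) - 1) ^ ((n : ℝ) / 8))) := by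
  have := hE.prob
  have := h.prob
  have hXm : Measurable fun x : (V × ℕ → ℝ) × (V × ℕ → ℝ) =>
      (M G μ Set.univ v x.1 - M G μ Set.univ v x.2) ^ 2 :=
    (((measurable_M G μ _ _).comp measurable_fst).sub
      ((measurable_M G μ _ _).comp measurable_snd)).pow_const 2
  have hDv : ∫ x, (M G μ Set.univ v x.1 - M G μ Set.univ v x.2) ^ 2 ∂ν = pD G μ (p 0) ν :=
    h.pl_pD hE (p 0) v
  have hi : ∀ g : G ≃g G, g v = v → ∀ x : (V × ℕ → ℝ) × (V × ℕ → ℝ),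
      (M G μ Set.univ v (actE g.toEquiv x.1) - M G μ Set.univ v (actE g.toEquiv x.2)) ^ 2 =
        (M G μ Set.univ v x.1 - M G μ Set.univ v x.2) ^ 2 := by
    intro g hg x
    have e : ∀ w, M G μ Set.univ v (actE g.toEquiv w) = M G μ Set.univ v w := by
      intro w
      conv_lhs => rw [← hg]
      exact M_univ_act hE.tree.connected g (hE.pav_map_actC g) _ _
    rw [e, e]
  rw [← hDv]
  rcases hv with hv | hv
  · exact h.pl_term hE (l := 0) (L := 1) (m := n - 1) (by omega) le_rfl hp hXm (by norm_num)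
      (fun x => sq_nonneg _) (h.pl_MB v)
      (fun g hg x => hi g (by rw [hv]; exact hg 0 le_rfl (by omega)) x) (j := n - 1)
      (by omega) (by omega)
  · exact h.pl_term hE (l := n - 1) (L := 1) (m := 0) (by omega) le_rfl hp hXm (by norm_num)
      (fun x => sq_nonneg _) (h.pl_MB v)
      (fun g hg x => hi g (by rw [hv]; exact hg n (by omega) (by omega)) x) (j := n - 1)
      (by omega) (by omega)

/-- One block. -/
theorem PairEnv.pl_block [G.LocallyFinite] {d : ℕ} {β : ℝ} {μ : Measure (V → Bool)}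
    (hE : Env G d β μ) {zb C1 q : ℝ} {ν : Measure ((V × ℕ → ℝ) × (V × ℕ → ℝ))}
    (h : PairEnv G μ (Real.tanh β) d zb C1 q ν)
    {Cl : ℝ} (hCl0 : 0 ≤ Cl) (hCl : ∀ x : ℝ, |x| ≤ zb → |Real.log (ph (Real.tanh β) x)| ≤ Cl)
    {p : ℕ → V} {n N l L : ℕ} (hp : Geo G p n) (hn : 3 * N < n) (hL1 : 1 ≤ L) (hLN : L ≤ N)
    (hlL : l + L ≤ n) :
    (∀ᵐ x ∂ν, |(∑ i ∈ Finset.range L, (gam G μ (Real.tanh β) (p (l + i)) (p (l + i + 1)) x.1 -
      gam G μ (Real.tanh β) (p (l + i)) (p (l + i + 1)) x.2)) ^ 2| ≤ (2 * N * Cl) ^ 2) ∧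
    ∫ x, (∑ i ∈ Finset.range L, (gam G μ (Real.tanh β) (p (l + i)) (p (l + i + 1)) x.1 -
      gam G μ (Real.tanh β) (p (l + i)) (p (l + i + 1)) x.2)) ^ 2 *
        Real.exp (2 * plZ G μ (Real.tanh β) p n x.1) ∂ν ≤
      6 * Real.exp (-(1 - Real.tanh β ^ 2) * Real.tanh β ^ 2 / 4 * q * n / 8) *
          (C1 * N * pK G μ (Real.tanh β) (p 0) (p 1) ν) +
        (2 * N * Cl) ^ 2 *
          (Real.exp ((d : ℝ) - 1) * Real.exp (- Real.sqrt ((d : ℝ) - 1) ^ ((n : ℝ) / 8))) := by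
  have := hE.prob
  have := h.prob
  set θ : ℝ := Real.tanh β with hθ
  have hsbm : Measurable fun x : (V × ℕ → ℝ) × (V × ℕ → ℝ) =>
      ∑ i ∈ Finset.range L, (gam G μ θ (p (l + i)) (p (l + i + 1)) x.1 -
      gam G μ θ (p (l + i)) (p (l + i + 1)) x.2) := Finset.measurable_sum _ fun i _ =>
    ((measurable_gam G μ _ _ _).comp measurable_fst).sub
      ((measurable_gam G μ _ _ _).comp measurable_snd)
  have hsbB : ∀ᵐ x ∂ν, |(∑ i ∈ Finset.range L, (gam G μ θ (p (l + i)) (p (l + i + 1)) x.1 -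
      gam G μ θ (p (l + i)) (p (l + i + 1)) x.2)) ^ 2| ≤ (2 * N * Cl) ^ 2 := by
    filter_upwards [h.pl_ga hCl p] with x hx
    rw [abs_of_nonneg (sq_nonneg _), ← sq_abs]
    refine pow_le_pow_left₀ (abs_nonneg _) ?_ 2
    calc |∑ i ∈ Finset.range L, (gam G μ θ (p (l + i)) (p (l + i + 1)) x.1 -
            gam G μ θ (p (l + i)) (p (l + i + 1)) x.2)| ≤ ∑ i ∈ Finset.range L,
          |gam G μ θ (p (l + i)) (p (l + i + 1)) x.1 -
            gam G μ θ (p (l + i)) (p (l + i + 1)) x.2| := Finset.abs_sum_le_sum_abs _ _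
      _ ≤ ∑ _i ∈ Finset.range L, 2 * Cl :=
          Finset.sum_le_sum fun i _ => hx (l + i)
      _ = (L : ℝ) * (2 * Cl) := by
          rw [Finset.sum_const, Finset.card_range, nsmul_eq_mul]
      _ ≤ (N : ℝ) * (2 * Cl) := by
          refine mul_le_mul_of_nonneg_right ?_ (by positivity)
          exact_mod_cast hLN
      _ = 2 * N * Cl := by ring
  refine ⟨hsbB, ?_⟩
  have hmain := h.pl_term hE (n := n) (l := l) (L := L) (m := n - (l + L)) (by omega) hL1 hp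
    (hsbm.pow_const 2) (B := (2 * N * Cl) ^ 2) (by positivity) (fun x => sq_nonneg _)
    hsbB (by
      intro g hg x
      have e : ∀ i ∈ Finset.range L, ∀ w, gam G μ θ (p (l + i)) (p (l + i + 1))
          (actE g.toEquiv w) = gam G μ θ (p (l + i)) (p (l + i + 1)) w := by
        intro i hi w
        have hi' : i < L := Finset.mem_range.1 hi
        have e0 : g (p (l + i)) = p (l + i) := hg _ (by omega) (by omega)
        have e1 : g (p (l + i + 1)) = p (l + i + 1) := hg _ (by omega) (by omega)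
        conv_lhs => rw [← e0, ← e1]
        exact gam_act hE.tree.connected g (hE.pav_map_actC g) _ _ _ _
      have e' : ∑ i ∈ Finset.range L, (gam G μ θ (p (l + i)) (p (l + i + 1))
          (actE g.toEquiv x.1) -
          gam G μ θ (p (l + i)) (p (l + i + 1)) (actE g.toEquiv x.2)) =
          ∑ i ∈ Finset.range L, (gam G μ θ (p (l + i)) (p (l + i + 1)) x.1 -
          gam G μ θ (p (l + i)) (p (l + i + 1)) x.2) :=
        Finset.sum_congr rfl fun i hi => by rw [e i hi, e i hi]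
      simp only [e'])
    (j := max l (n - (l + L))) rfl (by omega)
  refine hmain.trans ?_
  have hK0 : 0 ≤ pK G μ θ (p 0) (p 1) ν := integral_nonneg fun _ => sq_nonneg _
  have hKb : ∫ x, (∑ i ∈ Finset.range L, (gam G μ θ (p (l + i)) (p (l + i + 1)) x.1 -
      gam G μ θ (p (l + i)) (p (l + i + 1)) x.2)) ^ 2 ∂ν ≤
      C1 * N * pK G μ θ (p 0) (p 1) ν := by
    have hgeo : Geo G (fun i => p (l + i)) L := hp.sub hE.tree.connected hlL
    have ht := h.t1 (fun i => p (l + i)) L hgeo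
    have hk1 : ∫ x, (gam G μ θ (p (l + 0)) (p (l + 1)) x.1 -
        gam G μ θ (p (l + 0)) (p (l + 1)) x.2) ^ 2 ∂ν = pK G μ θ (p 0) (p 1) ν :=
      h.pl_pK hE hp (i := l) (by omega)
    rw [hk1] at ht
    refine le_trans (le_of_eq rfl) (ht.trans ?_)
    have : (L : ℝ) ≤ N := by exact_mod_cast hLN
    exact mul_le_mul_of_nonneg_right (mul_le_mul_of_nonneg_left this h.C10) hK0
  have h6 : 0 ≤ 6 * Real.exp (-(1 - θ ^ 2) * θ ^ 2 / 4 * q * n / 8) := by positivity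
  have := mul_le_mul_of_nonneg_left hKb h6
  linarith

/-- The sum over the blocks. -/
theorem PairEnv.pl_AZ [G.LocallyFinite] {d : ℕ} {β : ℝ} {μ : Measure (V → Bool)}
    (hE : Env G d β μ) {zb C1 q : ℝ} {ν : Measure ((V × ℕ → ℝ) × (V × ℕ → ℝ))}
    (h : PairEnv G μ (Real.tanh β) d zb C1 q ν)
    {Cl : ℝ} (hCl0 : 0 ≤ Cl) (hCl : ∀ x : ℝ, |x| ≤ zb → |Real.log (ph (Real.tanh β) x)| ≤ Cl)
    {p : ℕ → V} {n N : ℕ} (hp : Geo G p n) (hN : 1 ≤ N) (hn : 3 * N < n) {b : ℝ}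
    (hb : b = 6 * Real.exp (-(1 - Real.tanh β ^ 2) * Real.tanh β ^ 2 / 4 * q * n / 8) *
          (C1 * N * pK G μ (Real.tanh β) (p 0) (p 1) ν) +
        (2 * N * Cl) ^ 2 *
          (Real.exp ((d : ℝ) - 1) * Real.exp (- Real.sqrt ((d : ℝ) - 1) ^ ((n : ℝ) / 8)))) :
    ∃ nb : ℕ, nb * N ≤ 2 * n ∧
      ∫ x, (plZ G μ (Real.tanh β) p n x.1 - plZ G μ (Real.tanh β) p n x.2) ^ 2 *
        Real.exp (2 * plZ G μ (Real.tanh β) p n x.1) ∂ν ≤ nb * (nb * b) := by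
  have := hE.prob
  have := h.prob
  have hθ0 := hE.theta_pos
  have hθ1 := hE.theta_lt_one
  have hzb1 := h.zb1
  set θ : ℝ := Real.tanh β with hθ
  have hnb1 : n ≤ ((n - 1) / N + 1) * N := by
    have h1 : n - 1 < ((n - 1) / N + 1) * N := by
      have := Nat.lt_div_mul_add (a := n - 1) (b := N) (by omega)
      calc n - 1 < (n - 1) / N * N + N := this
        _ = ((n - 1) / N + 1) * N := by ring
    omega
  have hnb2 : ((n - 1) / N + 1) * N ≤ 2 * n := by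
    have h1 : (n - 1) / N * N ≤ n - 1 := Nat.div_mul_le_self _ _
    have h2 : ((n - 1) / N + 1) * N = (n - 1) / N * N + N := by ring
    omega
  have hnb3 : ∀ b, b < (n - 1) / N + 1 → b * N ≤ n - 1 := by
    intro b hb1
    have h1 : b ≤ (n - 1) / N := Nat.lt_succ_iff.1 hb1
    calc b * N ≤ (n - 1) / N * N := Nat.mul_le_mul_right N h1
      _ ≤ n - 1 := Nat.div_mul_le_self _ _
  generalize (n - 1) / N + 1 = nb at hnb1 hnb2 hnb3
  refine ⟨nb, hnb2, ?_⟩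
  let sb : ℕ → (V × ℕ → ℝ) × (V × ℕ → ℝ) → ℝ := fun b x =>
    ∑ i ∈ Finset.range (min N (n - b * N)), (gam G μ θ (p (b * N + i)) (p (b * N + i + 1)) x.1 -
      gam G μ θ (p (b * N + i)) (p (b * N + i + 1)) x.2)
  have hsbm : ∀ b, Measurable (sb b) := fun b => Finset.measurable_sum _ fun i _ =>
    ((measurable_gam G μ _ _ _).comp measurable_fst).sub
      ((measurable_gam G μ _ _ _).comp measurable_snd)
  have hZm : Measurable (plZ G μ θ p n) := measurable_plZ G μ θ p n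
  have hXZm : Measurable fun x : (V × ℕ → ℝ) × (V × ℕ → ℝ) =>
      (plZ G μ θ p n x.1 - plZ G μ θ p n x.2) ^ 2 :=
    ((hZm.comp measurable_fst).sub (hZm.comp measurable_snd)).pow_const 2
  have hE1m : Measurable fun x : (V × ℕ → ℝ) × (V × ℕ → ℝ) =>
      Real.exp (2 * plZ G μ θ p n x.1) :=
    Real.measurable_exp.comp ((hZm.comp measurable_fst).const_mul 2)
  have hE1 : ∀ᵐ x ∂ν, Real.exp (2 * plZ G μ θ p n x.1) ≤ 1 := by
    filter_upwards [h.pl_bm1 p] with x hx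
    exact plZ_exp_le hθ0.le hθ1 hzb1 μ p n _ hx
  have hiZ1 := pl_int hXZm hE1m (h.pl_ZB hCl p n) (fun x => (Real.exp_pos _).le) hE1
  have hXZle : ∀ x : (V × ℕ → ℝ) × (V × ℕ → ℝ),
      (plZ G μ θ p n x.1 - plZ G μ θ p n x.2) ^ 2 ≤ nb * ∑ b ∈ Finset.range nb, sb b x ^ 2 := by
    intro x
    have e : plZ G μ θ p n x.1 - plZ G μ θ p n x.2 = ∑ b ∈ Finset.range nb, sb b x := by
      have e1 : plZ G μ θ p n x.1 - plZ G μ θ p n x.2 = ∑ i ∈ Finset.range n,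
        (gam G μ θ (p i) (p (i + 1)) x.1 - gam G μ θ (p i) (p (i + 1)) x.2) :=
        (Finset.sum_sub_distrib _ _).symm
      rw [e1]
      exact pl_blocks (fun i => gam G μ θ (p i) (p (i + 1)) x.1 -
        gam G μ θ (p i) (p (i + 1)) x.2) N nb n hnb1
    rw [e]
    have := sq_sum_le_card_mul_sum_sq (s := Finset.range nb) (f := fun b => sb b x)
    rwa [Finset.card_range] at this
  have hblock : ∀ b' ∈ Finset.range nb, (∀ᵐ x ∂ν, |sb b' x ^ 2| ≤ (2 * N * Cl) ^ 2) ∧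
      ∫ x, sb b' x ^ 2 * Real.exp (2 * plZ G μ θ p n x.1) ∂ν ≤ b := by
    intro b' hb'
    have hb1 : b' < nb := Finset.mem_range.1 hb'
    have hb2 : b' * N ≤ n - 1 := hnb3 b' hb1
    rw [hb]
    exact h.pl_block hE hCl0 hCl hp hn (l := b' * N) (L := min N (n - b' * N)) (by omega)
      (by omega) (by omega)
  have hib : ∀ b' ∈ Finset.range nb,
      Integrable (fun x => sb b' x ^ 2 * Real.exp (2 * plZ G μ θ p n x.1)) ν := fun b' hb' =>
    pl_int ((hsbm b').pow_const 2) hE1m (hblock b' hb').1 (fun x => (Real.exp_pos _).le) hE1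
  calc ∫ x, (plZ G μ θ p n x.1 - plZ G μ θ p n x.2) ^ 2 *
          Real.exp (2 * plZ G μ θ p n x.1) ∂ν ≤
      ∫ x, nb * ∑ b' ∈ Finset.range nb, sb b' x ^ 2 * Real.exp (2 * plZ G μ θ p n x.1) ∂ν := by
        refine integral_mono hiZ1 ((integrable_finsetSum _ hib).const_mul _) ?_
        intro x
        show (plZ G μ θ p n x.1 - plZ G μ θ p n x.2) ^ 2 * Real.exp (2 * plZ G μ θ p n x.1) ≤
          nb * ∑ b' ∈ Finset.range nb, sb b' x ^ 2 * Real.exp (2 * plZ G μ θ p n x.1)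
        rw [← Finset.sum_mul, ← mul_assoc]
        exact mul_le_mul_of_nonneg_right (hXZle x) (Real.exp_pos _).le
    _ = nb * ∑ b' ∈ Finset.range nb,
          ∫ x, sb b' x ^ 2 * Real.exp (2 * plZ G μ θ p n x.1) ∂ν := by
        rw [integral_const_mul, integral_finsetSum _ hib]
    _ ≤ nb * ∑ _b' ∈ Finset.range nb, b :=
        mul_le_mul_of_nonneg_left (Finset.sum_le_sum fun b' hb' => (hblock b' hb').2)
          (Nat.cast_nonneg _)
    _ = _ := by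
        rw [Finset.sum_const, Finset.card_range, nsmul_eq_mul]

/-- The final computation. -/
theorem pl_final {A0 An AZ r T D K C1 Cl Ek : ℝ} {n N nb : ℕ} (hr : 0 < r) (hT : 0 < T)
    (hD : 0 ≤ D) (hK : 0 ≤ K) (hC1 : 0 ≤ C1) (hCl : 0 ≤ Cl) (hEk : 0 < Ek) (hN : 1 ≤ N)
    (hn : 1 ≤ n) (hnb : nb * N ≤ 2 * n) (h0 : A0 ≤ 6 * r * D + 4 * (Ek * T))
    (h1 : An ≤ 6 * r * D + 4 * (Ek * T))
    (h2 : AZ ≤ nb * (nb * (6 * r * (C1 * N * K) + (2 * N * Cl) ^ 2 * (Ek * T)))) :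
    A0 + An + 2 * AZ ≤ (12 + 48 * C1 + 8 * Ek + 32 * Cl ^ 2 * Ek) *
        (r * (D + (n : ℝ) ^ 2 / N * K) + (n : ℝ) ^ 2 * T) := by
  have hNr : (1 : ℝ) ≤ N := by exact_mod_cast hN
  have hN0 : (0 : ℝ) < N := by linarith
  have hn1 : (1 : ℝ) ≤ n := by exact_mod_cast hn
  have hnbr : (nb : ℝ) * N ≤ 2 * n := by exact_mod_cast hnb
  have hnb0 : (0 : ℝ) ≤ nb := Nat.cast_nonneg _
  have hsq : ((nb : ℝ) * N) ^ 2 ≤ 4 * (n : ℝ) ^ 2 := by
    have := pow_le_pow_left₀ (mul_nonneg hnb0 hN0.le) hnbr 2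
    calc ((nb : ℝ) * N) ^ 2 ≤ (2 * n) ^ 2 := this
      _ = 4 * (n : ℝ) ^ 2 := by ring
  have hsq' : (nb : ℝ) ^ 2 * N ≤ 4 * ((n : ℝ) ^ 2 / N) := by
    rw [show 4 * ((n : ℝ) ^ 2 / N) = 4 * (n : ℝ) ^ 2 / N by ring, le_div_iff₀ hN0]
    calc (nb : ℝ) ^ 2 * N * N = ((nb : ℝ) * N) ^ 2 := by ring
      _ ≤ _ := hsq
  have hAZ' : AZ ≤
      24 * C1 * (r * ((n : ℝ) ^ 2 / N * K)) + 16 * Cl ^ 2 * Ek * ((n : ℝ) ^ 2 * T) := by
    refine h2.trans ?_
    have t1 : (nb : ℝ) ^ 2 * N * (6 * r * C1 * K) ≤ 4 * ((n : ℝ) ^ 2 / N) * (6 * r * C1 * K) :=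
      mul_le_mul_of_nonneg_right hsq' (by positivity)
    have t2 : ((nb : ℝ) * N) ^ 2 * (4 * Cl ^ 2 * (Ek * T)) ≤
        4 * (n : ℝ) ^ 2 * (4 * Cl ^ 2 * (Ek * T)) :=
      mul_le_mul_of_nonneg_right hsq (by positivity)
    calc (nb : ℝ) * (nb * (6 * r * (C1 * N * K) + (2 * N * Cl) ^ 2 * (Ek * T))) =
        (nb : ℝ) ^ 2 * N * (6 * r * C1 * K) + ((nb : ℝ) * N) ^ 2 * (4 * Cl ^ 2 * (Ek * T)) := by
          ring
      _ ≤ 4 * ((n : ℝ) ^ 2 / N) * (6 * r * C1 * K) + 4 * (n : ℝ) ^ 2 * (4 * Cl ^ 2 * (Ek * T)) :=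
          add_le_add t1 t2
      _ = _ := by ring
  have hn2 : (1 : ℝ) ≤ (n : ℝ) ^ 2 := one_le_pow₀ hn1
  have a4 : Ek * T ≤ Ek * ((n : ℝ) ^ 2 * T) :=
    mul_le_mul_of_nonneg_left (by nlinarith only [hT, hn2]) hEk.le
  have b1 : 0 ≤ (48 * C1 + 8 * Ek + 32 * Cl ^ 2 * Ek) * (r * D) := by positivity
  have b2 : 0 ≤ (12 + 8 * Ek + 32 * Cl ^ 2 * Ek) * (r * ((n : ℝ) ^ 2 / N * K)) := by positivity
  have b3 : 0 ≤ (12 + 48 * C1) * ((n : ℝ) ^ 2 * T) := by positivity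
  have expand : (12 + 48 * C1 + 8 * Ek + 32 * Cl ^ 2 * Ek) *
      (r * (D + (n : ℝ) ^ 2 / N * K) + (n : ℝ) ^ 2 * T) =
      12 * (r * D) + 48 * C1 * (r * ((n : ℝ) ^ 2 / N * K)) + 8 * (Ek * ((n : ℝ) ^ 2 * T)) +
      32 * (Cl ^ 2 * Ek * ((n : ℝ) ^ 2 * T)) +
      ((48 * C1 + 8 * Ek + 32 * Cl ^ 2 * Ek) * (r * D) +
      (12 + 8 * Ek + 32 * Cl ^ 2 * Ek) * (r * ((n : ℝ) ^ 2 / N * K)) +
      (12 + 48 * C1) * ((n : ℝ) ^ 2 * T)) := by ring
  rw [expand]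
  linarith

/-- One pair at distance `n > 3 N`. With `κ' = (1-θ²)θ²/4`, `r = exp(-κ' q n / 8)`:
`E (Cv - Cv')² ≤ C θ^{2n} [ r D + (n²/N²) (r N K + N² exp(-(√k)^{n/8})) + exp(-(√k)^{n/8}) ]`.
Proof: `cov_diff`; the terms with `e^{2Z'}` are turned into `e^{2Z}` by `swap`; `e^{2Z}` is at most
the product of the factors `ph` of one orientation (all factors are in `[0,1]`).
`D` term: `avg_tail` with `l = 0`, `L = 1`, `m = n - 1`, `X = (M_{p0} - M_{p0}')²` (and by reversal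
of the geodesic for `p n`; `E (M_{pn}-M_{pn}')² = E (M_{p0}-M_{p0}')²` by homogeneity).
`(Z - Z')²` term: split the `n` edges into `⌈n/N⌉ ≤ 2n/N` blocks of length `≤ N`,
Cauchy-Schwarz, and `avg_tail` for every block with
`X = (∑_{i in block} (γ_i - γ_i'))² ≤ (2 N Cγ)²` a.s. (`abs_log_ph_le`), `E X ≤ C1 N K` (`t1` for the
sub-geodesic, `K` is the same for all edges by homogeneity), `max l m ≥ (n - N)/2 ≥ n/3`. -/
theorem PairEnv.pair_long [G.LocallyFinite] {d : ℕ} {β : ℝ} {μ : Measure (V → Bool)}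
    (hE : Env G d β μ) (zb C1 : ℝ) :
    ∃ C : ℝ, 0 ≤ C ∧ ∀ (q : ℝ) (ν : Measure ((V × ℕ → ℝ) × (V × ℕ → ℝ))),
      PairEnv G μ (Real.tanh β) d zb C1 q ν → ∀ (p : ℕ → V) (n N : ℕ), 1 ≤ N → 3 * N < n →
      Geo G p n →
      ∫ x, (Cv G μ Set.univ (p 0) (p n) x.1 - Cv G μ Set.univ (p 0) (p n) x.2) ^ 2 ∂ν ≤
        C * (Real.tanh β ^ 2) ^ n *
          (Real.exp (-(1 - Real.tanh β ^ 2) * Real.tanh β ^ 2 / 4 * q * n / 8) *
              (pD G μ (p 0) ν + n ^ 2 / N * pK G μ (Real.tanh β) (p 0) (p 1) ν) +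
            n ^ 2 * Real.exp (- Real.sqrt ((d : ℝ) - 1) ^ ((n : ℝ) / 8))) := by
  have := hE.prob
  by_cases hzb : 0 ≤ zb ∧ zb < 1 ∧ 0 ≤ C1
  swap
  · refine ⟨0, le_rfl, fun q ν h => absurd ⟨h.zb0, h.zb1, h.C10⟩ hzb⟩
  obtain ⟨hzb0, hzb1, hC1⟩ := hzb
  have hθ0 := hE.theta_pos
  have hθ1 := hE.theta_lt_one
  obtain ⟨Cd, hCd0, hCd⟩ := cov_diff zb hzb0 hzb1
  obtain ⟨Cl, hCl0, hCl⟩ := abs_log_ph_le (Real.tanh β) zb hθ0.le hθ1 hzb0 hzb1
  have hEk0 : 0 < Real.exp ((d : ℝ) - 1) := Real.exp_pos _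
  refine ⟨Cd * (12 + 48 * C1 + 8 * Real.exp ((d : ℝ) - 1) +
    32 * Cl ^ 2 * Real.exp ((d : ℝ) - 1)), by positivity, ?_⟩
  intro q ν h p n N hN hn hp
  have stepA := h.pl_stepA hE hCd hCl hp
  have hA0 := h.pl_end hE (by omega) hp (p 0) (Or.inl rfl)
  have hAn := h.pl_end hE (by omega) hp (p n) (Or.inr rfl)
  obtain ⟨nb, hnb, hAZ⟩ := h.pl_AZ hE hCl0 hCl hp hN hn rfl
  have hsum := pl_final (Real.exp_pos _) (Real.exp_pos _)
    (integral_nonneg fun _ => sq_nonneg _ : 0 ≤ pD G μ (p 0) ν)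
    (integral_nonneg fun _ => sq_nonneg _ : 0 ≤ pK G μ (Real.tanh β) (p 0) (p 1) ν)
    hC1 hCl0 hEk0 hN (by omega : 1 ≤ n) hnb hA0 hAn hAZ
  refine stepA.trans ?_
  have hθn : (Real.tanh β ^ n) ^ 2 = (Real.tanh β ^ 2) ^ n := by
    rw [← pow_mul, ← pow_mul, mul_comm]
  rw [hθn]
  have hfac : 0 ≤ Cd * (Real.tanh β ^ 2) ^ n := by positivity
  refine (mul_le_mul_of_nonneg_left hsum hfac).trans (le_of_eq ?_)
  have hr : ∀ a b c x : ℝ, a * b * (c * x) = a * c * b * x := fun a b c x => by ring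
  exact hr _ _ _ _

end Vale.Agent.P161.Crit
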