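import Vale.Agent.Lib.P161.Crit.PairShort
import Vale.Agent.Lib.P161.Crit.PairLong

/-!
P161-CRIT, module PairSum: the static inequalities.
Notation (for adjacent `p0 p1` and a vertex `o`): `D = E (M_o - M_o')²`, `K = E (γ - γ')²`.
-/

open MeasureTheory Filter Topology

namespace Vale.Agent.P161.Crit

variable {V : Type*} {G : SimpleGraph V}

/-! ### Real sums -/

theorem sum_exp_neg_le (t : ℝ) (ht : 0 < t) (m : ℕ) :
    ∑ n ∈ Finset.range m, Real.exp (- t * n) ≤ 1 + 1 / t := by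
  have hx0 : 0 ≤ Real.exp (-t) := (Real.exp_pos _).le
  have hx1 : Real.exp (-t) < 1 := by
    rw [Real.exp_lt_one_iff]
    linarith
  have h1 : ∀ n : ℕ, Real.exp (-t * n) = Real.exp (-t) ^ n := fun n => by
    rw [← Real.exp_nat_mul]
    congr 1
    ring
  simp only [h1]
  have h2 : ∑ n ∈ Finset.range m, Real.exp (-t) ^ n ≤ (1 - Real.exp (-t))⁻¹ := by
    rw [← tsum_geometric_of_lt_one hx0 hx1]
    exact (summable_geometric_of_lt_one hx0 hx1).sum_le_tsum _ (fun _ _ => by positivity)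
  have h3 : Real.exp (-t) ≤ 1 / (1 + t) := by
    rw [Real.exp_neg, ← one_div]
    exact one_div_le_one_div_of_le (by positivity) (by linarith [Real.add_one_le_exp t])
  have h4 : t / (1 + t) ≤ 1 - Real.exp (-t) := by
    have : t / (1 + t) = 1 - 1 / (1 + t) := by field_simp; ring
    linarith
  refine h2.trans ?_
  have h5 : (1 - Real.exp (-t))⁻¹ ≤ (t / (1 + t))⁻¹ := inv_anti₀ (by positivity) h4
  refine h5.trans (le_of_eq ?_)
  field_simp
  ring

theorem sum_sq_exp_neg_le (t : ℝ) (ht : 0 < t) (m : ℕ) :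
    ∑ n ∈ Finset.range m, (n : ℝ) ^ 2 * Real.exp (- t * n) ≤ 8 / t ^ 2 * (1 + 2 / t) := by
  have h1 : ∀ n : ℕ, (n : ℝ) ^ 2 * Real.exp (- t * n) ≤
      8 / t ^ 2 * Real.exp (- (t / 2) * n) := by
    intro n
    have h0 : 0 ≤ t / 2 * n := by positivity
    have h2 := Real.quadratic_le_exp_of_nonneg h0
    have h3 : (n : ℝ) ^ 2 ≤ 8 / t ^ 2 * Real.exp (t / 2 * n) := by
      have h6 : (t / 2 * n) ^ 2 / 2 ≤ Real.exp (t / 2 * n) := by linarith
      rw [div_mul_eq_mul_div, le_div_iff₀ (by positivity)]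
      linarith only [h6]
    calc (n : ℝ) ^ 2 * Real.exp (- t * n)
        ≤ (8 / t ^ 2 * Real.exp (t / 2 * n)) * Real.exp (- t * n) :=
          mul_le_mul_of_nonneg_right h3 (Real.exp_pos _).le
      _ = 8 / t ^ 2 * Real.exp (- (t / 2) * n) := by
          rw [mul_assoc, ← Real.exp_add]
          congr 2
          ring
  calc ∑ n ∈ Finset.range m, (n : ℝ) ^ 2 * Real.exp (- t * n)
      ≤ ∑ n ∈ Finset.range m, 8 / t ^ 2 * Real.exp (- (t / 2) * n) :=
        Finset.sum_le_sum fun n _ => h1 n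
    _ = 8 / t ^ 2 * ∑ n ∈ Finset.range m, Real.exp (- (t / 2) * n) := by rw [← Finset.mul_sum]
    _ ≤ 8 / t ^ 2 * (1 + 1 / (t / 2)) :=
        mul_le_mul_of_nonneg_left (sum_exp_neg_le (t / 2) (by positivity) m) (by positivity)
    _ = 8 / t ^ 2 * (1 + 2 / t) := by
        congr 2
        field_simp

theorem dexp_le (a : ℝ) (ha : 0 < a) (N n : ℕ) (hn : 3 * N < n) :
    Real.exp (- Real.exp (a * n)) ≤
      8 * Real.exp (- (1 / 2) * Real.exp (3 * a * N)) * Real.exp (- (2 * a) * n) := by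
  have h1 : Real.exp (3 * a * N) ≤ Real.exp (a * n) := by
    rw [Real.exp_le_exp]
    have h2 : ((3 * N : ℕ) : ℝ) ≤ n := by exact_mod_cast hn.le
    push_cast at h2
    nlinarith
  have hz : 0 < Real.exp (a * n) / 2 := by positivity
  have h3 : Real.exp (- (Real.exp (a * n) / 2)) ≤ 8 * Real.exp (- (2 * a) * n) := by
    have h4 := Real.quadratic_le_exp_of_nonneg hz.le
    have h5 : (Real.exp (a * n) / 2) ^ 2 / 2 ≤ Real.exp (Real.exp (a * n) / 2) := by linarith
    rw [Real.exp_neg]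
    have h6 : (Real.exp (Real.exp (a * n) / 2))⁻¹ ≤ ((Real.exp (a * n) / 2) ^ 2 / 2)⁻¹ :=
      inv_anti₀ (by positivity) h5
    refine h6.trans (le_of_eq ?_)
    have h7 : Real.exp (- (2 * a) * n) = (Real.exp (a * n) ^ 2)⁻¹ := by
      rw [← Real.exp_nat_mul, ← Real.exp_neg]
      congr 1
      push_cast
      ring
    rw [h7]
    field_simp
    norm_num
  have h8 : Real.exp (- Real.exp (a * n)) = Real.exp (- (Real.exp (a * n) / 2)) *
      Real.exp (- (Real.exp (a * n) / 2)) := by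
    rw [← Real.exp_add]
    congr 1
    ring
  rw [h8]
  have h9 : Real.exp (- (Real.exp (a * n) / 2)) ≤ Real.exp (- (1 / 2) * Real.exp (3 * a * N)) := by
    rw [Real.exp_le_exp]
    linarith
  calc Real.exp (- (Real.exp (a * n) / 2)) * Real.exp (- (Real.exp (a * n) / 2))
      ≤ Real.exp (- (1 / 2) * Real.exp (3 * a * N)) * (8 * Real.exp (- (2 * a) * n)) :=
        mul_le_mul h9 h3 (Real.exp_pos _).le (Real.exp_pos _).le
    _ = _ := by ring

/-- The sum over the distances. -/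
theorem sum_master (c1 a : ℝ) (hc1 : 0 < c1) (ha : 0 < a) (ha' : 3 * a ≤ 1 / 2) :
    ∃ C : ℝ, 0 ≤ C ∧ ∀ (D K : ℝ) (N m : ℕ) (b : ℕ → ℝ), 0 ≤ D → 0 ≤ K → 1 ≤ N →
      (∀ n, n ≤ 3 * N → b n ≤ D + n * K) →
      (∀ n, 3 * N < n → b n ≤ Real.exp (- (c1 / N) * n) * (D + n ^ 2 / N * K) +
        n ^ 2 * Real.exp (- Real.exp (a * n))) →
      ∑ n ∈ Finset.range m, b n ≤
        C * (N ^ 2 * K + N * D + Real.exp (- (3 * a) * Real.exp (3 * a * N))) := by
  set A1 : ℝ := 1 + 1 / c1 with hA1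
  set A2 : ℝ := 8 / c1 ^ 2 * (1 + 2 / c1) with hA2
  set A3 : ℝ := 8 * (8 / (2 * a) ^ 2 * (1 + 2 / (2 * a))) with hA3
  have hA10 : 0 ≤ A1 := by positivity
  have hA20 : 0 ≤ A2 := by positivity
  have hA30 : 0 ≤ A3 := by positivity
  refine ⟨12 + A1 + A2 + A3, by positivity, ?_⟩
  intro D K N m b hD hK hN hb1 hb2
  have hN' : (1 : ℝ) ≤ N := by exact_mod_cast hN
  have hN0 : (0 : ℝ) < N := by linarith
  set t : ℝ := c1 / N with ht
  have ht0 : 0 < t := by positivity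
  set E : ℝ := Real.exp (- (1 / 2) * Real.exp (3 * a * N)) with hE
  have hE0 : 0 < E := Real.exp_pos _
  have hEle : E ≤ Real.exp (- (3 * a) * Real.exp (3 * a * N)) := by
    rw [hE, Real.exp_le_exp]
    have := Real.exp_pos (3 * a * N)
    nlinarith only [ha', this]
  have hterm : ∀ n, b n ≤ (if n ≤ 3 * N then D + 3 * N * K else 0) +
      D * Real.exp (- t * n) + K / N * ((n : ℝ) ^ 2 * Real.exp (- t * n)) +
      8 * E * ((n : ℝ) ^ 2 * Real.exp (- (2 * a) * n)) := by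
    intro n
    have e1 : 0 < Real.exp (- t * n) := Real.exp_pos _
    have e2 : 0 < Real.exp (- (2 * a) * n) := Real.exp_pos _
    have p1 : 0 ≤ D * Real.exp (- t * n) := by positivity
    have p2 : 0 ≤ K / N * ((n : ℝ) ^ 2 * Real.exp (- t * n)) := by positivity
    have p3 : 0 ≤ 8 * E * ((n : ℝ) ^ 2 * Real.exp (- (2 * a) * n)) := by positivity
    by_cases hn : n ≤ 3 * N
    · rw [if_pos hn]
      have h1 := hb1 n hn
      have h2 : (n : ℝ) ≤ 3 * N := by
        have : ((n : ℕ) : ℝ) ≤ ((3 * N : ℕ) : ℝ) := by exact_mod_cast hn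
        push_cast at this
        exact this
      have h3 : (n : ℝ) * K ≤ 3 * N * K := mul_le_mul_of_nonneg_right h2 hK
      linarith
    · rw [if_neg hn]
      have hn' : 3 * N < n := not_le.1 hn
      have h1 := hb2 n hn'
      have h2 := mul_le_mul_of_nonneg_left (dexp_le a ha N n hn') (sq_nonneg (n : ℝ))
      have h3 : Real.exp (- t * n) * (D + (n : ℝ) ^ 2 / N * K) =
          D * Real.exp (- t * n) + K / N * ((n : ℝ) ^ 2 * Real.exp (- t * n)) := by
        field_simp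
      have h4 : (n : ℝ) ^ 2 * (8 * Real.exp (- (1 / 2) * Real.exp (3 * a * N)) *
          Real.exp (- (2 * a) * n)) = 8 * E * ((n : ℝ) ^ 2 * Real.exp (- (2 * a) * n)) := by
        rw [hE]; ring
      linarith
  have hs1 : ∑ n ∈ Finset.range m, (if n ≤ 3 * N then D + 3 * N * K else 0) ≤
      12 * (N ^ 2 * K + N * D) := by
    rw [← Finset.sum_filter, Finset.sum_const, nsmul_eq_mul]
    have h1 : ((Finset.range m).filter (fun n => n ≤ 3 * N)).card ≤ 3 * N + 1 := by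
      have h2 : (Finset.range m).filter (fun n => n ≤ 3 * N) ⊆ Finset.range (3 * N + 1) := by
        intro n hn
        rw [Finset.mem_filter] at hn
        rw [Finset.mem_range]
        omega
      have h3 := Finset.card_le_card h2
      rwa [Finset.card_range] at h3
    have h2 : ((((Finset.range m).filter (fun n => n ≤ 3 * N)).card : ℕ) : ℝ) ≤ 4 * N := by
      have h3 : ((((Finset.range m).filter (fun n => n ≤ 3 * N)).card : ℕ) : ℝ) ≤
          ((3 * N + 1 : ℕ) : ℝ) := by exact_mod_cast h1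
      push_cast at h3
      linarith
    have h4 : 0 ≤ D + 3 * N * K := by positivity
    have h5 := mul_le_mul_of_nonneg_right h2 h4
    have h6 : 0 ≤ N * D := by positivity
    linarith only [h5, h6]
  have hs2 : D * ∑ n ∈ Finset.range m, Real.exp (- t * n) ≤ A1 * (N * D) := by
    have h1 := mul_le_mul_of_nonneg_left (sum_exp_neg_le t ht0 m) hD
    have h2 : 1 + 1 / t ≤ N * A1 := by
      rw [ht, hA1]
      have : 1 / (c1 / N) = N / c1 := by field_simp
      rw [this]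
      have h3 : (N : ℝ) * (1 + 1 / c1) = N + N / c1 := by ring
      linarith
    have h3 := mul_le_mul_of_nonneg_left h2 hD
    linarith
  have hs3 : K / N * ∑ n ∈ Finset.range m, (n : ℝ) ^ 2 * Real.exp (- t * n) ≤
      A2 * (N ^ 2 * K) := by
    have h1 := mul_le_mul_of_nonneg_left (sum_sq_exp_neg_le t ht0 m)
      (show 0 ≤ K / N by positivity)
    have h2 : 8 / t ^ 2 * (1 + 2 / t) ≤ N ^ 3 * A2 := by
      have h3 : 8 / t ^ 2 = N ^ 2 * (8 / c1 ^ 2) := by
        rw [ht]; field_simp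
      have h4 : 1 + 2 / t ≤ N * (1 + 2 / c1) := by
        have h5 : 2 / t = N * (2 / c1) := by rw [ht]; field_simp
        rw [h5]
        linarith only [hN']
      rw [h3, hA2]
      calc (N : ℝ) ^ 2 * (8 / c1 ^ 2) * (1 + 2 / t) ≤
          (N : ℝ) ^ 2 * (8 / c1 ^ 2) * (N * (1 + 2 / c1)) :=
            mul_le_mul_of_nonneg_left h4 (by positivity)
        _ = _ := by ring
    have h3 := mul_le_mul_of_nonneg_left h2 (show 0 ≤ K / N by positivity)
    have h4 : K / N * (N ^ 3 * A2) = A2 * (N ^ 2 * K) := by field_simp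
    linarith
  have hs4 : 8 * E * ∑ n ∈ Finset.range m, (n : ℝ) ^ 2 * Real.exp (- (2 * a) * n) ≤
      A3 * Real.exp (- (3 * a) * Real.exp (3 * a * N)) := by
    have h1 := mul_le_mul_of_nonneg_left (sum_sq_exp_neg_le (2 * a) (by positivity) m)
      (show 0 ≤ 8 * E by positivity)
    have h2 : 8 * E * (8 / (2 * a) ^ 2 * (1 + 2 / (2 * a))) = A3 * E := by rw [hA3]; ring
    have h3 := mul_le_mul_of_nonneg_left hEle hA30
    linarith
  have hsum : ∑ n ∈ Finset.range m, b n ≤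
      ∑ n ∈ Finset.range m, (if n ≤ 3 * N then D + 3 * N * K else 0) +
      D * ∑ n ∈ Finset.range m, Real.exp (- t * n) +
      K / N * ∑ n ∈ Finset.range m, (n : ℝ) ^ 2 * Real.exp (- t * n) +
      8 * E * ∑ n ∈ Finset.range m, (n : ℝ) ^ 2 * Real.exp (- (2 * a) * n) := by
    rw [Finset.mul_sum, Finset.mul_sum, Finset.mul_sum, ← Finset.sum_add_distrib,
      ← Finset.sum_add_distrib, ← Finset.sum_add_distrib]
    exact Finset.sum_le_sum fun n _ => hterm n
  refine hsum.trans ?_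
  have q1 : 0 ≤ (N : ℝ) ^ 2 * K := by positivity
  have q2 : 0 ≤ (N : ℝ) * D := by positivity
  have q3 : 0 ≤ Real.exp (- (3 * a) * Real.exp (3 * a * N)) := (Real.exp_pos _).le
  linarith only [mul_nonneg hA10 q1, mul_nonneg hA10 q3, mul_nonneg hA20 q2, mul_nonneg hA20 q3,
    mul_nonneg hA30 q1, mul_nonneg hA30 q2, hs1, hs2, hs3, hs4, q3]

/-- `exp (a n) ≤ (√(d-1))^(n/8)` with `a = log 2 / 16`. -/
theorem exp_le_sqrt_rpow {d : ℕ} (hd : 3 ≤ d) (n : ℕ) :
    Real.exp (Real.log 2 / 16 * n) ≤ Real.sqrt ((d : ℝ) - 1) ^ ((n : ℝ) / 8) := by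
  have hd3 : (3 : ℝ) ≤ d := by exact_mod_cast hd
  have h1 : Real.sqrt 2 ≤ Real.sqrt ((d : ℝ) - 1) := Real.sqrt_le_sqrt (by linarith)
  have h2 : 0 < Real.sqrt 2 := by positivity
  have h3 : Real.exp (Real.log 2 / 16 * n) = Real.sqrt 2 ^ ((n : ℝ) / 8) := by
    rw [Real.rpow_def_of_pos h2, Real.log_sqrt (by norm_num)]
    congr 1
    ring
  rw [h3]
  exact Real.rpow_le_rpow h2.le h1 (by positivity)


/-! ### Spheres -/

theorem card_mul_theta_le [G.LocallyFinite] {d : ℕ} {β : ℝ} {μ : Measure (V → Bool)}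
    (hE : Env G d β μ) (o : V) (n : ℕ) (A : Finset V) (hA : ∀ w ∈ A, G.dist o w = n) :
    (A.card : ℝ) * (Real.tanh β ^ 2) ^ n ≤ 2 := by
  have hθ := hE.theta_sq
  have hθ0 : 0 ≤ Real.tanh β ^ 2 := sq_nonneg _
  have hd3 := hE.three
  have hd3' : (3 : ℝ) ≤ d := by exact_mod_cast hd3
  rcases n with _ | n
  · have hsub : A ⊆ {o} := fun w hw => by
      have := (hE.tree.connected.dist_eq_zero_iff).1 (hA w hw)
      simp [this]
    have h1 := Finset.card_le_card hsub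
    rw [Finset.card_singleton] at h1
    have h2 : (A.card : ℝ) ≤ 1 := by exact_mod_cast h1
    rw [pow_zero, mul_one]
    linarith
  · have h1 := card_sphere_le hE.tree (by omega) hE.reg o (n + 1) A hA
    have h2 : (A.card : ℝ) ≤ d * ((d : ℝ) - 1) ^ n := by
      have h3 : (A.card : ℝ) ≤ ((d * (d - 1) ^ (n + 1 - 1) : ℕ) : ℝ) := by exact_mod_cast h1
      rw [Nat.add_sub_cancel] at h3
      push_cast at h3
      rw [Nat.cast_sub (by omega)] at h3
      simpa using h3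
    have hθ1 : Real.tanh β ^ 2 ≤ 1 / 2 := by nlinarith only [hθ, hd3']
    calc (A.card : ℝ) * (Real.tanh β ^ 2) ^ (n + 1)
        ≤ (d * ((d : ℝ) - 1) ^ n) * (Real.tanh β ^ 2) ^ (n + 1) :=
          mul_le_mul_of_nonneg_right h2 (pow_nonneg hθ0 _)
      _ = (d * Real.tanh β ^ 2) * (Real.tanh β ^ 2 * ((d : ℝ) - 1)) ^ n := by
          rw [mul_pow, pow_succ]; ring
      _ = d * Real.tanh β ^ 2 := by rw [hθ, one_pow, mul_one]
      _ ≤ 2 := by nlinarith only [hθ, hd3']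

theorem sum_sphere [G.LocallyFinite] {d : ℕ} {β : ℝ} {μ : Measure (V → Bool)}
    (hE : Env G d β μ) (o : V) (F : Finset V) (b : ℕ → ℝ) (hb : ∀ n, 0 ≤ b n) (T : V → ℝ)
    (hT : ∀ x ∈ F, T x ≤ (Real.tanh β ^ 2) ^ (G.dist o x) * b (G.dist o x)) :
    ∃ m : ℕ, ∑ x ∈ F, T x ≤ 2 * ∑ n ∈ Finset.range m, b n := by
  classical
  refine ⟨F.sup (G.dist o) + 1, ?_⟩
  have hmaps : ∀ x ∈ F, G.dist o x ∈ Finset.range (F.sup (G.dist o) + 1) := by
    intro x hx
    rw [Finset.mem_range]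
    exact Nat.lt_succ_of_le (Finset.le_sup (f := G.dist o) hx)
  rw [← Finset.sum_fiberwise_of_maps_to hmaps, Finset.mul_sum]
  refine Finset.sum_le_sum fun n _ => ?_
  calc ∑ x ∈ F with G.dist o x = n, T x
      ≤ ∑ x ∈ F with G.dist o x = n, (Real.tanh β ^ 2) ^ n * b n := by
        refine Finset.sum_le_sum fun x hx => ?_
        rw [Finset.mem_filter] at hx
        have h1 := hT x hx.1
        rwa [hx.2] at h1
    _ = (((F.filter fun x => G.dist o x = n).card : ℝ) * (Real.tanh β ^ 2) ^ n) * b n := by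
        rw [Finset.sum_const, nsmul_eq_mul]
        ring
    _ ≤ 2 * b n :=
        mul_le_mul_of_nonneg_right (card_mul_theta_le hE o n _ fun w hw =>
          (Finset.mem_filter.1 hw).2) (hb n)

/-! ### The pair -/

variable {μ : Measure (V → Bool)} {θ : ℝ} {d : ℕ} {zb C1 q : ℝ}
  {ν : Measure ((V × ℕ → ℝ) × (V × ℕ → ℝ))}

theorem PairEnv.ae_swap_sum [G.LocallyFinite] (h : PairEnv G μ θ d zb C1 q ν)
    {p : (V × ℕ → ℝ) → Prop} (hp : ∀ᵐ x ∂ν, p x.1) : ∀ᵐ x ∂ν, p x.2 := by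
  have h1 : ∀ᵐ x ∂(ν.map Prod.swap), p x.1 := by rw [h.swap]; exact hp
  exact ae_of_ae_map measurable_swap.aemeasurable h1

theorem PairEnv.integral_swap_sum [G.LocallyFinite] (h : PairEnv G μ θ d zb C1 q ν)
    {F : (V × ℕ → ℝ) × (V × ℕ → ℝ) → ℝ} (hF : Measurable F) :
    ∫ x, F x ∂ν = ∫ x, F (x.2, x.1) ∂ν := by
  have h1 : ∫ x, F x ∂(ν.map Prod.swap) = ∫ x, F (Prod.swap x) ∂ν :=
    integral_map measurable_swap.aemeasurable hF.aestronglyMeasurable
  rw [h.swap] at h1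
  exact h1

theorem pD_nonneg (o : V) : 0 ≤ pD G μ o ν := integral_nonneg fun _ => sq_nonneg _

theorem pK_nonneg (p0 p1 : V) : 0 ≤ pK G μ θ p0 p1 ν := integral_nonneg fun _ => sq_nonneg _

theorem PairEnv.pK_hom_sum [G.LocallyFinite] {d : ℕ} {β : ℝ} {μ : Measure (V → Bool)}
    (hE : Env G d β μ) {zb C1 q : ℝ} {ν : Measure ((V × ℕ → ℝ) × (V × ℕ → ℝ))}
    (h : PairEnv G μ (Real.tanh β) d zb C1 q ν) {p0 p1 p0' p1' : V} (hp : G.Adj p0 p1)
    (hp' : G.Adj p0' p1') :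
    pK G μ (Real.tanh β) p0 p1 ν = pK G μ (Real.tanh β) p0' p1' ν := by
  have := hE.prob
  obtain ⟨g, hg1, hg2⟩ := exists_iso_of_dist_eq hE.tree hE.reg (u := p0) (v := p1) (u2 := p0')
    (v2 := p1') (by
      rw [SimpleGraph.dist_eq_one_iff_adj.2 hp, SimpleGraph.dist_eq_one_iff_adj.2 hp'])
  have hμg : μ.map (actC g.toEquiv) = μ := hE.ising.map_iso hE.tree g
  have hact : Measurable (actE g.toEquiv : (V × ℕ → ℝ) → (V × ℕ → ℝ)) :=
    measurable_pi_iff.2 fun _ => measurable_pi_apply _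
  have hmap : Measurable (Prod.map (actE g.toEquiv : (V × ℕ → ℝ) → (V × ℕ → ℝ))
    (actE g.toEquiv : (V × ℕ → ℝ) → (V × ℕ → ℝ))) :=
    (hact.comp measurable_fst).prodMk (hact.comp measurable_snd)
  have hm := measurable_gam G μ (Real.tanh β) p0' p1'
  have hF : Measurable fun x : (V × ℕ → ℝ) × (V × ℕ → ℝ) =>
      (gam G μ (Real.tanh β) p0' p1' x.1 - gam G μ (Real.tanh β) p0' p1' x.2) ^ 2 :=
    ((hm.comp measurable_fst).sub (hm.comp measurable_snd)).pow_const 2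
  unfold pK
  conv_rhs => rw [← h.inv g]
  rw [integral_map hmap.aemeasurable hF.aestronglyMeasurable]
  refine integral_congr_ae (Eventually.of_forall fun x => ?_)
  have e1 := gam_act hE.tree.connected g hμg (Real.tanh β) p0 p1 x.1
  have e2 := gam_act hE.tree.connected g hμg (Real.tanh β) p0 p1 x.2
  rw [hg1, hg2] at e1 e2
  simp only [Prod.map_fst, Prod.map_snd, e1, e2]

theorem ph_mem_sum {θ x : ℝ} (h0 : 0 ≤ θ) (h1 : θ < 1) (hx : |x| ≤ 1) :
    0 ≤ ph θ x ∧ ph θ x ≤ 1 := by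
  unfold ph
  have hx2 : x ^ 2 ≤ 1 := by
    rw [← sq_abs]; exact pow_le_one₀ (abs_nonneg _) hx
  have hx0 : 0 ≤ x ^ 2 := sq_nonneg x
  have hθ2 : θ ^ 2 < 1 := by nlinarith
  have hθ0 : 0 ≤ θ ^ 2 := sq_nonneg θ
  have hle : θ ^ 2 * x ^ 2 ≤ x ^ 2 := by nlinarith
  have hden : 0 < 1 - θ ^ 2 * x ^ 2 := by nlinarith
  refine ⟨div_nonneg (by linarith) hden.le, ?_⟩
  rw [div_le_one hden]
  linarith

/-- The diagonal term. -/
theorem PairEnv.pair_zero [G.LocallyFinite] [IsProbabilityMeasure μ]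
    (h : PairEnv G μ θ d zb C1 q ν) (o : V) :
    ∫ x, (Cv G μ Set.univ o o x.1 - Cv G μ Set.univ o o x.2) ^ 2 ∂ν ≤ 4 * pD G μ o ν := by
  have hprob := h.prob
  have hgeo : Geo G (fun _ => o) 0 := ⟨fun i hi => absurd hi (Nat.not_lt_zero i), by simp⟩
  have hcv : ∀ᵐ x ∂ν, Cv G μ Set.univ o o x.1 = 1 - M G μ Set.univ o x.1 ^ 2 ∧
      |M G μ Set.univ o x.1| ≤ zb := by
    filter_upwards [h.cov2 (fun _ => o) 0 hgeo, h.covn o o, h.bM o] with x h1 h2 h3
    refine ⟨?_, h3⟩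
    have hzb := h.zb1
    have h4 : M G μ Set.univ o x.1 ^ 2 ≤ 1 := by
      rw [← sq_abs]; exact pow_le_one₀ (abs_nonneg _) (h3.trans hzb.le)
    simp only [Finset.range_zero, Finset.prod_empty, pow_zero, mul_one] at h1
    have h5 : Cv G μ Set.univ o o x.1 ^ 2 = (1 - M G μ Set.univ o x.1 ^ 2) ^ 2 := by
      rw [h1]; ring
    exact (pow_left_inj₀ h2 (by linarith) two_ne_zero).1 h5
  have hcv2 := h.ae_swap_sum (p := fun w => Cv G μ Set.univ o o w = 1 - M G μ Set.univ o w ^ 2 ∧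
      |M G μ Set.univ o w| ≤ zb) hcv
  unfold pD
  rw [← integral_const_mul]
  have hmM := measurable_M G μ Set.univ o
  have hmeas : Measurable fun x : (V × ℕ → ℝ) × (V × ℕ → ℝ) =>
      4 * (M G μ Set.univ o x.1 - M G μ Set.univ o x.2) ^ 2 :=
    (((hmM.comp measurable_fst).sub (hmM.comp measurable_snd)).pow_const 2).const_mul 4
  refine integral_mono_of_nonneg (Eventually.of_forall fun _ => sq_nonneg _) ?_ ?_
  · refine Integrable.of_bound hmeas.aestronglyMeasurable 16 ?_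
    filter_upwards [hcv, hcv2] with x h1 h2
    have hzb := h.zb1
    rw [Real.norm_eq_abs, abs_of_nonneg (by positivity)]
    have h3 : |M G μ Set.univ o x.1 - M G μ Set.univ o x.2| ≤ 2 := by
      refine (abs_sub _ _).trans ?_
      linarith [h1.2, h2.2]
    have h4 : (M G μ Set.univ o x.1 - M G μ Set.univ o x.2) ^ 2 ≤ 4 := by
      rw [← sq_abs]; nlinarith only [abs_nonneg (M G μ Set.univ o x.1 - M G μ Set.univ o x.2), h3]
    linarith
  · filter_upwards [hcv, hcv2] with x h1 h2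
    have hzb := h.zb1
    rw [h1.1, h2.1]
    have h3 : |M G μ Set.univ o x.1 + M G μ Set.univ o x.2| ≤ 2 := by
      refine (abs_add_le _ _).trans ?_
      linarith [h1.2, h2.2]
    have h4 : (M G μ Set.univ o x.1 + M G μ Set.univ o x.2) ^ 2 ≤ 4 := by
      rw [← sq_abs]; nlinarith only [abs_nonneg (M G μ Set.univ o x.1 + M G μ Set.univ o x.2), h3]
    calc (1 - M G μ Set.univ o x.1 ^ 2 - (1 - M G μ Set.univ o x.2 ^ 2)) ^ 2
        = (M G μ Set.univ o x.1 + M G μ Set.univ o x.2) ^ 2 *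
          (M G μ Set.univ o x.1 - M G μ Set.univ o x.2) ^ 2 := by ring
      _ ≤ 4 * (M G μ Set.univ o x.1 - M G μ Set.univ o x.2) ^ 2 :=
          mul_le_mul_of_nonneg_right h4 (sq_nonneg _)

/-- The static inequality. Sum over the spheres (`card_sphere_le`,
`|S_n| θ^{2n} ≤ 2`): distances `≤ 3N` by `pair_short`, the others by `pair_long`;
`∑ n² e^{-rn} ≤ C r^{-3}`, `r = κ' q/8 ≥ c/N` since `N q ≥ lam`. (`n = 0`: the covariance is
`1 - M_o²`.) -/
theorem PairEnv.pair_static [G.LocallyFinite] {d : ℕ} {β : ℝ} {μ : Measure (V → Bool)}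
    (hE : Env G d β μ) (zb C1 lam : ℝ) (hlam : 0 < lam) :
    ∃ C c : ℝ, 0 ≤ C ∧ 0 < c ∧ ∀ (q : ℝ) (ν : Measure ((V × ℕ → ℝ) × (V × ℕ → ℝ))),
      PairEnv G μ (Real.tanh β) d zb C1 q ν → ∀ (N : ℕ), 1 ≤ N → lam ≤ N * q →
      ∀ (o p0 p1 : V), G.Adj p0 p1 → ∀ (F : Finset V),
      ∑ x' ∈ F, ∫ x, (Cv G μ Set.univ o x' x.1 - Cv G μ Set.univ o x' x.2) ^ 2 ∂ν ≤
        C * (N ^ 2 * pK G μ (Real.tanh β) p0 p1 ν + N * pD G μ o ν +
          Real.exp (- c * Real.exp (c * N))) := by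
  have hμ := hE.prob
  obtain ⟨Cs, hCs0, hCs⟩ := PairEnv.pair_short hE zb C1
  obtain ⟨Cl, hCl0, hCl⟩ := PairEnv.pair_long hE zb C1
  have hθp := hE.theta_pos
  have hθ1 := hE.theta_lt_one
  have hθ2 : Real.tanh β ^ 2 < 1 := by nlinarith
  have hθ0 : 0 < Real.tanh β ^ 2 := pow_pos hθp 2
  set κ : ℝ := (1 - Real.tanh β ^ 2) * Real.tanh β ^ 2 / 4 with hκ
  have hκ0 : 0 < κ := by
    have : 0 < 1 - Real.tanh β ^ 2 := by linarith
    positivity
  have ha : 0 < Real.log 2 / 16 := by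
    have := Real.log_pos (by norm_num : (1 : ℝ) < 2)
    positivity
  have ha' : 3 * (Real.log 2 / 16) ≤ 1 / 2 := by
    have := Real.log_two_lt_d9
    linarith
  obtain ⟨Cm, hCm0, hCm⟩ := sum_master (κ * lam / 8) (Real.log 2 / 16) (by positivity) ha ha'
  refine ⟨2 * ((4 + Cs + Cl) * Cm), 3 * (Real.log 2 / 16), by positivity, by positivity, ?_⟩
  intro q ν h N hN hNq o p0 p1 hp F
  set D := pD G μ o ν with hD
  set K := pK G μ (Real.tanh β) p0 p1 ν with hK
  have hD0 : 0 ≤ D := pD_nonneg o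
  have hK0 : 0 ≤ K := pK_nonneg p0 p1
  have hN' : (1 : ℝ) ≤ N := by exact_mod_cast hN
  have hN0 : (0 : ℝ) < N := by linarith
  -- the profile
  set b : ℕ → ℝ := fun n => if n ≤ 3 * N then D + n * K else
    Real.exp (- (κ * lam / 8 / N) * n) * (D + n ^ 2 / N * K) +
      n ^ 2 * Real.exp (- Real.exp (Real.log 2 / 16 * n)) with hb
  have hb0 : ∀ n, 0 ≤ b n := by
    intro n
    simp only [hb]
    split_ifs
    · positivity
    · positivity
  have hT : ∀ x' ∈ F, ∫ x, (Cv G μ Set.univ o x' x.1 - Cv G μ Set.univ o x' x.2) ^ 2 ∂ν ≤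
      (Real.tanh β ^ 2) ^ (G.dist o x') * ((4 + Cs + Cl) * b (G.dist o x')) := by
    intro x' _
    obtain ⟨p, hp0, hpn, hgeo⟩ := exists_geo hE.tree.connected o x'
    set n := G.dist o x' with hn
    have hθn : 0 < (Real.tanh β ^ 2) ^ n := pow_pos hθ0 n
    rcases Nat.eq_zero_or_pos n with h0 | hnpos
    · have hox : o = x' := (hE.tree.connected.dist_eq_zero_iff).1 (hn.symm.trans h0)
      rw [← hox, h0, pow_zero, one_mul]
      refine (h.pair_zero o).trans ?_
      have h1 : b 0 = D := by simp [hb]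
      rw [h1]
      nlinarith only [hCs0, hCl0, hD0]
    · have hadj : G.Adj (p 0) (p 1) := hgeo.1 0 hnpos
      have hKeq : pK G μ (Real.tanh β) (p 0) (p 1) ν = K := h.pK_hom_sum hE hadj hp
      by_cases hn3 : n ≤ 3 * N
      · have h1 := hCs q ν h p n hnpos hgeo
        rw [hp0, hpn, ← hp0, hKeq, hp0] at h1
        refine h1.trans ?_
        have h2 : b n = D + n * K := by simp only [hb, if_pos hn3]
        rw [h2]
        have h3 : 0 ≤ (Real.tanh β ^ 2) ^ n * (D + n * K) := by positivity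
        nlinarith only [hCl0, h3]
      · have hn3' : 3 * N < n := not_le.1 hn3
        have h1 := hCl q ν h p n N hN hn3' hgeo
        rw [hp0, hpn, ← hp0, hKeq, hp0] at h1
        refine h1.trans ?_
        have h2 : b n = Real.exp (- (κ * lam / 8 / N) * n) * (D + n ^ 2 / N * K) +
            n ^ 2 * Real.exp (- Real.exp (Real.log 2 / 16 * n)) := by
          simp only [hb, if_neg hn3]
        have h3 : Real.exp (-(1 - Real.tanh β ^ 2) * Real.tanh β ^ 2 / 4 * q * n / 8) ≤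
            Real.exp (- (κ * lam / 8 / N) * n) := by
          rw [Real.exp_le_exp]
          have h4 : κ * lam / 8 / N ≤ κ * q / 8 := by
            rw [div_le_iff₀ hN0]
            nlinarith only [hκ0, hNq]
          have h5 : (0 : ℝ) ≤ n := Nat.cast_nonneg n
          have h6 := mul_le_mul_of_nonneg_right h4 h5
          have h7 : -(1 - Real.tanh β ^ 2) * Real.tanh β ^ 2 / 4 * q * n / 8 =
              - (κ * q / 8 * n) := by rw [hκ]; ring
          rw [h7]
          linarith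
        have h8 : Real.exp (- Real.sqrt ((d : ℝ) - 1) ^ ((n : ℝ) / 8)) ≤
            Real.exp (- Real.exp (Real.log 2 / 16 * n)) := by
          rw [Real.exp_le_exp]
          exact neg_le_neg (exp_le_sqrt_rpow hE.three n)
        have h9 : Real.exp (-(1 - Real.tanh β ^ 2) * Real.tanh β ^ 2 / 4 * q * n / 8) *
              (D + n ^ 2 / N * K) +
            n ^ 2 * Real.exp (- Real.sqrt ((d : ℝ) - 1) ^ ((n : ℝ) / 8)) ≤ b n := by
          rw [h2]
          exact add_le_add (mul_le_mul_of_nonneg_right h3 (by positivity))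
            (mul_le_mul_of_nonneg_left h8 (by positivity))
        have h10 : Cl ≤ 4 + Cs + Cl := by linarith
        calc Cl * (Real.tanh β ^ 2) ^ n *
            (Real.exp (-(1 - Real.tanh β ^ 2) * Real.tanh β ^ 2 / 4 * q * n / 8) *
              (D + n ^ 2 / N * K) +
            n ^ 2 * Real.exp (- Real.sqrt ((d : ℝ) - 1) ^ ((n : ℝ) / 8)))
            ≤ (4 + Cs + Cl) * (Real.tanh β ^ 2) ^ n * b n :=
              mul_le_mul (mul_le_mul_of_nonneg_right h10 hθn.le) h9 (by positivity)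
                (by positivity)
          _ = _ := by ring
  obtain ⟨m, hm⟩ := sum_sphere hE o F (fun n => (4 + Cs + Cl) * b n)
    (fun n => mul_nonneg (by positivity) (hb0 n)) _ hT
  refine hm.trans ?_
  rw [← Finset.mul_sum]
  have hfin := hCm D K N m b hD0 hK0 hN (fun n hn => by simp only [hb, if_pos hn, le_refl])
    (fun n hn => by simp only [hb, if_neg (not_le.2 hn), le_refl])
  have h1 := mul_le_mul_of_nonneg_left hfin (show 0 ≤ 2 * (4 + Cs + Cl) by positivity)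
  calc 2 * ((4 + Cs + Cl) * ∑ n ∈ Finset.range m, b n)
      = 2 * (4 + Cs + Cl) * ∑ n ∈ Finset.range m, b n := by ring
    _ ≤ _ := h1
    _ = _ := by ring


theorem measurable_ph_sum (θ : ℝ) : Measurable (ph θ) := by
  unfold ph
  fun_prop

/-- The squared covariance is at most `θ^{2n}` times the factors of one orientation. -/
theorem PairEnv.cov_sq_le [G.LocallyFinite] {d : ℕ} {β : ℝ} {μ : Measure (V → Bool)}
    (hE : Env G d β μ) {zb C1 q : ℝ} {ν : Measure ((V × ℕ → ℝ) × (V × ℕ → ℝ))}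
    (h : PairEnv G μ (Real.tanh β) d zb C1 q ν) {p : ℕ → V} {n : ℕ} (hp : Geo G p n) :
    ∀ᵐ x ∂ν, Cv G μ Set.univ (p 0) (p n) x.1 ^ 2 ≤ (Real.tanh β ^ 2) ^ n *
      ∏ i ∈ Finset.range n, ph (Real.tanh β) (msg G μ (p (i + 1)) (p i) x.1) ∧
      ∀ i, 0 ≤ ph (Real.tanh β) (msg G μ (p (i + 1)) (p i) x.1) ∧
        ph (Real.tanh β) (msg G μ (p (i + 1)) (p i) x.1) ≤ 1 := by
  have hθp := hE.theta_pos
  have hθ1 := hE.theta_lt_one
  have hall1 : ∀ᵐ x ∂ν, ∀ i : ℕ, |msg G μ (p (i + 1)) (p i) x.1| ≤ zb :=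
    ae_all_iff.2 fun i => h.bm _ _
  have hall2 : ∀ᵐ x ∂ν, ∀ i : ℕ, |msg G μ (p i) (p (i + 1)) x.1| ≤ zb :=
    ae_all_iff.2 fun i => h.bm _ _
  filter_upwards [h.cov2 p n hp, h.bM (p 0), h.bM (p n), hall1, hall2] with x h1 h2 h3 h4 h5
  have hzb := h.zb1
  have hph1 : ∀ i, 0 ≤ ph (Real.tanh β) (msg G μ (p (i + 1)) (p i) x.1) ∧
      ph (Real.tanh β) (msg G μ (p (i + 1)) (p i) x.1) ≤ 1 := fun i =>
    ph_mem_sum hθp.le hθ1 ((h4 i).trans hzb.le)
  have hph2 : ∀ i, 0 ≤ ph (Real.tanh β) (msg G μ (p i) (p (i + 1)) x.1) ∧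
      ph (Real.tanh β) (msg G μ (p i) (p (i + 1)) x.1) ≤ 1 := fun i =>
    ph_mem_sum hθp.le hθ1 ((h5 i).trans hzb.le)
  refine ⟨?_, hph1⟩
  have e1 : M G μ Set.univ (p 0) x.1 ^ 2 ≤ 1 := by
    rw [← sq_abs]; exact pow_le_one₀ (abs_nonneg _) (h2.trans hzb.le)
  have e2 : M G μ Set.univ (p n) x.1 ^ 2 ≤ 1 := by
    rw [← sq_abs]; exact pow_le_one₀ (abs_nonneg _) (h3.trans hzb.le)
  have e3 : (1 - M G μ Set.univ (p 0) x.1 ^ 2) * (1 - M G μ Set.univ (p n) x.1 ^ 2) ≤ 1 := by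
    have a1 := sq_nonneg (M G μ Set.univ (p 0) x.1)
    have a2 := sq_nonneg (M G μ Set.univ (p n) x.1)
    nlinarith only [e2]
  have e4 : 0 ≤ (1 - M G μ Set.univ (p 0) x.1 ^ 2) * (1 - M G μ Set.univ (p n) x.1 ^ 2) :=
    mul_nonneg (by linarith) (by linarith)
  have e5 : ∏ i ∈ Finset.range n, (ph (Real.tanh β) (msg G μ (p (i + 1)) (p i) x.1) *
        ph (Real.tanh β) (msg G μ (p i) (p (i + 1)) x.1)) ≤
      ∏ i ∈ Finset.range n, ph (Real.tanh β) (msg G μ (p (i + 1)) (p i) x.1) :=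
    Finset.prod_le_prod (fun i _ => mul_nonneg (hph1 i).1 (hph2 i).1)
      fun i _ => mul_le_of_le_one_right (hph1 i).1 (hph2 i).2
  have e6 : 0 ≤ ∏ i ∈ Finset.range n, (ph (Real.tanh β) (msg G μ (p (i + 1)) (p i) x.1) *
        ph (Real.tanh β) (msg G μ (p i) (p (i + 1)) x.1)) :=
    Finset.prod_nonneg fun i _ => mul_nonneg (hph1 i).1 (hph2 i).1
  have e7 : 0 ≤ (Real.tanh β ^ 2) ^ n := pow_nonneg (sq_nonneg _) _
  rw [h1]
  calc (1 - M G μ Set.univ (p 0) x.1 ^ 2) * (1 - M G μ Set.univ (p n) x.1 ^ 2) *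
        (Real.tanh β ^ 2) ^ n *
        ∏ i ∈ Finset.range n, (ph (Real.tanh β) (msg G μ (p (i + 1)) (p i) x.1) *
          ph (Real.tanh β) (msg G μ (p i) (p (i + 1)) x.1))
      ≤ (1 * (Real.tanh β ^ 2) ^ n) *
        ∏ i ∈ Finset.range n, ph (Real.tanh β) (msg G μ (p (i + 1)) (p i) x.1) :=
        mul_le_mul (mul_le_mul_of_nonneg_right e3 e7) e5 e6 (by positivity)
    _ = _ := by rw [one_mul]

/-- The square of the difference of the means is bounded. -/
theorem PairEnv.ae_sq_le [G.LocallyFinite] (h : PairEnv G μ θ d zb C1 q ν) (o : V) :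
    ∀ᵐ x ∂ν, |(M G μ Set.univ o x.1 - M G μ Set.univ o x.2) ^ 2| ≤ 4 := by
  filter_upwards [h.bM o, h.ae_swap_sum (p := fun w => |M G μ Set.univ o w| ≤ zb) (h.bM o)]
    with x h1 h2
  have hzb := h.zb1
  have h3 : |M G μ Set.univ o x.1 - M G μ Set.univ o x.2| ≤ 2 := by
    refine (abs_sub _ _).trans ?_
    linarith
  rw [abs_of_nonneg (sq_nonneg _), ← sq_abs]
  nlinarith [abs_nonneg (M G μ Set.univ o x.1 - M G μ Set.univ o x.2)]

/-- Both cases of the second static inequality for one pair. -/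
theorem PairEnv.pair_H [G.LocallyFinite] {d : ℕ} {β : ℝ} {μ : Measure (V → Bool)}
    (hE : Env G d β μ) {zb C1 q : ℝ} {ν : Measure ((V × ℕ → ℝ) × (V × ℕ → ℝ))}
    (h : PairEnv G μ (Real.tanh β) d zb C1 q ν) {p : ℕ → V} {n : ℕ} (hp : Geo G p n) :
    (∫ x, (M G μ Set.univ (p 0) x.1 - M G μ Set.univ (p 0) x.2) ^ 2 *
        Cv G μ Set.univ (p 0) (p n) x.2 ^ 2 ∂ν ≤ (Real.tanh β ^ 2) ^ n * pD G μ (p 0) ν) ∧
    (3 < n → ∫ x, (M G μ Set.univ (p 0) x.1 - M G μ Set.univ (p 0) x.2) ^ 2 *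
        Cv G μ Set.univ (p 0) (p n) x.2 ^ 2 ∂ν ≤ (Real.tanh β ^ 2) ^ n *
      (4 * (Real.exp (-((1 - Real.tanh β ^ 2) * Real.tanh β ^ 2 / 4 * q / 8 * n)) *
        pD G μ (p 0) ν + n ^ 2 * Real.exp (- Real.sqrt ((d : ℝ) - 1) ^ ((n : ℝ) / 8))))) := by
  have hμ := hE.prob
  have hprob := h.prob
  have hθp := hE.theta_pos
  have hθ1 := hE.theta_lt_one
  have hθ2 : Real.tanh β ^ 2 < 1 := by nlinarith
  have hθ0 : 0 < Real.tanh β ^ 2 := pow_pos hθp 2
  have hθn : 0 < (Real.tanh β ^ 2) ^ n := pow_pos hθ0 n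
  have hmM := measurable_M G μ Set.univ (p 0)
  have hmC := measurable_Cv G μ Set.univ (p 0) (p n)
  have hX : Measurable fun x : (V × ℕ → ℝ) × (V × ℕ → ℝ) =>
      (M G μ Set.univ (p 0) x.1 - M G μ Set.univ (p 0) x.2) ^ 2 :=
    ((hmM.comp measurable_fst).sub (hmM.comp measurable_snd)).pow_const 2
  have hswap : ∫ x, (M G μ Set.univ (p 0) x.1 - M G μ Set.univ (p 0) x.2) ^ 2 *
        Cv G μ Set.univ (p 0) (p n) x.2 ^ 2 ∂ν =
      ∫ x, (M G μ Set.univ (p 0) x.1 - M G μ Set.univ (p 0) x.2) ^ 2 *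
        Cv G μ Set.univ (p 0) (p n) x.1 ^ 2 ∂ν := by
    rw [h.integral_swap_sum (F := fun x => (M G μ Set.univ (p 0) x.1 -
      M G μ Set.univ (p 0) x.2) ^ 2 * Cv G μ Set.univ (p 0) (p n) x.2 ^ 2)
      (hX.mul ((hmC.comp measurable_snd).pow_const 2))]
    refine integral_congr_ae (Eventually.of_forall fun x => ?_)
    simp only
    ring
  rw [hswap]
  have hcov := h.cov_sq_le hE hp
  refine ⟨?_, fun hn3 => ?_⟩
  · unfold pD
    rw [← integral_const_mul]
    refine integral_mono_of_nonneg (Eventually.of_forall fun x => by positivity) ?_ ?_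
    · refine Integrable.of_bound (hX.const_mul _).aestronglyMeasurable
        ((Real.tanh β ^ 2) ^ n * 4) ?_
      filter_upwards [h.ae_sq_le (p 0)] with x hx
      rw [Real.norm_eq_abs, abs_mul, abs_of_pos hθn]
      exact mul_le_mul_of_nonneg_left hx hθn.le
    · filter_upwards [hcov] with x hx
      have h1 : ∏ i ∈ Finset.range n, ph (Real.tanh β) (msg G μ (p (i + 1)) (p i) x.1) ≤ 1 :=
        Finset.prod_le_one (fun i _ => (hx.2 i).1) fun i _ => (hx.2 i).2
      have h2 : Cv G μ Set.univ (p 0) (p n) x.1 ^ 2 ≤ (Real.tanh β ^ 2) ^ n :=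
        hx.1.trans (mul_le_of_le_one_right hθn.le h1)
      calc (M G μ Set.univ (p 0) x.1 - M G μ Set.univ (p 0) x.2) ^ 2 *
            Cv G μ Set.univ (p 0) (p n) x.1 ^ 2
          ≤ (M G μ Set.univ (p 0) x.1 - M G μ Set.univ (p 0) x.2) ^ 2 *
            (Real.tanh β ^ 2) ^ n := mul_le_mul_of_nonneg_left h2 (sq_nonneg _)
        _ = _ := mul_comm _ _
  · obtain ⟨m, rfl⟩ : ∃ m, n = m + 1 := ⟨n - 1, by omega⟩
    have hp' : Geo G p (0 + 1 + m) := by
      have : 0 + 1 + m = m + 1 := by omega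
      rw [this]; exact hp
    have hinv : ∀ g : G ≃g G, (∀ i, 0 ≤ i → i ≤ 0 + 1 → g (p i) = p i) →
        ∀ x : (V × ℕ → ℝ) × (V × ℕ → ℝ),
          (M G μ Set.univ (p 0) (actE g.toEquiv x.1) -
            M G μ Set.univ (p 0) (actE g.toEquiv x.2)) ^ 2 =
          (M G μ Set.univ (p 0) x.1 - M G μ Set.univ (p 0) x.2) ^ 2 := by
      intro g hg x
      have hμg : μ.map (actC g.toEquiv) = μ := hE.ising.map_iso hE.tree g
      have e1 := M_univ_act hE.tree.connected g hμg (p 0) x.1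
      have e2 := M_univ_act hE.tree.connected g hμg (p 0) x.2
      rw [hg 0 le_rfl (by omega)] at e1 e2
      rw [e1, e2]
    have havg := h.avg_tail hE (l := 0) (L := 1) (m := m) le_rfl hp' hX (B := 4)
      (fun x => sq_nonneg _) (h.ae_sq_le (p 0)) hinv (j := m) (by simp)
    -- comparison
    have hcmp : ∫ x, (M G μ Set.univ (p 0) x.1 - M G μ Set.univ (p 0) x.2) ^ 2 *
          Cv G μ Set.univ (p 0) (p (m + 1)) x.1 ^ 2 ∂ν ≤
        ∫ x, (Real.tanh β ^ 2) ^ (m + 1) *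
          ((M G μ Set.univ (p 0) x.1 - M G μ Set.univ (p 0) x.2) ^ 2 *
          (∏ i ∈ Finset.range 0, ph (Real.tanh β) (msg G μ (p i) (p (i + 1)) x.1)) *
          (∏ i ∈ Finset.range m, ph (Real.tanh β)
            (msg G μ (p (0 + 1 + i + 1)) (p (0 + 1 + i)) x.1))) ∂ν := by
      have hmph : ∀ i, Measurable fun x : (V × ℕ → ℝ) × (V × ℕ → ℝ) =>
          ph (Real.tanh β) (msg G μ (p (0 + 1 + i + 1)) (p (0 + 1 + i)) x.1) := fun i =>
        (measurable_ph_sum _).comp ((measurable_msg G μ _ _).comp measurable_fst)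
      refine integral_mono_of_nonneg (Eventually.of_forall fun x => by positivity) ?_ ?_
      · refine Integrable.of_bound (Measurable.aestronglyMeasurable ?_)
          ((Real.tanh β ^ 2) ^ (m + 1) * 4) ?_
        · simp only [Finset.range_zero, Finset.prod_empty, mul_one]
          exact (hX.mul (Finset.measurable_fun_prod _ fun i _ => hmph i)).const_mul _
        · filter_upwards [h.ae_sq_le (p 0), hcov] with x hx hx2
          rw [Real.norm_eq_abs, abs_mul, abs_of_pos hθn]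
          refine mul_le_mul_of_nonneg_left ?_ hθn.le
          simp only [Finset.range_zero, Finset.prod_empty, mul_one]
          rw [abs_mul]
          have h1 : ∀ i, 0 ≤ ph (Real.tanh β) (msg G μ (p (0 + 1 + i + 1)) (p (0 + 1 + i)) x.1) ∧
              ph (Real.tanh β) (msg G μ (p (0 + 1 + i + 1)) (p (0 + 1 + i)) x.1) ≤ 1 :=
            fun i => hx2.2 (0 + 1 + i)
          have h2 : |∏ i ∈ Finset.range m, ph (Real.tanh β)
              (msg G μ (p (0 + 1 + i + 1)) (p (0 + 1 + i)) x.1)| ≤ 1 := by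
            rw [abs_of_nonneg (Finset.prod_nonneg fun i _ => (h1 i).1)]
            exact Finset.prod_le_one (fun i _ => (h1 i).1) fun i _ => (h1 i).2
          calc _ ≤ (4 : ℝ) * 1 := mul_le_mul hx h2 (abs_nonneg _) (by norm_num)
            _ = 4 := mul_one 4
      · filter_upwards [hcov] with x hx
        simp only [Finset.range_zero, Finset.prod_empty, mul_one]
        have h1 : ∏ i ∈ Finset.range (m + 1), ph (Real.tanh β)
            (msg G μ (p (i + 1)) (p i) x.1) ≤ ∏ i ∈ Finset.range m, ph (Real.tanh β)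
              (msg G μ (p (0 + 1 + i + 1)) (p (0 + 1 + i)) x.1) := by
          rw [Finset.prod_range_succ']
          have h2 : ∀ i, ph (Real.tanh β) (msg G μ (p (i + 1 + 1)) (p (i + 1)) x.1) =
              ph (Real.tanh β) (msg G μ (p (0 + 1 + i + 1)) (p (0 + 1 + i)) x.1) := by
            intro i
            have : 0 + 1 + i = i + 1 := by omega
            rw [this]
          simp only [h2]
          refine mul_le_of_le_one_right (Finset.prod_nonneg fun i _ => (hx.2 (0 + 1 + i)).1)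
            (hx.2 0).2
        calc (M G μ Set.univ (p 0) x.1 - M G μ Set.univ (p 0) x.2) ^ 2 *
              Cv G μ Set.univ (p 0) (p (m + 1)) x.1 ^ 2
            ≤ (M G μ Set.univ (p 0) x.1 - M G μ Set.univ (p 0) x.2) ^ 2 *
              ((Real.tanh β ^ 2) ^ (m + 1) * ∏ i ∈ Finset.range m, ph (Real.tanh β)
              (msg G μ (p (0 + 1 + i + 1)) (p (0 + 1 + i)) x.1)) :=
              mul_le_mul_of_nonneg_left
                (hx.1.trans (mul_le_mul_of_nonneg_left h1 hθn.le)) (sq_nonneg _)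
          _ = _ := by ring
    refine hcmp.trans ?_
    rw [integral_const_mul]
    refine mul_le_mul_of_nonneg_left (havg.trans ?_) hθn.le
    -- `q ≤ 1`
    have hq1 : q ≤ 1 := by
      rw [← h.qdef (p 0) (p 1) (hp.1 0 (by omega))]
      have h1 : ∫ x, msg G μ (p 0) (p 1) x.1 ^ 2 ∂ν ≤ ∫ _, (1 : ℝ) ∂ν := by
        refine integral_mono_of_nonneg (Eventually.of_forall fun x => sq_nonneg _)
          (integrable_const _) ?_
        filter_upwards [h.bm (p 0) (p 1)] with x hx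
        rw [← sq_abs]
        exact pow_le_one₀ (abs_nonneg _) (hx.trans h.zb1.le)
      simpa using h1
    have hq0 := h.q0
    set κ : ℝ := (1 - Real.tanh β ^ 2) * Real.tanh β ^ 2 / 4 with hκ
    have hκ0 : 0 ≤ κ := by
      have : 0 < 1 - Real.tanh β ^ 2 := by linarith
      positivity
    have hκ1 : κ ≤ 1 := by rw [hκ]; nlinarith only [hθ2]
    have hD0 : 0 ≤ pD G μ (p 0) ν := pD_nonneg (p 0)
    have hm2 : ((m + 1 : ℕ) : ℝ) / 4 ≤ ((m / 2 : ℕ) : ℝ) := by
      have h1 : m + 1 ≤ 4 * (m / 2) := by omega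
      have h2 : ((m + 1 : ℕ) : ℝ) ≤ ((4 * (m / 2) : ℕ) : ℝ) := by exact_mod_cast h1
      push_cast at h2 ⊢
      linarith
    have hκq : 0 ≤ κ * q := mul_nonneg hκ0 hq0
    have t1 : (1 - κ * q) ^ (m / 2) ≤ Real.exp (-(κ * q / 8 * ((m + 1 : ℕ) : ℝ))) := by
      have h1 : 1 - κ * q ≤ Real.exp (-(κ * q)) := Real.one_sub_le_exp_neg _
      have h2 : 0 ≤ 1 - κ * q := by nlinarith only [hq1, hκ0, hκ1]
      refine (pow_le_pow_left₀ h2 h1 _).trans ?_
      rw [← Real.exp_nat_mul, Real.exp_le_exp]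
      have h3 := mul_le_mul_of_nonneg_left hm2 hκq
      have h4 : 0 ≤ κ * q * ((m + 1 : ℕ) : ℝ) := by positivity
      linarith only [h3, h4]
    have hsq1 : 1 ≤ Real.sqrt ((d : ℝ) - 1) := by
      have hd3 : (3 : ℝ) ≤ d := by exact_mod_cast hE.three
      rw [Real.one_le_sqrt]
      linarith
    have t2 : Real.exp (-2 * Real.sqrt ((d : ℝ) - 1) ^ (m / 2)) ≤
        Real.exp (- Real.sqrt ((d : ℝ) - 1) ^ (((m + 1 : ℕ) : ℝ) / 8)) := by
      rw [Real.exp_le_exp]
      have h1 : Real.sqrt ((d : ℝ) - 1) ^ (((m + 1 : ℕ) : ℝ) / 8) ≤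
          Real.sqrt ((d : ℝ) - 1) ^ (m / 2) := by
        rw [← Real.rpow_natCast]
        refine Real.rpow_le_rpow_of_exponent_le hsq1 ?_
        have : (0 : ℝ) ≤ ((m + 1 : ℕ) : ℝ) := Nat.cast_nonneg _
        linarith
      have h2 : 0 ≤ Real.sqrt ((d : ℝ) - 1) ^ (m / 2) := by positivity
      linarith
    have hm1 : (1 : ℝ) ≤ ((m + 1 : ℕ) : ℝ) ^ 2 := by
      have : (1 : ℝ) ≤ ((m + 1 : ℕ) : ℝ) := by exact_mod_cast Nat.succ_le_succ (Nat.zero_le m)
      nlinarith only [this]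
    have t3 := mul_le_mul_of_nonneg_right t1 hD0
    have t4 : Real.exp (- Real.sqrt ((d : ℝ) - 1) ^ (((m + 1 : ℕ) : ℝ) / 8)) ≤
        ((m + 1 : ℕ) : ℝ) ^ 2 *
          Real.exp (- Real.sqrt ((d : ℝ) - 1) ^ (((m + 1 : ℕ) : ℝ) / 8)) :=
      le_mul_of_one_le_left (Real.exp_pos _).le hm1
    have t5 : 0 ≤ Real.exp (-(κ * q / 8 * ((m + 1 : ℕ) : ℝ))) * pD G μ (p 0) ν := by positivity
    change 2 * (1 - κ * q) ^ (m / 2) * pD G μ (p 0) ν + 4 * _ ≤ _
    linarith

/-- Second static inequality: `E (M_o - M_o')² ∑_x Cv'(o,x)² ≤ C (N D + err)`. -/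
theorem PairEnv.pair_static_H [G.LocallyFinite] {d : ℕ} {β : ℝ} {μ : Measure (V → Bool)}
    (hE : Env G d β μ) (zb C1 lam : ℝ) (hlam : 0 < lam) :
    ∃ C c : ℝ, 0 ≤ C ∧ 0 < c ∧ ∀ (q : ℝ) (ν : Measure ((V × ℕ → ℝ) × (V × ℕ → ℝ))),
      PairEnv G μ (Real.tanh β) d zb C1 q ν → ∀ (N : ℕ), 1 ≤ N → lam ≤ N * q →
      ∀ (o : V) (F : Finset V),
      ∑ x' ∈ F, ∫ x, (M G μ Set.univ o x.1 - M G μ Set.univ o x.2) ^ 2 *
          Cv G μ Set.univ o x' x.2 ^ 2 ∂ν ≤
        C * (N * pD G μ o ν + Real.exp (- c * Real.exp (c * N))) := by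
  have hμ := hE.prob
  have hθp := hE.theta_pos
  have hθ1 := hE.theta_lt_one
  have hθ2 : Real.tanh β ^ 2 < 1 := by nlinarith
  have hθ0 : 0 < Real.tanh β ^ 2 := pow_pos hθp 2
  set κ : ℝ := (1 - Real.tanh β ^ 2) * Real.tanh β ^ 2 / 4 with hκ
  have hκ0 : 0 < κ := by
    have : 0 < 1 - Real.tanh β ^ 2 := by linarith
    positivity
  have ha : 0 < Real.log 2 / 16 := by
    have := Real.log_pos (by norm_num : (1 : ℝ) < 2)
    positivity
  have ha' : 3 * (Real.log 2 / 16) ≤ 1 / 2 := by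
    have := Real.log_two_lt_d9
    linarith
  obtain ⟨Cm, hCm0, hCm⟩ := sum_master (κ * lam / 8) (Real.log 2 / 16) (by positivity) ha ha'
  refine ⟨2 * (4 * Cm), 3 * (Real.log 2 / 16), by positivity, by positivity, ?_⟩
  intro q ν h N hN hNq o F
  set D := pD G μ o ν with hD
  have hD0 : 0 ≤ D := pD_nonneg o
  have hN' : (1 : ℝ) ≤ N := by exact_mod_cast hN
  have hN0 : (0 : ℝ) < N := by linarith
  set b : ℕ → ℝ := fun n => if n ≤ 3 * N then D else
    Real.exp (- (κ * lam / 8 / N) * n) * D +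
      n ^ 2 * Real.exp (- Real.exp (Real.log 2 / 16 * n)) with hb
  have hb0 : ∀ n, 0 ≤ b n := by
    intro n
    simp only [hb]
    split_ifs
    · positivity
    · positivity
  have hT : ∀ x' ∈ F, ∫ x, (M G μ Set.univ o x.1 - M G μ Set.univ o x.2) ^ 2 *
          Cv G μ Set.univ o x' x.2 ^ 2 ∂ν ≤
      (Real.tanh β ^ 2) ^ (G.dist o x') * (4 * b (G.dist o x')) := by
    intro x' _
    obtain ⟨p, hp0, hpn, hgeo⟩ := exists_geo hE.tree.connected o x'
    set n := G.dist o x' with hn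
    have hθn : 0 < (Real.tanh β ^ 2) ^ n := pow_pos hθ0 n
    have hH := h.pair_H hE hgeo
    rw [hp0, hpn] at hH
    by_cases hn3 : n ≤ 3 * N
    · refine hH.1.trans (mul_le_mul_of_nonneg_left ?_ hθn.le)
      have h2 : b n = D := by simp only [hb, if_pos hn3]
      rw [h2]
      linarith
    · have hn3' : 3 * N < n := not_le.1 hn3
      refine (hH.2 (by omega)).trans (mul_le_mul_of_nonneg_left ?_ hθn.le)
      have h2 : b n = Real.exp (- (κ * lam / 8 / N) * n) * D +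
          n ^ 2 * Real.exp (- Real.exp (Real.log 2 / 16 * n)) := by
        simp only [hb, if_neg hn3]
      have h3 : Real.exp (-(κ * q / 8 * n)) ≤ Real.exp (- (κ * lam / 8 / N) * n) := by
        rw [Real.exp_le_exp]
        have h4 : κ * lam / 8 / N ≤ κ * q / 8 := by
          rw [div_le_iff₀ hN0]
          nlinarith only [hκ0, hNq]
        have h5 : (0 : ℝ) ≤ n := Nat.cast_nonneg n
        have h6 := mul_le_mul_of_nonneg_right h4 h5
        linarith
      have h8 : Real.exp (- Real.sqrt ((d : ℝ) - 1) ^ ((n : ℝ) / 8)) ≤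
          Real.exp (- Real.exp (Real.log 2 / 16 * n)) := by
        rw [Real.exp_le_exp]
        exact neg_le_neg (exp_le_sqrt_rpow hE.three n)
      rw [h2]
      refine mul_le_mul_of_nonneg_left ?_ (by norm_num)
      exact add_le_add (mul_le_mul_of_nonneg_right h3 hD0)
        (mul_le_mul_of_nonneg_left h8 (by positivity))
  obtain ⟨m, hm⟩ := sum_sphere hE o F (fun n => 4 * b n)
    (fun n => mul_nonneg (by positivity) (hb0 n)) _ hT
  refine hm.trans ?_
  rw [← Finset.mul_sum]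
  have hfin := hCm D 0 N m b hD0 le_rfl hN (fun n hn => by
      simp only [hb, if_pos hn, mul_zero, add_zero, le_refl])
    (fun n hn => by simp only [hb, if_neg (not_le.2 hn), mul_zero, add_zero, le_refl])
  rw [mul_zero, zero_add] at hfin
  have h1 := mul_le_mul_of_nonneg_left hfin (show (0 : ℝ) ≤ 2 * 4 by norm_num)
  calc 2 * (4 * ∑ n ∈ Finset.range m, b n)
      = 2 * 4 * ∑ n ∈ Finset.range m, b n := by ring
    _ ≤ _ := h1
    _ = _ := by ring

end Vale.Agent.P161.Crit
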