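import Vale.Agent.Lib.P161.Crit.Dineq
import Vale.Agent.Lib.P161.Crit.PairInst
import Vale.Agent.Lib.P161.Crit.PairSum
import Vale.Agent.Lib.P161.Crit.Ode
import Vale.Agent.Lib.P161.Crit.Fin1
import Vale.Agent.Lib.P161.Crit.Fin2

/-!
P161-CRIT, module Final: the free Ising measure at the critical point is a factor of IID.
-/

open MeasureTheory Filter Topology ProbabilityTheory

namespace Vale.Agent.P161.Crit

variable {V : Type*} {G : SimpleGraph V} {μ : Measure (V → Bool)}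

theorem isProbabilityMeasure_PD [Countable V] [IsProbabilityMeasure μ] (G : SimpleGraph V)
    (a : ℝ) : IsProbabilityMeasure (PD G μ a) := by
  have := isProbabilityMeasure_PT (μ := μ) a
  exact isProbabilityMeasure_doub (measurable_fst.prodMk (measurable_Xi G a))

theorem measurable_ws_fst (a x : ℝ) : Measurable
    fun z : (Arr V × Arr V) × (Arr V × Arr V) => (ws a z.1.1 z.1.2 x, ws a z.2.1 z.2.2 x) := by
  refine Measurable.prodMk ?_ ?_
  · exact (measurable_ws a).comp (measurable_const.prodMk measurable_fst)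
  · exact (measurable_ws a).comp (measurable_const.prodMk measurable_snd)

theorem isProbabilityMeasure_nuX [Countable V] [IsProbabilityMeasure μ] (G : SimpleGraph V)
    (a x : ℝ) : IsProbabilityMeasure (nuX G μ a x) := by
  have := isProbabilityMeasure_PD (μ := μ) G a
  exact Measure.isProbabilityMeasure_map (measurable_ws_fst a x).aemeasurable

theorem ae_nuX_bound [Countable V] [IsProbabilityMeasure μ] (G : SimpleGraph V)
    {a : ℝ} (ha : 0 ≤ a) (x : ℝ) : ∀ᵐ w ∂(nuX G μ a x), (∀ e, |w.1 e| ≤ a) ∧ ∀ e, |w.2 e| ≤ a := by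
  have hm : MeasurableSet {w : (V × ℕ → ℝ) × (V × ℕ → ℝ) | (∀ e, |w.1 e| ≤ a) ∧
      ∀ e, |w.2 e| ≤ a} := by
    have h1 : {w : (V × ℕ → ℝ) × (V × ℕ → ℝ) | (∀ e, |w.1 e| ≤ a) ∧ ∀ e, |w.2 e| ≤ a} =
      (⋂ e, {w | |w.1 e| ≤ a}) ∩ ⋂ e, {w | |w.2 e| ≤ a} := by
      ext w; simp
    rw [h1]
    refine MeasurableSet.inter (MeasurableSet.iInter fun e => ?_) (MeasurableSet.iInter fun e => ?_)
    · exact measurableSet_le (by fun_prop) measurable_const
    · exact measurableSet_le (by fun_prop) measurable_const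
  rw [nuX, ae_map_iff (measurable_ws_fst a x).aemeasurable hm]
  exact Eventually.of_forall fun z => ⟨fun e => abs_ws_le ha _ _ _ _, fun e => abs_ws_le ha _ _ _ _⟩

section

variable [G.LocallyFinite] [Countable V] [IsProbabilityMeasure μ] {d : ℕ} {β : ℝ}

theorem Dn_le_four (_hE : Env G d β μ) {a : ℝ} (ha : 0 ≤ a) (ha1 : a < 1) (o : V) (x : ℝ) :
    Dn G μ a o x ≤ 4 := by
  have := isProbabilityMeasure_nuX (μ := μ) G a x
  have h1 : Dn G μ a o x ≤ ∫⁻ _, 4 ∂(nuX G μ a x) := by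
    refine lintegral_mono_ae ?_
    filter_upwards [ae_nuX_bound (μ := μ) G ha x] with w hw
    have h2 := abs_M_le (G := G) ha ha1 μ hw.1 Set.univ o
    have h3 := abs_M_le (G := G) ha ha1 μ hw.2 Set.univ o
    have h4 : (M G μ Set.univ o w.1 - M G μ Set.univ o w.2) ^ 2 ≤ 4 := by
      have h5 : |M G μ Set.univ o w.1 - M G μ Set.univ o w.2| ≤ 2 :=
        (abs_sub _ _).trans (by linarith)
      have h6 := sq_le_sq' (by linarith [(abs_le.1 h5).1]) (abs_le.1 h5).2
      linarith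
    calc ENNReal.ofReal _ ≤ ENNReal.ofReal 4 := ENNReal.ofReal_le_ofReal h4
      _ = 4 := by simp
  simpa using h1

theorem integrable_of_ae_bound {α : Type*} [MeasurableSpace α] {ν : Measure α}
    [IsFiniteMeasure ν] {f : α → ℝ} (hf : Measurable f) {C : ℝ} (h : ∀ᵐ w ∂ν, |f w| ≤ C) :
    Integrable f ν :=
  Integrable.of_bound hf.aestronglyMeasurable C (by simpa [Real.norm_eq_abs] using h)

omit [Countable V] in
theorem measurable_M_sub (G : SimpleGraph V) (μ : Measure (V → Bool)) [IsProbabilityMeasure μ]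
    (o : V) : Measurable fun w : (V × ℕ → ℝ) × (V × ℕ → ℝ) =>
      (M G μ Set.univ o w.1 - M G μ Set.univ o w.2) ^ 2 :=
  (((measurable_M G μ Set.univ o).comp measurable_fst).sub
    ((measurable_M G μ Set.univ o).comp measurable_snd)).pow_const 2

omit [Countable V] in
theorem measurable_Cv_sub (G : SimpleGraph V) (μ : Measure (V → Bool)) [IsProbabilityMeasure μ]
    (o v : V) : Measurable fun w : (V × ℕ → ℝ) × (V × ℕ → ℝ) =>
      (Cv G μ Set.univ o v w.1 - Cv G μ Set.univ o v w.2) ^ 2 :=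
  (((measurable_Cv G μ Set.univ o v).comp measurable_fst).sub
    ((measurable_Cv G μ Set.univ o v).comp measurable_snd)).pow_const 2

theorem ae_M_sub_le {a : ℝ} (ha : 0 ≤ a) (ha1 : a < 1) (o : V) (x : ℝ) :
    ∀ᵐ w ∂(nuX G μ a x), |(M G μ Set.univ o w.1 - M G μ Set.univ o w.2) ^ 2| ≤ 4 := by
  filter_upwards [ae_nuX_bound (μ := μ) G ha x] with w hw
  have h2 := abs_M_le (G := G) ha ha1 μ hw.1 Set.univ o
  have h3 := abs_M_le (G := G) ha ha1 μ hw.2 Set.univ o
  have h5 : |M G μ Set.univ o w.1 - M G μ Set.univ o w.2| ≤ 2 :=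
    (abs_sub _ _).trans (by linarith)
  rw [abs_of_nonneg (sq_nonneg _)]
  have h6 := sq_le_sq' (by linarith [(abs_le.1 h5).1]) (abs_le.1 h5).2
  linarith

theorem ae_Cv_sub_le {a : ℝ} (ha : 0 ≤ a) (ha1 : a < 1) (o v : V) (x : ℝ) :
    ∀ᵐ w ∂(nuX G μ a x), |(Cv G μ Set.univ o v w.1 - Cv G μ Set.univ o v w.2) ^ 2| ≤ 16 := by
  filter_upwards [ae_nuX_bound (μ := μ) G ha x] with w hw
  have h2 := abs_Cv_le (G := G) ha ha1 μ hw.1 Set.univ o v
  have h3 := abs_Cv_le (G := G) ha ha1 μ hw.2 Set.univ o v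
  have h5 : |Cv G μ Set.univ o v w.1 - Cv G μ Set.univ o v w.2| ≤ 4 :=
    (abs_sub _ _).trans (by linarith)
  rw [abs_of_nonneg (sq_nonneg _)]
  have h6 := sq_le_sq' (by linarith [(abs_le.1 h5).1]) (abs_le.1 h5).2
  linarith

theorem Dn_eq {a : ℝ} (ha : 0 ≤ a) (ha1 : a < 1) (o : V) (x : ℝ) :
    Dn G μ a o x = ENNReal.ofReal (pD G μ o (nuX G μ a x)) := by
  have := isProbabilityMeasure_nuX (μ := μ) G a x
  rw [Dn, pD, ofReal_integral_eq_lintegral_ofReal]
  · exact integrable_of_ae_bound (measurable_M_sub G μ o) (ae_M_sub_le ha ha1 o x)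
  · exact Eventually.of_forall fun w => sq_nonneg _

theorem Gn_le {a : ℝ} (ha : 0 ≤ a) (ha1 : a < 1) (o : V) (x B : ℝ)
    (hB : ∀ F : Finset V, ∑ x' ∈ F, ∫ w, (Cv G μ Set.univ o x' w.1 - Cv G μ Set.univ o x' w.2) ^ 2
      ∂(nuX G μ a x) ≤ B) : Gn G μ a o x ≤ ENNReal.ofReal B := by
  have := isProbabilityMeasure_nuX (μ := μ) G a x
  rw [Gn, ENNReal.tsum_eq_iSup_sum]
  refine iSup_le fun F => ?_
  have h1 : ∑ v ∈ F, ∫⁻ p, ENNReal.ofReal
      ((Cv G μ Set.univ o v p.1 - Cv G μ Set.univ o v p.2) ^ 2) ∂(nuX G μ a x) =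
      ENNReal.ofReal (∑ v ∈ F, ∫ w, (Cv G μ Set.univ o v w.1 - Cv G μ Set.univ o v w.2) ^ 2
        ∂(nuX G μ a x)) := by
    rw [ENNReal.ofReal_sum_of_nonneg fun v _ => integral_nonneg fun w => sq_nonneg _]
    refine Finset.sum_congr rfl fun v _ => ?_
    rw [ofReal_integral_eq_lintegral_ofReal]
    · exact integrable_of_ae_bound (measurable_Cv_sub G μ o v) (ae_Cv_sub_le ha ha1 o v x)
    · exact Eventually.of_forall fun w => sq_nonneg _
  rw [h1]
  exact ENNReal.ofReal_le_ofReal (hB F)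

theorem Hn_le {a : ℝ} (ha : 0 ≤ a) (ha1 : a < 1) (o : V) (x B : ℝ)
    (hB : ∀ F : Finset V, ∑ x' ∈ F, ∫ w, (M G μ Set.univ o w.1 - M G μ Set.univ o w.2) ^ 2 *
      Cv G μ Set.univ o x' w.2 ^ 2 ∂(nuX G μ a x) ≤ B) : Hn G μ a o x ≤ ENNReal.ofReal B := by
  have := isProbabilityMeasure_nuX (μ := μ) G a x
  rw [Hn, ENNReal.tsum_eq_iSup_sum]
  refine iSup_le fun F => ?_
  have h1 : ∑ v ∈ F, ∫⁻ p, ENNReal.ofReal
      ((M G μ Set.univ o p.1 - M G μ Set.univ o p.2) ^ 2 * Cv G μ Set.univ o v p.2 ^ 2)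
        ∂(nuX G μ a x) =
      ENNReal.ofReal (∑ v ∈ F, ∫ w, (M G μ Set.univ o w.1 - M G μ Set.univ o w.2) ^ 2 *
        Cv G μ Set.univ o v w.2 ^ 2 ∂(nuX G μ a x)) := by
    rw [ENNReal.ofReal_sum_of_nonneg fun v _ => integral_nonneg fun w => by positivity]
    refine Finset.sum_congr rfl fun v _ => ?_
    rw [ofReal_integral_eq_lintegral_ofReal]
    · refine integrable_of_ae_bound (C := 16) ((measurable_M_sub G μ o).mul
        (((measurable_Cv G μ Set.univ o v).comp measurable_snd).pow_const 2)) ?_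
      filter_upwards [ae_M_sub_le (G := G) (μ := μ) ha ha1 o x,
        ae_nuX_bound (μ := μ) G ha x] with w h1 hw
      have h3 := abs_Cv_le (G := G) ha ha1 μ hw.2 Set.univ o v
      have h4 : Cv G μ Set.univ o v w.2 ^ 2 ≤ 4 := by
        have h6 := sq_le_sq' (by linarith [(abs_le.1 h3).1]) (abs_le.1 h3).2
        linarith
      rw [abs_mul, abs_of_nonneg (sq_nonneg (Cv G μ Set.univ o v w.2))]
      calc _ ≤ (4 : ℝ) * 4 := mul_le_mul h1 h4 (sq_nonneg _) (by norm_num)
        _ = 16 := by norm_num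
    · exact Eventually.of_forall fun w => by positivity
  rw [h1]
  exact ENNReal.ofReal_le_ofReal (hB F)

/-- Markov's inequality with the moments at small times. -/
theorem prob_M_le (hE : Env G d β μ) {a : ℝ} (ha : 0 < a) (ha1 : a < 1) (i : ℕ) (hi : 1 ≤ i) :
    ∃ C : ℝ, 0 ≤ C ∧ ∀ (o : V) (x : ℝ), 0 < x → x ≤ 1 / 2 → ∀ ε : ℝ, 0 < ε → ε ≤ 1 →
      (nuX G μ a x).real {w | ε < |M G μ Set.univ o w.1|} ≤
        C * x ^ ((3 : ℝ) / 2 * i) / ε ^ (2 * i) := by
  obtain ⟨C, hC0, hC⟩ := M_moment hE ha ha1 i hi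
  refine ⟨C, hC0, fun o x hx hx2 ε hε _ => ?_⟩
  have := isProbabilityMeasure_nuX (μ := μ) G a x
  have hPO := isProbabilityMeasure_PO (μ := μ)
  have hms : Measurable fun ω : Conf V => slp (zm a (mx x)) (ym a (mx x) ω) := by
    have h : (fun ω : Conf V => slp (zm a (mx x)) (ym a (mx x) ω)) =
        fun ω => ws a ω.2.1 (tt a ω.1 ω.2.1 ω.2.2) x := by
      funext ω
      rw [slp_ym, wm_mx]
    rw [h]
    exact (measurable_ws a).comp (measurable_const.prodMk
      ((measurable_fst.comp measurable_snd).prodMk (measurable_tt a)))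
  -- the moment under `nuX`
  have hmom : ∫ w, M G μ Set.univ o w.1 ^ (2 * i) ∂(nuX G μ a x) =
      ∫ ω, M G μ Set.univ o (ws a ω.2.1 (tt a ω.1 ω.2.1 ω.2.2) x) ^ (2 * i) ∂(PO μ) := by
    have h1 : ∫ w, M G μ Set.univ o w.1 ^ (2 * i) ∂(nuX G μ a x) =
        ∫ w, M G μ Set.univ o w ^ (2 * i) ∂((nuX G μ a x).map Prod.fst) :=
      (integral_map measurable_fst.aemeasurable
        ((measurable_M G μ Set.univ o).pow_const _).aestronglyMeasurable).symm
    rw [h1, nuX_fst hE ha.le ha1, integral_map hms.aemeasurable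
      ((measurable_M G μ Set.univ o).pow_const _).aestronglyMeasurable]
    simp only [slp_ym, wm_mx]
  have hle := hC o x hx hx2
  rw [← hmom] at hle
  have hint : Integrable (fun w : (V × ℕ → ℝ) × (V × ℕ → ℝ) => M G μ Set.univ o w.1 ^ (2 * i))
      (nuX G μ a x) := by
    refine integrable_of_ae_bound (C := 1)
      (((measurable_M G μ Set.univ o).comp measurable_fst).pow_const _) ?_
    filter_upwards [ae_nuX_bound (μ := μ) G ha.le x] with w hw
    have h2 := abs_M_le (G := G) ha.le ha1 μ hw.1 Set.univ o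
    rw [abs_pow]
    exact pow_le_one₀ (abs_nonneg _) h2
  have hmarkov := mul_meas_ge_le_integral_of_nonneg (μ := nuX G μ a x)
    (f := fun w : (V × ℕ → ℝ) × (V × ℕ → ℝ) => M G μ Set.univ o w.1 ^ (2 * i))
    (Eventually.of_forall fun w => by
      show (0 : ℝ) ≤ M G μ Set.univ o w.1 ^ (2 * i)
      rw [pow_mul]; positivity) hint (ε ^ (2 * i))
  rw [le_div_iff₀ (by positivity), mul_comm]
  refine le_trans ?_ (hmarkov.trans hle)
  refine mul_le_mul_of_nonneg_left (measureReal_mono ?_) (by positivity)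
  intro w hw
  simp only [Set.mem_ofPred_eq] at hw ⊢
  rw [← (Even.pow_abs (even_two_mul i) (M G μ Set.univ o w.1))]
  exact pow_le_pow_left₀ hε.le hw.le _

/-- `D = 0`. -/
theorem Dn_eq_zero (hE : Env G d β μ) {a : ℝ} (ha : 0 < a) (ha1 : a < 1) (o : V) (x : ℝ)
    (hx : 0 < x) : Dn G μ a o x = 0 := by
  -- a neighbour of `o`
  obtain ⟨p1, hp1⟩ : ∃ p1, G.Adj o p1 := by
    have h1 : (G.neighborFinset o).Nonempty := by
      rw [← Finset.card_pos, G.card_neighborFinset_eq_degree, hE.reg.degree_eq]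
      have := hE.three
      omega
    obtain ⟨p1, h⟩ := h1
    exact ⟨p1, by simpa using h⟩
  obtain ⟨J, hJ⟩ := exists_nat_ge x
  obtain ⟨zb, C1, henv⟩ := pairEnv_nuX hE ha.le ha1 J
  obtain ⟨Ca, ca, hCa, hca, hstat⟩ := PairEnv.pair_static hE zb C1 1 one_pos
  obtain ⟨Cb, cb, hCb, hcb, hstatH⟩ := PairEnv.pair_static_H hE zb C1 1 one_pos
  obtain ⟨Ck, hCk, hpK⟩ := PairEnv.pK_le hE zb C1
  obtain ⟨Cd, hCd, hdin⟩ := dineq hE ha ha1
  obtain ⟨cq, hcq, hq⟩ := qx_lower hE ha ha1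
  have hmain := ode_zero (D := Dn G μ a o) (Gt := fun v => Gn G μ a o v + Hn G μ a o v)
    (K := fun v => ENNReal.ofReal (pK G μ (Real.tanh β) o p1 (nuX G μ a v)))
    (Pr := fun v ε => ENNReal.ofReal ((nuX G μ a v).real {w | ε < |M G μ Set.univ o w.1|}))
    (q := qx G μ a o p1) ha ha1 J
    (measurable_nuX hE a (measurable_M_sub G μ o).ennreal_ofReal)
    (Dn_le_four hE ha.le ha1 o) ⟨Cd, hCd, fun x hx hxJ => hdin o J x hx hxJ⟩ ?_ ?_ ?_
    ⟨cq, hcq, fun x hx _ => hq o p1 hp1 x hx⟩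
  · exact hmain x hx hJ
  · -- h2
    refine ⟨Ca + Cb, min ca cb, by positivity, lt_min hca hcb, fun v hv hvJ N hN hNq => ?_⟩
    have he := henv v hv hvJ o p1 hp1
    have h1 := Gn_le (G := G) (μ := μ) ha.le ha1 o v _
      (fun F => hstat _ _ he N hN hNq o o p1 hp1 F)
    have h2 := Hn_le (G := G) (μ := μ) ha.le ha1 o v _
      (fun F => hstatH _ _ he N hN hNq o F)
    have hK0 : 0 ≤ pK G μ (Real.tanh β) o p1 (nuX G μ a v) := integral_nonneg fun w => sq_nonneg _
    have hD0 : 0 ≤ pD G μ o (nuX G μ a v) := integral_nonneg fun w => sq_nonneg _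
    have hexp : ∀ c : ℝ, min ca cb ≤ c → Real.exp (-c * Real.exp (c * N)) ≤
        Real.exp (-(min ca cb) * Real.exp (min ca cb * N)) := by
      intro c hc
      have hm : 0 < min ca cb := lt_min hca hcb
      apply Real.exp_le_exp.2
      have h3 : Real.exp (min ca cb * N) ≤ Real.exp (c * N) :=
        Real.exp_le_exp.2 (mul_le_mul_of_nonneg_right hc (Nat.cast_nonneg N))
      have h4 : min ca cb * Real.exp (min ca cb * N) ≤ c * Real.exp (c * N) :=
        mul_le_mul hc h3 (Real.exp_pos _).le (hm.le.trans hc)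
      linarith
    have h3 := hexp ca (min_le_left _ _)
    have h4 := hexp cb (min_le_right _ _)
    set E := Real.exp (-(min ca cb) * Real.exp (min ca cb * N)) with hEdef
    set Kv := pK G μ (Real.tanh β) o p1 (nuX G μ a v) with hKv
    set Dv := pD G μ o (nuX G μ a v) with hDv
    have hE0 : 0 ≤ E := (Real.exp_pos _).le
    have hN0 : (0 : ℝ) ≤ N := Nat.cast_nonneg N
    have h5 : Ca * (N ^ 2 * Kv + N * Dv + Real.exp (-ca * Real.exp (ca * N))) +
        Cb * (N * Dv + Real.exp (-cb * Real.exp (cb * N))) ≤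
        (Ca + Cb) * (N ^ 2 * Kv + N * Dv + E) := by
      have h6 : Cb * (N * Dv + Real.exp (-cb * Real.exp (cb * N))) ≤
          Cb * (N ^ 2 * Kv + N * Dv + E) := by
        refine mul_le_mul_of_nonneg_left ?_ hCb
        have : 0 ≤ (N : ℝ) ^ 2 * Kv := by positivity
        linarith
      have h7 : Ca * (N ^ 2 * Kv + N * Dv + Real.exp (-ca * Real.exp (ca * N))) ≤
          Ca * (N ^ 2 * Kv + N * Dv + E) := by
        refine mul_le_mul_of_nonneg_left ?_ hCa
        linarith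
      linarith
    calc Gn G μ a o v + Hn G μ a o v
        ≤ ENNReal.ofReal (Ca * (N ^ 2 * Kv + N * Dv + Real.exp (-ca * Real.exp (ca * N)))) +
          ENNReal.ofReal (Cb * (N * Dv + Real.exp (-cb * Real.exp (cb * N)))) :=
          add_le_add h1 h2
      _ = ENNReal.ofReal (Ca * (N ^ 2 * Kv + N * Dv + Real.exp (-ca * Real.exp (ca * N))) +
          Cb * (N * Dv + Real.exp (-cb * Real.exp (cb * N)))) := by
          rw [ENNReal.ofReal_add (by positivity) (by positivity)]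
      _ ≤ ENNReal.ofReal ((Ca + Cb) * (N ^ 2 * Kv + N * Dv + E)) := ENNReal.ofReal_le_ofReal h5
      _ = ENNReal.ofReal (Ca + Cb) * ((N : ENNReal) ^ 2 * ENNReal.ofReal Kv + N * Dn G μ a o v +
          ENNReal.ofReal E) := by
          have hX : 0 ≤ (N : ℝ) ^ 2 * Kv := by positivity
          have hY : 0 ≤ (N : ℝ) * Dv := by positivity
          rw [ENNReal.ofReal_mul (p := Ca + Cb) (by positivity),
            ENNReal.ofReal_add (add_nonneg hX hY) hE0, ENNReal.ofReal_add hX hY,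
            ENNReal.ofReal_mul (p := (N : ℝ) ^ 2) (by positivity),
            ENNReal.ofReal_mul hN0, Dn_eq ha.le ha1, ENNReal.ofReal_pow hN0,
            ENNReal.ofReal_natCast]
  · -- h3
    refine ⟨Ck, hCk, fun v hv hvJ => ?_⟩
    have he := henv v hv hvJ o p1 hp1
    obtain ⟨h1, h2⟩ := hpK _ _ he o o p1 hp1
    have hD0 : 0 ≤ pD G μ o (nuX G μ a v) := integral_nonneg fun w => sq_nonneg _
    refine ⟨?_, fun ε hε hε1 => ?_⟩
    · rw [Dn_eq ha.le ha1, ← ENNReal.ofReal_mul hCk]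
      exact ENNReal.ofReal_le_ofReal h1
    · rw [Dn_eq ha.le ha1, ← ENNReal.ofReal_mul (by positivity),
        ← ENNReal.ofReal_add (by positivity) measureReal_nonneg, ← ENNReal.ofReal_mul hCk]
      exact ENNReal.ofReal_le_ofReal (h2 ε hε hε1)
  · -- h4
    intro i hi
    obtain ⟨C, hC0, hC⟩ := prob_M_le (G := G) (μ := μ) hE ha ha1 i hi
    exact ⟨C, hC0, fun x hx hx2 ε hε hε1 => ENNReal.ofReal_le_ofReal (hC o x hx hx2 ε hε hε1)⟩

end

/-- Labels and innovations, as a function on the probability space. -/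
noncomputable def If (G : SimpleGraph V) (μ : Measure (V → Bool)) (a : ℝ) (ω : Conf V) :
    Arr V × Arr V := (ω.2.1, Xi G μ a ω.2.1 (tt a ω.1 ω.2.1 ω.2.2))

theorem measurable_ut (a : ℝ) :
    Measurable fun ω : Conf V => (ω.2.1, tt a ω.1 ω.2.1 ω.2.2) :=
  (measurable_fst.comp measurable_snd).prodMk (measurable_tt a)

theorem measurable_If [Countable V] [IsProbabilityMeasure μ] (G : SimpleGraph V) (a : ℝ) :
    Measurable (If G μ a) := by
  have h : Measurable ((fun p : Arr V × Arr V => Xi G μ a p.1 p.2) ∘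
      fun ω : Conf V => (ω.2.1, tt a ω.1 ω.2.1 ω.2.2)) :=
    (measurable_Xi (μ := μ) G a).comp (measurable_ut a)
  have h2 : Measurable fun ω : Conf V => ω.2.1 := measurable_fst.comp measurable_snd
  exact h2.prodMk h

theorem map_If [G.LocallyFinite] [Countable V] [IsProbabilityMeasure μ] {d : ℕ} {β : ℝ}
    (hE : Env G d β μ) {a : ℝ} (ha : 0 ≤ a) (ha1 : a < 1) :
    (PO μ).map (If G μ a) = (PP (V × ℕ)).prod (PP (V × ℕ)) := by
  rw [← map_u_Xi hE ha ha1, PT, Measure.map_map ?_ (measurable_ut a)]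
  · rfl
  · exact measurable_fst.prodMk (measurable_Xi (μ := μ) G a)

theorem tt_act (a : ℝ) (g : V ≃ V) (σ : V → Bool) (u ξ : Arr V) :
    tt a (actC g σ) (actE g u) (actE g ξ) = actE g (tt a σ u ξ) := rfl

theorem If_act [G.LocallyFinite] {d : ℕ} {β : ℝ} (hE : Env G d β μ) (a : ℝ) (g : G ≃g G)
    (ω : Conf V) : If G μ a (actO g.toEquiv ω) =
      (actE g.toEquiv (If G μ a ω).1, actE g.toEquiv (If G μ a ω).2) := by
  unfold If actO
  simp only
  rw [tt_act, Xi_act hE]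

theorem fin_measurable_actE (g : V ≃ V) : Measurable (actE g : Arr V → Arr V) :=
  measurable_pi_lambda _ fun x => measurable_pi_apply (g.symm x.1, x.2)

theorem fin_measurable_actC (g : V ≃ V) : Measurable (actC g : (V → Bool) → (V → Bool)) :=
  measurable_pi_lambda _ fun x => measurable_pi_apply (g.symm x)

/-- The spins are a function of labels and innovations. -/
theorem exists_Phi [G.LocallyFinite] [Countable V] [IsProbabilityMeasure μ] {d : ℕ} {β : ℝ}
    (hE : Env G d β μ) {a : ℝ} (ha : 0 < a) (ha1 : a < 1) :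
    ∃ Φ₀ : Arr V × Arr V → (V → Bool), Measurable Φ₀ ∧
      ∀ᵐ ω ∂(PO μ), Φ₀ (If G μ a ω) = ω.1 := by
  have hD : ∀ (o : V) (x : ℝ), 0 < x →
      ∫⁻ p, ENNReal.ofReal ((M G μ Set.univ o p.1 - M G μ Set.univ o p.2) ^ 2)
        ∂(nuX G μ a x) = 0 := fun o x hx => Dn_eq_zero hE ha ha1 o x hx
  obtain ⟨Ψ, hΨ, hΨeq⟩ := exists_Psi hE ha ha1 (signals_eq hE ha ha1 hD)
  obtain ⟨dec, hdec, hdeceq⟩ := exists_dec (μ := μ) ha ha1
  refine ⟨fun p => dec (p.1, Ψ p), hdec.comp (measurable_fst.prodMk hΨ), ?_⟩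
  have h1 : ∀ᵐ ω ∂(PO μ), tt a ω.1 ω.2.1 ω.2.2 = Ψ (If G μ a ω) := by
    have h2 := hΨeq
    rw [PT] at h2
    exact ae_of_ae_map (measurable_ut a).aemeasurable h2
  filter_upwards [h1, hdeceq] with ω h2 h3
  show dec ((If G μ a ω).1, Ψ (If G μ a ω)) = ω.1
  rw [← h2]
  exact h3

theorem Phi_equi [G.LocallyFinite] [Countable V] [IsProbabilityMeasure μ] {d : ℕ} {β : ℝ}
    (hE : Env G d β μ) (a : ℝ) {Φ₀ : Arr V × Arr V → (V → Bool)} (hΦ₀m : Measurable Φ₀)
    (hkey : ∀ᵐ ω ∂(PO μ), Φ₀ (If G μ a ω) = ω.1) (g : G ≃g G) :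
    ∀ᵐ p ∂((PO μ).map (If G μ a)),
      Φ₀ (actE g.toEquiv p.1, actE g.toEquiv p.2) = actC g.toEquiv (Φ₀ p) := by
  have hmeas : MeasurableSet {p : Arr V × Arr V |
      Φ₀ (actE g.toEquiv p.1, actE g.toEquiv p.2) = actC g.toEquiv (Φ₀ p)} := by
    refine measurableSet_eq_fun ?_ ?_
    · exact hΦ₀m.comp (((fin_measurable_actE g.toEquiv).comp measurable_fst).prodMk
        ((fin_measurable_actE g.toEquiv).comp measurable_snd))
    · exact (fin_measurable_actC g.toEquiv).comp hΦ₀m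
  rw [ae_map_iff (measurable_If G a).aemeasurable hmeas]
  have hinv := PO_act hE.tree hE.ising g
  have h2 : ∀ᵐ ω ∂(PO μ), Φ₀ (If G μ a (actO g.toEquiv ω)) = (actO g.toEquiv ω).1 := by
    have h3 := hkey
    rw [← hinv] at h3
    exact ae_of_ae_map (measurable_actO g.toEquiv).aemeasurable h3
  filter_upwards [h2, hkey] with ω h3 h4
  rw [← If_act hE, h3, h4]
  rfl

/-- The free Ising measure at the critical point is a factor of IID. -/
theorem isFactorOfIID_critical [G.LocallyFinite] {d : ℕ} {β : ℝ} (hE : Env G d β μ) :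
    IsFactorOfIID G μ := by
  have hprob := hE.prob
  have hcount := hE.countable
  -- strength 1/2
  obtain ⟨a, ha, ha1⟩ : ∃ a : ℝ, 0 < a ∧ a < 1 := ⟨1 / 2, by norm_num, by norm_num⟩
  obtain ⟨Φ₀, hΦ₀m, hkey⟩ := exists_Phi hE ha ha1
  obtain ⟨dd, hdd, hdlaw⟩ := exists_decode2 V
  -- decoding
  set DV : (V → unitInterval) → Arr V × Arr V := fun U =>
    ((fun x => (dd (U x.1)).1 x.2), (fun x => (dd (U x.1)).2 x.2)) with hDV
  have hDVm : Measurable DV := by
    refine Measurable.prodMk ?_ ?_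
    · exact measurable_pi_lambda _ fun x =>
        (measurable_pi_apply x.2).comp (measurable_fst.comp (hdd.comp (measurable_pi_apply x.1)))
    · exact measurable_pi_lambda _ fun x =>
        (measurable_pi_apply x.2).comp (measurable_snd.comp (hdd.comp (measurable_pi_apply x.1)))
  have hDVlaw : (PP V).map DV = (PO μ).map (If G μ a) := by
    rw [map_If hE ha.le ha1]; exact hdlaw
  refine ⟨fun U => Φ₀ (DV U), hΦ₀m.comp hDVm, ?_, ?_⟩
  · -- equivariance
    intro g
    have h1 := Phi_equi hE a hΦ₀m hkey g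
    rw [← hDVlaw] at h1
    have h2 := ae_of_ae_map hDVm.aemeasurable h1
    filter_upwards [h2] with U hU
    exact hU
  · -- the law
    have h1 : (PP V).map (fun U => Φ₀ (DV U)) = ((PP V).map DV).map Φ₀ :=
      (Measure.map_map hΦ₀m hDVm).symm
    have h3 : (PO μ).map (Φ₀ ∘ If G μ a) = (PO μ).map Prod.fst := Measure.map_congr hkey
    have h4 : (PO μ).map Prod.fst = μ := by
      unfold PO
      rw [← Measure.fst, Measure.fst_prod]
    have h2 : (PP V).map (fun U => Φ₀ (DV U)) = μ := by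
      rw [h1, hDVlaw, Measure.map_map hΦ₀m (measurable_If G a), h3, h4]
    exact h2

end Vale.Agent.P161.Crit
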