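import Vale.Agent.Lib.P161.Crit.Edge
import Vale.Agent.Lib.P161.Crit.Comb
import Vale.Agent.Lib.P161.Homog

/-!
P161-CRIT, module Info: second and higher moments of the messages in a homogeneous environment.
`k = d - 1`, `θ² k = 1`, `q = E msg²`, `s = E (own)²`.
-/

open MeasureTheory Filter Topology

namespace Vale.Agent.P161.Crit

variable {V : Type*} {G : SimpleGraph V}
variable {Ω Y : Type*} [MeasurableSpace Ω] [MeasurableSpace Y]
variable {μ : Measure (V → Bool)} {P : Measure Ω} {s : Ω → V → Bool} {y : Ω → V × ℕ → Y}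
variable {Q : V × ℕ → Measure Y} {ζ : V × ℕ → Y → ℝ} {b : ℝ}

/-- The law of the slope array is invariant under automorphisms. -/
def HomEnv (G : SimpleGraph V) (P : Measure Ω) (y : Ω → V × ℕ → Y) (ζ : V × ℕ → Y → ℝ) : Prop :=
  ∀ g : G ≃g G, (P.map (fun ω => slp ζ (y ω))).map (actE g.toEquiv) =
    P.map (fun ω => slp ζ (y ω))

/-- Posterior mean of the spin at `v` given the observations at `v` only. -/
noncomputable def own (G : SimpleGraph V) (μ : Measure (V → Bool)) (v : V) (w : V × ℕ → ℝ) : ℝ :=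
  M G μ {e | e.1 = v} v w

/-! ### Homogeneity -/

theorem measurable_actE_info (g : V ≃ V) :
    Measurable (actE g : (V × ℕ → ℝ) → (V × ℕ → ℝ)) :=
  measurable_pi_iff.2 fun _ => measurable_pi_apply _

/-- Change of variables in a homogeneous environment. -/
theorem Obs.integral_hom [IsProbabilityMeasure μ] (h : Obs μ P s y Q ζ b)
    (hom : HomEnv G P y ζ) (g : G ≃g G) {F : (V × ℕ → ℝ) → ℝ} (hF : Measurable F) :
    ∫ ω, F (actE g.toEquiv (slp ζ (y ω))) ∂P = ∫ ω, F (slp ζ (y ω)) ∂P := by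
  have hm : Measurable fun ω => slp ζ (y ω) := h.measurable_slp.comp h.measY
  have ha := measurable_actE_info (V := V) g.toEquiv
  have h1 : ∫ w, F w ∂((P.map (fun ω => slp ζ (y ω))).map (actE g.toEquiv)) =
      ∫ ω, F (actE g.toEquiv (slp ζ (y ω))) ∂P := by
    rw [integral_map ha.aemeasurable hF.aestronglyMeasurable]
    exact integral_map hm.aemeasurable (hF.comp ha).aestronglyMeasurable
  have h2 : ∫ w, F w ∂(P.map (fun ω => slp ζ (y ω))) = ∫ ω, F (slp ζ (y ω)) ∂P :=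
    integral_map hm.aemeasurable hF.aestronglyMeasurable
  rw [← h1, hom g, h2]

theorem Env.map_act [G.LocallyFinite] {d : ℕ} {β : ℝ} (hE : Env G d β μ) (g : G ≃g G) :
    μ.map (actC g.toEquiv) = μ := hE.ising.map_iso hE.tree g

/-- Homogeneity of the messages. -/
theorem Obs.msg_hom [G.LocallyFinite] {d : ℕ} {β : ℝ} (hE : Env G d β μ)
    (h : Obs μ P s y Q ζ b) (hom : HomEnv G P y ζ) {p q p' q' : V} (hpq : G.Adj p q)
    (hpq' : G.Adj p' q') {F : ℝ → ℝ} (hF : Measurable F) :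
    ∫ ω, F (msg G μ p q (slp ζ (y ω))) ∂P = ∫ ω, F (msg G μ p' q' (slp ζ (y ω))) ∂P := by
  have := hE.prob
  obtain ⟨g, hg1, hg2⟩ := exists_iso_of_dist_eq hE.tree hE.reg (u := p) (v := q) (u2 := p')
    (v2 := q') (by
      rw [SimpleGraph.dist_eq_one_iff_adj.2 hpq, SimpleGraph.dist_eq_one_iff_adj.2 hpq'])
  have h1 := h.integral_hom hom g (F := fun w => F (msg G μ p' q' w))
    (hF.comp (measurable_msg G μ p' q'))
  rw [← h1]
  refine integral_congr_ae (Eventually.of_forall fun ω => ?_)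
  have h2 := msg_act hE.tree.connected g (hE.map_act g) p q (slp ζ (y ω))
  rw [hg1, hg2] at h2
  simp only [h2]

theorem Obs.own_hom [G.LocallyFinite] {d : ℕ} {β : ℝ} (hE : Env G d β μ)
    (h : Obs μ P s y Q ζ b) (hom : HomEnv G P y ζ) (v v' : V) {F : ℝ → ℝ} (hF : Measurable F) :
    ∫ ω, F (own G μ v (slp ζ (y ω))) ∂P = ∫ ω, F (own G μ v' (slp ζ (y ω))) ∂P := by
  have := hE.prob
  obtain ⟨g, hg, -⟩ := exists_iso_of_dist_eq hE.tree hE.reg (u := v) (v := v) (u2 := v')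
    (v2 := v') (by simp)
  have h1 := h.integral_hom hom g (F := fun w => F (own G μ v' w))
    (hF.comp (measurable_M G μ _ v'))
  rw [← h1]
  refine integral_congr_ae (Eventually.of_forall fun ω => ?_)
  have h2 := M_act hE.tree.connected g (hE.map_act g) {e : V × ℕ | e.1 = v} v (slp ζ (y ω))
  have h3 : actR g.toEquiv {e : V × ℕ | e.1 = v} = {e : V × ℕ | e.1 = v'} := by
    ext e
    have h4 : g.toEquiv v = v' := hg
    simp only [actR, Set.mem_ofPred_eq, Equiv.symm_apply_eq, h4]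
  rw [hg, h3] at h2
  simp only [own, h2]

theorem Obs.M_hom [G.LocallyFinite] {d : ℕ} {β : ℝ} (hE : Env G d β μ)
    (h : Obs μ P s y Q ζ b) (hom : HomEnv G P y ζ) (v v' : V) {F : ℝ → ℝ} (hF : Measurable F) :
    ∫ ω, F (M G μ Set.univ v (slp ζ (y ω))) ∂P =
      ∫ ω, F (M G μ Set.univ v' (slp ζ (y ω))) ∂P := by
  have := hE.prob
  obtain ⟨g, hg, -⟩ := exists_iso_of_dist_eq hE.tree hE.reg (u := v) (v := v) (u2 := v')
    (v2 := v') (by simp)
  have h1 := h.integral_hom hom g (F := fun w => F (M G μ Set.univ v' w))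
    (hF.comp (measurable_M G μ _ v'))
  rw [← h1]
  refine integral_congr_ae (Eventually.of_forall fun ω => ?_)
  have h2 := M_univ_act hE.tree.connected g (hE.map_act g) v (slp ζ (y ω))
  rw [hg] at h2
  simp only [h2]

/-! ### Adding the neighbours one by one -/

/-- The events at `v` and beyond the neighbours in `N`. -/
def RK (G : SimpleGraph V) (v : V) (N : Set V) : Set (V × ℕ) :=
  {e | e.1 = v ∨ ∃ c ∈ N, e ∈ side G c v}

theorem RK_empty (v : V) : RK G v ∅ = {e | e.1 = v} := by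
  ext e
  simp [RK]

theorem mem_side_of_ne (hG : G.IsTree) {v c c' : V} (hc : G.Adj v c) (hc' : G.Adj v c')
    (hne : c' ≠ c) {e : V × ℕ} (he : e ∈ side G c' v) : e ∈ side G v c := by
  rcases hG.dist_eq_dist_add_one_of_adj e.1 hc with h | h
  · exact absurd (parent_unique hG hc' hc he h) hne
  · exact h

theorem mem_side_self {v c : V} (hc : G.Adj v c) {e : V × ℕ} (he : e.1 = v) :
    e ∈ side G v c := by
  change G.dist e.1 c = G.dist e.1 v + 1
  rw [he, SimpleGraph.dist_eq_one_iff_adj.2 hc, SimpleGraph.dist_self]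

theorem RK_inter_near (hG : G.IsTree) {v c : V} {N : Set V} (hN : ∀ x ∈ N, G.Adj v x)
    (hc : G.Adj v c) (hcN : c ∉ N) : RK G v (insert c N) ∩ side G v c = RK G v N := by
  ext e
  constructor
  · rintro ⟨h1 | ⟨x, hx, hxe⟩, h2⟩
    · exact Or.inl h1
    · rcases hx with rfl | hx
      · have h3 : G.dist e.1 v = G.dist e.1 x + 1 := hxe
        have h4 : G.dist e.1 x = G.dist e.1 v + 1 := h2
        omega
      · exact Or.inr ⟨x, hx, hxe⟩
  · rintro (h1 | ⟨x, hx, hxe⟩)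
    · exact ⟨Or.inl h1, mem_side_self hc h1⟩
    · exact ⟨Or.inr ⟨x, Or.inr hx, hxe⟩,
        mem_side_of_ne hG hc (hN x hx) (fun h => hcN (h ▸ hx)) hxe⟩

theorem RK_inter_far {v c : V} {N : Set V} :
    RK G v (insert c N) ∩ side G c v = side G c v := by
  ext e
  exact ⟨fun h => h.2, fun h => ⟨Or.inr ⟨c, Set.mem_insert _ _, h⟩, h⟩⟩

theorem RK_all_but (hG : G.IsTree) {v p : V} (hp : G.Adj v p) :
    RK G v {x | G.Adj v x ∧ x ≠ p} = side G v p := by
  ext e
  constructor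
  · rintro (h1 | ⟨x, hx, hxe⟩)
    · exact mem_side_self hp h1
    · exact mem_side_of_ne hG hp hx.1 hx.2 hxe
  · intro h
    have h' : G.dist e.1 p = G.dist e.1 v + 1 := h
    by_cases he : e.1 = v
    · exact Or.inl he
    · have hpos : 0 < G.dist e.1 v := hG.connected.pos_dist_of_ne he
      obtain ⟨n, hn⟩ : ∃ n, G.dist e.1 v = n + 1 := ⟨G.dist e.1 v - 1, by omega⟩
      obtain ⟨w, hw, hd⟩ := exists_parent hG.connected hn
      refine Or.inr ⟨w, ⟨hw, fun h2 => ?_⟩, ?_⟩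
      · rw [h2] at hd
        omega
      · change G.dist e.1 v = G.dist e.1 w + 1
        omega

theorem RK_all (hG : G.IsTree) (v : V) : RK G v {x | G.Adj v x} = Set.univ := by
  ext e
  simp only [Set.mem_univ, iff_true]
  by_cases he : e.1 = v
  · exact Or.inl he
  · have hpos : 0 < G.dist e.1 v := hG.connected.pos_dist_of_ne he
    obtain ⟨n, hn⟩ : ∃ n, G.dist e.1 v = n + 1 := ⟨G.dist e.1 v - 1, by omega⟩
    obtain ⟨w, hw, hd⟩ := exists_parent hG.connected hn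
    refine Or.inr ⟨w, hw, ?_⟩
    change G.dist e.1 v = G.dist e.1 w + 1
    omega

/-- The recursion when the neighbour `c` is added. -/
theorem Obs.step_ae [G.LocallyFinite] {d : ℕ} {β : ℝ} (hE : Env G d β μ)
    (h : Obs μ P s y Q ζ b) {v c : V} {N : Set V} (hN : ∀ x ∈ N, G.Adj v x)
    (hc : G.Adj v c) (hcN : c ∉ N) :
    ∀ᵐ ω ∂P, M G μ (RK G v (insert c N)) v (slp ζ (y ω)) =
      opl (M G μ (RK G v N) v (slp ζ (y ω))) (Real.tanh β * msg G μ c v (slp ζ (y ω))) := by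
  filter_upwards [h.M_edge hE.tree hE.ising (RK G v (insert c N)) hc] with ω hω
  rw [RK_inter_near hE.tree hN hc hcN, RK_inter_far] at hω
  rw [hω]
  unfold opl msg
  congr 1
  ring

/-- Decoupling of the neighbour `c` from the rest. -/
theorem Obs.step_dec [G.LocallyFinite] {d : ℕ} {β : ℝ} (hE : Env G d β μ)
    (h : Obs μ P s y Q ζ b) {v c : V} {N : Set V} (hN : ∀ x ∈ N, G.Adj v x)
    (hc : G.Adj v c) (hcN : c ∉ N) :
    Dec P (Real.tanh β) (fun ω => M G μ (RK G v N) v (slp ζ (y ω)))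
      (fun ω => msg G μ c v (slp ζ (y ω))) (fun _ => 0) := by
  have := hE.prob
  have hco := hE.tree.connected
  have hm : Measurable fun ω => slp ζ (y ω) := h.measurable_slp.comp h.measY
  refine ⟨h.prob, hE.theta_pos.le, hE.theta_lt_one, (measurable_M G μ _ v).comp hm,
    (measurable_msg G μ c v).comp hm, measurable_const,
    fun ω => abs_M_le h.b_nonneg h.b_lt μ (h.abs_slp_le (y ω)) _ _,
    fun ω => abs_M_le h.b_nonneg h.b_lt μ (h.abs_slp_le (y ω)) _ _, ⟨0, fun ω => by simp⟩,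
    fun F hF _ => h.M_law_symm hco (isFreeIsing_flip hE.tree hE.ising) _ v hF, ?_⟩
  intro F₁ F₂ hF₁ hF₂ hC₁ hC₂
  have hd₁ : DepE (RK G v (insert c N) ∩ side G v c)
      (fun x : V × ℕ → Y => F₁ (M G μ (RK G v N) v (slp ζ x))) := by
    rw [RK_inter_near hE.tree hN hc hcN]
    intro x x' hx
    exact congrArg F₁ (M_depE hco μ (RK G v N) v ζ x x' hx)
  have hd₂ : DepE (RK G v (insert c N) ∩ side G c v)
      (fun x : V × ℕ → Y => F₂ (msg G μ c v (slp ζ x), (0 : ℝ))) := by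
    rw [RK_inter_far]
    intro x x' hx
    have h1 : msg G μ c v (slp ζ x) = msg G μ c v (slp ζ x') :=
      M_depE hco μ (side G c v) c ζ x x' hx
    change F₂ (msg G μ c v (slp ζ x), (0 : ℝ)) = F₂ (msg G μ c v (slp ζ x'), (0 : ℝ))
    rw [h1]
  have h1 := h.decouple hE.tree hE.ising (RK G v (insert c N)) hc
    (hF₁.comp ((measurable_M G μ (RK G v N) v).comp h.measurable_slp))
    (by
      obtain ⟨C, hC⟩ := hC₁
      exact ⟨C, fun x => hC _⟩) hd₁
    (hF₂.comp (((measurable_msg G μ c v).comp h.measurable_slp).prodMk measurable_const))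
    (by
      obtain ⟨C, hC⟩ := hC₂
      exact ⟨C, fun x => hC _⟩) hd₂
  rw [RK_inter_near hE.tree hN hc hcN, RK_inter_far] at h1
  exact h1


theorem integral_even_pow_le_one [IsProbabilityMeasure P] {f : Ω → ℝ} (hf : ∀ ω, |f ω| ≤ 1)
    (i : ℕ) : ∫ ω, f ω ^ (2 * i) ∂P ≤ 1 := by
  have h1 : ∫ ω, f ω ^ (2 * i) ∂P ≤ ∫ _, (1 : ℝ) ∂P := by
    refine integral_mono_of_nonneg (Eventually.of_forall fun ω => ?_) (integrable_const _)
      (Eventually.of_forall fun ω => ?_)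
    · simp only [Pi.zero_apply]
      rw [pow_mul]
      exact pow_nonneg (sq_nonneg _) _
    · simp only
      rw [pow_mul, ← sq_abs]
      exact pow_le_one₀ (sq_nonneg _) (pow_le_one₀ (abs_nonneg _) (hf ω))
  simpa using h1

theorem integral_even_pow_nonneg {f : Ω → ℝ} (i : ℕ) : 0 ≤ ∫ ω, f ω ^ (2 * i) ∂P :=
  integral_nonneg fun ω => by
    simp only [Pi.zero_apply]
    rw [pow_mul]
    exact pow_nonneg (sq_nonneg _) _

/-- The second moments of all messages are equal. -/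
theorem Obs.msg_pow_eq [G.LocallyFinite] {d : ℕ} {β : ℝ} (hE : Env G d β μ)
    (h : Obs μ P s y Q ζ b) (hom : HomEnv G P y ζ) {p q p' q' : V} (hpq : G.Adj p q)
    (hpq' : G.Adj p' q') (i : ℕ) :
    ∫ ω, msg G μ p q (slp ζ (y ω)) ^ i ∂P = ∫ ω, msg G μ p' q' (slp ζ (y ω)) ^ i ∂P :=
  h.msg_hom hE hom hpq hpq' (F := fun x => x ^ i) (measurable_id.pow_const i)

theorem Obs.own_pow_eq [G.LocallyFinite] {d : ℕ} {β : ℝ} (hE : Env G d β μ)
    (h : Obs μ P s y Q ζ b) (hom : HomEnv G P y ζ) (v v' : V) (i : ℕ) :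
    ∫ ω, own G μ v (slp ζ (y ω)) ^ i ∂P = ∫ ω, own G μ v' (slp ζ (y ω)) ^ i ∂P :=
  h.own_hom hE hom v v' (F := fun x => x ^ i) (measurable_id.pow_const i)

/-- The neighbours of `v` except `p`, as a finite set. -/
theorem exists_but_finset [G.LocallyFinite] {d : ℕ} {β : ℝ} (hE : Env G d β μ) (v p : V)
    (hp : G.Adj v p) : ∃ K : Finset V, (K : Set V) = {x | G.Adj v x ∧ x ≠ p} ∧
      K.card = d - 1 := by
  classical
  refine ⟨(G.neighborFinset v).erase p, ?_, ?_⟩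
  · ext x
    simp only [Finset.coe_erase, Set.mem_sdiff, Finset.mem_coe, SimpleGraph.mem_neighborFinset,
      Set.mem_singleton_iff, Set.mem_ofPred_eq]
  · rw [Finset.card_erase_of_mem (by simpa using hp), SimpleGraph.card_neighborFinset_eq_degree,
      hE.reg v]

theorem card_nbr_le [G.LocallyFinite] {d : ℕ} {β : ℝ} (hE : Env G d β μ) {v : V}
    {K : Finset V} (hK : ∀ x ∈ K, G.Adj v x) : K.card ≤ d := by
  have h1 : K ⊆ G.neighborFinset v := fun x hx => by
    rw [SimpleGraph.mem_neighborFinset]; exact hK x hx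
  have h2 := Finset.card_le_card h1
  rwa [SimpleGraph.card_neighborFinset_eq_degree, hE.reg v] at h2

theorem exists_nbr [G.LocallyFinite] {d : ℕ} {β : ℝ} (hE : Env G d β μ) (v : V) :
    ∃ p, G.Adj v p := by
  have h1 : 0 < (G.neighborFinset v).card := by
    rw [SimpleGraph.card_neighborFinset_eq_degree, hE.reg v]
    have := hE.three
    omega
  obtain ⟨p, hp⟩ := Finset.card_pos.1 h1
  exact ⟨p, by simpa using hp⟩

/-- `θ² ≤ 1/2`. -/
theorem theta_sq_le_half [G.LocallyFinite] {d : ℕ} {β : ℝ} (hE : Env G d β μ) :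
    Real.tanh β ^ 2 ≤ 1 / 2 := by
  have h1 := hE.theta_sq
  have h2 : (3 : ℝ) ≤ d := by exact_mod_cast hE.three
  have h3 : 0 < Real.tanh β ^ 2 := pow_pos hE.theta_pos 2
  nlinarith

/-- Second moments along the recursion. -/
theorem Obs.second [G.LocallyFinite] {d : ℕ} {β : ℝ} (hE : Env G d β μ)
    (h : Obs μ P s y Q ζ b) (hom : HomEnv G P y ζ) {p q : V} (hpq : G.Adj p q) (v : V)
    (K : Finset V) (hK : ∀ x ∈ K, G.Adj v x) :
    (1 - ∫ ω, own G μ v (slp ζ (y ω)) ^ 2 ∂P) *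
      (1 - Real.tanh β ^ 2 * ∫ ω, msg G μ p q (slp ζ (y ω)) ^ 2 ∂P) ^ K.card ≤
        1 - ∫ ω, M G μ (RK G v K) v (slp ζ (y ω)) ^ 2 ∂P ∧
    ∫ ω, M G μ (RK G v K) v (slp ζ (y ω)) ^ 2 ∂P ≤
      (∫ ω, own G μ v (slp ζ (y ω)) ^ 2 ∂P) +
        K.card * (Real.tanh β ^ 2 * ∫ ω, msg G μ p q (slp ζ (y ω)) ^ 2 ∂P) := by
  classical
  have := h.prob
  have hμ := hE.prob
  have hq0 : 0 ≤ ∫ ω, msg G μ p q (slp ζ (y ω)) ^ 2 ∂P :=
    integral_even_pow_nonneg (P := P) (f := fun ω => msg G μ p q (slp ζ (y ω))) 1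
  have hq1 : ∫ ω, msg G μ p q (slp ζ (y ω)) ^ 2 ∂P ≤ 1 :=
    integral_even_pow_le_one (P := P) (f := fun ω => msg G μ p q (slp ζ (y ω)))
      (fun ω => abs_M_le h.b_nonneg h.b_lt μ (h.abs_slp_le (y ω)) _ _) 1
  have hθ := theta_sq_le_half hE
  have hθ0 : 0 ≤ Real.tanh β ^ 2 := sq_nonneg _
  induction K using Finset.induction_on with
  | empty =>
    rw [Finset.coe_empty, RK_empty, Finset.card_empty, pow_zero, mul_one, Nat.cast_zero, zero_mul,
      add_zero]
    exact ⟨le_rfl, le_rfl⟩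
  | insert c K hcK ih =>
    obtain ⟨ih1, ih2⟩ := ih fun x hx => hK x (Finset.mem_insert_of_mem hx)
    have hc : G.Adj v c := hK c (Finset.mem_insert_self _ _)
    have hN : ∀ x ∈ (K : Set V), G.Adj v x := fun x hx => hK x (Finset.mem_insert_of_mem hx)
    have hcN : c ∉ (K : Set V) := fun hx => hcK hx
    have hae := h.step_ae hE hN hc hcN
    have hd := (h.step_dec hE hN hc hcN).sq_le
    have h1 : ∫ ω, M G μ (RK G v (insert c (K : Set V))) v (slp ζ (y ω)) ^ 2 ∂P =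
        ∫ ω, opl (M G μ (RK G v K) v (slp ζ (y ω)))
          (Real.tanh β * msg G μ c v (slp ζ (y ω))) ^ 2 ∂P := by
      refine integral_congr_ae ?_
      filter_upwards [hae] with ω hω
      rw [hω]
    rw [h.msg_pow_eq hE hom hc.symm hpq 2] at hd
    have hm0 : 0 ≤ ∫ ω, M G μ (RK G v K) v (slp ζ (y ω)) ^ 2 ∂P :=
      integral_even_pow_nonneg (P := P) (f := fun ω => M G μ (RK G v K) v (slp ζ (y ω))) 1
    rw [Finset.coe_insert, h1, Finset.card_insert_of_notMem hcK]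
    refine ⟨?_, ?_⟩
    · have hx : 0 ≤ 1 - Real.tanh β ^ 2 * ∫ ω, msg G μ p q (slp ζ (y ω)) ^ 2 ∂P := by
        nlinarith only [hq1, hθ]
      rw [pow_succ, ← mul_assoc]
      have h3 := mul_le_mul_of_nonneg_right ih1 hx
      refine h3.trans ?_
      linarith only [hd]
    · push_cast
      have h4 : 0 ≤ Real.tanh β ^ 2 * (∫ ω, M G μ (RK G v K) v (slp ζ (y ω)) ^ 2 ∂P) *
          ∫ ω, msg G μ p q (slp ζ (y ω)) ^ 2 ∂P := by positivity
      linarith only [ih2, hd, h4]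

/-- Second moments along the recursion, lower bound. -/
theorem Obs.second_lower [G.LocallyFinite] {d : ℕ} {β : ℝ} (hE : Env G d β μ)
    (h : Obs μ P s y Q ζ b) (hom : HomEnv G P y ζ) {p q : V} (hpq : G.Adj p q) (v : V)
    (K : Finset V) (hK : ∀ x ∈ K, G.Adj v x) (hKd : K.card ≤ d - 1) :
    (∫ ω, own G μ v (slp ζ (y ω)) ^ 2 ∂P) +
        K.card * (Real.tanh β ^ 2 * (∫ ω, msg G μ p q (slp ζ (y ω)) ^ 2 ∂P) *
          (1 - 2 * ((∫ ω, own G μ v (slp ζ (y ω)) ^ 2 ∂P) +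
            ∫ ω, msg G μ p q (slp ζ (y ω)) ^ 2 ∂P))) ≤
      ∫ ω, M G μ (RK G v K) v (slp ζ (y ω)) ^ 2 ∂P := by
  classical
  have := h.prob
  have hμ := hE.prob
  have hq0 : 0 ≤ ∫ ω, msg G μ p q (slp ζ (y ω)) ^ 2 ∂P :=
    integral_even_pow_nonneg (P := P) (f := fun ω => msg G μ p q (slp ζ (y ω))) 1
  have hθ0 : 0 ≤ Real.tanh β ^ 2 := sq_nonneg _
  have hd3 := hE.three
  have hθ1 := hE.theta_sq
  induction K using Finset.induction_on with
  | empty =>
    rw [Finset.coe_empty, RK_empty, Finset.card_empty, Nat.cast_zero, zero_mul, add_zero]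
    exact le_rfl
  | insert c K hcK ih =>
    rw [Finset.card_insert_of_notMem hcK] at hKd
    have hK' : ∀ x ∈ K, G.Adj v x := fun x hx => hK x (Finset.mem_insert_of_mem hx)
    have ih1 := ih hK' (by omega)
    have hup := (h.second hE hom hpq v K hK').2
    have hc : G.Adj v c := hK c (Finset.mem_insert_self _ _)
    have hN : ∀ x ∈ (K : Set V), G.Adj v x := fun x hx => hK x (Finset.mem_insert_of_mem hx)
    have hcN : c ∉ (K : Set V) := fun hx => hcK hx
    have hae := h.step_ae hE hN hc hcN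
    have hd := (h.step_dec hE hN hc hcN).le_sq
    have h1 : ∫ ω, M G μ (RK G v (insert c (K : Set V))) v (slp ζ (y ω)) ^ 2 ∂P =
        ∫ ω, opl (M G μ (RK G v K) v (slp ζ (y ω)))
          (Real.tanh β * msg G μ c v (slp ζ (y ω))) ^ 2 ∂P := by
      refine integral_congr_ae ?_
      filter_upwards [hae] with ω hω
      rw [hω]
    rw [h.msg_pow_eq hE hom hc.symm hpq 2] at hd
    rw [Finset.coe_insert, h1, Finset.card_insert_of_notMem hcK]
    refine le_trans ?_ hd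
    push_cast
    have hkd : (K.card : ℝ) ≤ (d : ℝ) - 1 := by
      have : K.card + 1 ≤ d := by omega
      have h2 : ((K.card + 1 : ℕ) : ℝ) ≤ d := by exact_mod_cast this
      push_cast at h2
      linarith
    set S := ∫ ω, own G μ v (slp ζ (y ω)) ^ 2 ∂P
    set q2 := ∫ ω, msg G μ p q (slp ζ (y ω)) ^ 2 ∂P
    set m2 := ∫ ω, M G μ (RK G v K) v (slp ζ (y ω)) ^ 2 ∂P
    set t := Real.tanh β ^ 2
    have h5 : (K.card : ℝ) * (t * q2) ≤ q2 := by
      calc (K.card : ℝ) * (t * q2) ≤ ((d : ℝ) - 1) * (t * q2) :=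
            mul_le_mul_of_nonneg_right hkd (mul_nonneg hθ0 hq0)
        _ = (t * ((d : ℝ) - 1)) * q2 := by ring
        _ = q2 := by rw [hθ1, one_mul]
    have h6 : m2 ≤ S + q2 := hup.trans (by linarith)
    have h7 : t * q2 * m2 ≤ t * q2 * (S + q2) :=
      mul_le_mul_of_nonneg_left h6 (mul_nonneg hθ0 hq0)
    linarith only [ih1, h7]

theorem pow_ge_sq (k : ℕ) (hk : 2 ≤ k) (x : ℝ) (hkx : k * x ≤ 1) (hx1 : x ≤ 1) :
    (1 - k * x / 2) ^ 2 ≤ (1 - x) ^ k := by
  have hk2 : (2 : ℝ) ≤ k := by exact_mod_cast hk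
  have h1 := one_add_mul_self_le_rpow_one_add (s := -x) (by linarith) (p := (k : ℝ) / 2)
    (by linarith)
  have h2 : (1 - k * x / 2) ^ 2 ≤ ((1 + -x) ^ ((k : ℝ) / 2)) ^ 2 := by
    refine pow_le_pow_left₀ (by linarith) ?_ 2
    calc 1 - k * x / 2 = 1 + (k : ℝ) / 2 * -x := by ring
      _ ≤ _ := h1
  refine h2.trans (le_of_eq ?_)
  rw [← Real.rpow_natCast, ← Real.rpow_mul (by linarith)]
  have h3 : (k : ℝ) / 2 * ((2 : ℕ) : ℝ) = ((k : ℕ) : ℝ) := by push_cast; ring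
  rw [h3, Real.rpow_natCast, ← sub_eq_add_neg]

/-- `q ≤ 2 √s`. Proof: for a vertex `v`, a set `K` of neighbours and
`R_K = {e | e.1 = v} ∪ ⋃_{c ∈ K} side c v` let `m_K = M R_K v`. For a neighbour `c ∉ K`,
`m_{K ∪ c} = m_K ⊕ θ msg(c, v)` (`Obs.M_edge` with `R = R_{K∪c}`, edge `v c`), and
`Obs.decouple` gives `Dec P θ m_K (msg c v) 0`. So `1 - E m_{K∪c}² ≥ (1 - E m_K²)(1 - q/k)` by
`Dec.sq_le` (`θ² = 1/k`). For `K = ` all neighbours but `p`: `R_K = side v p`, `E m_K² = q`: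
`1 - q ≥ (1 - s)(1 - q/k)^k`, and `(1 - q/k)^k ≥ (1 - q/2)² = 1 - q + q²/4` for `k ≥ 2`,
`0 ≤ q ≤ 1`; hence `q ≤ s + q - q²/4`. -/
theorem Obs.q_le [G.LocallyFinite] {d : ℕ} {β : ℝ} (hE : Env G d β μ)
    (h : Obs μ P s y Q ζ b) (hom : HomEnv G P y ζ) {p q : V} (hpq : G.Adj p q) (v : V) :
    ∫ ω, msg G μ p q (slp ζ (y ω)) ^ 2 ∂P ≤
      2 * Real.sqrt (∫ ω, own G μ v (slp ζ (y ω)) ^ 2 ∂P) := by
  have := h.prob
  have hμ := hE.prob
  obtain ⟨p₀, hp₀⟩ := exists_nbr hE v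
  obtain ⟨K, hK1, hK2⟩ := exists_but_finset hE v p₀ hp₀
  have hK : ∀ x ∈ K, G.Adj v x := fun x hx => by
    have h1 : x ∈ (K : Set V) := hx
    rw [hK1] at h1
    exact h1.1
  have h1 := (h.second hE hom hpq v K hK).1
  rw [hK1, RK_all_but hE.tree hp₀, hK2] at h1
  have h2 : ∫ ω, M G μ (side G v p₀) v (slp ζ (y ω)) ^ 2 ∂P =
      ∫ ω, msg G μ p q (slp ζ (y ω)) ^ 2 ∂P := h.msg_pow_eq hE hom hp₀ hpq 2
  rw [h2] at h1
  have hq0 : 0 ≤ ∫ ω, msg G μ p q (slp ζ (y ω)) ^ 2 ∂P :=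
    integral_even_pow_nonneg (P := P) (f := fun ω => msg G μ p q (slp ζ (y ω))) 1
  have hq1 : ∫ ω, msg G μ p q (slp ζ (y ω)) ^ 2 ∂P ≤ 1 :=
    integral_even_pow_le_one (P := P) (f := fun ω => msg G μ p q (slp ζ (y ω)))
      (fun ω => abs_M_le h.b_nonneg h.b_lt μ (h.abs_slp_le (y ω)) _ _) 1
  have hs0 : 0 ≤ ∫ ω, own G μ v (slp ζ (y ω)) ^ 2 ∂P :=
    integral_even_pow_nonneg (P := P) (f := fun ω => own G μ v (slp ζ (y ω))) 1
  have hs1 : ∫ ω, own G μ v (slp ζ (y ω)) ^ 2 ∂P ≤ 1 :=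
    integral_even_pow_le_one (P := P) (f := fun ω => own G μ v (slp ζ (y ω)))
      (fun ω => abs_M_le h.b_nonneg h.b_lt μ (h.abs_slp_le (y ω)) _ _) 1
  have hθ1 := hE.theta_sq
  have hd3 := hE.three
  have hcast : ((d - 1 : ℕ) : ℝ) = (d : ℝ) - 1 := by
    rw [Nat.cast_sub (by omega)]; simp
  set S := ∫ ω, own G μ v (slp ζ (y ω)) ^ 2 ∂P
  set q2 := ∫ ω, msg G μ p q (slp ζ (y ω)) ^ 2 ∂P
  set t := Real.tanh β ^ 2
  have hkt : ((d - 1 : ℕ) : ℝ) * (t * q2) = q2 := by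
    rw [hcast]
    calc ((d : ℝ) - 1) * (t * q2) = (t * ((d : ℝ) - 1)) * q2 := by ring
      _ = q2 := by rw [hθ1, one_mul]
  have ht0 : 0 ≤ t := sq_nonneg _
  have h3 := pow_ge_sq (d - 1) (by omega) (t * q2) (by rw [hkt]; exact hq1)
    (by
      have := theta_sq_le_half hE
      nlinarith only [hq1, this])
  rw [hkt] at h3
  have h4 : (1 - S) * (1 - q2 / 2) ^ 2 ≤ 1 - q2 :=
    (mul_le_mul_of_nonneg_left h3 (by linarith)).trans h1
  have h5 : (q2 / 2) ^ 2 ≤ S := by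
    have h6 : (1 - q2 / 2) ^ 2 ≤ 1 := pow_le_one₀ (by linarith) (by linarith)
    have h7 : S * (1 - q2 / 2) ^ 2 ≤ S * 1 := mul_le_mul_of_nonneg_left h6 hs0
    linarith only [h4, h7]
  have h6 := Real.le_sqrt_of_sq_le h5
  linarith

/-- `q ≥ √s / 4`. Proof: by `Dec.le_sq`, with `p_j = E m_K²`, `|K| = j`:
`p_{j+1} ≥ p_j + q/k - 2 p_j q/k` and `p_j ≤ s + q` so `q ≥ s + q - 2(s+q)q`, i.e.
`2 s q + 2 q² ≥ s`; as `s ≤ 1` this gives `q ≥ √s/4`. -/
theorem Obs.le_q [G.LocallyFinite] {d : ℕ} {β : ℝ} (hE : Env G d β μ)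
    (h : Obs μ P s y Q ζ b) (hom : HomEnv G P y ζ) {p q : V} (hpq : G.Adj p q) (v : V) :
    Real.sqrt (∫ ω, own G μ v (slp ζ (y ω)) ^ 2 ∂P) / 4 ≤
      ∫ ω, msg G μ p q (slp ζ (y ω)) ^ 2 ∂P := by
  have := h.prob
  have hμ := hE.prob
  obtain ⟨p₀, hp₀⟩ := exists_nbr hE v
  obtain ⟨K, hK1, hK2⟩ := exists_but_finset hE v p₀ hp₀
  have hK : ∀ x ∈ K, G.Adj v x := fun x hx => by
    have h1 : x ∈ (K : Set V) := hx
    rw [hK1] at h1
    exact h1.1
  have h1 := h.second_lower hE hom hpq v K hK hK2.le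
  rw [hK1, RK_all_but hE.tree hp₀, hK2] at h1
  have h2 : ∫ ω, M G μ (side G v p₀) v (slp ζ (y ω)) ^ 2 ∂P =
      ∫ ω, msg G μ p q (slp ζ (y ω)) ^ 2 ∂P := h.msg_pow_eq hE hom hp₀ hpq 2
  rw [h2] at h1
  have hq0 : 0 ≤ ∫ ω, msg G μ p q (slp ζ (y ω)) ^ 2 ∂P :=
    integral_even_pow_nonneg (P := P) (f := fun ω => msg G μ p q (slp ζ (y ω))) 1
  have hs0 : 0 ≤ ∫ ω, own G μ v (slp ζ (y ω)) ^ 2 ∂P :=
    integral_even_pow_nonneg (P := P) (f := fun ω => own G μ v (slp ζ (y ω))) 1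
  have hs1 : ∫ ω, own G μ v (slp ζ (y ω)) ^ 2 ∂P ≤ 1 :=
    integral_even_pow_le_one (P := P) (f := fun ω => own G μ v (slp ζ (y ω)))
      (fun ω => abs_M_le h.b_nonneg h.b_lt μ (h.abs_slp_le (y ω)) _ _) 1
  have hθ1 := hE.theta_sq
  have hd3 := hE.three
  have hcast : ((d - 1 : ℕ) : ℝ) = (d : ℝ) - 1 := by
    rw [Nat.cast_sub (by omega)]; simp
  set S := ∫ ω, own G μ v (slp ζ (y ω)) ^ 2 ∂P
  set q2 := ∫ ω, msg G μ p q (slp ζ (y ω)) ^ 2 ∂P
  set t := Real.tanh β ^ 2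
  have hkt : ((d - 1 : ℕ) : ℝ) * (t * q2 * (1 - 2 * (S + q2))) = q2 * (1 - 2 * (S + q2)) := by
    rw [hcast]
    calc ((d : ℝ) - 1) * (t * q2 * (1 - 2 * (S + q2))) =
        (t * ((d : ℝ) - 1)) * (q2 * (1 - 2 * (S + q2))) := by ring
      _ = _ := by rw [hθ1, one_mul]
  rw [hkt] at h1
  have h4 : S ≤ 2 * (S + q2) * q2 := by linarith only [h1]
  have hr0 : 0 ≤ Real.sqrt S := Real.sqrt_nonneg _
  have hr2 : Real.sqrt S ^ 2 = S := Real.sq_sqrt hs0
  have hr1 : Real.sqrt S ≤ 1 := Real.sqrt_le_one.2 hs1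
  by_contra hcon
  have hcon := not_le.1 hcon
  have hpos : 0 < Real.sqrt S := by linarith
  have h5 : 2 * (S + q2) * q2 < S := by
    rw [← hr2]
    set r := Real.sqrt S
    have h6 : r ^ 2 * q2 ≤ r * q2 := by nlinarith only [hq0, h4, hr2, hr1, hcon]
    have h7 : r * q2 ≤ r * (r / 4) := mul_le_mul_of_nonneg_left hcon.le hr0
    have h8 : q2 * q2 ≤ (r / 4) * (r / 4) := mul_le_mul hcon.le hcon.le hq0 (by linarith)
    nlinarith only [pow_pos hpos 2, h6, h8]
  linarith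


/-- One step of the recursion for the higher moments, at the last exponent `m`. -/
theorem moments_aux [G.LocallyFinite] {d : ℕ} {β : ℝ} (hE : Env G d β μ) (P : Measure Ω)
    (s : Ω → V → Bool) (r : ℕ) (L : ℝ) (hL : 0 ≤ L) (n : ℕ) (hn : n ≤ r) :
    ∃ C : ℝ, 0 ≤ C ∧ ∀ (y : Ω → V × ℕ → Y) (Q : V × ℕ → Measure Y) (ζ : V × ℕ → Y → ℝ) (b : ℝ),
      Obs μ P s y Q ζ b → HomEnv G P y ζ → ∀ ε : ℝ, 0 < ε → ε ≤ 1 →
      (∀ v, ∫ ω, own G μ v (slp ζ (y ω)) ^ 2 ∂P ≤ L * ε ^ 2) →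
      (∀ v, ∀ i, 1 ≤ i → i ≤ r → ∫ ω, own G μ v (slp ζ (y ω)) ^ (2 * i) ∂P ≤ L * ε ^ i) →
      ∀ i, 1 ≤ i → i ≤ n →
        (∀ p q, G.Adj p q → ∫ ω, msg G μ p q (slp ζ (y ω)) ^ (2 * i) ∂P ≤ C * ε ^ i) ∧
        ∀ (v : V) (K : Finset V), (∀ x ∈ K, G.Adj v x) →
          ∫ ω, M G μ (RK G v K) v (slp ζ (y ω)) ^ (2 * i) ∂P ≤ C * ε ^ i := by
  classical
  have hμ := hE.prob
  have hθ := theta_sq_le_half hE
  have hθ0 : 0 ≤ Real.tanh β ^ 2 := sq_nonneg _
  have hθp := hE.theta_pos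
  have hθ1 := hE.theta_lt_one
  have hθk := hE.theta_sq
  have hd3 := hE.three
  have hd3' : (3 : ℝ) ≤ d := by exact_mod_cast hd3
  induction n with
  | zero => exact ⟨0, le_rfl, fun y Q ζ b _ _ ε _ _ _ _ i h1 h2 => by omega⟩
  | succ n ih =>
    rcases Nat.eq_zero_or_pos n with hn0 | hnpos
    · -- second moments
      subst hn0
      refine ⟨L + 4 * Real.sqrt L, by positivity, ?_⟩
      intro y Q ζ b h hom ε hε hε1 hs2 _ i hi1 hi2
      obtain rfl : i = 1 := by omega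
      have hq : ∀ p q, G.Adj p q → ∫ ω, msg G μ p q (slp ζ (y ω)) ^ 2 ∂P ≤
          2 * Real.sqrt L * ε := by
        intro p q hpq
        refine (h.q_le hE hom hpq p).trans ?_
        have h1 : Real.sqrt (∫ ω, own G μ p (slp ζ (y ω)) ^ 2 ∂P) ≤ Real.sqrt (L * ε ^ 2) :=
          Real.sqrt_le_sqrt (hs2 p)
        rw [Real.sqrt_mul hL, Real.sqrt_sq hε.le] at h1
        linarith
      have hsL : 0 ≤ Real.sqrt L * ε := by positivity
      refine ⟨fun p q hpq => ?_, fun v K hK => ?_⟩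
      · have h1 := hq p q hpq
        rw [mul_one, pow_one]
        have h2 : 0 ≤ L * ε := by positivity
        linarith
      · rw [mul_one, pow_one]
        obtain ⟨p₀, hp₀⟩ := exists_nbr hE v
        have h1 := (h.second hE hom hp₀ v K hK).2
        have h2 := card_nbr_le hE hK
        have h2' : (K.card : ℝ) ≤ d := by exact_mod_cast h2
        have h3 := hq v p₀ hp₀
        have hq0 : 0 ≤ ∫ ω, msg G μ v p₀ (slp ζ (y ω)) ^ 2 ∂P :=
          integral_even_pow_nonneg (P := P) (f := fun ω => msg G μ v p₀ (slp ζ (y ω))) 1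
        have h4 : (K.card : ℝ) * (Real.tanh β ^ 2 * ∫ ω, msg G μ v p₀ (slp ζ (y ω)) ^ 2 ∂P) ≤
            2 * ∫ ω, msg G μ v p₀ (slp ζ (y ω)) ^ 2 ∂P := by
          have h5 : (K.card : ℝ) * Real.tanh β ^ 2 ≤ 2 := by
            have h6 : (K.card : ℝ) * Real.tanh β ^ 2 ≤ d * Real.tanh β ^ 2 :=
              mul_le_mul_of_nonneg_right h2' hθ0
            nlinarith only [hθk, hd3', h6]
          calc (K.card : ℝ) * (Real.tanh β ^ 2 * ∫ ω, msg G μ v p₀ (slp ζ (y ω)) ^ 2 ∂P) =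
              ((K.card : ℝ) * Real.tanh β ^ 2) * ∫ ω, msg G μ v p₀ (slp ζ (y ω)) ^ 2 ∂P := by ring
            _ ≤ _ := mul_le_mul_of_nonneg_right h5 hq0
        have h7 := hs2 v
        have h8 : L * ε ^ 2 ≤ L * ε := by
          refine mul_le_mul_of_nonneg_left ?_ hL
          rw [pow_two]
          exact mul_le_of_le_one_left hε.le hε1
        linarith
    · -- higher moments
      obtain ⟨C, hC0, hC⟩ := ih (by omega)
      obtain ⟨m, hm⟩ : ∃ m, m = n + 1 := ⟨_, rfl⟩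
      obtain ⟨C', hC'0, hC'⟩ := moment_comb m (by omega) (Real.tanh β) hθp.le hθ1
      -- the constants
      set C1 : ℝ := C' * (m * C ^ 2) with hC1
      have hC10 : 0 ≤ C1 := by positivity
      set C2 : ℝ := 2 * (L + d * C1) with hC2
      have hC20 : 0 ≤ C2 := by positivity
      set C3 : ℝ := L + d * (C2 + C1) with hC3
      have hC30 : 0 ≤ C3 := by positivity
      refine ⟨C + C2 + C3, by positivity, ?_⟩
      intro y Q ζ b h hom ε hε hε1 hs2 hs i hi1 hi2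
      have hP := h.prob
      have hlow := hC y Q ζ b h hom ε hε hε1 hs2 hs
      rcases Nat.lt_or_ge i m with him | him
      · -- lower exponents
        obtain ⟨h1, h2⟩ := hlow i hi1 (by omega)
        have hεi : 0 < ε ^ i := pow_pos hε i
        have h3 : C * ε ^ i ≤ (C + C2 + C3) * ε ^ i :=
          mul_le_mul_of_nonneg_right (by linarith) hεi.le
        exact ⟨fun p q hpq => (h1 p q hpq).trans h3, fun v K hK => (h2 v K hK).trans h3⟩
      · obtain rfl : i = m := by omega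
        have hεm : 0 < ε ^ i := pow_pos hε i
        have hθm0 : 0 ≤ Real.tanh β ^ (2 * i) := pow_nonneg hθp.le _
        -- `(d - 1) θ^{2m} ≤ 1/2`
        have hkθ : ((d : ℝ) - 1) * Real.tanh β ^ (2 * i) ≤ 1 / 2 := by
          have h1 : Real.tanh β ^ (2 * i) = Real.tanh β ^ 2 * (Real.tanh β ^ 2) ^ n := by
            rw [hm, pow_mul, pow_succ, mul_comm]
          rw [h1]
          have h2 : (Real.tanh β ^ 2) ^ n ≤ (Real.tanh β ^ 2) ^ 1 :=
            pow_le_pow_of_le_one hθ0 (by linarith) hnpos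
          calc ((d : ℝ) - 1) * (Real.tanh β ^ 2 * (Real.tanh β ^ 2) ^ n)
              = (Real.tanh β ^ 2 * ((d : ℝ) - 1)) * (Real.tanh β ^ 2) ^ n := by ring
            _ = (Real.tanh β ^ 2) ^ n := by rw [hθk, one_mul]
            _ ≤ (Real.tanh β ^ 2) ^ 1 := h2
            _ ≤ 1 / 2 := by rw [pow_one]; exact hθ
        have hθm1 : Real.tanh β ^ (2 * i) ≤ 1 := pow_le_one₀ hθp.le hθ1.le
        -- the recursion
        have hrec : ∀ (p q : V), G.Adj p q → ∀ (v : V) (K : Finset V), (∀ x ∈ K, G.Adj v x) →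
            ∫ ω, M G μ (RK G v K) v (slp ζ (y ω)) ^ (2 * i) ∂P ≤ L * ε ^ i +
              K.card * (Real.tanh β ^ (2 * i) *
                (∫ ω, msg G μ p q (slp ζ (y ω)) ^ (2 * i) ∂P) + C1 * ε ^ i) := by
          intro p q hpq v K hK
          induction K using Finset.induction_on with
          | empty =>
            rw [Finset.coe_empty, RK_empty, Finset.card_empty, Nat.cast_zero, zero_mul, add_zero]
            exact hs v i hi1 (by omega)
          | insert c K hcK ihK =>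
            have hK' : ∀ x ∈ K, G.Adj v x := fun x hx => hK x (Finset.mem_insert_of_mem hx)
            have ih1 := ihK hK'
            have hc : G.Adj v c := hK c (Finset.mem_insert_self _ _)
            have hcN : c ∉ (K : Set V) := fun hx => hcK hx
            have hae := h.step_ae hE (N := (K : Set V)) hK' hc hcN
            have hd := hC' (h.step_dec hE (N := (K : Set V)) hK' hc hcN)
            have h1 : ∫ ω, M G μ (RK G v (insert c (K : Set V))) v (slp ζ (y ω)) ^ (2 * i) ∂P =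
                ∫ ω, opl (M G μ (RK G v K) v (slp ζ (y ω)))
                  (Real.tanh β * msg G μ c v (slp ζ (y ω))) ^ (2 * i) ∂P := by
              refine integral_congr_ae ?_
              filter_upwards [hae] with ω hω
              rw [hω]
            rw [h.msg_pow_eq hE hom hc.symm hpq (2 * i)] at hd
            rw [Finset.coe_insert, h1, Finset.card_insert_of_notMem hcK]
            refine hd.trans ?_
            have hsum : ∑ j ∈ Finset.Ico 1 i,
                (∫ ω, M G μ (RK G v K) v (slp ζ (y ω)) ^ (2 * j) ∂P) *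
                  (∫ ω, msg G μ c v (slp ζ (y ω)) ^ (2 * (i - j)) ∂P) ≤ i * C ^ 2 * ε ^ i := by
              have h2 : ∀ j ∈ Finset.Ico 1 i,
                  (∫ ω, M G μ (RK G v K) v (slp ζ (y ω)) ^ (2 * j) ∂P) *
                    (∫ ω, msg G μ c v (slp ζ (y ω)) ^ (2 * (i - j)) ∂P) ≤ C ^ 2 * ε ^ i := by
                intro j hj
                rw [Finset.mem_Ico] at hj
                have h3 := (hlow j hj.1 (by omega)).2 v K hK'
                have h4 := (hlow (i - j) (by omega) (by omega)).1 c v hc.symm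
                calc (∫ ω, M G μ (RK G v K) v (slp ζ (y ω)) ^ (2 * j) ∂P) *
                    (∫ ω, msg G μ c v (slp ζ (y ω)) ^ (2 * (i - j)) ∂P)
                    ≤ (C * ε ^ j) * (C * ε ^ (i - j)) :=
                      mul_le_mul h3 h4 (integral_even_pow_nonneg (P := P)
                        (f := fun ω => msg G μ c v (slp ζ (y ω))) (i - j)) (by positivity)
                  _ = C ^ 2 * (ε ^ j * ε ^ (i - j)) := by ring
                  _ = C ^ 2 * ε ^ i := by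
                      rw [← pow_add]
                      congr 2
                      omega
              refine (Finset.sum_le_card_nsmul _ _ _ h2).trans ?_
              rw [Nat.card_Ico, nsmul_eq_mul, mul_assoc]
              refine mul_le_mul_of_nonneg_right ?_ (by positivity)
              exact_mod_cast Nat.sub_le i 1
            have h5 : C' * ∑ j ∈ Finset.Ico 1 i,
                (∫ ω, M G μ (RK G v K) v (slp ζ (y ω)) ^ (2 * j) ∂P) *
                  (∫ ω, msg G μ c v (slp ζ (y ω)) ^ (2 * (i - j)) ∂P) ≤ C1 * ε ^ i := by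
              refine (mul_le_mul_of_nonneg_left hsum hC'0).trans (le_of_eq ?_)
              rw [hC1]
              ring
            push_cast
            linarith
        -- the fixpoint inequality
        have hq : ∀ p q, G.Adj p q →
            ∫ ω, msg G μ p q (slp ζ (y ω)) ^ (2 * i) ∂P ≤ C2 * ε ^ i := by
          intro p q hpq
          obtain ⟨K, hK1, hK2⟩ := exists_but_finset hE p q hpq
          have hK : ∀ x ∈ K, G.Adj p x := fun x hx => by
            have h1 : x ∈ (K : Set V) := hx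
            rw [hK1] at h1
            exact h1.1
          have h1 := hrec p q hpq p K hK
          rw [hK1, RK_all_but hE.tree hpq, hK2] at h1
          have h2 : ∫ ω, M G μ (side G p q) p (slp ζ (y ω)) ^ (2 * i) ∂P =
              ∫ ω, msg G μ p q (slp ζ (y ω)) ^ (2 * i) ∂P := rfl
          rw [h2] at h1
          have hcast : ((d - 1 : ℕ) : ℝ) = (d : ℝ) - 1 := by
            rw [Nat.cast_sub (by omega)]; simp
          rw [hcast] at h1
          have hq0 : 0 ≤ ∫ ω, msg G μ p q (slp ζ (y ω)) ^ (2 * i) ∂P :=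
            integral_even_pow_nonneg (P := P) (f := fun ω => msg G μ p q (slp ζ (y ω))) i
          have h3 : ((d : ℝ) - 1) * (Real.tanh β ^ (2 * i) *
              ∫ ω, msg G μ p q (slp ζ (y ω)) ^ (2 * i) ∂P) ≤
              1 / 2 * ∫ ω, msg G μ p q (slp ζ (y ω)) ^ (2 * i) ∂P := by
            rw [← mul_assoc]
            exact mul_le_mul_of_nonneg_right hkθ hq0
          have h4 : 0 ≤ C1 * ε ^ i := by positivity
          rw [hC2]
          linarith only [h1, h3, h4]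
        refine ⟨fun p q hpq => (hq p q hpq).trans ?_, fun v K hK => ?_⟩
        · exact mul_le_mul_of_nonneg_right (by linarith) hεm.le
        · obtain ⟨p₀, hp₀⟩ := exists_nbr hE v
          have h1 := hrec v p₀ hp₀ v K hK
          have h2 : (K.card : ℝ) ≤ d := by exact_mod_cast card_nbr_le hE hK
          have h3 := hq v p₀ hp₀
          have hq0 : 0 ≤ ∫ ω, msg G μ v p₀ (slp ζ (y ω)) ^ (2 * i) ∂P :=
            integral_even_pow_nonneg (P := P) (f := fun ω => msg G μ v p₀ (slp ζ (y ω))) i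
          have h4 : Real.tanh β ^ (2 * i) *
              (∫ ω, msg G μ v p₀ (slp ζ (y ω)) ^ (2 * i) ∂P) + C1 * ε ^ i ≤
              (C2 + C1) * ε ^ i := by
            have h5 : Real.tanh β ^ (2 * i) *
              (∫ ω, msg G μ v p₀ (slp ζ (y ω)) ^ (2 * i) ∂P) ≤
              ∫ ω, msg G μ v p₀ (slp ζ (y ω)) ^ (2 * i) ∂P := mul_le_of_le_one_left hq0 hθm1
            linarith
          have h6 : 0 ≤ (C2 + C1) * ε ^ i := by positivity
          have h7 : (K.card : ℝ) * (Real.tanh β ^ (2 * i) *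
              (∫ ω, msg G μ v p₀ (slp ζ (y ω)) ^ (2 * i) ∂P) + C1 * ε ^ i) ≤
              d * ((C2 + C1) * ε ^ i) :=
            mul_le_mul h2 h4 (by positivity) (by positivity)
          have h8 : 0 ≤ (C + C2) * ε ^ i := by positivity
          calc ∫ ω, M G μ (RK G v K) v (slp ζ (y ω)) ^ (2 * i) ∂P
              ≤ L * ε ^ i + d * ((C2 + C1) * ε ^ i) := h1.trans (by linarith)
            _ = C3 * ε ^ i := by rw [hC3]; ring
            _ ≤ (C + C2 + C3) * ε ^ i := by linarith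

/-- Moments: if `E own² ≤ L ε²` and `E own^{2i} ≤ L ε^i` for `1 ≤ i ≤ r`, then
`E msg^{2i} ≤ C ε^i` and `E M_v^{2i} ≤ C ε^i` for `1 ≤ i ≤ r`.
Proof: `i = 1` from `q_le`. For `i ≥ 2`: `moment_comb` along the `k` steps `K → K ∪ c` gives
`E msg^{2i} ≤ E own^{2i} + k θ^{2i} E msg^{2i} + C ∑ (products of lower moments)` and
`k θ^{2i} = k^{1-i} ≤ 1/2`; the lower moments `E m_K^{2j}`, `j < i`, are bounded by `C ε^j` by
induction (again by `moment_comb`). `M_v` is one more step. -/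
theorem moments [G.LocallyFinite] {d : ℕ} {β : ℝ} (hE : Env G d β μ) (P : Measure Ω)
    (s : Ω → V → Bool) (r : ℕ) (L : ℝ) (hL : 0 ≤ L) :
    ∃ C : ℝ, 0 ≤ C ∧ ∀ (y : Ω → V × ℕ → Y) (Q : V × ℕ → Measure Y) (ζ : V × ℕ → Y → ℝ) (b : ℝ),
      Obs μ P s y Q ζ b → HomEnv G P y ζ → ∀ ε : ℝ, 0 < ε → ε ≤ 1 →
      (∀ v, ∫ ω, own G μ v (slp ζ (y ω)) ^ 2 ∂P ≤ L * ε ^ 2) →
      (∀ v, ∀ i, 1 ≤ i → i ≤ r → ∫ ω, own G μ v (slp ζ (y ω)) ^ (2 * i) ∂P ≤ L * ε ^ i) →
      ∀ i, 1 ≤ i → i ≤ r →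
        (∀ p q, G.Adj p q → ∫ ω, msg G μ p q (slp ζ (y ω)) ^ (2 * i) ∂P ≤ C * ε ^ i) ∧
        ∀ v, ∫ ω, M G μ Set.univ v (slp ζ (y ω)) ^ (2 * i) ∂P ≤ C * ε ^ i := by
  obtain ⟨C, hC0, hC⟩ := moments_aux (Y := Y) hE P s r L hL r le_rfl
  refine ⟨C, hC0, fun y Q ζ b h hom ε hε hε1 hs2 hs i hi1 hi2 => ?_⟩
  obtain ⟨h1, h2⟩ := hC y Q ζ b h hom ε hε hε1 hs2 hs i hi1 hi2
  refine ⟨h1, fun v => ?_⟩
  have h3 := h2 v (G.neighborFinset v) fun x hx => by simpa using hx
  have h4 : ((G.neighborFinset v : Finset V) : Set V) = {x | G.Adj v x} := by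
    ext x
    simp
  rw [h4, RK_all hE.tree v] at h3
  exact h3

end Vale.Agent.P161.Crit
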