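import Vale.Agent.Lib.P161.Crit.Proc
import Vale.Agent.Lib.P161.Crit.Cov
import Vale.Agent.Lib.P161.Crit.Real
import Vale.Agent.Lib.P161.Crit.Doub

/-!
P161-CRIT, module Inno: the innovations are i.i.d. uniform and independent of the past.
-/

open MeasureTheory Filter Topology ProbabilityTheory

namespace Vale.Agent.P161.Crit

variable {V : Type*} {G : SimpleGraph V} {μ : Measure (V → Bool)}

theorem measurable_tau (e : V × ℕ) : Measurable fun u : V × ℕ → unitInterval => tau u e := by
  unfold tau
  fun_prop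

/-- Distinct events have distinct times, for almost all labels. -/
theorem ae_tau_injective [Countable V] : ∀ᵐ u ∂(PP (V × ℕ)), Function.Injective (tau u) := by
  classical
  have key : ∀ e f : V × ℕ, e ≠ f → ∀ᵐ u ∂(PP (V × ℕ)), tau u e ≠ tau u f := by
    intro e f hef
    set A : Set (V × ℕ → unitInterval) := {u | tau u e = tau u f} with hA
    have hAm : MeasurableSet A := measurableSet_eq_fun (measurable_tau e) (measurable_tau f)
    have h0 : PP (V × ℕ) A = 0 := by
      rw [← lintegral_indicator_one hAm]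
      rw [← lintegral_update e (f := A.indicator 1) (measurable_one.indicator hAm)]
      rw [lintegral_eq_zero_iff']
      · refine Filter.Eventually.of_forall fun u => ?_
        simp only [Pi.zero_apply]
        set E : Set unitInterval :=
          {x : unitInterval | (e.2 : ℝ) + (x : ℝ) = (f.2 : ℝ) + (u f : ℝ)} with hE
        have h1 : ∀ x : unitInterval, A.indicator (1 : (V × ℕ → unitInterval) → ENNReal)
            (Function.update u e x) = E.indicator 1 x := by
          intro x
          have hiff : Function.update u e x ∈ A ↔ x ∈ E := by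
            simp only [hA, hE, Set.mem_ofPred_eq, tau, Function.update_self]
            rw [Function.update_of_ne hef.symm]
          by_cases hx : Function.update u e x ∈ A
          · rw [Set.indicator_of_mem hx, Set.indicator_of_mem (hiff.1 hx)]
            rfl
          · rw [Set.indicator_of_notMem hx, Set.indicator_of_notMem (fun h => hx (hiff.2 h))]
        simp only [h1]
        have hms : MeasurableSet E := measurableSet_eq_fun (by fun_prop) measurable_const
        rw [lintegral_indicator_one hms]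
        refine Set.Subsingleton.measure_zero ?_ _
        intro x hx y hy
        simp only [hE, Set.mem_ofPred_eq] at hx hy
        exact Subtype.ext (by linarith)
      · refine Measurable.aemeasurable ?_
        refine Measurable.lintegral_prod_right' (f := fun p : (V × ℕ → unitInterval) × unitInterval =>
          A.indicator 1 (Function.update p.1 e p.2)) ?_
        exact (measurable_one.indicator hAm).comp (measurable_update_uncurry e)
    rw [ae_iff]
    simpa [hA] using h0
  have h2 : ∀ᵐ u ∂(PP (V × ℕ)), ∀ e f : V × ℕ, e ≠ f → tau u e ≠ tau u f := by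
    rw [ae_all_iff]
    intro e
    rw [ae_all_iff]
    intro f
    by_cases hef : e = f
    · exact Filter.Eventually.of_forall fun u h => absurd hef h
    · filter_upwards [key e f hef] with u hu _
      exact hu
  filter_upwards [h2] with u hu e f hef
  by_contra hne
  exact hu e f hne hef

/-- `|str · Me| < 1`. -/
theorem abs_str_mul_Me_lt [G.LocallyFinite] {d : ℕ} {β : ℝ} (hE : Env G d β μ) {a : ℝ}
    (ha : 0 ≤ a) (ha1 : a < 1) (u t : V × ℕ → unitInterval) (e : V × ℕ) :
    |str a e.2 (u e) * Me G μ a u t e| < 1 := by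
  have := hE.prob
  have h1 : |Me G μ a u t e| ≤ 1 :=
    abs_M_le ha ha1 μ (fun f => abs_ws_le ha u t _ f) Set.univ e.1
  have h2 : |str a e.2 (u e)| ≤ a := by
    rw [abs_of_nonneg (str_nonneg ha _ _)]
    exact str_le ha _ _
  rw [abs_mul]
  calc |str a e.2 (u e)| * |Me G μ a u t e| ≤ a * 1 :=
        mul_le_mul h2 h1 (abs_nonneg _) ha
    _ < 1 := by linarith

/-- The signal is recovered from the innovation. -/
theorem tt_of_Xi [G.LocallyFinite] {d : ℕ} {β : ℝ} (hE : Env G d β μ) {a : ℝ}
    (ha : 0 ≤ a) (ha1 : a < 1) (u t : V × ℕ → unitInterval) (e : V × ℕ) :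
    t e = qK (str a e.2 (u e) * Me G μ a u t e) (Xi G μ a u t e) := by
  unfold Xi
  rw [qK_cdfK (abs_str_mul_Me_lt hE ha ha1 u t e)]

theorem Me_eq [G.LocallyFinite] (hc : G.Connected) (a : ℝ) (u t : V × ℕ → unitInterval)
    (e : V × ℕ) : Me G μ a u t e = M G μ {f | tau u f < tau u e} e.1 (wf a u t) := by
  unfold Me
  rw [M_ws hc, Set.univ_inter]

/-- The past of `x` for fixed labels: `Me e` and `Xi e` with `tau u e < x` depend on the signals
before `x` only. -/
theorem Me_depE [G.LocallyFinite] (hc : G.Connected) (a : ℝ) (u : V × ℕ → unitInterval)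
    (e : V × ℕ) : DepE {f | tau u f < tau u e} (fun t => Me G μ a u t e) := by
  intro t t' h
  simp only [Me_eq hc]
  exact M_depE hc μ {f | tau u f < tau u e} e.1
    (fun (e : V × ℕ) (t : unitInterval) => str a e.2 (u e) * (2 * (t : ℝ) - 1)) t t' h

theorem Xi_depE [G.LocallyFinite] (hc : G.Connected) (a : ℝ) (u : V × ℕ → unitInterval)
    (x : ℝ) (e : V × ℕ) (he : tau u e < x) :
    DepE {f | tau u f < x} (fun t => Xi G μ a u t e) := by
  intro t t' h
  have h1 : Me G μ a u t e = Me G μ a u t' e :=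
    Me_depE hc a u e t t' fun f hf => h f (lt_trans hf he)
  simp only [Xi]
  rw [h1, h e he]

/-- The law of the signals of the set `R` depends only on the labels of `R`. -/
theorem Pu_congr [Countable V] [IsProbabilityMeasure μ] (a : ℝ) {u u' : V × ℕ → unitInterval}
    {R : Set (V × ℕ)} (h : ∀ e ∈ R, u e = u' e) {A : (V × ℕ → unitInterval) → ℝ}
    (hA : Measurable A) (hdep : DepE R A) :
    ∫ t, A t ∂(Pu μ a u) = ∫ t, A t ∂(Pu μ a u') := by
  have hm : ∀ u : V × ℕ → unitInterval, Measurable
      fun p : (V → Bool) × (V × ℕ → unitInterval) => tt a p.1 u p.2 := fun u =>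
    (measurable_tt a).comp (measurable_fst.prodMk (measurable_const.prodMk measurable_snd))
  unfold Pu
  rw [integral_map (hm u).aemeasurable hA.aestronglyMeasurable,
    integral_map (hm u').aemeasurable hA.aestronglyMeasurable]
  refine integral_congr_ae (Filter.Eventually.of_forall fun p => ?_)
  refine hdep _ _ fun e he => ?_
  simp only [tt, h e he]

theorem tau_act (g : V ≃ V) (u : V × ℕ → unitInterval) (e : V × ℕ) :
    tau (actE g u) e = tau u (g.symm e.1, e.2) := rfl

/-- Exact equivariance of the innovations. -/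
theorem Xi_act [G.LocallyFinite] {d : ℕ} {β : ℝ} (hE : Env G d β μ) (a : ℝ) (g : G ≃g G)
    (u t : V × ℕ → unitInterval) :
    Xi G μ a (actE g.toEquiv u) (actE g.toEquiv t) = actE g.toEquiv (Xi G μ a u t) := by
  have hP := hE.prob
  have hmap : μ.map (actC g.toEquiv) = μ := hE.ising.map_iso hE.tree g
  have hMe : ∀ e : V × ℕ, Me G μ a (actE g.toEquiv u) (actE g.toEquiv t) e =
      Me G μ a u t (g.symm e.1, e.2) := by
    intro e
    unfold Me
    have h1 : ws a (actE g.toEquiv u) (actE g.toEquiv t) (tau (actE g.toEquiv u) e) =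
        actE g.toEquiv (ws a u t (tau u (g.symm e.1, e.2))) := by
      funext f
      rfl
    rw [h1]
    have h2 := M_univ_act hE.tree.connected g hmap (g.symm e.1)
      (ws a u t (tau u (g.symm e.1, e.2)))
    have h3 : g (g.symm e.1) = e.1 := g.apply_symm_apply e.1
    rw [h3] at h2
    exact h2
  funext e
  show cdfK (str a e.2 ((actE g.toEquiv u e : unitInterval) : ℝ) *
    Me G μ a (actE g.toEquiv u) (actE g.toEquiv t) e) (actE g.toEquiv t e) = _
  rw [hMe e]
  rfl

/-- `PT` is invariant. -/
theorem PT_act [G.LocallyFinite] {d : ℕ} {β : ℝ} (hE : Env G d β μ) (a : ℝ) (g : G ≃g G) :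
    (PT μ a).map (fun p => (actE g.toEquiv p.1, actE g.toEquiv p.2)) = PT μ a := by
  have hP := hE.prob
  have hcount := hE.countable
  have hactE : ∀ {α : Type} [MeasurableSpace α], Measurable (actE (α := α) g.toEquiv) := by
    intro α _
    exact measurable_pi_lambda _ fun e => measurable_pi_apply _
  have hm1 : Measurable fun p : (V × ℕ → unitInterval) × (V × ℕ → unitInterval) =>
      (actE g.toEquiv p.1, actE g.toEquiv p.2) :=
    (hactE.comp measurable_fst).prodMk (hactE.comp measurable_snd)
  have hm2 : Measurable fun p : Conf V => (p.2.1, tt a p.1 p.2.1 p.2.2) :=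
    (measurable_fst.comp measurable_snd).prodMk (measurable_tt a)
  unfold PT
  rw [Measure.map_map hm1 hm2]
  have h1 : (fun p : (V × ℕ → unitInterval) × (V × ℕ → unitInterval) =>
      (actE g.toEquiv p.1, actE g.toEquiv p.2)) ∘
      (fun p : Conf V => (p.2.1, tt a p.1 p.2.1 p.2.2)) =
      (fun p : Conf V => (p.2.1, tt a p.1 p.2.1 p.2.2)) ∘ (actO g.toEquiv) := by
    funext p
    rfl
  rw [h1, ← Measure.map_map hm2 (measurable_actO _), PO_act hE.tree hE.ising g]


theorem measurable_tt_fixed [Countable V] (a : ℝ) (u : V × ℕ → unitInterval) : Measurable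
    fun p : (V → Bool) × (V × ℕ → unitInterval) => tt a p.1 u p.2 :=
  (measurable_tt a).comp (measurable_fst.prodMk (measurable_const.prodMk measurable_snd))


theorem measurable_cond {T : Type*} [MeasurableSpace T] (κ : ℝ) {m : T → ℝ} (hm : Measurable m)
    {k : unitInterval → ℝ} (hk : Measurable k) :
    Measurable fun t => ∫ x : unitInterval, k x * (1 + κ * (2 * (x : ℝ) - 1) * m t) := by
  have : StronglyMeasurable fun p : T × unitInterval => k p.2 *
      (1 + κ * (2 * (p.2 : ℝ) - 1) * m p.1) := by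
    refine Measurable.stronglyMeasurable ?_
    have h1 : Measurable fun p : T × unitInterval => k p.2 := hk.comp measurable_snd
    have h2 : Measurable fun p : T × unitInterval => m p.1 := hm.comp measurable_fst
    have h3 : Measurable fun p : T × unitInterval => 1 + κ * (2 * (p.2 : ℝ) - 1) * m p.1 :=
      (((((measurable_subtype_coe.comp measurable_snd).const_mul 2).sub_const 1).const_mul κ).mul
        h2).const_add 1
    exact h1.mul h3
  exact this.integral_prod_right'.measurable

theorem measurable_Me_fixed [Countable V] [IsProbabilityMeasure μ] (G : SimpleGraph V) (a : ℝ)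
    (u : V × ℕ → unitInterval) (e : V × ℕ) :
    Measurable fun t : V × ℕ → unitInterval => Me G μ a u t e := by
  have h1 : Measurable fun t : V × ℕ → unitInterval => (u, t) :=
    measurable_const.prodMk measurable_id
  have h2 := (measurable_Me (μ := μ) G a e).comp h1
  simpa only [Function.comp_def] using h2

theorem measurable_Xi_fixed [Countable V] [IsProbabilityMeasure μ] (G : SimpleGraph V) (a : ℝ)
    (u : V × ℕ → unitInterval) : Measurable fun t : V × ℕ → unitInterval => Xi G μ a u t := by
  have h1 : Measurable fun t : V × ℕ → unitInterval => (u, t) :=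
    measurable_const.prodMk measurable_id
  have h2 := (measurable_Xi (μ := μ) G a).comp h1
  simpa only [Function.comp_def] using h2

/-- `EI_post_one` in terms of `Pu`. -/
theorem post_one_Pu [G.LocallyFinite] {d : ℕ} {β : ℝ} (hE : Env G d β μ) {a : ℝ}
    (ha : 0 ≤ a) (ha1 : a < 1) (u : V × ℕ → unitInterval) (e : V × ℕ)
    {F : (V × ℕ → unitInterval) → ℝ} (hF : Measurable F) (hFC : ∃ C, ∀ t, |F t| ≤ C)
    (hdep : DepE {f | tau u f < tau u e} F) {k : unitInterval → ℝ} (hk : Measurable k)
    (hkC : ∃ C, ∀ x, |k x| ≤ C) :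
    ∫ t, F t * k (t e) ∂(Pu μ a u) =
      ∫ t, F t * (∫ x : unitInterval, k x *
        (1 + str a e.2 (u e) * (2 * (x : ℝ) - 1) * Me G μ a u t e)) ∂(Pu μ a u) := by
  have hP := hE.prob
  have hcount := hE.countable
  have hc := hE.tree.connected
  have hy := measurable_tt_fixed (V := V) a u
  have hMe := measurable_Me_fixed (μ := μ) G a u e
  have hne : e ∉ {f | tau u f < tau u e} := by simp
  have h1 := (obs_fixed (μ := μ) ha ha1 u).EI_post_one hc {f | tau u f < tau u e}
    hne hF hFC hdep hk hkC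
  have hg := measurable_cond (str a e.2 (u e)) hMe hk
  have hm1 : Measurable fun t : V × ℕ → unitInterval => F t * k (t e) :=
    hF.mul (hk.comp (measurable_pi_apply e))
  have hm2 : Measurable fun t : V × ℕ → unitInterval => F t * (∫ x : unitInterval, k x *
        (1 + str a e.2 (u e) * (2 * (x : ℝ) - 1) * Me G μ a u t e)) := hF.mul hg
  unfold Pu
  rw [integral_map hy.aemeasurable hm1.aestronglyMeasurable,
    integral_map hy.aemeasurable hm2.aestronglyMeasurable]
  refine h1.trans ?_
  simp only [Me_eq hc]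
  rfl


section Abstract

variable {T : Type*} [MeasurableSpace T] {ν : Measure T} [IsProbabilityMeasure ν] {m : T → ℝ}
  {y : T → unitInterval} {κ C : ℝ} {A : T → ℝ}

/-- The density. -/
noncomputable def dnE (κ : ℝ) (p : ℝ × unitInterval) : ENNReal :=
  ENNReal.ofReal (1 + κ * (2 * (p.2 : ℝ) - 1) * p.1)

theorem measurable_dnE (κ : ℝ) : Measurable (dnE κ) := by
  unfold dnE; fun_prop

theorem lint_nu1 (hm : Measurable m) (hy : Measurable y) (hA : Measurable A)
    {K : ℝ × unitInterval → ENNReal} (hK : Measurable K) :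
    ∫⁻ p, K p ∂((ν.withDensity fun t => ENNReal.ofReal (A t)).map (fun t => (m t, y t))) =
      ∫⁻ t, ENNReal.ofReal (A t) * K (m t, y t) ∂ν := by
  have hpair : Measurable fun t => (m t, y t) := hm.prodMk hy
  have hKp : Measurable fun t => K (m t, y t) := hK.comp hpair
  rw [lintegral_map hK hpair, lintegral_withDensity_eq_lintegral_mul _ hA.ennreal_ofReal hKp]
  rfl

theorem lint_nu2 (hm : Measurable m) (hA : Measurable A)
    (hfin : IsFiniteMeasure (ν.withDensity fun t => ENNReal.ofReal (A t)))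
    {K : ℝ × unitInterval → ENNReal} (hK : Measurable K) :
    ∫⁻ p, K p ∂((((ν.withDensity fun t => ENNReal.ofReal (A t)).map m).prod
        (volume : Measure unitInterval)).withDensity (dnE κ)) =
      ∫⁻ t, ENNReal.ofReal (A t) * (∫⁻ x : unitInterval, dnE κ (m t, x) * K (m t, x)) ∂ν := by
  have hD := measurable_dnE κ
  have hDK : Measurable fun p => dnE κ p * K p := hD.mul hK
  rw [lintegral_withDensity_eq_lintegral_mul _ hD hK]
  simp only [Pi.mul_apply]
  have h1 : Measurable fun z : ℝ => ∫⁻ x : unitInterval, dnE κ (z, x) * K (z, x) :=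
    hDK.lintegral_prod_right'
  have h2 : Measurable fun t => ∫⁻ x : unitInterval, dnE κ (m t, x) * K (m t, x) := h1.comp hm
  rw [lintegral_prod _ hDK.aemeasurable, lintegral_map h1 hm,
    lintegral_withDensity_eq_lintegral_mul _ hA.ennreal_ofReal h2]
  rfl

theorem ind01 {α : Type*} (S : Set α) (z : α) :
    0 ≤ S.indicator (1 : α → ℝ) z ∧ S.indicator (1 : α → ℝ) z ≤ 1 := by
  by_cases hz : z ∈ S
  · rw [Set.indicator_of_mem hz]; simp
  · rw [Set.indicator_of_notMem hz]; simp

theorem ofReal_ind {α : Type*} (S : Set α) (z : α) :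
    ENNReal.ofReal (S.indicator (1 : α → ℝ) z) = S.indicator (1 : α → ENNReal) z := by
  by_cases hz : z ∈ S
  · rw [Set.indicator_of_mem hz, Set.indicator_of_mem hz]; simp
  · rw [Set.indicator_of_notMem hz, Set.indicator_of_notMem hz]; simp

theorem ind_prod {α β : Type*} (S : Set α) (B : Set β) (z : α) (x : β) :
    (S ×ˢ B).indicator (1 : α × β → ENNReal) (z, x) =
      S.indicator (1 : α → ENNReal) z * B.indicator (1 : β → ENNReal) x := by
  by_cases h1 : z ∈ S
  · by_cases h2 : x ∈ B
    · rw [Set.indicator_of_mem (Set.mk_mem_prod h1 h2), Set.indicator_of_mem h1,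
        Set.indicator_of_mem h2]
      simp
    · rw [Set.indicator_of_notMem (fun h => h2 h.2), Set.indicator_of_notMem h2]
      simp
  · rw [Set.indicator_of_notMem (fun h => h1 h.1), Set.indicator_of_notMem h1]
    simp

theorem dens_nonneg {κ z : ℝ} (h : |κ * z| ≤ 1) (x : unitInterval) :
    0 ≤ 1 + κ * (2 * (x : ℝ) - 1) * z := by
  have := density_nonneg h x
  calc (0:ℝ) ≤ _ := this
    _ = _ := by ring

theorem integrable_dens {κ z : ℝ} {k : unitInterval → ℝ} (hk : Measurable k)
    (hkC : ∀ x, |k x| ≤ 1) :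
    Integrable (fun x : unitInterval => k x * (1 + κ * (2 * (x : ℝ) - 1) * z)) := by
  have h1 : Integrable (fun x : unitInterval => 1 + κ * z * (2 * (x : ℝ) - 1)) :=
    integrable_density (κ * z)
  have h2 : (fun x : unitInterval => k x * (1 + κ * (2 * (x : ℝ) - 1) * z)) =
      fun x : unitInterval => k x * (1 + κ * z * (2 * (x : ℝ) - 1)) := by
    funext x; ring
  rw [h2]
  exact h1.bdd_mul hk.aestronglyMeasurable (c := 1)
    (Filter.Eventually.of_forall fun x => by rw [Real.norm_eq_abs]; exact hkC x)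

theorem left_side (hm : Measurable m) (hy : Measurable y) (hA : Measurable A)
    (hA0 : ∀ t, 0 ≤ A t) (hC : ∀ t, |A t| ≤ C)
    {S : Set ℝ} (hS : MeasurableSet S) {B : Set unitInterval} (hB : MeasurableSet B) :
    ∫⁻ t, ENNReal.ofReal (A t) * (S ×ˢ B).indicator 1 (m t, y t) ∂ν =
        ENNReal.ofReal (∫ t, A t * S.indicator 1 (m t) * B.indicator 1 (y t) ∂ν) := by
  have hS1 : Measurable fun t => S.indicator (1 : ℝ → ℝ) (m t) :=
    (measurable_one.indicator hS).comp hm
  have hB1 : Measurable fun t => B.indicator (1 : unitInterval → ℝ) (y t) :=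
    (measurable_one.indicator hB).comp hy
  rw [ofReal_integral_eq_lintegral_ofReal]
  · refine lintegral_congr fun t => ?_
    rw [ENNReal.ofReal_mul (mul_nonneg (hA0 t) (ind01 S _).1), ENNReal.ofReal_mul (hA0 t),
      ofReal_ind, ofReal_ind, ind_prod, mul_assoc]
  · refine Integrable.of_bound ((hA.mul hS1).mul hB1).aestronglyMeasurable
      C (Filter.Eventually.of_forall fun t => ?_)
    rw [Real.norm_eq_abs, abs_mul, abs_mul, abs_of_nonneg (ind01 S _).1,
      abs_of_nonneg (ind01 B _).1]
    have h1 := ind01 S (m t)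
    have h2 := ind01 B (y t)
    have h3 := abs_nonneg (A t)
    calc |A t| * S.indicator 1 (m t) * B.indicator 1 (y t) ≤ |A t| * 1 * 1 := by
          refine mul_le_mul (mul_le_mul_of_nonneg_left h1.2 h3) h2.2 h2.1 (by positivity)
      _ ≤ C := by rw [mul_one, mul_one]; exact hC t
  · exact Filter.Eventually.of_forall fun t =>
      mul_nonneg (mul_nonneg (hA0 t) (ind01 S _).1) (ind01 B _).1

theorem right_side (hm : Measurable m) (hκm : ∀ t, |κ * m t| < 1) (hA : Measurable A)
    (hA0 : ∀ t, 0 ≤ A t) (hC : ∀ t, |A t| ≤ C)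
    {S : Set ℝ} (hS : MeasurableSet S) {B : Set unitInterval} (hB : MeasurableSet B) :
    ∫⁻ t, ENNReal.ofReal (A t) * (∫⁻ x : unitInterval, dnE κ (m t, x) *
        (S ×ˢ B).indicator 1 (m t, x)) ∂ν =
        ENNReal.ofReal (∫ t, A t * S.indicator 1 (m t) * (∫ x : unitInterval,
          B.indicator 1 x * (1 + κ * (2 * (x : ℝ) - 1) * m t)) ∂ν) := by
  have hS1 : Measurable fun t => S.indicator (1 : ℝ → ℝ) (m t) :=
    (measurable_one.indicator hS).comp hm
  have hk : Measurable (B.indicator (1 : unitInterval → ℝ)) := measurable_one.indicator hB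
  have hkC : ∀ x, |B.indicator (1 : unitInterval → ℝ) x| ≤ 1 := fun x => by
    rw [abs_of_nonneg (ind01 B x).1]; exact (ind01 B x).2
  have hgm := measurable_cond κ hm hk
  set g : T → ℝ := fun t => ∫ x : unitInterval,
    B.indicator 1 x * (1 + κ * (2 * (x : ℝ) - 1) * m t) with hg
  have hg0 : ∀ t, 0 ≤ g t := fun t =>
    integral_nonneg fun x => mul_nonneg (ind01 B x).1 (dens_nonneg (hκm t).le x)
  have hgb : ∀ t, g t ≤ 1 := by
    intro t
    have h1 : g t ≤ ∫ x : unitInterval, (1 + κ * m t * (2 * (x : ℝ) - 1)) := by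
      refine integral_mono (integrable_dens hk hkC) (integrable_density (κ * m t)) fun x => ?_
      have h2 := dens_nonneg (hκm t).le x
      have e1 : 1 + κ * m t * (2 * (x : ℝ) - 1) = 1 + κ * (2 * (x : ℝ) - 1) * m t := by ring
      simp only
      rw [e1]
      calc B.indicator 1 x * (1 + κ * (2 * (x : ℝ) - 1) * m t)
          ≤ 1 * (1 + κ * (2 * (x : ℝ) - 1) * m t) :=
            mul_le_mul_of_nonneg_right (ind01 B x).2 h2
        _ = _ := one_mul _
    rw [integral_unit_density] at h1
    exact h1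
  rw [ofReal_integral_eq_lintegral_ofReal]
  · refine lintegral_congr fun t => ?_
    rw [ENNReal.ofReal_mul (mul_nonneg (hA0 t) (ind01 S _).1), ENNReal.ofReal_mul (hA0 t),
      ofReal_ind, mul_assoc]
    congr 1
    rw [ofReal_integral_eq_lintegral_ofReal (integrable_dens hk hkC)
      (Filter.Eventually.of_forall fun x => mul_nonneg (ind01 B x).1 (dens_nonneg (hκm t).le x))]
    rw [← lintegral_const_mul]
    · refine lintegral_congr fun x => ?_
      rw [ENNReal.ofReal_mul (ind01 B x).1, ofReal_ind, ind_prod]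
      unfold dnE
      ring
    · refine Measurable.ennreal_ofReal ?_
      exact hk.mul (by fun_prop)
  · refine Integrable.of_bound ((hA.mul hS1).mul hgm).aestronglyMeasurable
      C (Filter.Eventually.of_forall fun t => ?_)
    rw [Real.norm_eq_abs, abs_mul, abs_mul, abs_of_nonneg (ind01 S _).1,
      abs_of_nonneg (hg0 t)]
    have h1 := ind01 S (m t)
    have h3 := abs_nonneg (A t)
    calc |A t| * S.indicator 1 (m t) * g t ≤ |A t| * 1 * 1 := by
          refine mul_le_mul (mul_le_mul_of_nonneg_left h1.2 h3) (hgb t) (hg0 t) (by positivity)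
      _ ≤ C := by rw [mul_one, mul_one]; exact hC t
  · exact Filter.Eventually.of_forall fun t =>
      mul_nonneg (mul_nonneg (hA0 t) (ind01 S _).1) (hg0 t)

theorem lint_cdf {z : ℝ} (hz : |κ * z| < 1) {B : Set unitInterval} (hB : MeasurableSet B) :
    ∫⁻ x : unitInterval, dnE κ (z, x) *
      B.indicator (1 : unitInterval → ENNReal) (cdfK (κ * z) x) =
      (volume : Measure unitInterval) B := by
  have hBi : Measurable (B.indicator (1 : unitInterval → ENNReal)) := measurable_one.indicator hB
  have hc : Measurable fun x : unitInterval => cdfK (κ * z) x :=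
    measurable_cdfK.comp (f := fun x => (κ * z, x)) (measurable_const.prodMk measurable_id)
  have h0 : Measurable fun x => B.indicator (1 : unitInterval → ENNReal) (cdfK (κ * z) x) :=
    hBi.comp hc
  have h1 := lintegral_qK hz h0
  simp only [cdfK_qK hz] at h1
  rw [lintegral_indicator_one hB] at h1
  rw [h1]
  refine lintegral_congr fun x => ?_
  unfold dnE
  rw [mul_comm]
  congr 2
  ring

/-- The innovation as a function of the posterior mean and the observation. -/
noncomputable def innoCE (κ : ℝ) (p : ℝ × unitInterval) : unitInterval := cdfK (κ * p.1) p.2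

theorem measurable_innoCE (κ : ℝ) : Measurable (innoCE κ) := by
  have h1 : Measurable fun p : ℝ × unitInterval => (κ * p.1, p.2) :=
    (measurable_fst.const_mul κ).prodMk measurable_snd
  have h2 := measurable_cdfK.comp h1
  exact h2

theorem map_joint (hm : Measurable m) (hy : Measurable y) (W : Measure T)
    {B : Set unitInterval} (hB : MeasurableSet B) :
    (W.map (fun t => innoCE κ (m t, y t))) B = ∫⁻ p, B.indicator (1 : unitInterval → ENNReal)
      (innoCE κ p) ∂(W.map (fun t => (m t, y t))) := by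
  have hBi : Measurable (B.indicator (1 : unitInterval → ENNReal)) := measurable_one.indicator hB
  have hc := measurable_innoCE κ
  have hpair : Measurable fun t => (m t, y t) := hm.prodMk hy
  have h1 : W.map (fun t => innoCE κ (m t, y t)) = (W.map (fun t => (m t, y t))).map (innoCE κ) := by
    rw [Measure.map_map hc hpair]
    rfl
  rw [h1, ← lintegral_indicator_one hB, lintegral_map hBi hc]

theorem joint_eq (hm : Measurable m) (hy : Measurable y) (hκm : ∀ t, |κ * m t| < 1)
    (hA : Measurable A) (hA0 : ∀ t, 0 ≤ A t) (hC : ∀ t, |A t| ≤ C)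
    (hWfin : IsFiniteMeasure (ν.withDensity fun t => ENNReal.ofReal (A t)))
    (hpf : ∀ (S : Set ℝ) (B : Set unitInterval), MeasurableSet S → MeasurableSet B →
      ∫ t, A t * S.indicator 1 (m t) * B.indicator 1 (y t) ∂ν =
        ∫ t, A t * S.indicator 1 (m t) * (∫ x : unitInterval,
          B.indicator 1 x * (1 + κ * (2 * (x : ℝ) - 1) * m t)) ∂ν) :
    (ν.withDensity fun t => ENNReal.ofReal (A t)).map (fun t => (m t, y t)) =
      (((ν.withDensity fun t => ENNReal.ofReal (A t)).map m).prod
        (volume : Measure unitInterval)).withDensity (dnE κ) := by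
  refine Measure.ext_prod fun {S B} hS hB => ?_
  have hSB : MeasurableSet (S ×ˢ B) := hS.prod hB
  have hSBi : Measurable ((S ×ˢ B).indicator (1 : ℝ × unitInterval → ENNReal)) :=
    measurable_one.indicator hSB
  rw [← lintegral_indicator_one hSB, ← lintegral_indicator_one hSB,
    lint_nu1 hm hy hA hSBi,
    lint_nu2 hm hA hWfin hSBi,
    left_side hm hy hA hA0 hC hS hB, right_side hm hκm hA hA0 hC hS hB, hpf S B hS hB]

/-- The innovation of one observation with conditional density `1 + κ m (2x-1)`. -/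
theorem abstract_inno (hm : Measurable m) (hy : Measurable y) (hκm : ∀ t, |κ * m t| < 1)
    (hA : Measurable A) (hA0 : ∀ t, 0 ≤ A t) (hC : ∀ t, |A t| ≤ C)
    (hpf : ∀ (S : Set ℝ) (B : Set unitInterval), MeasurableSet S → MeasurableSet B →
      ∫ t, A t * S.indicator 1 (m t) * B.indicator 1 (y t) ∂ν =
        ∫ t, A t * S.indicator 1 (m t) * (∫ x : unitInterval,
          B.indicator 1 x * (1 + κ * (2 * (x : ℝ) - 1) * m t)) ∂ν) :
    (ν.withDensity fun t => ENNReal.ofReal (A t)).map (fun t => innoCE κ (m t, y t)) =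
      (∫⁻ t, ENNReal.ofReal (A t) ∂ν) • (volume : Measure unitInterval) := by
  have hfin : ∫⁻ t, ENNReal.ofReal (A t) ∂ν ≠ ⊤ := by
    refine ne_of_lt (lt_of_le_of_lt (lintegral_mono (g := fun _ => ENNReal.ofReal C) fun t =>
      ENNReal.ofReal_le_ofReal ((le_abs_self _).trans (hC t))) ?_)
    rw [lintegral_const, measure_univ, mul_one]
    exact ENNReal.ofReal_lt_top
  have hWfin : IsFiniteMeasure (ν.withDensity fun t => ENNReal.ofReal (A t)) :=
    isFiniteMeasure_withDensity hfin
  have hν := joint_eq hm hy hκm hA hA0 hC hWfin hpf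
  refine Measure.ext fun B hB => ?_
  have hBi : Measurable (B.indicator (1 : unitInterval → ENNReal)) := measurable_one.indicator hB
  have hKm : Measurable fun p : ℝ × unitInterval =>
      B.indicator (1 : unitInterval → ENNReal) (innoCE κ p) := hBi.comp (measurable_innoCE κ)
  rw [map_joint hm hy _ hB, hν, lint_nu2 hm hA hWfin hKm]
  have e2 : ∀ t, ∫⁻ x : unitInterval, dnE κ (m t, x) *
      B.indicator (1 : unitInterval → ENNReal) (innoCE κ (m t, x)) =
      (volume : Measure unitInterval) B := fun t => lint_cdf (hκm t) hB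
  simp only [e2]
  rw [lintegral_mul_const _ hA.ennreal_ofReal, Measure.smul_apply, smul_eq_mul]

theorem abstract_inno_real (hm : Measurable m) (hy : Measurable y) (hκm : ∀ t, |κ * m t| < 1)
    (hA : Measurable A) (hA0 : ∀ t, 0 ≤ A t) (hC : ∀ t, |A t| ≤ C)
    (hpf : ∀ (S : Set ℝ) (B : Set unitInterval), MeasurableSet S → MeasurableSet B →
      ∫ t, A t * S.indicator 1 (m t) * B.indicator 1 (y t) ∂ν =
        ∫ t, A t * S.indicator 1 (m t) * (∫ x : unitInterval,
          B.indicator 1 x * (1 + κ * (2 * (x : ℝ) - 1) * m t)) ∂ν)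
    {k : unitInterval → ℝ} (hk : Measurable k) :
    ∫ t, A t * k (innoCE κ (m t, y t)) ∂ν = (∫ t, A t ∂ν) * ∫ x : unitInterval, k x := by
  have h1 := abstract_inno hm hy hκm hA hA0 hC hpf
  have hpair : Measurable fun t => (m t, y t) := hm.prodMk hy
  have hXi : Measurable fun t => innoCE κ (m t, y t) := (measurable_innoCE κ).comp hpair
  have h2 : ∫ x, k x ∂((ν.withDensity fun t => ENNReal.ofReal (A t)).map
      (fun t => innoCE κ (m t, y t))) = ∫ t, A t * k (innoCE κ (m t, y t)) ∂ν := by
    rw [integral_map hXi.aemeasurable hk.aestronglyMeasurable,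
      integral_withDensity_eq_integral_toReal_smul hA.ennreal_ofReal
        (Filter.Eventually.of_forall fun t => ENNReal.ofReal_lt_top)]
    refine integral_congr_ae (Filter.Eventually.of_forall fun t => ?_)
    simp only [smul_eq_mul]
    rw [ENNReal.toReal_ofReal (hA0 t)]
  rw [← h2, h1, integral_smul_measure, smul_eq_mul]
  congr 1
  exact (integral_eq_lintegral_of_nonneg_ae (Filter.Eventually.of_forall hA0)
    hA.aestronglyMeasurable).symm

end Abstract


theorem Xi_eq_cE (G : SimpleGraph V) (a : ℝ) (u t : V × ℕ → unitInterval) (e : V × ℕ) :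
    Xi G μ a u t e = innoCE (str a e.2 (u e)) (Me G μ a u t e, t e) := rfl

theorem inno_integrable_bdd {T : Type*} [MeasurableSpace T] {ν : Measure T} [IsProbabilityMeasure ν]
    {F : T → ℝ} (hF : Measurable F) (hC : ∃ C, ∀ t, |F t| ≤ C) : Integrable F ν := by
  obtain ⟨C, hC⟩ := hC
  exact Integrable.of_bound hF.aestronglyMeasurable C (Filter.Eventually.of_forall hC)

theorem inno_one_nonneg [G.LocallyFinite] {d : ℕ} {β : ℝ} (hE : Env G d β μ) {a : ℝ}
    (ha : 0 ≤ a) (ha1 : a < 1) (u : V × ℕ → unitInterval) (e : V × ℕ)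
    {A : (V × ℕ → unitInterval) → ℝ} (hA : Measurable A) (hA0 : ∀ t, 0 ≤ A t)
    (hAC : ∃ C, ∀ t, |A t| ≤ C)
    (hdep : DepE {f | tau u f < tau u e} A) {k : unitInterval → ℝ} (hk : Measurable k) :
    ∫ t, A t * k (Xi G μ a u t e) ∂(Pu μ a u) =
      (∫ t, A t ∂(Pu μ a u)) * ∫ x : unitInterval, k x := by
  have hP := hE.prob
  have hcount := hE.countable
  have hc := hE.tree.connected
  have hPu := isProbabilityMeasure_Pu (μ := μ) a u
  obtain ⟨C, hC⟩ := hAC
  have hm := measurable_Me_fixed (μ := μ) G a u e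
  have hκm := fun t => abs_str_mul_Me_lt hE ha ha1 u t e
  have hdepm := Me_depE (μ := μ) hc a u e
  simp only [Xi_eq_cE]
  refine abstract_inno_real hm (measurable_pi_apply e) hκm hA hA0 hC ?_ hk
  intro S B hS hB
  have hSi : Measurable (S.indicator (1 : ℝ → ℝ)) := measurable_one.indicator hS
  have hF : Measurable fun t => A t * S.indicator (1 : ℝ → ℝ) (Me G μ a u t e) :=
    hA.mul (hSi.comp hm)
  refine post_one_Pu hE ha ha1 u e hF ⟨C, fun t => ?_⟩ ?_ (measurable_one.indicator hB)
    ⟨1, fun x => ?_⟩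
  · rw [abs_mul, abs_of_nonneg (ind01 S _).1]
    calc |A t| * S.indicator 1 (Me G μ a u t e) ≤ |A t| * 1 :=
          mul_le_mul_of_nonneg_left (ind01 S _).2 (abs_nonneg _)
      _ ≤ C := by rw [mul_one]; exact hC t
  · intro t t' h
    have e1 := hdep t t' h
    have e2 := hdepm t t' h
    simp only at e1 e2 ⊢
    rw [e1, e2]
  · rw [abs_of_nonneg (ind01 B x).1]; exact (ind01 B x).2

/-- Conditional law of one signal given the past (fixed labels): the innovation `Xi e` is uniform
and independent of the signals before `e`. From `Obs.EI_post_one` with `R = {f | tau u f < tau u e}`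
(`M_ws` identifies `Me`) and `lintegral_qK`. -/
theorem inno_one [G.LocallyFinite] {d : ℕ} {β : ℝ} (hE : Env G d β μ) {a : ℝ}
    (ha : 0 ≤ a) (ha1 : a < 1) (u : V × ℕ → unitInterval) (e : V × ℕ)
    {A : (V × ℕ → unitInterval) → ℝ} (hA : Measurable A) (hAC : ∃ C, ∀ t, |A t| ≤ C)
    (hdep : DepE {f | tau u f < tau u e} A) {k : unitInterval → ℝ} (hk : Measurable k)
    (hkC : ∃ C, ∀ x, |k x| ≤ C) :
    ∫ t, A t * k (Xi G μ a u t e) ∂(Pu μ a u) =
      (∫ t, A t ∂(Pu μ a u)) * ∫ x : unitInterval, k x := by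
  have hP := hE.prob
  have hcount := hE.countable
  have hPu := isProbabilityMeasure_Pu (μ := μ) a u
  obtain ⟨C, hC⟩ := hAC
  obtain ⟨C', hC'⟩ := hkC
  have hC0 : 0 ≤ C := (abs_nonneg _).trans (hC fun _ => 0)
  have hXi : Measurable fun t : V × ℕ → unitInterval => Xi G μ a u t e :=
    (measurable_pi_apply e).comp (measurable_Xi_fixed (μ := μ) G a u)
  have hkXi : Measurable fun t : V × ℕ → unitInterval => k (Xi G μ a u t e) := hk.comp hXi
  have h1 := inno_one_nonneg hE ha ha1 u e (A := fun t => A t + C) (hA.add_const C)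
    (fun t => by have := (abs_le.1 (hC t)).1; linarith)
    ⟨C + C, fun t => (abs_add_le _ _).trans (add_le_add (hC t) (le_of_eq (abs_of_nonneg hC0)))⟩
    (fun t t' h => by simp only [hdep t t' h]) hk
  have h2 := inno_one_nonneg hE ha ha1 u e (A := fun _ => C) measurable_const (fun _ => hC0)
    ⟨C, fun t => le_of_eq (abs_of_nonneg hC0)⟩ (fun t t' h => rfl) hk
  have hi1 : Integrable A (Pu μ a u) := inno_integrable_bdd hA ⟨C, hC⟩
  have hi2 : Integrable (fun t => A t * k (Xi G μ a u t e)) (Pu μ a u) :=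
    inno_integrable_bdd (hA.mul hkXi) ⟨C * C', fun t => by
      rw [abs_mul]
      exact mul_le_mul (hC t) (hC' _) (abs_nonneg _) hC0⟩
  have hi3 : Integrable (fun t => C * k (Xi G μ a u t e)) (Pu μ a u) :=
    inno_integrable_bdd (hkXi.const_mul C) ⟨C * C', fun t => by
      rw [abs_mul, abs_of_nonneg hC0]
      exact mul_le_mul_of_nonneg_left (hC' _) hC0⟩
  have e1 : ∫ t, (A t + C) * k (Xi G μ a u t e) ∂(Pu μ a u) =
      ∫ t, A t * k (Xi G μ a u t e) ∂(Pu μ a u) + ∫ t, C * k (Xi G μ a u t e) ∂(Pu μ a u) := by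
    rw [← integral_add hi2 hi3]
    refine integral_congr_ae (Filter.Eventually.of_forall fun t => ?_)
    simp only [add_mul]
  have e2 : ∫ t, (A t + C) ∂(Pu μ a u) = ∫ t, A t ∂(Pu μ a u) + ∫ t, C ∂(Pu μ a u) :=
    integral_add hi1 (integrable_const C)
  rw [e1, e2, h2, add_mul] at h1
  linarith


theorem depE_mono_inno {Y α : Type*} {R R' : Set (V × ℕ)} (h : R ⊆ R') {F : (V × ℕ → Y) → α}
    (hF : DepE R F) : DepE R' F := fun y y' hy => hF y y' fun e he => hy e (h he)

/-- Products of finitely many innovations after time `x`. -/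
theorem inno_prod [G.LocallyFinite] {d : ℕ} {β : ℝ} (hE : Env G d β μ) {a : ℝ}
    (ha : 0 ≤ a) (ha1 : a < 1) {u : V × ℕ → unitInterval} (hu : Function.Injective (tau u)) (x : ℝ)
    {A : (V × ℕ → unitInterval) → ℝ} (hA : Measurable A) (hAC : ∃ C, ∀ t, |A t| ≤ C)
    (hdep : DepE {f | tau u f < x} A) (k : V × ℕ → unitInterval → ℝ)
    (hk : ∀ e, Measurable (k e)) (hkC : ∀ e z, |k e z| ≤ 1) (s : Finset (V × ℕ)) :
    (∀ e ∈ s, x ≤ tau u e) → ∫ t, A t * ∏ e ∈ s, k e (Xi G μ a u t e) ∂(Pu μ a u) =
      (∫ t, A t ∂(Pu μ a u)) * ∏ e ∈ s, ∫ z : unitInterval, k e z := by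
  classical
  have hP := hE.prob
  have hcount := hE.countable
  have hc := hE.tree.connected
  obtain ⟨C, hC⟩ := hAC
  have hXi : Measurable fun t : V × ℕ → unitInterval => Xi G μ a u t :=
    measurable_Xi_fixed (μ := μ) G a u
  have hkXi : ∀ e, Measurable fun t : V × ℕ → unitInterval => k e (Xi G μ a u t e) := fun e =>
    (hk e).comp ((measurable_pi_apply e).comp hXi)
  refine Finset.induction_on_max_value (tau u) s ?_ ?_
  · intro _
    simp
  · intro b s hb hmax ih hx
    have hlt : ∀ e ∈ s, tau u e < tau u b := by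
      intro e he
      refine lt_of_le_of_ne (hmax e he) fun h => hb ?_
      rw [← hu h]; exact he
    have hxb : x ≤ tau u b := hx b (Finset.mem_insert_self _ _)
    set F : (V × ℕ → unitInterval) → ℝ := fun t => A t * ∏ e ∈ s, k e (Xi G μ a u t e) with hF
    have hFm : Measurable F := hA.mul (Finset.measurable_fun_prod _ fun e _ => hkXi e)
    have hFC : ∀ t, |F t| ≤ C := by
      intro t
      simp only [hF]
      rw [abs_mul, Finset.abs_prod]
      calc |A t| * ∏ e ∈ s, |k e (Xi G μ a u t e)| ≤ |A t| * 1 :=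
            mul_le_mul_of_nonneg_left (Finset.prod_le_one (fun _ _ => abs_nonneg _)
              fun e _ => hkC e _) (abs_nonneg _)
        _ ≤ C := by rw [mul_one]; exact hC t
    have hFdep : DepE {f | tau u f < tau u b} F := by
      intro t t' h
      simp only [hF]
      rw [hdep t t' fun f hf => h f (lt_of_lt_of_le hf hxb)]
      congr 1
      refine Finset.prod_congr rfl fun e he => ?_
      have := Xi_depE (μ := μ) hc a u (tau u b) e (hlt e he) t t' h
      simp only at this
      rw [this]
    have h1 := inno_one hE ha ha1 u b hFm ⟨C, hFC⟩ hFdep (hk b) ⟨1, hkC b⟩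
    rw [Finset.prod_insert hb]
    have e1 : ∫ t, A t * ∏ e ∈ insert b s, k e (Xi G μ a u t e) ∂(Pu μ a u) =
        ∫ t, F t * k b (Xi G μ a u t b) ∂(Pu μ a u) := by
      refine integral_congr_ae (Filter.Eventually.of_forall fun t => ?_)
      simp only [hF]
      rw [Finset.prod_insert hb]
      ring
    rw [e1, h1, ih fun e he => hx e (Finset.mem_insert_of_mem he)]
    ring


section Abstract2

variable {ι T : Type*} [MeasurableSpace T] {ν : Measure T} [IsProbabilityMeasure ν]
  {A : T → ℝ} {C : ℝ}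

open Classical in
/-- Replace the coordinates outside `L` by fresh ones. -/
noncomputable def mixL (Ξ : T → ι → unitInterval) (L : Set ι) (p : T × (ι → unitInterval)) :
    ι → unitInterval := fun e => if e ∈ L then Ξ p.1 e else p.2 e

theorem measurable_mixL {Ξ : T → ι → unitInterval} (hΞ : Measurable Ξ) (L : Set ι) :
    Measurable (mixL Ξ L) := by
  refine measurable_pi_lambda _ fun e => ?_
  by_cases he : e ∈ L
  · simp only [mixL, if_pos he]
    exact (measurable_pi_apply e).comp (hΞ.comp measurable_fst)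
  · simp only [mixL, if_neg he]
    exact (measurable_pi_apply e).comp measurable_snd

theorem wd_late {Ξ : T → ι → unitInterval} (hΞ : Measurable Ξ) (hA : Measurable A)
    (hA0 : ∀ t, 0 ≤ A t) (hC : ∀ t, |A t| ≤ C) (s : Finset ι) (B : ι → Set unitInterval)
    (hB : ∀ e, MeasurableSet (B e))
    (hpf : ∫ t, A t * ∏ e ∈ s, (B e).indicator 1 (Ξ t e) ∂ν =
      (∫ t, A t ∂ν) * ∏ e ∈ s, ∫ z : unitInterval, (B e).indicator 1 z) :
    (ν.withDensity fun t => ENNReal.ofReal (A t)) {t | ∀ e ∈ s, Ξ t e ∈ B e} =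
      (∫⁻ t, ENNReal.ofReal (A t) ∂ν) * ∏ e ∈ s, (volume : Measure unitInterval) (B e) := by
  have hΞe : ∀ e, Measurable fun t => Ξ t e := fun e => (measurable_pi_apply e).comp hΞ
  have hBi : ∀ e, Measurable fun t => (B e).indicator (1 : unitInterval → ℝ) (Ξ t e) := fun e =>
    (measurable_one.indicator (hB e)).comp (hΞe e)
  have hset : MeasurableSet {t | ∀ e ∈ s, Ξ t e ∈ B e} := by
    have : {t | ∀ e ∈ s, Ξ t e ∈ B e} = ⋂ e ∈ s, (fun t => Ξ t e) ⁻¹' (B e) := by
      ext t; simp
    rw [this]
    exact Finset.measurableSet_biInter _ fun e _ => hΞe e (hB e)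
  have hPm : Measurable fun t => ∏ e ∈ s, (B e).indicator (1 : unitInterval → ℝ) (Ξ t e) :=
    Finset.measurable_fun_prod _ fun e _ => hBi e
  have hP01 : ∀ t, 0 ≤ ∏ e ∈ s, (B e).indicator (1 : unitInterval → ℝ) (Ξ t e) ∧
      ∏ e ∈ s, (B e).indicator (1 : unitInterval → ℝ) (Ξ t e) ≤ 1 := fun t =>
    ⟨Finset.prod_nonneg fun e _ => (ind01 _ _).1,
      Finset.prod_le_one (fun e _ => (ind01 _ _).1) fun e _ => (ind01 _ _).2⟩
  have hind : ∀ t, ENNReal.ofReal (∏ e ∈ s, (B e).indicator (1 : unitInterval → ℝ) (Ξ t e)) =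
      {t | ∀ e ∈ s, Ξ t e ∈ B e}.indicator (1 : T → ENNReal) t := by
    intro t
    by_cases ht : ∀ e ∈ s, Ξ t e ∈ B e
    · rw [Set.indicator_of_mem (show t ∈ {t | ∀ e ∈ s, Ξ t e ∈ B e} from ht),
        Finset.prod_congr rfl fun e he => Set.indicator_of_mem (ht e he) _]
      simp
    · rw [Set.indicator_of_notMem (show t ∉ {t | ∀ e ∈ s, Ξ t e ∈ B e} from ht)]
      push Not at ht
      obtain ⟨e, he, hne⟩ := ht
      rw [Finset.prod_eq_zero he (Set.indicator_of_notMem hne _)]
      simp
  have h1 : (ν.withDensity fun t => ENNReal.ofReal (A t)) {t | ∀ e ∈ s, Ξ t e ∈ B e} =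
      ENNReal.ofReal (∫ t, A t * ∏ e ∈ s, (B e).indicator 1 (Ξ t e) ∂ν) := by
    rw [ofReal_integral_eq_lintegral_ofReal]
    · rw [← lintegral_indicator_one hset, lintegral_withDensity_eq_lintegral_mul _
        hA.ennreal_ofReal (measurable_one.indicator hset)]
      refine lintegral_congr fun t => ?_
      rw [Pi.mul_apply, ENNReal.ofReal_mul (hA0 t), hind]
    · refine Integrable.of_bound (hA.mul hPm).aestronglyMeasurable C
        (Filter.Eventually.of_forall fun t => ?_)
      rw [Real.norm_eq_abs, abs_mul, abs_of_nonneg (hP01 t).1]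
      calc |A t| * ∏ e ∈ s, (B e).indicator (1 : unitInterval → ℝ) (Ξ t e) ≤ |A t| * 1 :=
            mul_le_mul_of_nonneg_left (hP01 t).2 (abs_nonneg _)
        _ ≤ C := by rw [mul_one]; exact hC t
    · exact Filter.Eventually.of_forall fun t => mul_nonneg (hA0 t) (hP01 t).1
  rw [h1, hpf, ENNReal.ofReal_mul (integral_nonneg hA0), ofReal_integral_eq_lintegral_ofReal
    (inno_integrable_bdd hA ⟨C, hC⟩) (Filter.Eventually.of_forall hA0)]
  congr 1
  rw [ENNReal.ofReal_prod_of_nonneg fun e _ => integral_nonneg fun z => (ind01 _ _).1]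
  refine Finset.prod_congr rfl fun e _ => ?_
  rw [integral_indicator_one (hB e), ofReal_measureReal]

theorem abstract_late [Countable ι] {Ξ : T → ι → unitInterval} (hΞ : Measurable Ξ) (L : Set ι)
    (hA : Measurable A) (hA0 : ∀ t, 1 ≤ A t) (hC : ∀ t, |A t| ≤ C)
    (hpf : ∀ (s : Finset ι) (B : ι → Set unitInterval), (∀ e ∈ s, e ∈ L) →
      (∀ e, MeasurableSet (B e)) → ∫ t, A t * ∏ e ∈ s, (B e).indicator 1 (Ξ t e) ∂ν =
      (∫ t, A t ∂ν) * ∏ e ∈ s, ∫ z : unitInterval, (B e).indicator 1 z)
    {φ : (ι → unitInterval) → ℝ} (hφ : Measurable φ)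
    (hdep : ∀ y y' : ι → unitInterval, (∀ e ∈ L, y e = y' e) → φ y = φ y') :
    ∫ t, A t * φ (Ξ t) ∂ν = (∫ t, A t ∂ν) * ∫ ξ, φ ξ ∂(PP ι) := by
  classical
  have hA00 : ∀ t, 0 ≤ A t := fun t => zero_le_one.trans (hA0 t)
  set W := ν.withDensity fun t => ENNReal.ofReal (A t) with hW
  set c : ENNReal := ∫⁻ t, ENNReal.ofReal (A t) ∂ν with hc
  have hctop : c ≠ ⊤ := by
    refine ne_of_lt (lt_of_le_of_lt (lintegral_mono (g := fun _ => ENNReal.ofReal C) fun t =>
      ENNReal.ofReal_le_ofReal ((le_abs_self _).trans (hC t))) ?_)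
    rw [lintegral_const, measure_univ, mul_one]
    exact ENNReal.ofReal_lt_top
  have hc0 : c ≠ 0 := by
    have h1 : (1 : ENNReal) ≤ c := by
      calc (1 : ENNReal) = ∫⁻ _, 1 ∂ν := by rw [lintegral_const, measure_univ, mul_one]
        _ ≤ c := lintegral_mono fun t => by
            rw [← ENNReal.ofReal_one]; exact ENNReal.ofReal_le_ofReal (hA0 t)
    intro h0
    rw [h0] at h1
    exact absurd h1 (by simp)
  have hWfin : IsFiniteMeasure W := isFiniteMeasure_withDensity hctop
  have hmix := measurable_mixL hΞ L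
  have key : c⁻¹ • ((W.prod (PP ι)).map (mixL Ξ L)) = PP ι := by
    refine Measure.eq_infinitePi _ fun s B hB => ?_
    have hpim : MeasurableSet (Set.pi (s : Set ι) B) :=
      MeasurableSet.pi s.countable_toSet fun e _ => hB e
    rw [Measure.smul_apply, Measure.map_apply hmix hpim, smul_eq_mul]
    have hpre : mixL Ξ L ⁻¹' (Set.pi (s : Set ι) B) =
        {t | ∀ e ∈ s.filter (· ∈ L), Ξ t e ∈ B e} ×ˢ
          (Set.pi ((s.filter (· ∉ L) : Finset ι) : Set ι) B) := by
      ext ⟨t, η⟩
      simp only [Set.mem_preimage, Set.mem_pi, Set.mem_prod, Set.mem_ofPred_eq, Finset.mem_filter,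
        Finset.mem_coe, mixL]
      constructor
      · intro h
        refine ⟨fun e he => ?_, fun e he => ?_⟩
        · have := h e he.1
          rwa [if_pos he.2] at this
        · have := h e he.1
          rwa [if_neg he.2] at this
      · rintro ⟨h1, h2⟩ e he
        by_cases heL : e ∈ L
        · rw [if_pos heL]; exact h1 e ⟨he, heL⟩
        · rw [if_neg heL]; exact h2 e ⟨he, heL⟩
    rw [hpre, Measure.prod_prod, Measure.infinitePi_pi _ fun e _ => hB e,
      wd_late hΞ hA hA00 hC _ B hB (hpf _ B (fun e he => (Finset.mem_filter.1 he).2) hB),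
      ← hc, mul_assoc, ← mul_assoc, ENNReal.inv_mul_cancel hc0 hctop, one_mul]
    exact Finset.prod_filter_mul_prod_filter_not s (· ∈ L) _
  have key2 : (W.prod (PP ι)).map (mixL Ξ L) = c • PP ι := by
    have h0 := congrArg (fun m : Measure (ι → unitInterval) => c • m) key
    simp only [smul_smul, ENNReal.mul_inv_cancel hc0 hctop, one_smul] at h0
    exact h0
  have h1 : ∫ ξ, φ ξ ∂((W.prod (PP ι)).map (mixL Ξ L)) = c.toReal * ∫ ξ, φ ξ ∂(PP ι) := by
    rw [key2, integral_smul_measure, smul_eq_mul]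
  have h2 : ∫ ξ, φ ξ ∂((W.prod (PP ι)).map (mixL Ξ L)) = ∫ t, A t * φ (Ξ t) ∂ν := by
    rw [integral_map hmix.aemeasurable hφ.aestronglyMeasurable]
    have e1 : ∀ p : T × (ι → unitInterval), φ (mixL Ξ L p) = φ (Ξ p.1) := by
      intro p
      refine hdep _ _ fun e he => ?_
      simp only [mixL, if_pos he]
    simp only [e1]
    rw [integral_fun_fst (fun t => φ (Ξ t)), probReal_univ, one_smul, hW,
      integral_withDensity_eq_integral_toReal_smul hA.ennreal_ofReal
        (Filter.Eventually.of_forall fun t => ENNReal.ofReal_lt_top)]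
    refine integral_congr_ae (Filter.Eventually.of_forall fun t => ?_)
    simp only [smul_eq_mul]
    rw [ENNReal.toReal_ofReal (hA00 t)]
  rw [← h2, h1]
  congr 1
  exact (integral_eq_lintegral_of_nonneg_ae (Filter.Eventually.of_forall hA00)
    hA.aestronglyMeasurable).symm

end Abstract2


theorem inno_pos [G.LocallyFinite] {d : ℕ} {β : ℝ} (hE : Env G d β μ) {a : ℝ}
    (ha : 0 ≤ a) (ha1 : a < 1) {u : V × ℕ → unitInterval} (hu : Function.Injective (tau u)) (x : ℝ)
    {A φ : (V × ℕ → unitInterval) → ℝ} (hA : Measurable A) (hA0 : ∀ t, 1 ≤ A t)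
    (hAC : ∃ C, ∀ t, |A t| ≤ C)
    (hdep : DepE {f | tau u f < x} A) (hφ : Measurable φ)
    (hφdep : DepE {f | x ≤ tau u f} φ) :
    ∫ t, A t * φ (Xi G μ a u t) ∂(Pu μ a u) =
      (∫ t, A t ∂(Pu μ a u)) * ∫ ξ, φ ξ ∂(PP (V × ℕ)) := by
  have hP := hE.prob
  have hcount := hE.countable
  have hPu := isProbabilityMeasure_Pu (μ := μ) a u
  have hXi := measurable_Xi_fixed (μ := μ) G a u
  obtain ⟨C, hC⟩ := hAC
  refine abstract_late hXi {f | x ≤ tau u f} hA hA0 hC ?_ hφ hφdep
  intro s B hs hB
  exact inno_prod hE ha ha1 hu x hA ⟨C, hC⟩ hdep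
    (fun e => (B e).indicator (1 : unitInterval → ℝ)) (fun e => measurable_one.indicator (hB e))
    (fun e z => by rw [abs_of_nonneg (ind01 _ _).1]; exact (ind01 _ _).2) s hs

/-- The innovations from time `x` on are i.i.d. uniform and independent of the signals before `x`.
(Product functions of finitely many innovations: peel off the latest event with `inno_one`; then
π-λ.) -/
theorem inno [G.LocallyFinite] {d : ℕ} {β : ℝ} (hE : Env G d β μ) {a : ℝ}
    (ha : 0 ≤ a) (ha1 : a < 1) {u : V × ℕ → unitInterval} (hu : Function.Injective (tau u)) (x : ℝ)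
    {A φ : (V × ℕ → unitInterval) → ℝ} (hA : Measurable A) (hAC : ∃ C, ∀ t, |A t| ≤ C)
    (hdep : DepE {f | tau u f < x} A) (hφ : Measurable φ) (hφC : ∃ C, ∀ t, |φ t| ≤ C)
    (hφdep : DepE {f | x ≤ tau u f} φ) :
    ∫ t, A t * φ (Xi G μ a u t) ∂(Pu μ a u) =
      (∫ t, A t ∂(Pu μ a u)) * ∫ ξ, φ ξ ∂(PP (V × ℕ)) := by
  have hP := hE.prob
  have hcount := hE.countable
  have hPu := isProbabilityMeasure_Pu (μ := μ) a u
  obtain ⟨C, hC⟩ := hAC
  obtain ⟨C', hC'⟩ := hφC
  have hC0 : 0 ≤ C := (abs_nonneg _).trans (hC fun _ => 0)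
  have hXi := measurable_Xi_fixed (μ := μ) G a u
  have hφXi : Measurable fun t : V × ℕ → unitInterval => φ (Xi G μ a u t) := hφ.comp hXi
  set D : ℝ := C + 1 with hD
  have hD0 : 0 ≤ D := by linarith
  have h1 := inno_pos hE ha ha1 hu x (A := fun t => A t + D) (hA.add_const D)
    (fun t => by have := (abs_le.1 (hC t)).1; linarith)
    ⟨C + D, fun t => (abs_add_le _ _).trans (add_le_add (hC t) (le_of_eq (abs_of_nonneg hD0)))⟩
    (fun t t' h => by simp only [hdep t t' h]) hφ hφdep
  have h2 := inno_pos hE ha ha1 hu x (A := fun _ => 1) measurable_const (fun _ => le_rfl)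
    ⟨1, fun t => le_of_eq abs_one⟩ (fun t t' h => rfl) hφ hφdep
  have hi1 : Integrable A (Pu μ a u) := inno_integrable_bdd hA ⟨C, hC⟩
  have hi2 : Integrable (fun t => A t * φ (Xi G μ a u t)) (Pu μ a u) :=
    inno_integrable_bdd (hA.mul hφXi) ⟨C * C', fun t => by
      rw [abs_mul]
      exact mul_le_mul (hC t) (hC' _) (abs_nonneg _) hC0⟩
  have hi3 : Integrable (fun t => φ (Xi G μ a u t)) (Pu μ a u) :=
    inno_integrable_bdd hφXi ⟨C', fun t => hC' _⟩
  have e1 : ∫ t, (A t + D) * φ (Xi G μ a u t) ∂(Pu μ a u) =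
      ∫ t, A t * φ (Xi G μ a u t) ∂(Pu μ a u) + D * ∫ t, φ (Xi G μ a u t) ∂(Pu μ a u) := by
    rw [← integral_const_mul, ← integral_add hi2 (hi3.const_mul D)]
    refine integral_congr_ae (Filter.Eventually.of_forall fun t => ?_)
    simp only [add_mul]
  have e2 : ∫ t, (A t + D) ∂(Pu μ a u) = ∫ t, A t ∂(Pu μ a u) + D := by
    rw [integral_add hi1 (integrable_const D)]
    simp
  have e3 : ∫ t, φ (Xi G μ a u t) ∂(Pu μ a u) = ∫ ξ, φ ξ ∂(PP (V × ℕ)) := by
    simpa using h2
  rw [e1, e2, e3, add_mul] at h1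
  linarith

/-- The law of the innovations, fixed labels. -/
theorem map_Xi [G.LocallyFinite] {d : ℕ} {β : ℝ} (hE : Env G d β μ) {a : ℝ}
    (ha : 0 ≤ a) (ha1 : a < 1) {u : V × ℕ → unitInterval} (hu : Function.Injective (tau u)) :
    (Pu μ a u).map (Xi G μ a u) = PP (V × ℕ) := by
  have hP := hE.prob
  have hcount := hE.countable
  have hPu := isProbabilityMeasure_Pu (μ := μ) a u
  have hXi := measurable_Xi_fixed (μ := μ) G a u
  have hmp : IsProbabilityMeasure ((Pu μ a u).map (Xi G μ a u)) :=
    Measure.isProbabilityMeasure_map hXi.aemeasurable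
  refine Measure.ext fun B hB => ?_
  have hBi : Measurable (B.indicator (1 : (V × ℕ → unitInterval) → ℝ)) :=
    measurable_one.indicator hB
  have h1 := inno hE ha ha1 hu 0 (A := fun _ => 1) (φ := B.indicator 1) measurable_const
    ⟨1, fun _ => le_of_eq abs_one⟩ (fun t t' h => rfl) hBi
    ⟨1, fun t => by rw [abs_of_nonneg (ind01 _ _).1]; exact (ind01 _ _).2⟩
    (fun t t' h => by
      have : t = t' := by
        funext e
        refine h e ?_
        show (0:ℝ) ≤ tau u e
        unfold tau
        have := (u e).2.1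
        positivity
      rw [this])
  have h2 : ∫ t, B.indicator (1 : (V × ℕ → unitInterval) → ℝ) (Xi G μ a u t) ∂(Pu μ a u) =
      ((Pu μ a u).map (Xi G μ a u)).real B := by
    rw [← integral_indicator_one hB, integral_map hXi.aemeasurable hBi.aestronglyMeasurable]
  have h3 : ((Pu μ a u).map (Xi G μ a u)).real B = (PP (V × ℕ)).real B := by
    rw [← h2, ← integral_indicator_one hB]
    simpa using h1
  exact (measureReal_eq_measureReal_iff).1 h3

/-- The law of labels and innovations. -/
theorem map_u_Xi [G.LocallyFinite] {d : ℕ} {β : ℝ} (hE : Env G d β μ) {a : ℝ}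
    (ha : 0 ≤ a) (ha1 : a < 1) :
    (PT μ a).map (fun p => (p.1, Xi G μ a p.1 p.2)) = (PP (V × ℕ)).prod (PP (V × ℕ)) := by
  have hP := hE.prob
  have hcount := hE.countable
  obtain ⟨κ, hκM, hκ, hPT⟩ := exists_kernel_Pu (μ := μ) a
  have hm : Measurable fun p : (V × ℕ → unitInterval) × (V × ℕ → unitInterval) =>
      (p.1, Xi G μ a p.1 p.2) := measurable_fst.prodMk (measurable_Xi G a)
  have hPTp := isProbabilityMeasure_PT (μ := μ) a
  have : IsFiniteMeasure ((PT μ a).map (fun p => (p.1, Xi G μ a p.1 p.2))) :=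
    inferInstance
  refine Measure.ext fun B hB => ?_
  have hBi : Measurable (B.indicator (1 : (V × ℕ → unitInterval) × (V × ℕ → unitInterval) →
    ENNReal)) := measurable_one.indicator hB
  have hBm : Measurable fun p : (V × ℕ → unitInterval) × (V × ℕ → unitInterval) =>
      B.indicator (1 : (V × ℕ → unitInterval) × (V × ℕ → unitInterval) → ENNReal)
        (p.1, Xi G μ a p.1 p.2) := hBi.comp hm
  rw [← lintegral_indicator_one hB, lintegral_map hBi hm, hPT,
    Measure.lintegral_compProd hBm, ← lintegral_indicator_one hB,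
    lintegral_prod _ hBi.aemeasurable]
  refine lintegral_congr_ae ?_
  filter_upwards [ae_tau_injective (V := V)] with u hu
  have hXi := measurable_Xi_fixed (μ := μ) G a u
  have hBu : Measurable fun ξ : V × ℕ → unitInterval =>
      B.indicator (1 : (V × ℕ → unitInterval) × (V × ℕ → unitInterval) → ENNReal) (u, ξ) :=
    hBi.comp measurable_prodMk_left
  rw [← map_Xi hE ha ha1 hu, lintegral_map hBu hXi, hκ]

end Vale.Agent.P161.Crit
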