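import Vale.Agent.Lib.P161.Crit.Post

/-!
P161-CRIT, module Levy: almost sure convergence of the finite volume posteriors (Lévy's upward
theorem) and the characterisation of `EI` as conditional expectation.

Proof idea: let `ℱ n` be the σ-algebra generated by the coordinates `y e`, `e ∈ S n` (`S n`
increasing finsets with union `R`). By `Obs.post`, `ES μ (S n) (slp ζ (y ω)) f` is a version of
`P[f ∘ s | ℱ n]`, so by `MeasureTheory.Integrable.tendsto_ae_condExp` (filtration `ℱ`) it
converges a.s. to `P[f ∘ s | ⨆ n, ℱ n]`, and `⨆ n, ℱ n` is generated by the coordinates in `R`.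
-/

set_option linter.unusedSectionVars false

open MeasureTheory Filter Topology

namespace Vale.Agent.P161.Crit

variable {V : Type*} {G : SimpleGraph V}
variable {Ω Y : Type*} [MeasurableSpace Ω] [MeasurableSpace Y]
variable {μ : Measure (V → Bool)} {P : Measure Ω} {s : Ω → V → Bool} {y : Ω → V × ℕ → Y}
variable {Q : V × ℕ → Measure Y} {ζ : V × ℕ → Y → ℝ} {b : ℝ}

/-- the σ-algebra generated by the observations in `R` -/
@[instance_reducible] private def sg (y : Ω → V × ℕ → Y) (R : Set (V × ℕ)) : MeasurableSpace Ω :=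
  MeasurableSpace.comap (fun ω (e : R) => y ω e) inferInstance

private theorem sg_eq (y : Ω → V × ℕ → Y) (R : Set (V × ℕ)) :
    sg y R = ⨆ e : R, MeasurableSpace.comap (fun ω => y ω e) inferInstance := by
  have h1 : (inferInstance : MeasurableSpace (R → Y)) =
      ⨆ e : R, MeasurableSpace.comap (fun b : R → Y => b e) inferInstance := rfl
  unfold sg
  rw [h1, MeasurableSpace.comap_iSup]
  simp only [MeasurableSpace.comap_comp]
  rfl

private theorem sg_mono (y : Ω → V × ℕ → Y) {R R' : Set (V × ℕ)} (h : R ⊆ R') :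
    sg y R ≤ sg y R' := by
  rw [sg_eq, sg_eq]
  refine iSup_le fun e => ?_
  exact le_iSup (fun e : R' => MeasurableSpace.comap (fun ω => y ω e) inferInstance) ⟨e.1, h e.2⟩

private theorem sg_le (hy : Measurable y) (R : Set (V × ℕ)) :
    sg y R ≤ (inferInstance : MeasurableSpace Ω) := by
  refine Measurable.comap_le ?_
  exact measurable_pi_lambda _ fun e => (measurable_pi_apply e.1).comp hy

private theorem sg_iUnion (y : Ω → V × ℕ → Y) (R : Set (V × ℕ)) (S : ℕ → Finset (V × ℕ))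
    (hSR : ∀ e, e ∈ R ↔ ∃ n, e ∈ S n) : (⨆ n, sg y (S n : Set (V × ℕ))) = sg y R := by
  apply le_antisymm
  · refine iSup_le fun n => sg_mono y fun e he => ?_
    exact (hSR e).mpr ⟨n, he⟩
  · rw [sg_eq y R]
    refine iSup_le fun e => ?_
    obtain ⟨n, hn⟩ := (hSR e.1).mp e.2
    refine le_trans ?_ (le_iSup (fun n => sg y (S n : Set (V × ℕ))) n)
    rw [sg_eq]
    exact le_iSup (fun e : (S n : Set (V × ℕ)) =>
      MeasurableSpace.comap (fun ω => y ω e) inferInstance) ⟨e.1, hn⟩

private theorem measurable_rst (y : Ω → V × ℕ → Y) (R : Set (V × ℕ)) :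
    Measurable[sg y R] (fun ω (e : R) => y ω e) := comap_measurable _

/-- the finite volume posterior is a version of the conditional expectation -/
private theorem ES_ae_eq [Countable V] [IsProbabilityMeasure μ] (h : Obs μ P s y Q ζ b)
    (S : Finset (V × ℕ)) {f : (V → Bool) → ℝ} (hf : Measurable f) (hfC : ∃ C, ∀ σ, |f σ| ≤ C) :
    (fun ω => ES μ S (slp ζ (y ω)) f) =ᵐ[P] P[fun ω => f (s ω) | sg y (S : Set (V × ℕ))] := by
  classical
  have := h.prob
  obtain ⟨C, hC⟩ := hfC
  have hle := sg_le h.measY (S : Set (V × ℕ))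
  have hmeasES : Measurable fun ω => ES μ S (slp ζ (y ω)) f :=
    (measurable_ES μ S hf ⟨C, hC⟩).comp (h.measurable_slp.comp h.measY)
  have hbES : ∀ ω, |ES μ S (slp ζ (y ω)) f| ≤ C := fun ω =>
    ES_abs_le h.b_nonneg h.b_lt μ (fun e _ => h.abs_slp_le (y ω) e) hf hC
  have hintES : Integrable (fun ω => ES μ S (slp ζ (y ω)) f) P :=
    Integrable.of_bound hmeasES.aestronglyMeasurable C (Eventually.of_forall hbES)
  have hintf : Integrable (fun ω => f (s ω)) P :=
    Integrable.of_bound (hf.comp h.measS).aestronglyMeasurable C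
      (Eventually.of_forall fun ω => hC (s ω))
  refine ae_eq_condExp_of_forall_setIntegral_eq hle hintf (fun _ _ _ => hintES.integrableOn)
    ?_ ?_
  · intro A hA _
    obtain ⟨B, hB, rfl⟩ := hA
    have hBm : MeasurableSet ((fun (x : V × ℕ → Y) (e : (S : Set (V × ℕ))) => x e) ⁻¹' B) :=
      (measurable_pi_lambda _ fun e => measurable_pi_apply e.1) hB
    have hrm : Measurable (fun ω (e : (S : Set (V × ℕ))) => y ω e) :=
      measurable_pi_lambda _ fun e => (measurable_pi_apply e.1).comp h.measY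
    have hAm : MeasurableSet ((fun ω (e : (S : Set (V × ℕ))) => y ω e) ⁻¹' B) := hrm hB
    have hpost := h.post S hf ⟨C, hC⟩
      (F := Set.indicator ((fun (x : V × ℕ → Y) (e : (S : Set (V × ℕ))) => x e) ⁻¹' B) 1)
      (measurable_one.indicator hBm) ⟨1, fun x => by
        by_cases hx : x ∈ ((fun (x : V × ℕ → Y) (e : (S : Set (V × ℕ))) => x e) ⁻¹' B)
        · rw [Set.indicator_of_mem hx]; simp
        · rw [Set.indicator_of_notMem hx]; simp⟩
      (fun x x' hxx => by
        have hr : (fun (e : (S : Set (V × ℕ))) => x e) = fun (e : (S : Set (V × ℕ))) => x' e := by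
          funext e; exact hxx e.1 e.2
        by_cases hx : x ∈ ((fun (x : V × ℕ → Y) (e : (S : Set (V × ℕ))) => x e) ⁻¹' B)
        · have hx' : x' ∈ ((fun (x : V × ℕ → Y) (e : (S : Set (V × ℕ))) => x e) ⁻¹' B) := by
            rw [Set.mem_preimage] at hx ⊢
            rwa [← hr]
          rw [Set.indicator_of_mem hx, Set.indicator_of_mem hx']; rfl
        · have hx' : x' ∉ ((fun (x : V × ℕ → Y) (e : (S : Set (V × ℕ))) => x e) ⁻¹' B) := by
            rw [Set.mem_preimage] at hx ⊢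
            rwa [← hr]
          rw [Set.indicator_of_notMem hx, Set.indicator_of_notMem hx'])
    rw [← integral_indicator hAm, ← integral_indicator hAm]
    have e1 : ∀ g : Ω → ℝ, Set.indicator ((fun ω (e : (S : Set (V × ℕ))) => y ω e) ⁻¹' B) g =
        fun ω => g ω *
          Set.indicator ((fun (x : V × ℕ → Y) (e : (S : Set (V × ℕ))) => x e) ⁻¹' B) 1 (y ω) := by
      intro g
      funext ω
      by_cases hx : ω ∈ ((fun ω (e : (S : Set (V × ℕ))) => y ω e) ⁻¹' B)
      · have hx' : y ω ∈ ((fun (x : V × ℕ → Y) (e : (S : Set (V × ℕ))) => x e) ⁻¹' B) := hx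
        rw [Set.indicator_of_mem hx, Set.indicator_of_mem hx', Pi.one_apply, mul_one]
      · have hx' : y ω ∉ ((fun (x : V × ℕ → Y) (e : (S : Set (V × ℕ))) => x e) ⁻¹' B) := hx
        rw [Set.indicator_of_notMem hx, Set.indicator_of_notMem hx', mul_zero]
    rw [e1, e1]
    exact hpost.symm
  · -- measurability with respect to the small σ-algebra
    let H : (↥(S : Set (V × ℕ)) → Y) → ℝ := fun z =>
      ES μ S (fun e => if he : e ∈ S then ζ e (z ⟨e, he⟩) else 0) f
    have hH : Measurable H := by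
      refine (measurable_ES μ S hf ⟨C, hC⟩).comp (measurable_pi_lambda _ fun e => ?_)
      by_cases he : e ∈ S
      · simp only [he, dif_pos]
        exact (h.measZ e).comp (measurable_pi_apply _)
      · simp only [he, dif_neg, not_false_eq_true]
        exact measurable_const
    have heq : (fun ω => ES μ S (slp ζ (y ω)) f) =
        H ∘ (fun ω (e : (S : Set (V × ℕ))) => y ω e) := by
      funext ω
      simp only [H, Function.comp]
      refine ES_congr μ (fun e he => ?_) f
      simp only [he, dif_pos]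
      rfl
    rw [heq]
    exact (hH.comp (measurable_rst y _)).stronglyMeasurable.aestronglyMeasurable

/-- Levy's upward theorem -/
private theorem tendsto_condExp [Countable V] [IsProbabilityMeasure μ]
    (h : Obs μ P s y Q ζ b) (R : Set (V × ℕ)) (S : ℕ → Finset (V × ℕ)) (hS : Monotone S)
    (hSR : ∀ e, e ∈ R ↔ ∃ n, e ∈ S n)
    {f : (V → Bool) → ℝ} (hf : Measurable f) (hfC : ∃ C, ∀ σ, |f σ| ≤ C) :
    ∀ᵐ ω ∂P, Tendsto (fun n => ES μ (S n) (slp ζ (y ω)) f) atTop
      (𝓝 ((P[fun ω => f (s ω) | sg y R]) ω)) := by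
  have := h.prob
  let ℱ : Filtration ℕ (inferInstance : MeasurableSpace Ω) :=
    { seq := fun n => sg y (S n : Set (V × ℕ))
      mono' := fun n m hnm => sg_mono y (by exact_mod_cast hS hnm)
      le' := fun n => sg_le h.measY _ }
  have h1 := tendsto_ae_condExp (μ := P) (ℱ := ℱ) (fun ω => f (s ω))
  have h2 : (⨆ n, ℱ n) = sg y R := sg_iUnion y R S hSR
  rw [h2] at h1
  have h3 : ∀ᵐ ω ∂P, ∀ n, ES μ (S n) (slp ζ (y ω)) f = (P[fun ω => f (s ω) | ℱ n]) ω :=
    ae_all_iff.mpr fun n => ES_ae_eq h (S n) hf hfC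
  filter_upwards [h1, h3] with ω hω hω3
  simpa only [hω3] using hω

private theorem EI_ae_eq [G.LocallyFinite] (hc : G.Connected) [IsProbabilityMeasure μ]
    (h : Obs μ P s y Q ζ b) (R : Set (V × ℕ)) (o : V)
    {f : (V → Bool) → ℝ} (hf : Measurable f) (hfC : ∃ C, ∀ σ, |f σ| ≤ C) :
    (fun ω => EI G μ R o f (slp ζ (y ω))) =ᵐ[P] P[fun ω => f (s ω) | sg y R] := by
  have : Countable V := countable_of_locallyFinite hc
  have h1 := tendsto_condExp h R (bev G R o) (bev_mono hc R o) (fun e => by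
    constructor
    · intro he
      refine ⟨max (G.dist o e.1) (e.2 + 1), (mem_bev hc).mpr ⟨he, le_max_left _ _, ?_⟩⟩
      exact lt_of_lt_of_le (Nat.lt_succ_self _) (le_max_right _ _)
    · rintro ⟨n, hn⟩
      exact ((mem_bev hc).mp hn).1) hf hfC
  filter_upwards [h1] with ω hω
  exact hω.limsup_eq

/-- Convergence along any increasing exhaustion of `R` by finite sets. -/
theorem Obs.tendsto_exh [G.LocallyFinite] (hc : G.Connected) [IsProbabilityMeasure μ]
    (h : Obs μ P s y Q ζ b) (R : Set (V × ℕ)) (S : ℕ → Finset (V × ℕ)) (hS : Monotone S)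
    (hSR : ∀ e, e ∈ R ↔ ∃ n, e ∈ S n) (o : V)
    {f : (V → Bool) → ℝ} (hf : Measurable f) (hfC : ∃ C, ∀ σ, |f σ| ≤ C) :
    ∀ᵐ ω ∂P, Tendsto (fun n => ES μ (S n) (slp ζ (y ω)) f) atTop
      (𝓝 (EI G μ R o f (slp ζ (y ω)))) := by
  have : Countable V := countable_of_locallyFinite hc
  filter_upwards [tendsto_condExp h R S hS hSR hf hfC, EI_ae_eq hc h R o hf hfC] with ω h1 h2
  rw [h2]
  exact h1

theorem Obs.EI_center [G.LocallyFinite] (hc : G.Connected) [IsProbabilityMeasure μ]
    (h : Obs μ P s y Q ζ b) (R : Set (V × ℕ)) (o o' : V)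
    {f : (V → Bool) → ℝ} (hf : Measurable f) (hfC : ∃ C, ∀ σ, |f σ| ≤ C) :
    ∀ᵐ ω ∂P, EI G μ R o f (slp ζ (y ω)) = EI G μ R o' f (slp ζ (y ω)) := by
  filter_upwards [EI_ae_eq hc h R o hf hfC, EI_ae_eq hc h R o' hf hfC] with ω h1 h2
  exact h1.trans h2.symm

theorem Obs.tendsto_bev [G.LocallyFinite] (hc : G.Connected) [IsProbabilityMeasure μ]
    (h : Obs μ P s y Q ζ b) (R : Set (V × ℕ)) (o o' : V)
    {f : (V → Bool) → ℝ} (hf : Measurable f) (hfC : ∃ C, ∀ σ, |f σ| ≤ C) :
    ∀ᵐ ω ∂P, Tendsto (fun n => ES μ (bev G R o n) (slp ζ (y ω)) f) atTop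
      (𝓝 (EI G μ R o' f (slp ζ (y ω)))) :=
  h.tendsto_exh hc R (bev G R o) (bev_mono hc R o) (fun e => by
    constructor
    · intro he
      refine ⟨max (G.dist o e.1) (e.2 + 1), (mem_bev hc).mpr ⟨he, le_max_left _ _, ?_⟩⟩
      exact lt_of_lt_of_le (Nat.lt_succ_self _) (le_max_right _ _)
    · rintro ⟨n, hn⟩
      exact ((mem_bev hc).mp hn).1) o' hf hfC

/-- `EI` is the conditional expectation given the observations in `R`. -/
theorem Obs.EI_post [G.LocallyFinite] (hc : G.Connected) [IsProbabilityMeasure μ]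
    (h : Obs μ P s y Q ζ b) (R : Set (V × ℕ)) (o : V)
    {f : (V → Bool) → ℝ} (hf : Measurable f) (hfC : ∃ C, ∀ σ, |f σ| ≤ C)
    {F : (V × ℕ → Y) → ℝ} (hF : Measurable F) (hFC : ∃ C, ∀ x, |F x| ≤ C) (hdep : DepE R F) :
    ∫ ω, f (s ω) * F (y ω) ∂P = ∫ ω, EI G μ R o f (slp ζ (y ω)) * F (y ω) ∂P := by
  classical
  have := h.prob
  have : Countable V := countable_of_locallyFinite hc
  obtain ⟨C, hC⟩ := hfC
  obtain ⟨D, hD⟩ := hFC
  have hle := sg_le h.measY R
  have hintf : Integrable (fun ω => f (s ω)) P :=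
    Integrable.of_bound (hf.comp h.measS).aestronglyMeasurable C
      (Eventually.of_forall fun ω => hC (s ω))
  -- `F ∘ y` is measurable for the small σ-algebra
  have hFm : Measurable[sg y R] (fun ω => F (y ω)) := by
    obtain ⟨v⟩ := hc.nonempty
    have := h.probQ (v, 0)
    obtain ⟨y0⟩ : Nonempty Y := nonempty_of_isProbabilityMeasure (Q (v, 0))
    let E : (R → Y) → (V × ℕ → Y) := fun z e => if he : e ∈ R then z ⟨e, he⟩ else y0
    have hE : Measurable E := by
      refine measurable_pi_lambda _ fun e => ?_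
      by_cases he : e ∈ R
      · simp only [E, he, dif_pos]
        exact measurable_pi_apply _
      · simp only [E, he, dif_neg, not_false_eq_true]
        exact measurable_const
    have heq : (fun ω => F (y ω)) = (F ∘ E) ∘ (fun ω (e : R) => y ω e) := by
      funext ω
      simp only [Function.comp]
      refine hdep _ _ fun e he => ?_
      simp only [E, he, dif_pos]
    rw [heq]
    exact (hF.comp hE).comp (measurable_rst y R)
  have h1 := condExp_stronglyMeasurable_mul_of_bound (μ := P) hle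
    hFm.stronglyMeasurable hintf D (Eventually.of_forall fun ω => hD (y ω))
  have h2 := integral_condExp (μ := P) hle (f := (fun ω => F (y ω)) * fun ω => f (s ω))
  have h3 : ∫ ω, f (s ω) * F (y ω) ∂P =
      ∫ ω, ((fun ω => F (y ω)) * fun ω => f (s ω)) ω ∂P := by
    refine integral_congr_ae (Eventually.of_forall fun ω => ?_)
    simp only [Pi.mul_apply]
    ring
  rw [h3, ← h2]
  refine integral_congr_ae ?_
  filter_upwards [h1, EI_ae_eq hc h R o hf ⟨C, hC⟩] with ω hω1 hω2
  rw [hω1, hω2, Pi.mul_apply, mul_comm]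

/-- `EI` in terms of its own observations only. -/
theorem EI_depE [G.LocallyFinite] (hc : G.Connected) (μ : Measure (V → Bool)) (R : Set (V × ℕ))
    (o : V) (f : (V → Bool) → ℝ) (ζ : V × ℕ → Y → ℝ) :
    DepE R (fun x : V × ℕ → Y => EI G μ R o f (slp ζ x)) := by
  intro x x' hxx
  refine EI_congr hc μ (fun e he => ?_) o f
  change ζ e (x e) = ζ e (x' e)
  rw [hxx e he]

/-- `M` in terms of its own observations only. -/
theorem M_depE [G.LocallyFinite] (hc : G.Connected) (μ : Measure (V → Bool)) (R : Set (V × ℕ))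
    (v : V) (ζ : V × ℕ → Y → ℝ) : DepE R (fun x : V × ℕ → Y => M G μ R v (slp ζ x)) :=
  EI_depE hc μ R v (sp v) ζ

/-- Conditional law of one more observation. -/
theorem Obs.EI_post_one [G.LocallyFinite] (hc : G.Connected) [IsProbabilityMeasure μ]
    (h : Obs μ P s y Q ζ b) (R : Set (V × ℕ)) {e : V × ℕ} (he : e ∉ R)
    {F : (V × ℕ → Y) → ℝ} (hF : Measurable F) (hFC : ∃ C, ∀ x, |F x| ≤ C)
    (hdep : DepE R F) {k : Y → ℝ} (hk : Measurable k) (hkC : ∃ C, ∀ x, |k x| ≤ C) :
    ∫ ω, F (y ω) * k (y ω e) ∂P =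
      ∫ ω, F (y ω) * (∫ x, k x * (1 + ζ e x * M G μ R e.1 (slp ζ (y ω))) ∂(Q e)) ∂P := by
  have := h.prob
  have := h.probQ e
  have : Countable V := countable_of_locallyFinite hc
  have hdep' : DepE {e' | e' ≠ e} F := by
    intro x x' hxx
    refine hdep x x' fun e' he' => hxx e' ?_
    rintro rfl
    exact he he'
  have h1 := h.fd_one (e := e) (f := fun _ => 1) measurable_const ⟨1, fun _ => by simp⟩ hF hFC
    hdep' hk hkC
  simp only [one_mul] at h1
  rw [h1]
  obtain ⟨Ck, hCk⟩ := hkC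
  obtain ⟨D, hD⟩ := hFC
  have hik : Integrable k (Q e) :=
    Integrable.of_bound hk.aestronglyMeasurable Ck (Eventually.of_forall hCk)
  have hikz : Integrable (fun x => k x * ζ e x) (Q e) := by
    refine Integrable.of_bound (hk.mul (h.measZ e)).aestronglyMeasurable (Ck * b)
      (Eventually.of_forall fun x => ?_)
    rw [Real.norm_eq_abs, abs_mul]
    have hCk0 : 0 ≤ Ck := (abs_nonneg _).trans (hCk x)
    exact mul_le_mul (hCk x) (h.bd e x) (abs_nonneg _) hCk0
  have hlin : ∀ c : ℝ, ∫ x, k x * (1 + ζ e x * c) ∂(Q e) =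
      (∫ x, k x ∂(Q e)) + (∫ x, k x * ζ e x ∂(Q e)) * c := by
    intro c
    rw [← integral_mul_const, ← integral_add hik (hikz.mul_const c)]
    refine integral_congr_ae (Eventually.of_forall fun x => ?_)
    simp only
    ring
  simp only [hlin]
  have hsp : ∀ ω, spin (s ω e.1) = sp e.1 (s ω) := fun ω => rfl
  have hFy : Measurable fun ω => F (y ω) := hF.comp h.measY
  have hiF : Integrable (fun ω => F (y ω)) P :=
    Integrable.of_bound hFy.aestronglyMeasurable D (Eventually.of_forall fun ω => hD (y ω))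
  have hiFs : Integrable (fun ω => sp e.1 (s ω) * F (y ω)) P := by
    refine Integrable.of_bound
      (((measurable_sp e.1).comp h.measS).mul hFy).aestronglyMeasurable D
      (Eventually.of_forall fun ω => ?_)
    rw [Real.norm_eq_abs, abs_mul]
    calc |sp e.1 (s ω)| * |F (y ω)| ≤ 1 * |F (y ω)| :=
          mul_le_mul_of_nonneg_right (abs_sp e.1 (s ω)) (abs_nonneg _)
      _ ≤ D := by rw [one_mul]; exact hD (y ω)
  have hmM : Measurable fun ω => M G μ R e.1 (slp ζ (y ω)) :=
    (measurable_M G μ R e.1).comp (h.measurable_slp.comp h.measY)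
  have hbM : ∀ ω, |M G μ R e.1 (slp ζ (y ω))| ≤ 1 := fun ω =>
    abs_M_le h.b_nonneg h.b_lt μ (fun e => h.abs_slp_le (y ω) e) R e.1
  have hiFM : Integrable (fun ω => M G μ R e.1 (slp ζ (y ω)) * F (y ω)) P := by
    refine Integrable.of_bound (hmM.mul hFy).aestronglyMeasurable D
      (Eventually.of_forall fun ω => ?_)
    rw [Real.norm_eq_abs, abs_mul]
    calc |M G μ R e.1 (slp ζ (y ω))| * |F (y ω)| ≤ 1 * |F (y ω)| :=
          mul_le_mul_of_nonneg_right (hbM ω) (abs_nonneg _)
      _ ≤ D := by rw [one_mul]; exact hD (y ω)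
  have hpost := h.EI_post hc R e.1 (measurable_sp e.1) ⟨1, abs_sp e.1⟩ hF ⟨D, hD⟩ hdep
  have hpost' : ∫ ω, sp e.1 (s ω) * F (y ω) ∂P =
      ∫ ω, M G μ R e.1 (slp ζ (y ω)) * F (y ω) ∂P := hpost
  have eL : ∀ (a c : ℝ) (g : Ω → ℝ), Integrable (fun ω => g ω * F (y ω)) P →
      ∫ ω, F (y ω) * (a + c * g ω) ∂P =
        a * ∫ ω, F (y ω) ∂P + c * ∫ ω, g ω * F (y ω) ∂P := by
    intro a c g hg
    rw [← integral_const_mul, ← integral_const_mul,
      ← integral_add (hiF.const_mul a) (hg.const_mul c)]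
    refine integral_congr_ae (Eventually.of_forall fun ω => ?_)
    simp only
    ring
  simp only [hsp]
  rw [eL _ _ _ hiFs, eL _ _ _ hiFM, hpost']

/-- More information increases the second moment of the posterior. -/
theorem Obs.sq_mono [G.LocallyFinite] (hc : G.Connected) [IsProbabilityMeasure μ]
    (h : Obs μ P s y Q ζ b) {R R' : Set (V × ℕ)} (hR : R ⊆ R') (o o' : V)
    {f : (V → Bool) → ℝ} (hf : Measurable f) (hfC : ∃ C, ∀ σ, |f σ| ≤ C) :
    ∫ ω, EI G μ R o f (slp ζ (y ω)) ^ 2 ∂P ≤ ∫ ω, EI G μ R' o' f (slp ζ (y ω)) ^ 2 ∂P := by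
  have := h.prob
  have : Countable V := countable_of_locallyFinite hc
  obtain ⟨C, hC⟩ := hfC
  have hm : ∀ (R : Set (V × ℕ)) (o : V), Measurable fun x : V × ℕ → Y =>
      EI G μ R o f (slp ζ x) := fun R o =>
    (measurable_EI G μ R o hf ⟨C, hC⟩).comp h.measurable_slp
  have hb : ∀ (R : Set (V × ℕ)) (o : V) (x : V × ℕ → Y), |EI G μ R o f (slp ζ x)| ≤ C :=
    fun R o x => abs_EI_le h.b_nonneg h.b_lt μ (fun e => h.abs_slp_le x e) R o hf hC
  have hi : ∀ (R₁ R₂ : Set (V × ℕ)) (o₁ o₂ : V), Integrable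
      (fun ω => EI G μ R₁ o₁ f (slp ζ (y ω)) * EI G μ R₂ o₂ f (slp ζ (y ω))) P := by
    intro R₁ R₂ o₁ o₂
    refine Integrable.of_bound (((hm R₁ o₁).comp h.measY).mul
      ((hm R₂ o₂).comp h.measY)).aestronglyMeasurable (C * C) (Eventually.of_forall fun ω => ?_)
    rw [Real.norm_eq_abs, abs_mul]
    exact mul_le_mul (hb _ _ _) (hb _ _ _) (abs_nonneg _) ((abs_nonneg _).trans (hb R₁ o₁ (y ω)))
  have h1 := h.EI_post hc R o hf ⟨C, hC⟩ (hm R o) ⟨C, hb R o⟩ (EI_depE hc μ R o f ζ)
  have h2 := h.EI_post hc R' o' hf ⟨C, hC⟩ (hm R o) ⟨C, hb R o⟩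
    (fun x x' hxx => EI_depE hc μ R o f ζ x x' fun e he => hxx e (hR he))
  have h3 : 0 ≤ ∫ ω, (EI G μ R' o' f (slp ζ (y ω)) - EI G μ R o f (slp ζ (y ω))) ^ 2 ∂P :=
    integral_nonneg fun ω => sq_nonneg _
  have h4 : ∫ ω, (EI G μ R' o' f (slp ζ (y ω)) - EI G μ R o f (slp ζ (y ω))) ^ 2 ∂P =
      (∫ ω, EI G μ R' o' f (slp ζ (y ω)) * EI G μ R' o' f (slp ζ (y ω)) ∂P) +
      (∫ ω, EI G μ R o f (slp ζ (y ω)) * EI G μ R o f (slp ζ (y ω)) ∂P) -
      2 * (∫ ω, EI G μ R' o' f (slp ζ (y ω)) * EI G μ R o f (slp ζ (y ω)) ∂P) := by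
    have e1 : ∀ ω, (EI G μ R' o' f (slp ζ (y ω)) - EI G μ R o f (slp ζ (y ω))) ^ 2 =
        (EI G μ R' o' f (slp ζ (y ω)) * EI G μ R' o' f (slp ζ (y ω)) +
          EI G μ R o f (slp ζ (y ω)) * EI G μ R o f (slp ζ (y ω))) -
        2 * (EI G μ R' o' f (slp ζ (y ω)) * EI G μ R o f (slp ζ (y ω))) := fun ω => by ring
    simp only [e1]
    have i1 : Integrable (fun ω => EI G μ R' o' f (slp ζ (y ω)) * EI G μ R' o' f (slp ζ (y ω)) +
        EI G μ R o f (slp ζ (y ω)) * EI G μ R o f (slp ζ (y ω))) P :=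
      (hi _ _ _ _).add (hi _ _ _ _)
    have i2 : Integrable (fun ω =>
        2 * (EI G μ R' o' f (slp ζ (y ω)) * EI G μ R o f (slp ζ (y ω)))) P :=
      (hi _ _ _ _).const_mul 2
    rw [integral_sub i1 i2, integral_add (hi _ _ _ _) (hi _ _ _ _), integral_const_mul]
  simp only [sq]
  have h5 := h1.symm.trans h2
  linarith

/-- Flip symmetry (almost sure, because of the limsup). -/
theorem Obs.M_neg [G.LocallyFinite] (hc : G.Connected) [IsProbabilityMeasure μ]
    (h : Obs μ P s y Q ζ b) (hflip : μ.map (fun σ v => !(σ v)) = μ) (R : Set (V × ℕ)) (v : V) :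
    ∀ᵐ ω ∂P, M G μ R v (fun e => - slp ζ (y ω) e) = - M G μ R v (slp ζ (y ω)) := by
  filter_upwards [h.tendsto_bev hc R v v (measurable_sp v) ⟨1, abs_sp v⟩] with ω hω
  have h1 : Tendsto (fun n => ES μ (bev G R v n) (fun e => - slp ζ (y ω) e) (sp v)) atTop
      (𝓝 (- M G μ R v (slp ζ (y ω)))) := by
    simp only [ES_neg_sp hflip]
    exact hω.neg
  exact h1.limsup_eq

/-- The law of the slopes is symmetric. -/
theorem Obs.law_neg [G.LocallyFinite] (hc : G.Connected) [IsProbabilityMeasure μ]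
    (h : Obs μ P s y Q ζ b) (hflip : μ.map (fun σ v => !(σ v)) = μ) :
    P.map (fun ω e => - slp ζ (y ω) e) = P.map (fun ω => slp ζ (y ω)) := by
  have : Countable V := countable_of_locallyFinite hc
  have h1 : (P.map (fun ω => ((fun v => !(s ω v) : V → Bool),
      (fun e => - slp ζ (y ω) e : V × ℕ → ℝ)))).map Prod.snd =
      (P.map (fun ω => (s ω, slp ζ (y ω)))).map Prod.snd :=
    congrArg (fun ν => Measure.map Prod.snd ν) (h.flip hflip)
  have hm : Measurable fun ω => slp ζ (y ω) := h.measurable_slp.comp h.measY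
  have hmn : Measurable fun ω => (fun e => - slp ζ (y ω) e : V × ℕ → ℝ) :=
    measurable_pi_lambda _ fun e => ((measurable_pi_apply e).comp hm).neg
  have hsn : Measurable fun ω => (fun v => !(s ω v) : V → Bool) :=
    measurable_pi_lambda _ fun v =>
      (measurable_of_countable (fun b : Bool => !b)).comp ((measurable_pi_apply v).comp h.measS)
  rw [Measure.map_map measurable_snd (hsn.prodMk hmn),
    Measure.map_map measurable_snd (h.measS.prodMk hm)] at h1
  exact h1

/-- The law of `M` is symmetric. -/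
theorem Obs.M_law_symm [G.LocallyFinite] (hc : G.Connected) [IsProbabilityMeasure μ]
    (h : Obs μ P s y Q ζ b) (hflip : μ.map (fun σ v => !(σ v)) = μ) (R : Set (V × ℕ)) (v : V)
    {F : ℝ → ℝ} (hF : Measurable F) :
    ∫ ω, F (- M G μ R v (slp ζ (y ω))) ∂P = ∫ ω, F (M G μ R v (slp ζ (y ω))) ∂P := by
  have hm : Measurable fun ω => slp ζ (y ω) := h.measurable_slp.comp h.measY
  have hmn : Measurable fun ω => (fun e => - slp ζ (y ω) e : V × ℕ → ℝ) :=
    measurable_pi_lambda _ fun e => ((measurable_pi_apply e).comp hm).neg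
  have hFM : Measurable fun w : V × ℕ → ℝ => F (M G μ R v w) := hF.comp (measurable_M G μ R v)
  calc ∫ ω, F (- M G μ R v (slp ζ (y ω))) ∂P
      = ∫ ω, F (M G μ R v (fun e => - slp ζ (y ω) e)) ∂P := by
        refine integral_congr_ae ?_
        filter_upwards [h.M_neg hc hflip R v] with ω hω
        rw [hω]
    _ = ∫ w, F (M G μ R v w) ∂(P.map (fun ω e => - slp ζ (y ω) e)) :=
        (integral_map hmn.aemeasurable hFM.aestronglyMeasurable).symm
    _ = ∫ w, F (M G μ R v w) ∂(P.map (fun ω => slp ζ (y ω))) := by rw [h.law_neg hc hflip]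
    _ = ∫ ω, F (M G μ R v (slp ζ (y ω))) ∂P :=
        integral_map hm.aemeasurable hFM.aestronglyMeasurable

end Vale.Agent.P161.Crit
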