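import Vale.Agent.Lib.P161.Crit.Past

/-!
P161-CRIT, module Orth: jumps are orthogonal, for the process and for the doubled process; one
jump estimate.
-/

open MeasureTheory Filter Topology ProbabilityTheory

namespace Vale.Agent.P161.Crit

variable {V : Type*} {G : SimpleGraph V} {μ : Measure (V → Bool)}

/-- The jump in terms of the innovation. -/
theorem Jp_eq [G.LocallyFinite] {d : ℕ} {β : ℝ} (hE : Env G d β μ) {a : ℝ} (ha : 0 ≤ a)
    (ha1 : a < 1) (o : V) (u t : Arr V) (e : V × ℕ) :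
    Jp G μ a o u t e = Cv G μ Set.univ o e.1 (ws a u t (tau u e)) *
      rho (str a e.2 (u e)) (Me G μ a u t e) (Xi G μ a u t e) := by
  have h := tt_of_Xi hE ha ha1 u t e
  unfold Jp rho
  rw [← h, mul_div_assoc]
  rfl

/-! ### auxiliary facts -/

theorem orth_abs_Me_le [G.LocallyFinite] {d : ℕ} {β : ℝ} (hE : Env G d β μ) {a : ℝ} (ha : 0 ≤ a)
    (ha1 : a < 1) (u t : Arr V) (e : V × ℕ) : |Me G μ a u t e| ≤ 1 := by
  have := hE.prob
  exact abs_M_le ha ha1 μ (abs_ws_le ha u t _) Set.univ e.1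

theorem orth_abs_Cv_le [G.LocallyFinite] {d : ℕ} {β : ℝ} (hE : Env G d β μ) {a : ℝ} (ha : 0 ≤ a)
    (ha1 : a < 1) (o v : V) (u t : Arr V) (x : ℝ) :
    |Cv G μ Set.univ o v (ws a u t x)| ≤ 2 := by
  have := hE.prob
  exact abs_Cv_le ha ha1 μ (abs_ws_le ha u t _) Set.univ o v

theorem exists_abs_Jp_le [G.LocallyFinite] {d : ℕ} {β : ℝ} (hE : Env G d β μ) {a : ℝ} (ha : 0 ≤ a)
    (ha1 : a < 1) : ∃ C : ℝ, 0 ≤ C ∧ ∀ (o : V) (u t : Arr V) (e : V × ℕ),
      |Jp G μ a o u t e| ≤ C ∧
      |Jp G μ a o u t e| ≤ C * str a e.2 (u e) *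
        |Cv G μ Set.univ o e.1 (ws a u t (tau u e))| := by
  obtain ⟨C, hC, h⟩ := rho_bounds a ha ha1
  refine ⟨2 * C, by positivity, fun o u t e => ?_⟩
  have h0 := str_nonneg ha e.2 (u e)
  have h1 := str_le ha e.2 (u e)
  have h2 := (h (str a e.2 (u e)) (Me G μ a u t e) (Me G μ a u t e) (Xi G μ a u t e) h0 h1
    (orth_abs_Me_le hE ha ha1 u t e) (orth_abs_Me_le hE ha ha1 u t e)).1
  have h3 := orth_abs_Cv_le hE ha ha1 o e.1 u t (tau u e)
  have h4 : |Jp G μ a o u t e| ≤ C * str a e.2 (u e) *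
      |Cv G μ Set.univ o e.1 (ws a u t (tau u e))| := by
    rw [Jp_eq hE ha ha1, abs_mul, mul_comm]
    exact mul_le_mul_of_nonneg_right h2 (abs_nonneg _)
  have h5 : 0 ≤ C * str a e.2 (u e) := by positivity
  have h6 : C * str a e.2 (u e) ≤ C * 1 := mul_le_mul_of_nonneg_left (h1.trans ha1.le) hC
  constructor
  · refine h4.trans ?_
    calc C * str a e.2 (u e) * |Cv G μ Set.univ o e.1 (ws a u t (tau u e))| ≤ C * 1 * 2 :=
          mul_le_mul h6 h3 (abs_nonneg _) (by positivity)
      _ = 2 * C := by ring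
  · refine h4.trans ?_
    have := abs_nonneg (Cv G μ Set.univ o e.1 (ws a u t (tau u e)))
    linarith only [mul_nonneg h5 this]

theorem orth_ws_congr (a : ℝ) (u : Arr V) {x : ℝ} {t t' : Arr V}
    (h : ∀ f, tau u f < x → t f = t' f) : ws a u t x = ws a u t' x := by
  funext f
  unfold ws
  split_ifs with hf
  · unfold wf
    rw [h f hf]
  · rfl

theorem orth_Jp_congr (a : ℝ) (o : V) (u : Arr V) (e : V × ℕ) {t t' : Arr V}
    (h : ∀ f, tau u f ≤ tau u e → t f = t' f) : Jp G μ a o u t e = Jp G μ a o u t' e := by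
  have h1 : ws a u t (tau u e) = ws a u t' (tau u e) :=
    orth_ws_congr a u fun f hf => h f hf.le
  have h2 : wf a u t e = wf a u t' e := by
    unfold wf; rw [h e le_rfl]
  unfold Jp Me
  rw [h1, h2]

theorem orth_meas_pair (u : Arr V) : Measurable fun t : Arr V => ((u, t) : Arr V × Arr V) :=
  measurable_const.prodMk measurable_id

theorem orth_meas_Jp [G.LocallyFinite] {d : ℕ} {β : ℝ} (hE : Env G d β μ) (a : ℝ) (o : V)
    (u : Arr V) (e : V × ℕ) : Measurable fun t : Arr V => Jp G μ a o u t e := by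
  have := hE.prob
  have := hE.countable
  have h := measurable_Jp (μ := μ) G a o e
  have h2 := h.comp (orth_meas_pair u)
  exact h2

theorem orth_meas_Me [G.LocallyFinite] {d : ℕ} {β : ℝ} (hE : Env G d β μ) (a : ℝ)
    (u : Arr V) (e : V × ℕ) : Measurable fun t : Arr V => Me G μ a u t e := by
  have := hE.prob
  have := hE.countable
  have h := measurable_Me (μ := μ) G a e
  have h2 := h.comp (orth_meas_pair u)
  exact h2

theorem orth_meas_Xi [G.LocallyFinite] {d : ℕ} {β : ℝ} (hE : Env G d β μ) (a : ℝ)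
    (u : Arr V) : Measurable fun t : Arr V => Xi G μ a u t := by
  have := hE.prob
  have := hE.countable
  have h := measurable_Xi (μ := μ) G a
  have h2 := h.comp (orth_meas_pair u)
  exact h2

theorem orth_meas_ws (a : ℝ) (u : Arr V) (x : ℝ) : Measurable fun t : Arr V => ws a u t x := by
  have h : Measurable fun t : Arr V => ((x, (u, t)) : ℝ × Arr V × Arr V) :=
    measurable_const.prodMk (orth_meas_pair u)
  have h2 := (measurable_ws (V := V) a).comp h
  exact h2

theorem orth_meas_Cv [G.LocallyFinite] {d : ℕ} {β : ℝ} (hE : Env G d β μ) (a : ℝ) (o v : V)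
    (u : Arr V) (x : ℝ) : Measurable fun t : Arr V => Cv G μ Set.univ o v (ws a u t x) := by
  have := hE.prob
  have := hE.countable
  exact (measurable_Cv G μ Set.univ o v).comp (orth_meas_ws a u x)

/-- product law of a function of the past and of the innovation -/
theorem orth_map_prod [G.LocallyFinite] {d : ℕ} {β : ℝ} (hE : Env G d β μ) {a : ℝ} (ha : 0 ≤ a)
    (ha1 : a < 1) (u : Arr V) (f : V × ℕ) {T : Type*} [MeasurableSpace T] {A : Arr V → T}
    (hA : Measurable A) (hdep : DepE {e | tau u e < tau u f} A) :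
    (Pu μ a u).map (fun t => (A t, Xi G μ a u t f)) =
      ((Pu μ a u).map A).prod (volume : Measure unitInterval) := by
  have := hE.prob
  have := hE.countable
  have := isProbabilityMeasure_Pu (μ := μ) a u
  have hXm : Measurable fun t : Arr V => Xi G μ a u t f :=
    (measurable_pi_apply f).comp (orth_meas_Xi hE a u)
  have : IsProbabilityMeasure ((Pu μ a u).map A) := Measure.isProbabilityMeasure_map hA.aemeasurable
  symm
  refine Measure.prod_eq fun s r hs hr => ?_
  rw [Measure.map_apply (hA.prodMk hXm) (hs.prod hr), Measure.map_apply hA hs]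
  have h1 := inno_one hE ha ha1 u f (A := (A ⁻¹' s).indicator 1)
    (measurable_one.indicator (hA hs)) ⟨1, fun t => by
      by_cases ht : t ∈ A ⁻¹' s
      · simp [Set.indicator_of_mem ht]
      · simp [Set.indicator_of_notMem ht]⟩
    (fun t t' htt => by
      have : A t = A t' := hdep t t' htt
      by_cases ht : t ∈ A ⁻¹' s
      · have ht' : t' ∈ A ⁻¹' s := by
          rw [Set.mem_preimage] at ht ⊢; rwa [← this]
        rw [Set.indicator_of_mem ht, Set.indicator_of_mem ht']; rfl
      · have ht' : t' ∉ A ⁻¹' s := by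
          rw [Set.mem_preimage] at ht ⊢; rwa [← this]
        rw [Set.indicator_of_notMem ht, Set.indicator_of_notMem ht'])
    (k := r.indicator 1) (measurable_one.indicator hr) ⟨1, fun x => by
      by_cases hx : x ∈ r
      · simp [Set.indicator_of_mem hx]
      · simp [Set.indicator_of_notMem hx]⟩
  have e1 : (fun t => (A ⁻¹' s).indicator (1 : Arr V → ℝ) t *
      r.indicator (1 : unitInterval → ℝ) (Xi G μ a u t f)) =
      ((fun t => (A t, Xi G μ a u t f)) ⁻¹' (s ×ˢ r)).indicator (1 : Arr V → ℝ) := by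
    funext t
    by_cases h1 : A t ∈ s <;> by_cases h2 : Xi G μ a u t f ∈ r <;>
      simp [Set.indicator, h1, h2]
  rw [e1, integral_indicator_one ((hA.prodMk hXm) (hs.prod hr)), integral_indicator_one (hA hs),
    integral_indicator_one hr] at h1
  have h2 := congrArg ENNReal.ofReal h1
  rw [ENNReal.ofReal_mul measureReal_nonneg] at h2
  simpa [Measure.real, ENNReal.ofReal_toReal, measure_ne_top] using h2

/-- a jump has conditional mean zero given the past -/
theorem orth_mean_zero [G.LocallyFinite] {d : ℕ} {β : ℝ} (hE : Env G d β μ) {a : ℝ} (ha : 0 ≤ a)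
    (ha1 : a < 1) (u : Arr V) (o : V) (f : V × ℕ) {A : Arr V → ℝ} (hA : Measurable A)
    (hdep : DepE {e | tau u e < tau u f} A) :
    ∫ t, A t * Jp G μ a o u t f ∂(Pu μ a u) = 0 := by
  have := hE.prob
  have := hE.countable
  have := isProbabilityMeasure_Pu (μ := μ) a u
  have hXm : Measurable fun t : Arr V => Xi G μ a u t f :=
    (measurable_pi_apply f).comp (orth_meas_Xi hE a u)
  set α := str a f.2 (u f) with hα
  have hα0 : 0 ≤ α := str_nonneg ha f.2 (u f)
  have hα1 : α < 1 := (str_le ha f.2 (u f)).trans_lt ha1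
  let B : Arr V → ℝ × ℝ := fun t =>
    (A t * Cv G μ Set.univ o f.1 (ws a u t (tau u f)), Me G μ a u t f)
  have hB : Measurable B := (hA.mul (orth_meas_Cv hE a o f.1 u _)).prodMk (orth_meas_Me hE a u f)
  have hBdep : DepE {e | tau u e < tau u f} B := by
    intro t t' htt
    have h1 : ws a u t (tau u f) = ws a u t' (tau u f) := orth_ws_congr a u htt
    have h2 : A t = A t' := hdep t t' htt
    show (A t * Cv G μ Set.univ o f.1 (ws a u t (tau u f)), M G μ Set.univ f.1 (ws a u t (tau u f)))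
      = (A t' * Cv G μ Set.univ o f.1 (ws a u t' (tau u f)),
        M G μ Set.univ f.1 (ws a u t' (tau u f)))
    rw [h1, h2]
  have hlaw := orth_map_prod hE ha ha1 u f hB hBdep
  have hrho : Measurable fun p : (ℝ × ℝ) × unitInterval => p.1.1 * rho α p.1.2 p.2 :=
    (measurable_fst.comp measurable_fst).mul
      (measurable_rho.comp (measurable_const.prodMk
        ((measurable_snd.comp measurable_fst).prodMk measurable_snd)))
  have e1 : ∫ t, A t * Jp G μ a o u t f ∂(Pu μ a u) =
      ∫ p, p.1.1 * rho α p.1.2 p.2 ∂((Pu μ a u).map (fun t => (B t, Xi G μ a u t f))) := by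
    rw [integral_map (hB.prodMk hXm).aemeasurable hrho.aestronglyMeasurable]
    refine integral_congr_ae (Eventually.of_forall fun t => ?_)
    simp only [B]
    rw [Jp_eq hE ha ha1]
    ring
  rw [e1, hlaw]
  have : IsProbabilityMeasure ((Pu μ a u).map B) :=
    Measure.isProbabilityMeasure_map hB.aemeasurable
  have hmapB : ∀ᵐ p ∂((Pu μ a u).map B), |p.2| ≤ 1 := by
    refine (ae_map_iff hB.aemeasurable (measurableSet_le (by fun_prop) (by fun_prop))).2 ?_
    exact Eventually.of_forall fun t => orth_abs_Me_le hE ha ha1 u t f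
  by_cases hint : Integrable (fun p : (ℝ × ℝ) × unitInterval => p.1.1 * rho α p.1.2 p.2)
      (((Pu μ a u).map B).prod (volume : Measure unitInterval))
  swap
  · exact integral_undef hint
  rw [integral_prod _ hint]
  have : ∀ᵐ p ∂((Pu μ a u).map B), ∫ ξ : unitInterval, p.1 * rho α p.2 ξ = 0 := by
    filter_upwards [hmapB] with p hp
    rw [integral_const_mul, integral_rho α p.2 hα0 hα1 hp, mul_zero]
  rw [integral_congr_ae this, integral_zero]

/-- Orthogonality for the process with fixed labels. -/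
theorem Pu_orth [G.LocallyFinite] {d : ℕ} {β : ℝ} (hE : Env G d β μ) {a : ℝ} (ha : 0 ≤ a)
    (ha1 : a < 1) {u : Arr V} (hu : Function.Injective (tau u)) (o : V) {e f : V × ℕ}
    (hef : e ≠ f) : ∫ t, Jp G μ a o u t e * Jp G μ a o u t f ∂(Pu μ a u) = 0 := by
  rcases lt_or_gt_of_ne (fun h => hef (hu h) : tau u e ≠ tau u f) with h | h
  · exact orth_mean_zero hE ha ha1 u o f (orth_meas_Jp hE a o u e)
      (fun t t' htt => orth_Jp_congr a o u e fun g hg => htt g (lt_of_le_of_lt hg h))
  · have := orth_mean_zero hE ha ha1 u o e (orth_meas_Jp hE a o u f)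
      (fun t t' htt => orth_Jp_congr a o u f fun g hg => htt g (lt_of_le_of_lt hg h))
    rw [← this]
    exact integral_congr_ae (Eventually.of_forall fun t => mul_comm _ _)

theorem orth_integrable_Pu [G.LocallyFinite] {d : ℕ} {β : ℝ} (hE : Env G d β μ) (a : ℝ)
    (u : Arr V) {F : Arr V → ℝ} (hF : Measurable F) {C : ℝ} (hC : ∀ t, |F t| ≤ C) :
    Integrable F (Pu μ a u) := by
  have := hE.prob
  have := hE.countable
  have := isProbabilityMeasure_Pu (μ := μ) a u
  exact Integrable.of_bound hF.aestronglyMeasurable C (Eventually.of_forall hC)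

/-- `E M_o(x) J_e = E J_e²` for `tau u e < x`: `E[M_o(x) | signals up to and including e]` is
`M ({tau < tau e} ∪ {e}) o = M {tau < tau e} o + J_e` (`Obs.EI_post`, `Obs.M_insert`, `M_ws`) and
`J_e` has conditional mean zero. -/
theorem Pu_inc [G.LocallyFinite] {d : ℕ} {β : ℝ} (hE : Env G d β μ) {a : ℝ} (ha : 0 ≤ a)
    (ha1 : a < 1) {u : Arr V} (hu : Function.Injective (tau u)) (o : V) {e : V × ℕ} {x : ℝ}
    (hx : tau u e < x) :
    ∫ t, M G μ Set.univ o (ws a u t x) * Jp G μ a o u t e ∂(Pu μ a u) =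
      ∫ t, Jp G μ a o u t e ^ 2 ∂(Pu μ a u) := by
  have := hE.prob
  have := hE.countable
  have hc : G.Connected := hE.tree.connected
  have h := obs_fixed (μ := μ) ha ha1 u
  obtain ⟨C, hC0, hC⟩ := exists_abs_Jp_le hE ha ha1
  have hym : Measurable fun p : (V → Bool) × Arr V => tt a p.1 u p.2 := h.measY
  have hJm := orth_meas_Jp hE a o u e
  have hMm : ∀ x' : ℝ, Measurable fun t : Arr V => M G μ Set.univ o (ws a u t x') := fun x' => by
    have h1 := measurable_M G μ Set.univ o
    exact h1.comp (orth_meas_ws a u x')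
  have hM1 : ∀ (x' : ℝ) (t : Arr V), |M G μ Set.univ o (ws a u t x')| ≤ 1 := fun x' t =>
    abs_M_le ha ha1 μ (abs_ws_le ha u t _) Set.univ o
  have hspm : Measurable (sp o : (V → Bool) → ℝ) := by
    have h1 : Measurable (fun b : Bool => spin b) := measurable_of_countable _
    exact h1.comp (measurable_pi_apply o)
  have hspb : ∃ C, ∀ σ : V → Bool, |sp o σ| ≤ C := ⟨1, fun σ => by
    unfold sp spin; cases σ o <;> simp⟩
  have htr : ∀ F : Arr V → ℝ, Measurable F → ∫ t, F t ∂(Pu μ a u) =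
      ∫ p, F (tt a p.1 u p.2) ∂(μ.prod (PP (V × ℕ))) := fun F hF => by
    unfold Pu
    rw [integral_map hym.aemeasurable hF.aestronglyMeasurable]
  -- the two posteriors
  have k1 := h.EI_post hc {f | tau u f < x} o hspm hspb (F := fun t => Jp G μ a o u t e) hJm
    ⟨C, fun t => (hC o u t e).1⟩
    (fun t t' htt => orth_Jp_congr a o u e fun g hg => htt g (lt_of_le_of_lt hg hx))
  have k2 := h.EI_post hc (insert e {f | tau u f < tau u e}) o hspm hspb
    (F := fun t => Jp G μ a o u t e) hJm ⟨C, fun t => (hC o u t e).1⟩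
    (fun t t' htt => orth_Jp_congr a o u e fun g hg => by
      rcases hg.lt_or_eq with h' | h'
      · exact htt g (Set.mem_insert_of_mem _ h')
      · rw [hu h']; exact htt e (Set.mem_insert _ _))
  have k3 := h.M_insert hc {f | tau u f < tau u e} (e := e) (by simp) o
  have e1 : ∫ t, M G μ Set.univ o (ws a u t x) * Jp G μ a o u t e ∂(Pu μ a u) =
      ∫ p, EI G μ {f | tau u f < x} o (sp o)
        (slp (fun (e : V × ℕ) (t : unitInterval) => str a e.2 (u e) * (2 * (t : ℝ) - 1))
          (tt a p.1 u p.2)) * Jp G μ a o u (tt a p.1 u p.2) e ∂(μ.prod (PP (V × ℕ))) := by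
    rw [htr (fun t => M G μ Set.univ o (ws a u t x) * Jp G μ a o u t e) ((hMm x).mul hJm)]
    refine integral_congr_ae (Eventually.of_forall fun p => ?_)
    simp only [slp_fixed]
    rw [M_ws hc, Set.univ_inter]
    rfl
  rw [e1, ← k1, k2]
  have e2 : ∫ p, EI G μ (insert e {f | tau u f < tau u e}) o (sp o)
        (slp (fun (e : V × ℕ) (t : unitInterval) => str a e.2 (u e) * (2 * (t : ℝ) - 1))
          (tt a p.1 u p.2)) * Jp G μ a o u (tt a p.1 u p.2) e ∂(μ.prod (PP (V × ℕ))) =
      ∫ p, (M G μ Set.univ o (ws a u (tt a p.1 u p.2) (tau u e)) * Jp G μ a o u (tt a p.1 u p.2) e +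
        Jp G μ a o u (tt a p.1 u p.2) e ^ 2) ∂(μ.prod (PP (V × ℕ))) := by
    refine integral_congr_ae ?_
    filter_upwards [k3] with p hp
    have h4 : EI G μ (insert e {f | tau u f < tau u e}) o (sp o)
        (slp (fun (e : V × ℕ) (t : unitInterval) => str a e.2 (u e) * (2 * (t : ℝ) - 1))
          (tt a p.1 u p.2)) = M G μ Set.univ o (ws a u (tt a p.1 u p.2) (tau u e)) +
          Jp G μ a o u (tt a p.1 u p.2) e := by
      refine hp.trans ?_
      unfold Jp Me
      rw [M_ws hc, Cv_ws hc, M_ws hc, Set.univ_inter]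
      rfl
    rw [h4]
    ring
  rw [e2, ← htr (fun t => M G μ Set.univ o (ws a u t (tau u e)) * Jp G μ a o u t e +
    Jp G μ a o u t e ^ 2) (((hMm _).mul hJm).add (hJm.pow_const 2))]
  have i1 : Integrable (fun t => M G μ Set.univ o (ws a u t (tau u e)) * Jp G μ a o u t e)
      (Pu μ a u) := orth_integrable_Pu hE a u ((hMm _).mul hJm) (C := C) fun t => by
    rw [abs_mul]
    calc |M G μ Set.univ o (ws a u t (tau u e))| * |Jp G μ a o u t e| ≤ 1 * C :=
          mul_le_mul (hM1 _ t) (hC o u t e).1 (abs_nonneg _) zero_le_one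
      _ = C := one_mul C
  have i2 : Integrable (fun t => Jp G μ a o u t e ^ 2) (Pu μ a u) :=
    orth_integrable_Pu hE a u (hJm.pow_const 2) (C := C ^ 2) fun t => by
      rw [abs_pow]
      exact pow_le_pow_left₀ (abs_nonneg _) (hC o u t e).1 2
  rw [integral_add i1 i2]
  have h0 : ∫ t, M G μ Set.univ o (ws a u t (tau u e)) * Jp G μ a o u t e ∂(Pu μ a u) = 0 :=
    orth_mean_zero hE ha ha1 u o e (hMm _) (fun t t' htt => by
      show M G μ Set.univ o (ws a u t (tau u e)) = M G μ Set.univ o (ws a u t' (tau u e))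
      rw [orth_ws_congr a u htt])
  rw [h0, zero_add]

/-! ### the doubled process -/

/-- product law of a function of the pair of pasts and of the innovation -/
theorem orth_DU_map_prod [G.LocallyFinite] [Countable V] [IsProbabilityMeasure μ] {d : ℕ} {β : ℝ}
    (hE : Env G d β μ) {a : ℝ} (ha : 0 ≤ a) (ha1 : a < 1) {u : Arr V}
    (hu : Function.Injective (tau u)) (f : V × ℕ) {T : Type*} [MeasurableSpace T]
    {B : Arr V × Arr V → T} (hB : Measurable B)
    (hdep : ∀ z z' : Arr V × Arr V, (∀ g, tau u g < tau u f → z.1 g = z'.1 g ∧ z.2 g = z'.2 g) →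
      B z = B z') :
    (DU G μ a u).map (fun z => (B z, Xi G μ a u z.1 f)) =
      ((DU G μ a u).map B).prod (volume : Measure unitInterval) := by
  have := isProbabilityMeasure_Pu (μ := μ) a u
  have hXi := orth_meas_Xi hE a u
  have hD : IsProbabilityMeasure (DU G μ a u) := isProbabilityMeasure_doub hXi
  have hXm : Measurable fun z : Arr V × Arr V => Xi G μ a u z.1 f :=
    ((measurable_pi_apply f).comp hXi).comp measurable_fst
  have : IsProbabilityMeasure ((DU G μ a u).map B) :=
    Measure.isProbabilityMeasure_map hB.aemeasurable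
  symm
  refine Measure.prod_eq fun s r hs hr => ?_
  rw [Measure.map_apply (hB.prodMk hXm) (hs.prod hr), Measure.map_apply hB hs]
  have h1 := DU_past_indep hE ha ha1 hu (tau u f) (A := (B ⁻¹' s).indicator 1)
    (measurable_one.indicator (hB hs)) ⟨1, fun t => by
      by_cases ht : t ∈ B ⁻¹' s
      · simp [Set.indicator_of_mem ht]
      · simp [Set.indicator_of_notMem ht]⟩
    (fun t t' htt => by
      have : B t = B t' := hdep t t' htt
      by_cases ht : t ∈ B ⁻¹' s
      · have ht' : t' ∈ B ⁻¹' s := by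
          rw [Set.mem_preimage] at ht ⊢; rwa [← this]
        rw [Set.indicator_of_mem ht, Set.indicator_of_mem ht']; rfl
      · have ht' : t' ∉ B ⁻¹' s := by
          rw [Set.mem_preimage] at ht ⊢; rwa [← this]
        rw [Set.indicator_of_notMem ht, Set.indicator_of_notMem ht'])
    (φ := fun t => r.indicator 1 (t f))
    ((measurable_one.indicator hr).comp (measurable_pi_apply f)) ⟨1, fun x => by
      by_cases hx : x f ∈ r
      · simp [Set.indicator_of_mem hx]
      · simp [Set.indicator_of_notMem hx]⟩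
    (fun t t' htt => by
      show r.indicator 1 (t f) = r.indicator 1 (t' f)
      rw [htt f (by simp)])
  have e0 : ∫ ξ, r.indicator (1 : unitInterval → ℝ) (ξ f) ∂(PP (V × ℕ)) =
      (volume : Measure unitInterval).real r := by
    rw [integral_eval_PP f (measurable_one.indicator hr), integral_indicator_one hr]
  have e1 : (fun z => (B ⁻¹' s).indicator (1 : Arr V × Arr V → ℝ) z *
      r.indicator (1 : unitInterval → ℝ) (Xi G μ a u z.1 f)) =
      ((fun z => (B z, Xi G μ a u z.1 f)) ⁻¹' (s ×ˢ r)).indicator (1 : Arr V × Arr V → ℝ) := by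
    funext t
    by_cases h1 : B t ∈ s <;> by_cases h2 : Xi G μ a u t.1 f ∈ r <;>
      simp [Set.indicator, h1, h2]
  rw [e0, e1, integral_indicator_one ((hB.prodMk hXm) (hs.prod hr)),
    integral_indicator_one (hB hs)] at h1
  have h2 := congrArg ENNReal.ofReal h1
  rw [ENNReal.ofReal_mul measureReal_nonneg] at h2
  simpa [Measure.real, ENNReal.ofReal_toReal, measure_ne_top] using h2

theorem orth_DU_mean_zero [G.LocallyFinite] [Countable V] [IsProbabilityMeasure μ] {d : ℕ}
    {β : ℝ} (hE : Env G d β μ) {a : ℝ} (ha : 0 ≤ a) (ha1 : a < 1) {u : Arr V}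
    (hu : Function.Injective (tau u)) (f : V × ℕ) {A m : Arr V × Arr V → ℝ}
    (hA : Measurable A) (hm : Measurable m) (hm1 : ∀ z, |m z| ≤ 1)
    (hdep : ∀ z z' : Arr V × Arr V, (∀ g, tau u g < tau u f → z.1 g = z'.1 g ∧ z.2 g = z'.2 g) →
      A z = A z' ∧ m z = m z') :
    ∫ z, A z * rho (str a f.2 (u f)) (m z) (Xi G μ a u z.1 f) ∂(DU G μ a u) = 0 := by
  have := isProbabilityMeasure_Pu (μ := μ) a u
  have hXi := orth_meas_Xi hE a u
  have hD : IsProbabilityMeasure (DU G μ a u) := isProbabilityMeasure_doub hXi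
  have hXm : Measurable fun z : Arr V × Arr V => Xi G μ a u z.1 f :=
    ((measurable_pi_apply f).comp hXi).comp measurable_fst
  set α := str a f.2 (u f) with hα
  have hα0 : 0 ≤ α := str_nonneg ha f.2 (u f)
  have hα1 : α < 1 := (str_le ha f.2 (u f)).trans_lt ha1
  let B : Arr V × Arr V → ℝ × ℝ := fun z => (A z, m z)
  have hB : Measurable B := hA.prodMk hm
  have hlaw := orth_DU_map_prod hE ha ha1 hu f hB (fun z z' h => by
    show (A z, m z) = (A z', m z')
    rw [(hdep z z' h).1, (hdep z z' h).2])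
  have hrho : Measurable fun p : (ℝ × ℝ) × unitInterval => p.1.1 * rho α p.1.2 p.2 :=
    (measurable_fst.comp measurable_fst).mul
      (measurable_rho.comp (measurable_const.prodMk
        ((measurable_snd.comp measurable_fst).prodMk measurable_snd)))
  have e1 : ∫ z, A z * rho α (m z) (Xi G μ a u z.1 f) ∂(DU G μ a u) =
      ∫ p, p.1.1 * rho α p.1.2 p.2
        ∂((DU G μ a u).map (fun z => (B z, Xi G μ a u z.1 f))) := by
    rw [integral_map (hB.prodMk hXm).aemeasurable hrho.aestronglyMeasurable]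
  rw [e1, hlaw]
  have : IsProbabilityMeasure ((DU G μ a u).map B) :=
    Measure.isProbabilityMeasure_map hB.aemeasurable
  have hmapB : ∀ᵐ p ∂((DU G μ a u).map B), |p.2| ≤ 1 := by
    refine (ae_map_iff hB.aemeasurable (measurableSet_le (by fun_prop) (by fun_prop))).2 ?_
    exact Eventually.of_forall fun t => hm1 t
  by_cases hint : Integrable (fun p : (ℝ × ℝ) × unitInterval => p.1.1 * rho α p.1.2 p.2)
      (((DU G μ a u).map B).prod (volume : Measure unitInterval))
  swap
  · exact integral_undef hint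
  rw [integral_prod _ hint]
  have : ∀ᵐ p ∂((DU G μ a u).map B), ∫ ξ : unitInterval, p.1 * rho α p.2 ξ = 0 := by
    filter_upwards [hmapB] with p hp
    rw [integral_const_mul, integral_rho α p.2 hα0 hα1 hp, mul_zero]
  rw [integral_congr_ae this, integral_zero]

/-- past times difference of jumps -/
theorem orth_DU_diff [G.LocallyFinite] [Countable V] [IsProbabilityMeasure μ] {d : ℕ}
    {β : ℝ} (hE : Env G d β μ) {a : ℝ} (ha : 0 ≤ a) (ha1 : a < 1) {u : Arr V}
    (hu : Function.Injective (tau u)) (o : V) (f : V × ℕ) {A : Arr V × Arr V → ℝ}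
    (hA : Measurable A) {C : ℝ} (hAC : ∀ z, |A z| ≤ C)
    (hdep : ∀ z z' : Arr V × Arr V, (∀ g, tau u g < tau u f → z.1 g = z'.1 g ∧ z.2 g = z'.2 g) →
      A z = A z') :
    ∫ z, A z * (Jp G μ a o u z.1 f - Jp G μ a o u z.2 f) ∂(DU G μ a u) = 0 := by
  have := isProbabilityMeasure_Pu (μ := μ) a u
  have hXi := orth_meas_Xi hE a u
  have hD : IsProbabilityMeasure (DU G μ a u) := isProbabilityMeasure_doub hXi
  obtain ⟨CJ, hCJ0, hCJ⟩ := exists_abs_Jp_le hE ha ha1
  have hC0 : 0 ≤ C := (abs_nonneg _).trans (hAC (fun _ => 0, fun _ => 0))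
  have hJm := orth_meas_Jp hE a o u f
  have hCm := orth_meas_Cv hE a o f.1 u (tau u f)
  have hMm := orth_meas_Me hE a u f
  have hi : ∀ g : Arr V × Arr V → Arr V, Measurable g →
      Integrable (fun z => A z * Jp G μ a o u (g z) f) (DU G μ a u) := fun g hg =>
    Integrable.of_bound (hA.mul (hJm.comp hg)).aestronglyMeasurable (C * CJ)
      (Eventually.of_forall fun z => by
        rw [norm_mul, Real.norm_eq_abs, Real.norm_eq_abs]
        exact mul_le_mul (hAC z) (hCJ o u _ f).1 (abs_nonneg _) hC0)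
  have z1 : ∫ z, A z * Jp G μ a o u z.1 f ∂(DU G μ a u) = 0 := by
    have h := orth_DU_mean_zero hE ha ha1 hu f
      (A := fun z => A z * Cv G μ Set.univ o f.1 (ws a u z.1 (tau u f)))
      (m := fun z => Me G μ a u z.1 f) (hA.mul (hCm.comp measurable_fst))
      (hMm.comp measurable_fst) (fun z => orth_abs_Me_le hE ha ha1 u z.1 f)
      (fun z z' h => by
        have h1 : ws a u z.1 (tau u f) = ws a u z'.1 (tau u f) :=
          orth_ws_congr a u fun g hg => (h g hg).1
        refine ⟨?_, ?_⟩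
        · show A z * _ = A z' * _
          rw [hdep z z' h, h1]
        · show M G μ Set.univ f.1 _ = M G μ Set.univ f.1 _
          rw [h1])
    rw [← h]
    refine integral_congr_ae (Eventually.of_forall fun z => ?_)
    simp only
    rw [Jp_eq hE ha ha1]
    ring
  have z2 : ∫ z, A z * Jp G μ a o u z.2 f ∂(DU G μ a u) = 0 := by
    have h := orth_DU_mean_zero hE ha ha1 hu f
      (A := fun z => A z * Cv G μ Set.univ o f.1 (ws a u z.2 (tau u f)))
      (m := fun z => Me G μ a u z.2 f) (hA.mul (hCm.comp measurable_snd))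
      (hMm.comp measurable_snd) (fun z => orth_abs_Me_le hE ha ha1 u z.2 f)
      (fun z z' h => by
        have h1 : ws a u z.2 (tau u f) = ws a u z'.2 (tau u f) :=
          orth_ws_congr a u fun g hg => (h g hg).2
        refine ⟨?_, ?_⟩
        · show A z * _ = A z' * _
          rw [hdep z z' h, h1]
        · show M G μ Set.univ f.1 _ = M G μ Set.univ f.1 _
          rw [h1])
    rw [← h]
    refine integral_congr_ae ?_
    filter_upwards [DU_ae_eq (G := G) (μ := μ) a u] with z hz
    rw [Jp_eq hE ha ha1, hz]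
    ring
  have hs := integral_sub (hi Prod.fst measurable_fst) (hi Prod.snd measurable_snd)
  rw [z1, z2, sub_zero] at hs
  rw [← hs]
  refine integral_congr_ae (Eventually.of_forall fun z => ?_)
  simp only
  ring

/-- Orthogonality of the differences for the doubled process. -/
theorem DU_orth [G.LocallyFinite] [Countable V] [IsProbabilityMeasure μ] {d : ℕ} {β : ℝ}
    (hE : Env G d β μ) {a : ℝ} (ha : 0 ≤ a) (ha1 : a < 1) {u : Arr V}
    (hu : Function.Injective (tau u)) (o : V) {e f : V × ℕ} (hef : e ≠ f) :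
    ∫ z, (Jp G μ a o u z.1 e - Jp G μ a o u z.2 e) * (Jp G μ a o u z.1 f - Jp G μ a o u z.2 f)
      ∂(DU G μ a u) = 0 := by
  obtain ⟨CJ, hCJ0, hCJ⟩ := exists_abs_Jp_le hE ha ha1
  have key : ∀ e f : V × ℕ, tau u e < tau u f →
      ∫ z, (Jp G μ a o u z.1 e - Jp G μ a o u z.2 e) * (Jp G μ a o u z.1 f - Jp G μ a o u z.2 f)
        ∂(DU G μ a u) = 0 := fun e f h => by
    have hJm := orth_meas_Jp hE a o u e
    refine orth_DU_diff hE ha ha1 hu o f
      (A := fun z => Jp G μ a o u z.1 e - Jp G μ a o u z.2 e)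
      ((hJm.comp measurable_fst).sub (hJm.comp measurable_snd)) (C := CJ + CJ)
      (fun z => (abs_sub _ _).trans (add_le_add (hCJ o u _ e).1 (hCJ o u _ e).1)) ?_
    intro z z' hzz
    show _ - _ = _ - _
    rw [orth_Jp_congr a o u e fun g hg => (hzz g (lt_of_le_of_lt hg h)).1,
      orth_Jp_congr a o u e fun g hg => (hzz g (lt_of_le_of_lt hg h)).2]
  rcases lt_or_gt_of_ne (fun h => hef (hu h) : tau u e ≠ tau u f) with h | h
  · exact key e f h
  · rw [← key f e h]
    exact integral_congr_ae (Eventually.of_forall fun t => mul_comm _ _)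

/-- One jump of the doubled process: with `α = str`,
`E (J_e - J_e')² ≤ C α² ( E (Cv - Cv')² + E Cv'² (M_e - M_e')² )`
(`rho_bounds`; `Xi` is the same for both copies; write
`C ρ(m) - C' ρ(m') = (C - C') ρ(m) + C' (ρ(m) - ρ(m'))`; `|ρ| ≤ C α` everywhere, no independence
needed). -/
theorem DU_jump [G.LocallyFinite] [Countable V] [IsProbabilityMeasure μ] {d : ℕ} {β : ℝ}
    (hE : Env G d β μ) {a : ℝ} (ha : 0 ≤ a) (ha1 : a < 1) :
    ∃ C : ℝ, 0 ≤ C ∧ ∀ (u : Arr V) (o : V) (e : V × ℕ), ∀ᵐ z ∂(DU G μ a u),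
      (Jp G μ a o u z.1 e - Jp G μ a o u z.2 e) ^ 2 ≤
      C * str a e.2 (u e) ^ 2 *
        ((Cv G μ Set.univ o e.1 (ws a u z.1 (tau u e)) -
            Cv G μ Set.univ o e.1 (ws a u z.2 (tau u e))) ^ 2 +
          Cv G μ Set.univ o e.1 (ws a u z.2 (tau u e)) ^ 2 *
            (M G μ Set.univ e.1 (ws a u z.1 (tau u e)) -
              M G μ Set.univ e.1 (ws a u z.2 (tau u e))) ^ 2) := by
  obtain ⟨C, hC, h⟩ := rho_bounds a ha ha1
  refine ⟨2 * C ^ 2, by positivity, fun u o e => ?_⟩
  filter_upwards [DU_ae_eq (G := G) (μ := μ) a u] with z hz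
  set α := str a e.2 (u e) with hα
  have h0 : 0 ≤ α := str_nonneg ha e.2 (u e)
  have h1 : α ≤ a := str_le ha e.2 (u e)
  have hb := h α (Me G μ a u z.1 e) (Me G μ a u z.2 e) (Xi G μ a u z.1 e) h0 h1
    (orth_abs_Me_le hE ha ha1 u z.1 e) (orth_abs_Me_le hE ha ha1 u z.2 e)
  rw [Jp_eq hE ha ha1 o u z.1, Jp_eq hE ha ha1 o u z.2, ← hz]
  have e1 : M G μ Set.univ e.1 (ws a u z.1 (tau u e)) = Me G μ a u z.1 e := rfl
  have e2 : M G μ Set.univ e.1 (ws a u z.2 (tau u e)) = Me G μ a u z.2 e := rfl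
  rw [e1, e2]
  generalize Cv G μ Set.univ o e.1 (ws a u z.1 (tau u e)) = c
  generalize Cv G μ Set.univ o e.1 (ws a u z.2 (tau u e)) = c'
  generalize Me G μ a u z.1 e = m at hb ⊢
  generalize Me G μ a u z.2 e = m' at hb ⊢
  generalize Xi G μ a u z.1 e = ξ at hb ⊢
  rw [← hα]
  generalize rho α m ξ = r at hb ⊢
  generalize rho α m' ξ = r' at hb ⊢
  have hα1 : α ≤ 1 := h1.trans ha1.le
  have hr : r ^ 2 ≤ (C * α) ^ 2 := by
    rw [← sq_abs]; exact pow_le_pow_left₀ (abs_nonneg _) hb.1 2
  have hrr : (r - r') ^ 2 ≤ (C * α ^ 2 * |m - m'|) ^ 2 := by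
    rw [← sq_abs]; exact pow_le_pow_left₀ (abs_nonneg _) hb.2 2
  have hrr' : (r - r') ^ 2 ≤ C ^ 2 * α ^ 2 * (m - m') ^ 2 := by
    refine hrr.trans ?_
    rw [mul_pow, mul_pow, sq_abs]
    have : (α ^ 2) ^ 2 ≤ α ^ 2 := by
      have : α ^ 2 ≤ 1 := pow_le_one₀ h0 hα1
      nlinarith only [sq_nonneg α, this]
    have h3 : 0 ≤ (m - m') ^ 2 := sq_nonneg _
    have h4 : 0 ≤ C ^ 2 := sq_nonneg _
    exact mul_le_mul_of_nonneg_right (mul_le_mul_of_nonneg_left this h4) h3
  have k1 : (c * r - c' * r') ^ 2 ≤ 2 * ((c - c') ^ 2 * r ^ 2) + 2 * (c' ^ 2 * (r - r') ^ 2) := by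
    linarith only [sq_nonneg ((c - c') * r - c' * (r - r'))]
  have k2 : (c - c') ^ 2 * r ^ 2 ≤ (c - c') ^ 2 * (C * α) ^ 2 :=
    mul_le_mul_of_nonneg_left hr (sq_nonneg _)
  have k3 : c' ^ 2 * (r - r') ^ 2 ≤ c' ^ 2 * (C ^ 2 * α ^ 2 * (m - m') ^ 2) :=
    mul_le_mul_of_nonneg_left hrr' (sq_nonneg _)
  calc (c * r - c' * r') ^ 2 ≤ 2 * ((c - c') ^ 2 * r ^ 2) + 2 * (c' ^ 2 * (r - r') ^ 2) := k1
    _ ≤ 2 * ((c - c') ^ 2 * (C * α) ^ 2) + 2 * (c' ^ 2 * (C ^ 2 * α ^ 2 * (m - m') ^ 2)) := by
        linarith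
    _ = _ := by ring

end Vale.Agent.P161.Crit
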