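import Vale.Agent.Lib.P161.Crit.Past

/-!
P161-CRIT, module PairLaw: marginals and invariance of the pair environment at time `x`.
-/

open MeasureTheory Filter Topology ProbabilityTheory

namespace Vale.Agent.P161.Crit

variable {V : Type*} {G : SimpleGraph V} {μ : Measure (V → Bool)}

theorem pairLaw_measurable_ws (a x : ℝ) :
    Measurable (fun p : Arr V × Arr V => ws a p.1 p.2 x) :=
  (measurable_ws (V := V) a).comp (measurable_const.prodMk measurable_id)

theorem pairLaw_measurable_pair (a x : ℝ) :
    Measurable (fun z : (Arr V × Arr V) × (Arr V × Arr V) =>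
      (ws a z.1.1 z.1.2 x, ws a z.2.1 z.2.2 x)) :=
  ((pairLaw_measurable_ws a x).comp measurable_fst).prodMk
    ((pairLaw_measurable_ws a x).comp measurable_snd)

theorem pairLaw_measurable_Xi [Countable V] [IsProbabilityMeasure μ] (G : SimpleGraph V) (a : ℝ) :
    Measurable (fun p : Arr V × Arr V => (p.1, Xi G μ a p.1 p.2)) :=
  measurable_fst.prodMk (measurable_Xi G a)

theorem pairLaw_measurable_PT (a : ℝ) :
    Measurable (fun p : (V → Bool) × (V × ℕ → unitInterval) × (V × ℕ → unitInterval) =>
      (p.2.1, tt a p.1 p.2.1 p.2.2)) :=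
  (measurable_fst.comp measurable_snd).prodMk (measurable_tt a)

theorem pairLaw_ws_act (a : ℝ) (g : V ≃ V) (u t : Arr V) (x : ℝ) :
    ws a (actE g u) (actE g t) x = actE g (ws a u t x) := rfl

/-- The marginals of `nuX` are the law of the slopes at time `x`. -/
theorem nuX_fst [G.LocallyFinite] [Countable V] [IsProbabilityMeasure μ] {d : ℕ} {β : ℝ}
    (hE : Env G d β μ) {a : ℝ} (ha : 0 ≤ a) (ha1 : a < 1) (x : ℝ) :
    (nuX G μ a x).map Prod.fst = (PO μ).map (fun ω => slp (zm a (mx x)) (ym a (mx x) ω)) := by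
  have hPT := isProbabilityMeasure_PT (μ := μ) a
  have h1 : (nuX G μ a x).map Prod.fst =
      ((PD G μ a).map Prod.fst).map (fun p : Arr V × Arr V => ws a p.1 p.2 x) := by
    unfold nuX
    rw [Measure.map_map measurable_fst (pairLaw_measurable_pair a x),
      Measure.map_map (pairLaw_measurable_ws a x) measurable_fst]
    rfl
  have h2 : (PD G μ a).map Prod.fst = PT μ a := doub_fst (pairLaw_measurable_Xi G a)
  rw [h1, h2]
  unfold PT
  rw [Measure.map_map (pairLaw_measurable_ws a x) (pairLaw_measurable_PT a)]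
  congr 1
  funext ω
  rw [slp_ym, wm_mx]
  rfl

theorem nuX_swap [G.LocallyFinite] [Countable V] [IsProbabilityMeasure μ] {d : ℕ} {β : ℝ}
    (hE : Env G d β μ) {a : ℝ} (ha : 0 ≤ a) (ha1 : a < 1) (x : ℝ) :
    (nuX G μ a x).map Prod.swap = nuX G μ a x := by
  have hPT := isProbabilityMeasure_PT (μ := μ) a
  have h1 : (PD G μ a).map Prod.swap = PD G μ a := doub_swap (pairLaw_measurable_Xi G a)
  unfold nuX
  conv_rhs => rw [← h1]
  rw [Measure.map_map measurable_swap (pairLaw_measurable_pair a x),
    Measure.map_map (pairLaw_measurable_pair a x) measurable_swap]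
  rfl

theorem nuX_act [G.LocallyFinite] [Countable V] [IsProbabilityMeasure μ] {d : ℕ} {β : ℝ}
    (hE : Env G d β μ) {a : ℝ} (ha : 0 ≤ a) (ha1 : a < 1) (x : ℝ) (g : G ≃g G) :
    (nuX G μ a x).map (Prod.map (actE g.toEquiv) (actE g.toEquiv)) = nuX G μ a x := by
  have hm : ∀ {α : Type} [MeasurableSpace α], Measurable
      (actE g.toEquiv : (V × ℕ → α) → (V × ℕ → α)) := by
    intro α _
    exact measurable_pi_lambda _ fun e => measurable_pi_apply _
  have hm2 : Measurable (fun z : (Arr V × Arr V) × (Arr V × Arr V) =>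
      ((actE g.toEquiv z.1.1, actE g.toEquiv z.1.2),
      (actE g.toEquiv z.2.1, actE g.toEquiv z.2.2))) :=
    ((hm.comp (measurable_fst.comp measurable_fst)).prodMk
      (hm.comp (measurable_snd.comp measurable_fst))).prodMk
    ((hm.comp (measurable_fst.comp measurable_snd)).prodMk
      (hm.comp (measurable_snd.comp measurable_snd)))
  have h1 := PD_act hE a g
  unfold nuX
  conv_rhs => rw [← h1]
  rw [Measure.map_map (hm.prodMap hm) (pairLaw_measurable_pair a x),
    Measure.map_map (pairLaw_measurable_pair a x) hm2]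
  rfl

end Vale.Agent.P161.Crit
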