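import Vale.Agent.Lib.P161.Crit.PairAvg

/-!
P161-CRIT, module PairShort: crude bound for one pair, and bounds for `K`.
Notation (for adjacent `p0 p1` and a vertex `o`): `D = E (M_o - M_o')²`, `K = E (γ - γ')²`.
-/

open MeasureTheory Filter Topology

namespace Vale.Agent.P161.Crit

variable {V : Type*} {G : SimpleGraph V}

namespace PairShortAux

theorem measurable_actE' (g : V ≃ V) : Measurable (actE g : (V × ℕ → ℝ) → (V × ℕ → ℝ)) :=
  measurable_pi_lambda _ fun _ => measurable_pi_apply _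

theorem ph_pos {θ z x : ℝ} (h0 : 0 ≤ θ) (h1 : θ < 1) (hz : z < 1) (hx : |x| ≤ z) :
    0 < ph θ x := by
  have hx1 : |x| < 1 := lt_of_le_of_lt hx hz
  have hx2 : x ^ 2 < 1 := by
    rw [← sq_abs]
    exact pow_lt_one₀ (abs_nonneg _) hx1 two_ne_zero
  have h3 : θ ^ 2 * x ^ 2 < 1 := by
    have h4 : θ ^ 2 ≤ 1 := pow_le_one₀ h0 h1.le
    nlinarith only [sq_nonneg x, hx2, h4]
  unfold ph
  exact div_pos (by linarith) (by linarith)

theorem log_ph_nonpos {θ z x : ℝ} (h0 : 0 ≤ θ) (h1 : θ < 1) (hz : z < 1) (hx : |x| ≤ z) :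
    Real.log (ph θ x) ≤ 0 :=
  Real.log_nonpos (ph_pos h0 h1 hz hx).le (ph_le_one h0 h1 (hx.trans hz.le))

theorem prod_eq_exp {μ : Measure (V → Bool)} {θ z : ℝ} (h0 : 0 ≤ θ) (h1 : θ < 1) (hz : z < 1)
    {p : ℕ → V} {n : ℕ} {w : V × ℕ → ℝ}
    (hb : ∀ i < n, |msg G μ (p i) (p (i + 1)) w| ≤ z ∧ |msg G μ (p (i + 1)) (p i) w| ≤ z) :
    ∏ i ∈ Finset.range n, (ph θ (msg G μ (p (i + 1)) (p i) w) *
      ph θ (msg G μ (p i) (p (i + 1)) w)) =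
    Real.exp (2 * ∑ i ∈ Finset.range n, gam G μ θ (p i) (p (i + 1)) w) := by
  rw [Finset.mul_sum, Real.exp_sum]
  refine Finset.prod_congr rfl fun i hi => ?_
  have hi' := hb i (Finset.mem_range.1 hi)
  have e : 2 * gam G μ θ (p i) (p (i + 1)) w = Real.log (ph θ (msg G μ (p (i + 1)) (p i) w)) +
      Real.log (ph θ (msg G μ (p i) (p (i + 1)) w)) := by
    unfold gam
    ring
  rw [e, Real.exp_add, Real.exp_log (ph_pos h0 h1 hz hi'.2), Real.exp_log (ph_pos h0 h1 hz hi'.1)]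

theorem sum_gam_nonpos {μ : Measure (V → Bool)} {θ z : ℝ} (h0 : 0 ≤ θ) (h1 : θ < 1) (hz : z < 1)
    {p : ℕ → V} {n : ℕ} {w : V × ℕ → ℝ}
    (hb : ∀ i < n, |msg G μ (p i) (p (i + 1)) w| ≤ z ∧ |msg G μ (p (i + 1)) (p i) w| ≤ z) :
    ∑ i ∈ Finset.range n, gam G μ θ (p i) (p (i + 1)) w ≤ 0 := by
  refine Finset.sum_nonpos fun i hi => ?_
  have hi' := hb i (Finset.mem_range.1 hi)
  have e1 := log_ph_nonpos h0 h1 hz hi'.1
  have e2 := log_ph_nonpos h0 h1 hz hi'.2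
  unfold gam
  linarith


theorem real_bound {Cl Ce Ci a b a' b' m0 m1 m0' m1' La La' Lb Lb' : ℝ} (hCl0 : 0 ≤ Cl)
    (hCe0 : 0 ≤ Ce) (hCi0 : 0 ≤ Ci)
    (l1 : |La - La'| ≤ Cl * (|a| + |a'|) * |a - a'|)
    (l2 : |Lb - Lb'| ≤ Cl * (|b| + |b'|) * |b - b'|)
    (j1 : |a| ≤ Ce * (|m1| + |m0|)) (j2 : |b| ≤ Ce * (|m0| + |m1|))
    (j1' : |a'| ≤ Ce * (|m1'| + |m0'|)) (j2' : |b'| ≤ Ce * (|m0'| + |m1'|))
    (i1 : |a - a'| ≤ Ci * (|m1 - m1'| + |m0 - m0'|))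
    (i2 : |b - b'| ≤ Ci * (|m0 - m0'| + |m1 - m1'|)) :
    ((La + Lb) / 2 - (La' + Lb') / 2) ^ 2 ≤ 2 * (Cl * Ce * Ci) ^ 2 *
      (|m0| + |m1| + |m0'| + |m1'|) ^ 2 * ((m0 - m0') ^ 2 + (m1 - m1') ^ 2) := by
  obtain ⟨S, hS⟩ : ∃ S, S = |m0| + |m1| + |m0'| + |m1'| := ⟨_, rfl⟩
  obtain ⟨Δ, hΔ⟩ : ∃ Δ, Δ = |m0 - m0'| + |m1 - m1'| := ⟨_, rfl⟩
  have hS0 : 0 ≤ S := by rw [hS]; positivity
  have hΔ0 : 0 ≤ Δ := by rw [hΔ]; positivity
  have k1 : |a| + |a'| ≤ Ce * S := by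
    refine (add_le_add j1 j1').trans (le_of_eq ?_)
    rw [hS]; ring
  have k2 : |b| + |b'| ≤ Ce * S := by
    refine (add_le_add j2 j2').trans (le_of_eq ?_)
    rw [hS]; ring
  have k3 : |a - a'| ≤ Ci * Δ := by rw [hΔ, add_comm]; exact i1
  have k4 : |b - b'| ≤ Ci * Δ := by rw [hΔ]; exact i2
  have hq1 : |La - La'| ≤ (Cl * Ce * Ci) * S * Δ := by
    refine l1.trans ?_
    calc Cl * (|a| + |a'|) * |a - a'| ≤ Cl * (Ce * S) * (Ci * Δ) := by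
          apply mul_le_mul (mul_le_mul_of_nonneg_left k1 hCl0) k3 (abs_nonneg _)
            (by positivity)
      _ = (Cl * Ce * Ci) * S * Δ := by ring
  have hq2 : |Lb - Lb'| ≤ (Cl * Ce * Ci) * S * Δ := by
    refine l2.trans ?_
    calc Cl * (|b| + |b'|) * |b - b'| ≤ Cl * (Ce * S) * (Ci * Δ) := by
          apply mul_le_mul (mul_le_mul_of_nonneg_left k2 hCl0) k4 (abs_nonneg _)
            (by positivity)
      _ = (Cl * Ce * Ci) * S * Δ := by ring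
  have hq3 : |(La + Lb) / 2 - (La' + Lb') / 2| ≤ (Cl * Ce * Ci) * S * Δ := by
    have e1 := abs_le.1 hq1
    have e2 := abs_le.1 hq2
    rw [abs_le]
    constructor
    · linarith [e1.1, e2.1]
    · linarith [e1.2, e2.2]
  have hΔ2 : Δ ^ 2 ≤ 2 * ((m0 - m0') ^ 2 + (m1 - m1') ^ 2) := by
    have h3 : Δ ^ 2 = |m0 - m0'| ^ 2 + |m1 - m1'| ^ 2 + 2 * (|m0 - m0'| * |m1 - m1'|) := by
      rw [hΔ]; ring
    have h4 := two_mul_le_add_sq |m0 - m0'| |m1 - m1'|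
    rw [← sq_abs (m0 - m0'), ← sq_abs (m1 - m1'), h3]
    linarith
  calc ((La + Lb) / 2 - (La' + Lb') / 2) ^ 2 ≤ ((Cl * Ce * Ci) * S * Δ) ^ 2 := by
        rw [← sq_abs]
        exact pow_le_pow_left₀ (abs_nonneg _) hq3 2
    _ = (Cl * Ce * Ci) ^ 2 * S ^ 2 * Δ ^ 2 := by ring
    _ ≤ (Cl * Ce * Ci) ^ 2 * S ^ 2 * (2 * ((m0 - m0') ^ 2 + (m1 - m1') ^ 2)) :=
        mul_le_mul_of_nonneg_left hΔ2 (by positivity)
    _ = _ := by rw [hS]; ring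


section abstract

variable {Ω : Type*} [MeasurableSpace Ω] {ν : Measure Ω}
  {m0 m1 m0' m1' g : Ω → ℝ} {K1 D : ℝ}

theorem abs_first
    (hb : ∀ᵐ x ∂ν, |m0 x| ≤ 1 ∧ |m1 x| ≤ 1 ∧ |m0' x| ≤ 1 ∧ |m1' x| ≤ 1)
    (hg0 : ∀ x, 0 ≤ g x)
    (hpt : ∀ᵐ x ∂ν, g x ≤ 2 * K1 ^ 2 * (|m0 x| + |m1 x| + |m0' x| + |m1' x|) ^ 2 *
      ((m0 x - m0' x) ^ 2 + (m1 x - m1' x) ^ 2))
    (hI0 : Integrable (fun x => (m0 x - m0' x) ^ 2) ν)
    (hI1 : Integrable (fun x => (m1 x - m1' x) ^ 2) ν)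
    (hD0 : ∫ x, (m0 x - m0' x) ^ 2 ∂ν = D) (hD1 : ∫ x, (m1 x - m1' x) ^ 2 ∂ν = D) :
    ∫ x, g x ∂ν ≤ 64 * K1 ^ 2 * D := by
  have hmono : ∫ x, g x ∂ν ≤ ∫ x, 32 * K1 ^ 2 *
      ((m0 x - m0' x) ^ 2 + (m1 x - m1' x) ^ 2) ∂ν := by
    refine integral_mono_of_nonneg (Eventually.of_forall hg0) ((hI0.add hI1).const_mul _) ?_
    filter_upwards [hpt, hb] with x hx hbx
    refine hx.trans ?_
    have hS4 : |m0 x| + |m1 x| + |m0' x| + |m1' x| ≤ 4 := by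
      linarith [hbx.1, hbx.2.1, hbx.2.2.1, hbx.2.2.2]
    have hS16 : (|m0 x| + |m1 x| + |m0' x| + |m1' x|) ^ 2 ≤ 16 := by
      have := pow_le_pow_left₀ (by positivity) hS4 2
      linarith
    have hpos : 0 ≤ (m0 x - m0' x) ^ 2 + (m1 x - m1' x) ^ 2 := by positivity
    have h2 := mul_le_mul_of_nonneg_left hS16 (show 0 ≤ 2 * K1 ^ 2 by positivity)
    have h3 := mul_le_mul_of_nonneg_right h2 hpos
    linarith
  rw [integral_const_mul, integral_add hI0 hI1, hD0, hD1] at hmono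
  linarith

theorem abs_point {a b a' b' ε y f1 f2 f3 f4 K1 : ℝ} (ha : |a| ≤ 1) (hb : |b| ≤ 1)
    (ha' : |a'| ≤ 1) (hb' : |b'| ≤ 1)
    (h : y ≤ 2 * K1 ^ 2 * (|a| + |b| + |a'| + |b'|) ^ 2 * ((a - a') ^ 2 + (b - b') ^ 2))
    (h1 : 0 ≤ f1) (h2 : 0 ≤ f2) (h3 : 0 ≤ f3) (h4 : 0 ≤ f4)
    (e1 : ε < |a| → f1 = 1) (e2 : ε < |b| → f2 = 1) (e3 : ε < |a'| → f3 = 1)
    (e4 : ε < |b'| → f4 = 1) :
    y ≤ 32 * K1 ^ 2 * ε ^ 2 * ((a - a') ^ 2 + (b - b') ^ 2) +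
      256 * K1 ^ 2 * (f1 + f2 + f3 + f4) := by
  obtain ⟨S, hS⟩ : ∃ S, S = |a| + |b| + |a'| + |b'| := ⟨_, rfl⟩
  obtain ⟨Q, hQ⟩ : ∃ Q, Q = (a - a') ^ 2 + (b - b') ^ 2 := ⟨_, rfl⟩
  have hS0 : 0 ≤ S := by rw [hS]; positivity
  have hQ0 : 0 ≤ Q := by rw [hQ]; positivity
  have hS4 : S ≤ 4 := by rw [hS]; linarith
  have hsq : ∀ u v : ℝ, |u| ≤ 1 → |v| ≤ 1 → (u - v) ^ 2 ≤ 4 := by
    intro u v hu hv
    have h5 : |u - v| ≤ 2 := by
      have := abs_sub u v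
      linarith
    have h6 := pow_le_pow_left₀ (abs_nonneg _) h5 2
    rw [sq_abs] at h6
    linarith
  have hQ8 : Q ≤ 8 := by
    rw [hQ]
    linarith [hsq a a' ha ha', hsq b b' hb hb']
  rw [← hS, ← hQ] at h
  rw [← hQ]
  refine h.trans ?_
  by_cases hall : |a| ≤ ε ∧ |b| ≤ ε ∧ |a'| ≤ ε ∧ |b'| ≤ ε
  · have hS4' : S ≤ 4 * ε := by rw [hS]; linarith [hall.1, hall.2.1, hall.2.2.1, hall.2.2.2]
    have hS2 : S ^ 2 ≤ 16 * ε ^ 2 := by
      have := pow_le_pow_left₀ hS0 hS4' 2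
      linarith
    have g1 := mul_le_mul_of_nonneg_left hS2 (show 0 ≤ 2 * K1 ^ 2 by positivity)
    have g2 := mul_le_mul_of_nonneg_right g1 hQ0
    have g3 : 0 ≤ 256 * K1 ^ 2 * (f1 + f2 + f3 + f4) := by positivity
    linarith
  · have hsum1 : 1 ≤ f1 + f2 + f3 + f4 := by
      by_contra hlt
      rw [not_le] at hlt
      apply hall
      refine ⟨?_, ?_, ?_, ?_⟩
      · by_contra hc
        have := e1 (not_le.1 hc)
        linarith
      · by_contra hc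
        have := e2 (not_le.1 hc)
        linarith
      · by_contra hc
        have := e3 (not_le.1 hc)
        linarith
      · by_contra hc
        have := e4 (not_le.1 hc)
        linarith
    have hS2 : S ^ 2 ≤ 16 := by
      have := pow_le_pow_left₀ hS0 hS4 2
      linarith
    have g1 := mul_le_mul hS2 hQ8 hQ0 (by norm_num)
    have g2 := mul_le_mul_of_nonneg_left g1 (show 0 ≤ 2 * K1 ^ 2 by positivity)
    have g3 := mul_le_mul_of_nonneg_left hsum1 (show 0 ≤ 256 * K1 ^ 2 by positivity)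
    have g4 : 0 ≤ 32 * K1 ^ 2 * ε ^ 2 * Q := by positivity
    linarith

theorem abs_second [IsProbabilityMeasure ν] {P ε : ℝ}
    (hm0 : Measurable m0) (hm1 : Measurable m1) (hm0' : Measurable m0') (hm1' : Measurable m1')
    (hb : ∀ᵐ x ∂ν, |m0 x| ≤ 1 ∧ |m1 x| ≤ 1 ∧ |m0' x| ≤ 1 ∧ |m1' x| ≤ 1)
    (hg0 : ∀ x, 0 ≤ g x)
    (hpt : ∀ᵐ x ∂ν, g x ≤ 2 * K1 ^ 2 * (|m0 x| + |m1 x| + |m0' x| + |m1' x|) ^ 2 *
      ((m0 x - m0' x) ^ 2 + (m1 x - m1' x) ^ 2))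
    (hI0 : Integrable (fun x => (m0 x - m0' x) ^ 2) ν)
    (hI1 : Integrable (fun x => (m1 x - m1' x) ^ 2) ν)
    (hD0 : ∫ x, (m0 x - m0' x) ^ 2 ∂ν = D) (hD1 : ∫ x, (m1 x - m1' x) ^ 2 ∂ν = D)
    (hP0 : ν.real {x | ε < |m0 x|} = P) (hP1 : ν.real {x | ε < |m1 x|} = P)
    (hP0' : ν.real {x | ε < |m0' x|} = P) (hP1' : ν.real {x | ε < |m1' x|} = P) :
    ∫ x, g x ∂ν ≤ 64 * K1 ^ 2 * ε ^ 2 * D + 1024 * K1 ^ 2 * P := by
  have hS : ∀ m : Ω → ℝ, Measurable m → MeasurableSet {x | ε < |m x|} := fun m hm =>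
    measurableSet_lt measurable_const hm.abs
  have hF0 : ∀ (m : Ω → ℝ) x, 0 ≤ Set.indicator {x | ε < |m x|} (fun _ => (1 : ℝ)) x :=
    fun m x => Set.indicator_nonneg (fun _ _ => zero_le_one) _
  have hF1 : ∀ (m : Ω → ℝ) x, ε < |m x| → Set.indicator {x | ε < |m x|} (fun _ => (1 : ℝ)) x = 1 :=
    fun m x hx => Set.indicator_of_mem (s := {x | ε < |m x|}) hx _
  have hFi : ∀ m : Ω → ℝ, Measurable m →
      Integrable (Set.indicator {x | ε < |m x|} (fun _ => (1 : ℝ))) ν := fun m hm =>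
    (integrable_const _).indicator (hS m hm)
  have hFint : ∀ m : Ω → ℝ, Measurable m → ν.real {x | ε < |m x|} = P →
      ∫ x, Set.indicator {x | ε < |m x|} (fun _ => (1 : ℝ)) x ∂ν = P := by
    intro m hm hP
    rw [integral_indicator_const _ (hS m hm), smul_eq_mul, mul_one, hP]
  obtain ⟨F0, hF0e⟩ : ∃ F, F = Set.indicator {x | ε < |m0 x|} (fun _ => (1 : ℝ)) := ⟨_, rfl⟩
  obtain ⟨F1, hF1e⟩ : ∃ F, F = Set.indicator {x | ε < |m1 x|} (fun _ => (1 : ℝ)) := ⟨_, rfl⟩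
  obtain ⟨F0', hF0e'⟩ : ∃ F, F = Set.indicator {x | ε < |m0' x|} (fun _ => (1 : ℝ)) := ⟨_, rfl⟩
  obtain ⟨F1', hF1e'⟩ : ∃ F, F = Set.indicator {x | ε < |m1' x|} (fun _ => (1 : ℝ)) := ⟨_, rfl⟩
  have i0 : Integrable F0 ν := by rw [hF0e]; exact hFi m0 hm0
  have i1 : Integrable F1 ν := by rw [hF1e]; exact hFi m1 hm1
  have i0' : Integrable F0' ν := by rw [hF0e']; exact hFi m0' hm0'
  have i1' : Integrable F1' ν := by rw [hF1e']; exact hFi m1' hm1'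
  have j0 : ∫ x, F0 x ∂ν = P := by rw [hF0e]; exact hFint m0 hm0 hP0
  have j1 : ∫ x, F1 x ∂ν = P := by rw [hF1e]; exact hFint m1 hm1 hP1
  have j0' : ∫ x, F0' x ∂ν = P := by rw [hF0e']; exact hFint m0' hm0' hP0'
  have j1' : ∫ x, F1' x ∂ν = P := by rw [hF1e']; exact hFint m1' hm1' hP1'
  have hmono : ∫ x, g x ∂ν ≤ ∫ x, (32 * K1 ^ 2 * ε ^ 2 *
      ((m0 x - m0' x) ^ 2 + (m1 x - m1' x) ^ 2) +
        256 * K1 ^ 2 * (F0 x + F1 x + F0' x + F1' x)) ∂ν := by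
    refine integral_mono_of_nonneg (Eventually.of_forall hg0)
      (((hI0.add hI1).const_mul _).add ((((i0.add i1).add i0').add i1').const_mul _)) ?_
    filter_upwards [hpt, hb] with x hx hbx
    refine abs_point hbx.1 hbx.2.1 hbx.2.2.1 hbx.2.2.2 hx ?_ ?_ ?_ ?_ ?_ ?_ ?_ ?_
    · rw [hF0e]; exact hF0 _ _
    · rw [hF1e]; exact hF0 _ _
    · rw [hF0e']; exact hF0 _ _
    · rw [hF1e']; exact hF0 _ _
    · rw [hF0e]; exact hF1 _ _
    · rw [hF1e]; exact hF1 _ _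
    · rw [hF0e']; exact hF1 _ _
    · rw [hF1e']; exact hF1 _ _
  have hA : Integrable (fun x => 32 * K1 ^ 2 * ε ^ 2 *
      ((m0 x - m0' x) ^ 2 + (m1 x - m1' x) ^ 2)) ν := (hI0.add hI1).const_mul _
  have hB2 : Integrable (fun x => F0 x + F1 x) ν := i0.add i1
  have hB3 : Integrable (fun x => F0 x + F1 x + F0' x) ν := hB2.add i0'
  have hB4 : Integrable (fun x => F0 x + F1 x + F0' x + F1' x) ν := hB3.add i1'
  have hB : Integrable (fun x => 256 * K1 ^ 2 * (F0 x + F1 x + F0' x + F1' x)) ν :=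
    hB4.const_mul _
  rw [integral_add hA hB, integral_const_mul, integral_const_mul, integral_add hI0 hI1,
    integral_add hB3 i1', integral_add hB2 i0', integral_add i0 i1, hD0, hD1, j0, j1, j0',
    j1'] at hmono
  linarith

end abstract

variable [G.LocallyFinite] {d : ℕ} {β : ℝ} {μ : Measure (V → Bool)} {zb C1 q : ℝ}
  {ν : Measure ((V × ℕ → ℝ) × (V × ℕ → ℝ))}

theorem ae_swap (h : PairEnv G μ (Real.tanh β) d zb C1 q ν)
    {P : (V × ℕ → ℝ) × (V × ℕ → ℝ) → Prop} (hP : ∀ᵐ x ∂ν, P x) : ∀ᵐ x ∂ν, P x.swap := by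
  rw [← h.swap] at hP
  exact ae_of_ae_map measurable_swap.aemeasurable hP

theorem map_hom (hE : Env G d β μ) (h : PairEnv G μ (Real.tanh β) d zb C1 q ν) (o o' : V) :
    ν.map (fun x => (M G μ Set.univ o x.1, M G μ Set.univ o x.2)) =
      ν.map (fun x => (M G μ Set.univ o' x.1, M G μ Set.univ o' x.2)) := by
  have := hE.prob
  obtain ⟨g, hg, -⟩ := exists_iso_of_dist_eq hE.tree hE.reg (u := o) (v := o) (u2 := o')
    (v2 := o') (by rw [SimpleGraph.dist_self, SimpleGraph.dist_self])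
  have hμ : μ.map (actC g.toEquiv) = μ := IsFreeIsing.map_iso hE.tree hE.ising g
  have hm1 : Measurable (fun x : (V × ℕ → ℝ) × (V × ℕ → ℝ) =>
      (M G μ Set.univ o' x.1, M G μ Set.univ o' x.2)) :=
    ((measurable_M G μ _ _).comp measurable_fst).prodMk
      ((measurable_M G μ _ _).comp measurable_snd)
  have hm2 : Measurable (Prod.map (actE g.toEquiv) (actE g.toEquiv) :
      (V × ℕ → ℝ) × (V × ℕ → ℝ) → (V × ℕ → ℝ) × (V × ℕ → ℝ)) :=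
    (measurable_actE' g.toEquiv).prodMap (measurable_actE' g.toEquiv)
  conv_rhs => rw [← h.inv g]
  rw [Measure.map_map hm1 hm2]
  congr 1
  funext x
  simp only [Function.comp_apply, Prod.map_fst, Prod.map_snd, ← hg]
  rw [M_univ_act hE.tree.connected g hμ, M_univ_act hE.tree.connected g hμ]

theorem pD_hom (hE : Env G d β μ) (h : PairEnv G μ (Real.tanh β) d zb C1 q ν) (o o' : V) :
    pD G μ o ν = pD G μ o' ν := by
  have := hE.prob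
  have hm : ∀ v : V, Measurable (fun x : (V × ℕ → ℝ) × (V × ℕ → ℝ) =>
      (M G μ Set.univ v x.1, M G μ Set.univ v x.2)) := fun v =>
    ((measurable_M G μ _ _).comp measurable_fst).prodMk
      ((measurable_M G μ _ _).comp measurable_snd)
  have hF : Measurable (fun y : ℝ × ℝ => (y.1 - y.2) ^ 2) :=
    (measurable_fst.sub measurable_snd).pow_const 2
  have key : ∀ v : V, pD G μ v ν =
      ∫ y, (y.1 - y.2) ^ 2 ∂(ν.map (fun x => (M G μ Set.univ v x.1, M G μ Set.univ v x.2))) := by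
    intro v
    rw [integral_map (hm v).aemeasurable hF.aestronglyMeasurable]
    rfl
  rw [key o, key o', map_hom hE h o o']

theorem ev_hom (hE : Env G d β μ) (h : PairEnv G μ (Real.tanh β) d zb C1 q ν) (o o' : V)
    (ε : ℝ) : ν.real {x | ε < |M G μ Set.univ o x.1|} =
      ν.real {x | ε < |M G μ Set.univ o' x.1|} := by
  have := hE.prob
  have hm : ∀ v : V, Measurable (fun x : (V × ℕ → ℝ) × (V × ℕ → ℝ) =>
      (M G μ Set.univ v x.1, M G μ Set.univ v x.2)) := fun v =>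
    ((measurable_M G μ _ _).comp measurable_fst).prodMk
      ((measurable_M G μ _ _).comp measurable_snd)
  have hS : MeasurableSet {y : ℝ × ℝ | ε < |y.1|} :=
    measurableSet_lt measurable_const (measurable_fst.abs)
  have key : ∀ v : V, ν.real {x | ε < |M G μ Set.univ v x.1|} =
      (ν.map (fun x => (M G μ Set.univ v x.1, M G μ Set.univ v x.2))).real
        {y : ℝ × ℝ | ε < |y.1|} := by
    intro v
    rw [map_measureReal_apply (hm v) hS]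
    rfl
  rw [key o, key o', map_hom hE h o o']

theorem ev_swap (hE : Env G d β μ) (h : PairEnv G μ (Real.tanh β) d zb C1 q ν) (o : V)
    (ε : ℝ) : ν.real {x | ε < |M G μ Set.univ o x.2|} =
      ν.real {x | ε < |M G μ Set.univ o x.1|} := by
  have := hE.prob
  have hS : MeasurableSet {x : (V × ℕ → ℝ) × (V × ℕ → ℝ) | ε < |M G μ Set.univ o x.1|} :=
    measurableSet_lt measurable_const (((measurable_M G μ _ _).comp measurable_fst).abs)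
  conv_rhs => rw [← h.swap]
  rw [map_measureReal_apply measurable_swap hS]
  rfl

theorem bM2 (h : PairEnv G μ (Real.tanh β) d zb C1 q ν) (v : V) :
    ∀ᵐ x ∂ν, |M G μ Set.univ v x.1| ≤ zb ∧ |M G μ Set.univ v x.2| ≤ zb := by
  filter_upwards [h.bM v, ae_swap h (h.bM v)] with x h1 h2
  exact ⟨h1, h2⟩

theorem intBdd {f : (V × ℕ → ℝ) × (V × ℕ → ℝ) → ℝ}
    (h : PairEnv G μ (Real.tanh β) d zb C1 q ν) (hf : Measurable f) {B : ℝ}
    (hB : ∀ᵐ x ∂ν, |f x| ≤ B) : Integrable f ν := by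
  have := h.prob
  exact Integrable.of_bound hf.aestronglyMeasurable B
    (by filter_upwards [hB] with x hx; rwa [Real.norm_eq_abs])

theorem integrable_dM (hE : Env G d β μ) (h : PairEnv G μ (Real.tanh β) d zb C1 q ν) (v : V) :
    Integrable (fun x => (M G μ Set.univ v x.1 - M G μ Set.univ v x.2) ^ 2) ν := by
  have := hE.prob
  refine intBdd h (B := 4) ?_ ?_
  · exact (((measurable_M G μ _ _).comp measurable_fst).sub
      ((measurable_M G μ _ _).comp measurable_snd)).pow_const 2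
  · filter_upwards [bM2 h v] with x hx
    have h1 := abs_le.1 (hx.1.trans h.zb1.le)
    have h2 := abs_le.1 (hx.2.trans h.zb1.le)
    rw [abs_of_nonneg (sq_nonneg _)]
    nlinarith

end PairShortAux

open PairShortAux

/-- One pair `(p 0, p n)`, crude bound: `E (Cv - Cv')² ≤ C θ^{2n} (D + n K)`
(`cov_diff` with `Z = ∑ γ ≤ 0`, `exp ≤ 1`, and `t1`). -/
theorem PairEnv.pair_short [G.LocallyFinite] {d : ℕ} {β : ℝ} {μ : Measure (V → Bool)}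
    (hE : Env G d β μ) (zb C1 : ℝ) :
    ∃ C : ℝ, 0 ≤ C ∧ ∀ (q : ℝ) (ν : Measure ((V × ℕ → ℝ) × (V × ℕ → ℝ))),
      PairEnv G μ (Real.tanh β) d zb C1 q ν → ∀ (p : ℕ → V) (n : ℕ), 1 ≤ n → Geo G p n →
      ∫ x, (Cv G μ Set.univ (p 0) (p n) x.1 - Cv G μ Set.univ (p 0) (p n) x.2) ^ 2 ∂ν ≤
        C * (Real.tanh β ^ 2) ^ n * (pD G μ (p 0) ν + n * pK G μ (Real.tanh β) (p 0) (p 1) ν) := by
  by_cases hz : 0 ≤ zb ∧ zb < 1 ∧ 0 ≤ C1
  swap
  · exact ⟨0, le_rfl, fun q ν h => absurd ⟨h.zb0, h.zb1, h.C10⟩ hz⟩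
  obtain ⟨hz0, hz1, hC1⟩ := hz
  have := hE.prob
  have hθ0 := hE.theta_pos.le
  have hθ1 := hE.theta_lt_one
  obtain ⟨Cc, hCc0, hCc⟩ := cov_diff zb hz0 hz1
  obtain ⟨Cl, hCl0, hCl⟩ := abs_log_ph_le (Real.tanh β) zb hθ0 hθ1 hz0 hz1
  refine ⟨Cc * (2 + 2 * C1), by positivity, fun q ν h p n hn hp => ?_⟩
  have := h.prob
  -- a.e. facts for one coordinate
  have hone : ∀ᵐ x ∂ν, |M G μ Set.univ (p 0) x.1| ≤ zb ∧ |M G μ Set.univ (p n) x.1| ≤ zb ∧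
      (∀ i < n, |msg G μ (p i) (p (i + 1)) x.1| ≤ zb ∧ |msg G μ (p (i + 1)) (p i) x.1| ≤ zb) ∧
      0 ≤ Cv G μ Set.univ (p 0) (p n) x.1 ∧
      Cv G μ Set.univ (p 0) (p n) x.1 ^ 2 =
        (1 - M G μ Set.univ (p 0) x.1 ^ 2) * (1 - M G μ Set.univ (p n) x.1 ^ 2) *
        (Real.tanh β ^ n) ^ 2 *
        Real.exp (2 * ∑ i ∈ Finset.range n, gam G μ (Real.tanh β) (p i) (p (i + 1)) x.1) := by
    filter_upwards [h.bM (p 0), h.bM (p n),
      ae_all_iff.2 (fun i : ℕ => h.bm (p i) (p (i + 1))),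
      ae_all_iff.2 (fun i : ℕ => h.bm (p (i + 1)) (p i)), h.covn (p 0) (p n), h.cov2 p n hp]
      with x h1 h2 h3 h4 h5 h6
    refine ⟨h1, h2, fun i _ => ⟨h3 i, h4 i⟩, h5, ?_⟩
    rw [h6, prod_eq_exp hθ0 hθ1 hz1 (fun i _ => ⟨h3 i, h4 i⟩), ← pow_mul, ← pow_mul,
      mul_comm 2 n]
  have htwo := ae_swap h hone
  obtain ⟨ΔZ, hΔZ⟩ : ∃ ΔZ : (V × ℕ → ℝ) × (V × ℕ → ℝ) → ℝ, ∀ x, ΔZ x =
      ∑ i ∈ Finset.range n, (gam G μ (Real.tanh β) (p i) (p (i + 1)) x.1 -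
        gam G μ (Real.tanh β) (p i) (p (i + 1)) x.2) := ⟨fun x => _, fun x => rfl⟩
  have hΔZm : Measurable ΔZ := by
    have : ΔZ = fun x => ∑ i ∈ Finset.range n, (gam G μ (Real.tanh β) (p i) (p (i + 1)) x.1 -
        gam G μ (Real.tanh β) (p i) (p (i + 1)) x.2) := funext hΔZ
    rw [this]
    exact Finset.measurable_sum _ fun i _ => ((measurable_gam G μ _ _ _).comp measurable_fst).sub
      ((measurable_gam G μ _ _ _).comp measurable_snd)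
  have hgamb : ∀ w : V × ℕ → ℝ, (∀ i < n, |msg G μ (p i) (p (i + 1)) w| ≤ zb ∧
      |msg G μ (p (i + 1)) (p i) w| ≤ zb) → ∀ i < n,
      |gam G μ (Real.tanh β) (p i) (p (i + 1)) w| ≤ Cl := by
    intro w hw i hi
    have e1 := abs_le.1 (hCl _ (hw i hi).1)
    have e2 := abs_le.1 (hCl _ (hw i hi).2)
    unfold gam
    rw [abs_le]
    constructor <;> linarith
  have hΔZb : ∀ᵐ x ∂ν, |ΔZ x ^ 2| ≤ (n * (2 * Cl)) ^ 2 := by
    filter_upwards [hone, htwo] with x hx hx'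
    have e1 : |ΔZ x| ≤ n * (2 * Cl) := by
      rw [hΔZ]
      refine (Finset.abs_sum_le_sum_abs _ _).trans ?_
      calc ∑ i ∈ Finset.range n, |gam G μ (Real.tanh β) (p i) (p (i + 1)) x.1 -
            gam G μ (Real.tanh β) (p i) (p (i + 1)) x.2|
          ≤ ∑ _i ∈ Finset.range n, 2 * Cl := by
            refine Finset.sum_le_sum fun i hi => ?_
            have hi' := Finset.mem_range.1 hi
            have e2 := abs_le.1 (hgamb x.1 hx.2.2.1 i hi')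
            have e3 := abs_le.1 (hgamb x.2 hx'.2.2.1 i hi')
            rw [abs_le]
            constructor <;> linarith
        _ = n * (2 * Cl) := by rw [Finset.sum_const, Finset.card_range, nsmul_eq_mul]
    rw [abs_of_nonneg (sq_nonneg _), ← sq_abs]
    exact pow_le_pow_left₀ (abs_nonneg _) e1 2
  have hI0 := integrable_dM hE h (p 0)
  have hIn := integrable_dM hE h (p n)
  have hIZ : Integrable (fun x => ΔZ x ^ 2) ν := intBdd h (hΔZm.pow_const 2) hΔZb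
  obtain ⟨T, hT⟩ : ∃ T : ℝ, T = (Real.tanh β ^ 2) ^ n := ⟨_, rfl⟩
  have hT0 : 0 ≤ T := by rw [hT]; positivity
  have hpt : ∀ᵐ x ∂ν,
      (Cv G μ Set.univ (p 0) (p n) x.1 - Cv G μ Set.univ (p 0) (p n) x.2) ^ 2 ≤
      Cc * T * ((M G μ Set.univ (p 0) x.1 - M G μ Set.univ (p 0) x.2) ^ 2 +
        (M G μ Set.univ (p n) x.1 - M G μ Set.univ (p n) x.2) ^ 2 + 2 * ΔZ x ^ 2) := by
    filter_upwards [hone, htwo] with x hx hx'
    obtain ⟨a1, a2, a3, a4, a5⟩ := hx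
    obtain ⟨b1, b2, b3, b4, b5⟩ := hx'
    rw [Prod.fst_swap] at b1 b2 b4 b5
    have hk := hCc _ _ _ _ (Real.tanh β ^ n) _ _ _ _ a1 a2 b1 b2 (by positivity) a4 b4 a5 b5
    have hZ1 := sum_gam_nonpos hθ0 hθ1 hz1 a3
    have hZ2 := sum_gam_nonpos hθ0 hθ1 hz1 b3
    rw [Prod.fst_swap] at hZ2
    have hΔ : ΔZ x = (∑ i ∈ Finset.range n, gam G μ (Real.tanh β) (p i) (p (i + 1)) x.1) -
        ∑ i ∈ Finset.range n, gam G μ (Real.tanh β) (p i) (p (i + 1)) x.2 := by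
      rw [hΔZ, Finset.sum_sub_distrib]
    have hTe : (Real.tanh β ^ n) ^ 2 = T := by
      rw [hT, ← pow_mul, ← pow_mul, mul_comm]
    rw [hTe, ← hΔ] at hk
    have he1 : Real.exp (2 * ∑ i ∈ Finset.range n, gam G μ (Real.tanh β) (p i) (p (i + 1)) x.1)
        ≤ 1 := Real.exp_le_one_iff.2 (by linarith)
    have he2 : Real.exp (2 * ∑ i ∈ Finset.range n, gam G μ (Real.tanh β) (p i) (p (i + 1)) x.2)
        ≤ 1 := Real.exp_le_one_iff.2 (by linarith)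
    refine hk.trans (mul_le_mul_of_nonneg_left ?_ (mul_nonneg hCc0 hT0))
    have s1 := sq_nonneg (M G μ Set.univ (p 0) x.1 - M G μ Set.univ (p 0) x.2)
    have s2 := sq_nonneg (M G μ Set.univ (p n) x.1 - M G μ Set.univ (p n) x.2)
    have s3 := sq_nonneg (ΔZ x)
    have t1 := mul_le_mul_of_nonneg_left he2 (add_nonneg s1 s2)
    have t2 := mul_le_mul_of_nonneg_left (add_le_add he1 he2) s3
    linarith
  have hRint : Integrable (fun x =>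
      Cc * T * ((M G μ Set.univ (p 0) x.1 - M G μ Set.univ (p 0) x.2) ^ 2 +
        (M G μ Set.univ (p n) x.1 - M G μ Set.univ (p n) x.2) ^ 2 + 2 * ΔZ x ^ 2)) ν :=
    ((hI0.add hIn).add (hIZ.const_mul 2)).const_mul _
  have hmono := integral_mono_of_nonneg (Eventually.of_forall fun x => sq_nonneg _) hRint hpt
  refine hmono.trans ?_
  rw [integral_const_mul]
  have hsum : ∫ x, ((M G μ Set.univ (p 0) x.1 - M G μ Set.univ (p 0) x.2) ^ 2 +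
        (M G μ Set.univ (p n) x.1 - M G μ Set.univ (p n) x.2) ^ 2 + 2 * ΔZ x ^ 2) ∂ν =
      pD G μ (p 0) ν + pD G μ (p n) ν + 2 * ∫ x, ΔZ x ^ 2 ∂ν := by
    have e1 := integral_add (μ := ν) (hI0.add hIn) (hIZ.const_mul 2)
    have e2 := integral_add (μ := ν) hI0 hIn
    have e3 : ∫ x, 2 * ΔZ x ^ 2 ∂ν = 2 * ∫ x, ΔZ x ^ 2 ∂ν := integral_const_mul _ _
    simp only [Pi.add_apply] at e1 e2
    rw [e1, e2, e3]
    rfl
  rw [hsum, ← pD_hom hE h (p 0) (p n)]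
  have ht1 := h.t1 p n hp
  have ht1' : ∫ x, ΔZ x ^ 2 ∂ν ≤ C1 * n * pK G μ (Real.tanh β) (p 0) (p 1) ν := by
    have : (fun x => ΔZ x ^ 2) = fun x => (∑ i ∈ Finset.range n,
        (gam G μ (Real.tanh β) (p i) (p (i + 1)) x.1 -
        gam G μ (Real.tanh β) (p i) (p (i + 1)) x.2)) ^ 2 := funext fun x => by rw [hΔZ]
    rw [this]
    exact ht1
  have hD0 : 0 ≤ pD G μ (p 0) ν := integral_nonneg fun x => sq_nonneg _
  have hK0 : 0 ≤ pK G μ (Real.tanh β) (p 0) (p 1) ν := integral_nonneg fun x => sq_nonneg _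
  have hnK : 0 ≤ (n : ℝ) * pK G μ (Real.tanh β) (p 0) (p 1) ν := by positivity
  rw [← hT]
  calc Cc * T * (pD G μ (p 0) ν + pD G μ (p 0) ν + 2 * ∫ x, ΔZ x ^ 2 ∂ν)
      ≤ Cc * T * ((2 + 2 * C1) * (pD G μ (p 0) ν +
          n * pK G μ (Real.tanh β) (p 0) (p 1) ν)) := by
        refine mul_le_mul_of_nonneg_left ?_ (mul_nonneg hCc0 hT0)
        have := mul_nonneg hC1 hD0
        linarith only [ht1', hnK, this]
    _ = _ := by ring

namespace PairShortAux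

theorem pK_point [G.LocallyFinite] {d : ℕ} {β : ℝ} {μ : Measure (V → Bool)}
    {zb C1 q Cl Ce Ci : ℝ} {ν : Measure ((V × ℕ → ℝ) × (V × ℕ → ℝ))}
    (h : PairEnv G μ (Real.tanh β) d zb C1 q ν) (hCl0 : 0 ≤ Cl) (hCe0 : 0 ≤ Ce) (hCi0 : 0 ≤ Ci)
    (hCl : ∀ x x' : ℝ, |x| ≤ zb → |x'| ≤ zb →
      |Real.log (ph (Real.tanh β) x) - Real.log (ph (Real.tanh β) x')| ≤
        Cl * (|x| + |x'|) * |x - x'|)
    (hCi : ∀ a b a' b' : ℝ, |a| ≤ 1 → |b| ≤ 1 → |a'| ≤ 1 → |b'| ≤ 1 →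
      |a - a'| ≤ Ci * (|(b + Real.tanh β * a) / (1 + Real.tanh β * b * a) -
          (b' + Real.tanh β * a') / (1 + Real.tanh β * b' * a')| +
        |(a + Real.tanh β * b) / (1 + Real.tanh β * a * b) -
          (a' + Real.tanh β * b') / (1 + Real.tanh β * a' * b')|))
    (hCe : ∀ a b : ℝ, |a| ≤ 1 → |b| ≤ 1 →
      |a| ≤ Ce * (|(b + Real.tanh β * a) / (1 + Real.tanh β * b * a)| +
        |(a + Real.tanh β * b) / (1 + Real.tanh β * a * b)|))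
    {p0 p1 : V} (hadj : G.Adj p0 p1) :
    ∀ᵐ x ∂ν, (gam G μ (Real.tanh β) p0 p1 x.1 - gam G μ (Real.tanh β) p0 p1 x.2) ^ 2 ≤
      2 * (Cl * Ce * Ci) ^ 2 * (|M G μ Set.univ p0 x.1| + |M G μ Set.univ p1 x.1| +
        |M G μ Set.univ p0 x.2| + |M G μ Set.univ p1 x.2|) ^ 2 *
        ((M G μ Set.univ p0 x.1 - M G μ Set.univ p0 x.2) ^ 2 +
          (M G μ Set.univ p1 x.1 - M G μ Set.univ p1 x.2) ^ 2) := by
  have hz1 := h.zb1
  filter_upwards [h.bm p0 p1, h.bm p1 p0, h.edge p0 p1 hadj, h.edge p1 p0 hadj.symm,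
    ae_swap h (h.bm p0 p1), ae_swap h (h.bm p1 p0), ae_swap h (h.edge p0 p1 hadj),
    ae_swap h (h.edge p1 p0 hadj.symm)] with x ha hb h0 h1 ha' hb' h0' h1'
  rw [Prod.fst_swap] at ha' hb' h0' h1'
  have la := ha.trans hz1.le
  have lb := hb.trans hz1.le
  have la' := ha'.trans hz1.le
  have lb' := hb'.trans hz1.le
  have i1 := hCi _ _ _ _ la lb la' lb'
  have i2 := hCi _ _ _ _ lb la lb' la'
  have j1 := hCe _ _ la lb
  have j2 := hCe _ _ lb la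
  have j1' := hCe _ _ la' lb'
  have j2' := hCe _ _ lb' la'
  rw [← h0, ← h1, ← h0', ← h1'] at i1 i2
  rw [← h0, ← h1] at j1 j2
  rw [← h0', ← h1'] at j1' j2'
  exact real_bound hCl0 hCe0 hCi0 (hCl _ _ ha ha') (hCl _ _ hb hb') j1 j2 j1' j2' i1 i2

end PairShortAux

/-- `K ≤ C (ε² D + P(|M_o| > ε))` for all `ε ∈ (0, 1]`; in particular (`ε = 1`) `K ≤ C D` since
`|M_o| ≤ 1`. From `log_ph_sub_le`, `edge_inv`, `edge_inv_abs`, homogeneity. -/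
theorem PairEnv.pK_le [G.LocallyFinite] {d : ℕ} {β : ℝ} {μ : Measure (V → Bool)}
    (hE : Env G d β μ) (zb C1 : ℝ) :
    ∃ C : ℝ, 0 ≤ C ∧ ∀ (q : ℝ) (ν : Measure ((V × ℕ → ℝ) × (V × ℕ → ℝ))),
      PairEnv G μ (Real.tanh β) d zb C1 q ν → ∀ (o p0 p1 : V), G.Adj p0 p1 →
      pK G μ (Real.tanh β) p0 p1 ν ≤ C * pD G μ o ν ∧
      ∀ ε : ℝ, 0 < ε → ε ≤ 1 →
      pK G μ (Real.tanh β) p0 p1 ν ≤
        C * (ε ^ 2 * pD G μ o ν + ν.real {x | ε < |M G μ Set.univ o x.1|}) := by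
  by_cases hz : 0 ≤ zb ∧ zb < 1
  swap
  · exact ⟨0, le_rfl, fun q ν h => absurd ⟨h.zb0, h.zb1⟩ hz⟩
  obtain ⟨hz0, hz1⟩ := hz
  have := hE.prob
  have hθ0 := hE.theta_pos.le
  have hθ1 := hE.theta_lt_one
  obtain ⟨Cl, hCl0, hCl⟩ := log_ph_sub_le (Real.tanh β) zb hθ0 hθ1 hz0 hz1
  obtain ⟨Ci, hCi0, hCi⟩ := edge_inv (Real.tanh β) hθ0 hθ1
  obtain ⟨Ce, hCe0, hCe⟩ := edge_inv_abs (Real.tanh β) hθ0 hθ1
  refine ⟨1088 * (Cl * Ce * Ci) ^ 2, by positivity, fun q ν h o p0 p1 hadj => ?_⟩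
  have := h.prob
  have hpt := pK_point h hCl0 hCe0 hCi0 hCl hCi hCe hadj
  have hI0 := integrable_dM hE h p0
  have hI1 := integrable_dM hE h p1
  have hD0 : 0 ≤ pD G μ o ν := integral_nonneg fun x => sq_nonneg _
  have hP0 : ∀ ε : ℝ, 0 ≤ ν.real {x | ε < |M G μ Set.univ o x.1|} := fun ε => measureReal_nonneg
  have hb : ∀ᵐ x ∂ν, |M G μ Set.univ p0 x.1| ≤ 1 ∧ |M G μ Set.univ p1 x.1| ≤ 1 ∧
      |M G μ Set.univ p0 x.2| ≤ 1 ∧ |M G μ Set.univ p1 x.2| ≤ 1 := by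
    filter_upwards [bM2 h p0, bM2 h p1] with x h0 h1
    exact ⟨h0.1.trans hz1.le, h1.1.trans hz1.le, h0.2.trans hz1.le, h1.2.trans hz1.le⟩
  have e0 : ∫ x, (M G μ Set.univ p0 x.1 - M G μ Set.univ p0 x.2) ^ 2 ∂ν = pD G μ o ν :=
    pD_hom hE h p0 o
  have e1 : ∫ x, (M G μ Set.univ p1 x.1 - M G μ Set.univ p1 x.2) ^ 2 ∂ν = pD G μ o ν :=
    pD_hom hE h p1 o
  constructor
  · refine (abs_first hb (fun x => sq_nonneg _) hpt hI0 hI1 e0 e1).trans ?_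
    have := mul_nonneg (sq_nonneg (Cl * Ce * Ci)) hD0
    linarith
  · intro ε _ _
    refine (abs_second ((measurable_M G μ _ _).comp measurable_fst)
      ((measurable_M G μ _ _).comp measurable_fst) ((measurable_M G μ _ _).comp measurable_snd)
      ((measurable_M G μ _ _).comp measurable_snd) hb (fun x => sq_nonneg _) hpt hI0 hI1 e0 e1
      (ev_hom hE h p0 o ε) (ev_hom hE h p1 o ε)
      ((ev_swap hE h p0 ε).trans (ev_hom hE h p0 o ε))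
      ((ev_swap hE h p1 ε).trans (ev_hom hE h p1 o ε))).trans ?_
    have g1 := mul_nonneg (mul_nonneg (sq_nonneg (Cl * Ce * Ci)) (sq_nonneg ε)) hD0
    have g2 := mul_nonneg (sq_nonneg (Cl * Ce * Ci)) (hP0 ε)
    linarith

end Vale.Agent.P161.Crit
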