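import Vale.Agent.Lib.P161.Crit.TcVert
import Vale.Agent.Lib.P161.Crit.Cov

/-!
P161-CRIT, module TdEdge: the spectral bound for edge families and for sums along geodesics.
-/

open MeasureTheory

namespace Vale.Agent.P161.Crit

variable {V : Type*} {G : SimpleGraph V}

theorem sum_succ_mul_pow_le {x : ℝ} (h0 : 0 ≤ x) (h1 : x < 1) (n : ℕ) :
    ∑ m ∈ Finset.range n, ((m:ℝ) + 1) * x ^ m ≤ 1 / (1 - x) ^ 2 := by
  have key : ∀ n : ℕ, (∑ m ∈ Finset.range n, ((m:ℝ) + 1) * x ^ m) * (1 - x)^2 =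
      1 - (n+1) * x^n + n * x^(n+1) := by
    intro n
    induction n with
    | zero => simp
    | succ n ih => rw [Finset.sum_range_succ, add_mul, ih]; push_cast; ring
  have hx : 0 < 1 - x := by linarith
  rw [le_div_iff₀ (by positivity), key]
  have h2 : x^(n+1) ≤ x^n := pow_le_pow_of_le_one h0 h1.le (Nat.le_succ n)
  have h3 : 0 ≤ x^n := pow_nonneg h0 n
  have h4 : (n:ℝ) * x^(n+1) ≤ n * x^n := mul_le_mul_of_nonneg_left h2 (Nat.cast_nonneg n)
  linarith

/-- The linear recursion. -/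
theorem td_rec_bound {d k s : ℝ} (hk : s ^ 2 = k) (hs : 7 / 5 ≤ s) (hd : d = k + 1) (c ρ : ℕ → ℝ)
    (N : ℕ) (hc : ∀ m < N, |c m| ≤ c 0)
    (hrec : ∀ m, m + 3 ≤ N → ρ (m + 1) = k ^ 2 * c (m + 2) + 2 * k * c (m + 1) + c m)
    (hρ : ∀ m, m + 3 ≤ N → |ρ (m + 1)| ≤ 2 * (m + 2) * d * k * (1 / s) ^ (m + 1) * c 0) :
    ∀ m < N, |c m| ≤ 10 * d * k * (m + 1) * (1 / s) ^ m * c 0 := by
  rcases Nat.eq_zero_or_pos N with h | hN
  · intro m hm; omega
  have hc0 : 0 ≤ c 0 := (abs_nonneg _).trans (hc 0 hN)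
  have hs0 : 0 < s := by linarith
  have hk1 : 49 / 25 ≤ k := by rw [← hk]; nlinarith only [hs]
  have hd1 : 0 < d := by linarith
  have hinv : 0 < 1 / s := by positivity
  have hss : 1 / s * s = 1 := by field_simp
  -- `D m = k c (m+1) + c m`
  have hD : ∀ m, m + 1 < N →
      |k * c (m + 1) + c m| ≤ 5 * d * k * (m + 2) * (1 / s) ^ (m + 1) * c 0 := by
    intro m
    induction m with
    | zero =>
      intro hm
      have h1 := hc 1 hm
      have h2 : |k * c (0 + 1) + c 0| ≤ k * c 0 + c 0 := by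
        refine (abs_add_le _ _).trans ?_
        rw [abs_mul, abs_of_nonneg (by linarith : 0 ≤ k), abs_of_nonneg hc0]
        have := mul_le_mul_of_nonneg_left h1 (by linarith : 0 ≤ k)
        simp only [zero_add]
        linarith
      refine h2.trans ?_
      have h3 : 5 * d * k * ((0:ℕ) + 2) * (1 / s) ^ (0 + 1) * c 0 = 10 * d * s * c 0 := by
        rw [← hk]; push_cast; field_simp; ring
      rw [h3]
      have h4 : k * c 0 + c 0 = d * c 0 := by rw [hd]; ring
      rw [h4]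
      have h5 : 0 ≤ d * c 0 := by positivity
      nlinarith only [hs, h5]
    | succ m ih =>
      intro hm
      have h1 := ih (by omega)
      have h2 := hrec m (by omega)
      have h3 := hρ m (by omega)
      have h4 : k * (k * c (m + 1 + 1) + c (m + 1)) = ρ (m + 1) - (k * c (m + 1) + c m) := by
        rw [h2]; ring
      have h5 : k * |k * c (m + 1 + 1) + c (m + 1)| ≤
          2 * (m + 2) * d * k * (1 / s) ^ (m + 1) * c 0 +
          5 * d * k * (m + 2) * (1 / s) ^ (m + 1) * c 0 := by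
        have : k * |k * c (m + 1 + 1) + c (m + 1)| = |ρ (m + 1) - (k * c (m + 1) + c m)| := by
          rw [← h4, abs_mul, abs_of_nonneg (by linarith : 0 ≤ k)]
        rw [this]
        refine (abs_sub _ _).trans ?_
        linarith
      have h6 : 2 * (m + 2) * d * k * (1 / s) ^ (m + 1) * c 0 +
          5 * d * k * (m + 2) * (1 / s) ^ (m + 1) * c 0 ≤
          k * (5 * d * k * ((m + 1 : ℕ) + 2) * (1 / s) ^ (m + 1 + 1) * c 0) := by
        have e1 : k * (5 * d * k * ((m + 1 : ℕ) + 2) * (1 / s) ^ (m + 1 + 1) * c 0) =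
            5 * s * ((m:ℝ) + 3) * (d * k * (1 / s) ^ (m + 1) * c 0) := by
          rw [← hk]; push_cast; rw [pow_succ (1 / s) (m + 1)]
          field_simp; ring
        rw [e1]
        have e2 : 2 * ((m:ℝ) + 2) * d * k * (1 / s) ^ (m + 1) * c 0 +
          5 * d * k * (m + 2) * (1 / s) ^ (m + 1) * c 0 =
            7 * ((m:ℝ) + 2) * (d * k * (1 / s) ^ (m + 1) * c 0) := by ring
        rw [e2]
        have e3 : 0 ≤ d * k * (1 / s) ^ (m + 1) * c 0 := by positivity
        refine mul_le_mul_of_nonneg_right ?_ e3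
        have hm0 : (0:ℝ) ≤ m := Nat.cast_nonneg m
        nlinarith only [hs]
      exact le_of_mul_le_mul_left (h5.trans h6) (by linarith)
  intro m
  induction m with
  | zero =>
    intro _
    rw [abs_of_nonneg hc0]
    have : (1:ℝ) ≤ 10 * d * k := by nlinarith only [hk, hs, hd]
    have h2 : 10 * d * k * ((0:ℕ) + 1) * (1 / s) ^ 0 * c 0 = (10 * d * k) * c 0 := by
      push_cast; ring
    rw [h2]
    nlinarith only [hc0, this]
  | succ m ih =>
    intro hm
    have h1 := ih (by omega)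
    have h2 := hD m hm
    have h3 : k * |c (m + 1)| ≤ 5 * d * k * (m + 2) * (1 / s) ^ (m + 1) * c 0 +
        10 * d * k * (m + 1) * (1 / s) ^ m * c 0 := by
      have e1 : k * |c (m + 1)| = |(k * c (m + 1) + c m) - c m| := by
        rw [← abs_of_nonneg (by linarith : 0 ≤ k), ← abs_mul, abs_of_nonneg (by linarith : 0 ≤ k)]
        congr 1; ring
      rw [e1]
      refine (abs_sub _ _).trans ?_
      linarith
    have h4 : 5 * d * k * (m + 2) * (1 / s) ^ (m + 1) * c 0 +
        10 * d * k * (m + 1) * (1 / s) ^ m * c 0 ≤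
        k * (10 * d * k * ((m + 1 : ℕ) + 1) * (1 / s) ^ (m + 1) * c 0) := by
      have e1 : 10 * d * k * ((m:ℝ) + 1) * (1 / s) ^ m * c 0 =
          10 * s * ((m:ℝ) + 1) * (d * k * (1 / s) ^ (m + 1) * c 0) := by
        rw [pow_succ]
        calc 10 * d * k * ((m:ℝ) + 1) * (1 / s) ^ m * c 0
            = 10 * d * k * ((m:ℝ) + 1) * (1 / s) ^ m * c 0 * (1 / s * s) := by rw [hss, mul_one]
          _ = _ := by ring
      have e2 : 0 ≤ d * k * (1 / s) ^ (m + 1) * c 0 := by positivity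
      have e3 : k * (10 * d * k * ((m + 1 : ℕ) + 1) * (1 / s) ^ (m + 1) * c 0) =
          10 * s ^ 2 * ((m:ℝ) + 2) * (d * k * (1 / s) ^ (m + 1) * c 0) := by
        rw [hk]; push_cast; ring
      rw [e1, e3]
      have e4 : 5 * d * k * ((m:ℝ) + 2) * (1 / s) ^ (m + 1) * c 0 =
          5 * ((m:ℝ) + 2) * (d * k * (1 / s) ^ (m + 1) * c 0) := by ring
      rw [e4, ← add_mul]
      refine mul_le_mul_of_nonneg_right ?_ e2
      have hm0 : (0:ℝ) ≤ m := Nat.cast_nonneg m
      nlinarith only [mul_nonneg hm0 (by linarith : 0 ≤ s - 7/5), hs]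
    exact le_of_mul_le_mul_left (h3.trans h4) (by linarith)


/-- Sums of a function of the distance. -/
theorem sum_abs_diff_le (a : ℕ → ℝ) (ha : ∀ m, 0 ≤ a m) (N i : ℕ) (hi : i < N) (f : ℕ → ℝ)
    (h1 : ∀ j, i ≤ j → j < N → f j ≤ a (j - i)) (h2 : ∀ j, j ≤ i → f j ≤ a (i - j)) :
    ∑ j ∈ Finset.range N, f j ≤ 2 * ∑ m ∈ Finset.range N, a m := by
  have e1 : ∑ j ∈ (Finset.range N).filter (fun j => i ≤ j), a (j - i) ≤
      ∑ m ∈ Finset.range N, a m := by
    rw [← Finset.sum_image (f := a) (g := fun j => j - i)]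
    · refine Finset.sum_le_sum_of_subset_of_nonneg ?_ fun m _ _ => ha m
      intro m hm
      simp only [Finset.mem_image, Finset.mem_filter, Finset.mem_range] at hm ⊢
      omega
    · intro x hx y hy hxy
      simp only [Finset.coe_filter, Finset.mem_range, Set.mem_ofPred_eq] at hx hy
      simp only at hxy
      omega
  have e2 : ∑ j ∈ (Finset.range N).filter (fun j => ¬ i ≤ j), a (i - j) ≤
      ∑ m ∈ Finset.range N, a m := by
    rw [← Finset.sum_image (f := a) (g := fun j => i - j)]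
    · refine Finset.sum_le_sum_of_subset_of_nonneg ?_ fun m _ _ => ha m
      intro m hm
      simp only [Finset.mem_image, Finset.mem_filter, Finset.mem_range] at hm ⊢
      omega
    · intro x hx y hy hxy
      simp only [Finset.coe_filter, Finset.mem_range, Set.mem_ofPred_eq] at hx hy
      simp only at hxy
      omega
  rw [← Finset.sum_filter_add_sum_filter_not (Finset.range N) (fun j => i ≤ j)]
  have e3 : ∑ j ∈ (Finset.range N).filter (fun j => i ≤ j), f j ≤
      ∑ j ∈ (Finset.range N).filter (fun j => i ≤ j), a (j - i) := by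
    refine Finset.sum_le_sum fun j hj => ?_
    simp only [Finset.mem_filter, Finset.mem_range] at hj
    exact h1 j hj.2 hj.1
  have e4 : ∑ j ∈ (Finset.range N).filter (fun j => ¬ i ≤ j), f j ≤
      ∑ j ∈ (Finset.range N).filter (fun j => ¬ i ≤ j), a (i - j) := by
    refine Finset.sum_le_sum fun j hj => ?_
    simp only [Finset.mem_filter, Finset.mem_range] at hj
    exact h2 j (by omega)
  linarith

theorem sum_ite_eq_aux {s : Finset V} [DecidableEq V] {v : V} (hv : v ∈ s) (A B : ℝ) :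
    ∑ r ∈ s, (if r = v then A else B) = A + ((s.card : ℝ) - 1) * B := by
  have h1 : ∀ r ∈ s, (if r = v then A else B) = B + (if r = v then A - B else 0) := by
    intro r _
    split_ifs <;> ring
  rw [Finset.sum_congr rfl h1, Finset.sum_add_distrib, Finset.sum_const, nsmul_eq_mul,
    Finset.sum_ite_eq' s v, if_pos hv]
  ring

theorem dist_iso_edge {G : SimpleGraph V} (hG : G.Connected) (g : G ≃g G) (u v : V) :
    G.dist (g u) (g v) = G.dist u v := by
  have key : ∀ (g : G ≃g G) (u v : V), G.dist (g u) (g v) ≤ G.dist u v := by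
    intro g u v
    obtain ⟨p, hp⟩ := hG.exists_walk_length_eq_dist u v
    have := SimpleGraph.dist_le (p.map g.toHom)
    rw [SimpleGraph.Walk.length_map, hp] at this
    exact this
  refine le_antisymm (key g u v) ?_
  have := key g.symm (g u) (g v)
  simpa using this

/-- Two edges on a geodesic: homogeneity. -/
theorem exists_iso_edges [G.LocallyFinite] (hG : G.IsTree) {d : ℕ} (hreg : G.IsRegularOfDegree d)
    {a b c e a' b' c' e' : V} (hab : G.Adj a b) (hce : G.Adj c e) (hab' : G.Adj a' b')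
    (hce' : G.Adj c' e') (h1 : G.dist a e = G.dist b e + 1) (h2 : G.dist a e = G.dist a c + 1)
    (h1' : G.dist a' e' = G.dist b' e' + 1) (h2' : G.dist a' e' = G.dist a' c' + 1)
    (h : G.dist a e = G.dist a' e') :
    ∃ g : G ≃g G, g a = a' ∧ g b = b' ∧ g c = c' ∧ g e = e' := by
  obtain ⟨g, hga, hge⟩ := exists_iso_of_dist_eq hG hreg h
  have hgd : ∀ x y, G.dist (g x) (g y) = G.dist x y := fun x y => dist_iso_edge hG.connected g x y
  refine ⟨g, hga, ?_, ?_, hge⟩
  · refine parent_unique hG (u := e') (v := a') ?_ hab' ?_ ?_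
    · rw [← hga]; exact g.map_adj_iff.2 hab
    · rw [← hga, ← hge, hgd, hgd, SimpleGraph.dist_comm, h1, SimpleGraph.dist_comm]
    · rw [SimpleGraph.dist_comm, h1', SimpleGraph.dist_comm]
  · refine parent_unique hG (u := a') (v := e') ?_ hce'.symm ?_ ?_
    · rw [← hge]; exact g.map_adj_iff.2 hce.symm
    · rw [← hga, ← hge, hgd, hgd, h2]
    · rw [h2']


theorem isProb_PO (hG : G.IsTree) {β : ℝ} {μ : Measure (V → Bool)} (hμ : IsFreeIsing G β μ) :
    IsProbabilityMeasure (PO μ) := by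
  have : Nonempty V := hG.connected.nonempty
  have := hμ.isProbabilityMeasure
  unfold PO
  infer_instance

/-- The hypotheses on the edge family. -/
structure EdgeFam (G : SimpleGraph V) (μ : Measure (V → Bool)) (Γ : V → V → Conf V → ℝ) (B : ℝ) :
    Prop where
  meas : ∀ p q, AEStronglyMeasurable (Γ p q) (PO μ)
  bd : ∀ p q, ∀ᵐ ω ∂(PO μ), |Γ p q ω| ≤ B
  mean : ∀ p q, G.Adj p q → ∫ ω, Γ p q ω ∂(PO μ) = 0
  symm : ∀ p q ω, Γ p q ω = Γ q p ω
  eqv : ∀ (g : G ≃g G) (p q : V), G.Adj p q →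
    ∀ᵐ ω ∂(PO μ), Γ (g p) (g q) (actO g.toEquiv ω) = Γ p q ω

/-- Covariance of two edges. -/
noncomputable def cvE (μ : Measure (V → Bool)) (Γ : V → V → Conf V → ℝ) (p q r t : V) : ℝ :=
  ∫ ω, Γ p q ω * Γ r t ω ∂(PO μ)

section

variable {β : ℝ} {μ : Measure (V → Bool)} {Γ : V → V → Conf V → ℝ} {B : ℝ}

theorem EdgeFam.integrable_mul [IsProbabilityMeasure (PO μ)] (h : EdgeFam G μ Γ B) (p q r t : V) :
    Integrable (fun ω => Γ p q ω * Γ r t ω) (PO μ) := by
  refine Integrable.of_bound ((h.meas p q).mul (h.meas r t)) (B * B) ?_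
  filter_upwards [h.bd p q, h.bd r t] with ω h1 h2
  rw [Real.norm_eq_abs, abs_mul]
  exact mul_le_mul h1 h2 (abs_nonneg _) ((abs_nonneg _).trans h1)

theorem EdgeFam.integrable [IsProbabilityMeasure (PO μ)] (h : EdgeFam G μ Γ B) (p q : V) :
    Integrable (Γ p q) (PO μ) := by
  refine Integrable.of_bound (h.meas p q) B ?_
  filter_upwards [h.bd p q] with ω h1
  rwa [Real.norm_eq_abs]

theorem EdgeFam.cvE_iso [G.LocallyFinite] [Countable V] (h : EdgeFam G μ Γ B) (hG : G.IsTree)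
    (hμ : IsFreeIsing G β μ) (g : G ≃g G) {p q r t : V} (hpq : G.Adj p q) (hrt : G.Adj r t) :
    cvE μ Γ (g p) (g q) (g r) (g t) = cvE μ Γ p q r t := by
  have h1 := PO_act hG hμ g
  unfold cvE
  calc ∫ ω, Γ (g p) (g q) ω * Γ (g r) (g t) ω ∂(PO μ)
      = ∫ ω, Γ (g p) (g q) ω * Γ (g r) (g t) ω ∂((PO μ).map (actO g.toEquiv)) := by rw [h1]
    _ = ∫ ω, Γ (g p) (g q) (actO g.toEquiv ω) * Γ (g r) (g t) (actO g.toEquiv ω) ∂(PO μ) := by
        refine integral_map (measurable_actO _).aemeasurable ?_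
        rw [h1]
        exact (h.meas _ _).mul (h.meas _ _)
    _ = _ := by
        refine integral_congr_ae ?_
        filter_upwards [h.eqv g p q hpq, h.eqv g r t hrt] with ω e1 e2
        rw [e1, e2]

theorem EdgeFam.cvE_eq [G.LocallyFinite] [Countable V] (h : EdgeFam G μ Γ B) (hG : G.IsTree)
    {d : ℕ} (hreg : G.IsRegularOfDegree d)
    (hμ : IsFreeIsing G β μ) {a b c e a' b' c' e' : V} (hab : G.Adj a b) (hce : G.Adj c e)
    (hab' : G.Adj a' b')
    (hce' : G.Adj c' e') (h1 : G.dist a e = G.dist b e + 1) (h2 : G.dist a e = G.dist a c + 1)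
    (h1' : G.dist a' e' = G.dist b' e' + 1) (h2' : G.dist a' e' = G.dist a' c' + 1)
    (hd : G.dist a e = G.dist a' e') :
    cvE μ Γ a b c e = cvE μ Γ a' b' c' e' := by
  obtain ⟨g, rfl, rfl, rfl, rfl⟩ := exists_iso_edges hG hreg hab hce hab' hce' h1 h2 h1' h2' hd
  exact (h.cvE_iso hG hμ g hab hce).symm

theorem EdgeFam.swap_left (h : EdgeFam G μ Γ B) (p q r t : V) :
    cvE μ Γ p q r t = cvE μ Γ q p r t := by
  unfold cvE
  refine integral_congr_ae (Filter.Eventually.of_forall fun ω => ?_)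
  simp only [h.symm p q ω]

theorem EdgeFam.swap_right (h : EdgeFam G μ Γ B) (p q r t : V) :
    cvE μ Γ p q r t = cvE μ Γ p q t r := by
  unfold cvE
  refine integral_congr_ae (Filter.Eventually.of_forall fun ω => ?_)
  simp only [h.symm r t ω]

theorem cvE_comm (p q r t : V) : cvE μ Γ p q r t = cvE μ Γ r t p q := by
  unfold cvE
  refine integral_congr_ae (Filter.Eventually.of_forall fun ω => ?_)
  simp only [mul_comm]

/-- Cauchy-Schwarz for edges of equal variance. -/
theorem EdgeFam.abs_cvE_le [IsProbabilityMeasure (PO μ)] (h : EdgeFam G μ Γ B) (p q r t : V)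
    (he : cvE μ Γ p q p q = cvE μ Γ r t r t) : |cvE μ Γ p q r t| ≤ cvE μ Γ p q p q := by
  have h1 : |cvE μ Γ p q r t| ≤ ∫ ω, |Γ p q ω * Γ r t ω| ∂(PO μ) := abs_integral_le_integral_abs
  have h2 : ∫ ω, |Γ p q ω * Γ r t ω| ∂(PO μ) ≤
      ∫ ω, (1 / 2 * (Γ p q ω * Γ p q ω) + 1 / 2 * (Γ r t ω * Γ r t ω)) ∂(PO μ) := by
    refine integral_mono (h.integrable_mul p q r t).abs
      (((h.integrable_mul p q p q).const_mul _).add ((h.integrable_mul r t r t).const_mul _))
      fun ω => ?_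
    show |Γ p q ω * Γ r t ω| ≤ _
    rw [abs_mul]
    linarith only [sq_nonneg (|Γ p q ω| - |Γ r t ω|), abs_mul_abs_self (Γ p q ω),
      abs_mul_abs_self (Γ r t ω)]
  have h3 : ∫ ω, (1 / 2 * (Γ p q ω * Γ p q ω) + 1 / 2 * (Γ r t ω * Γ r t ω)) ∂(PO μ) =
      1 / 2 * cvE μ Γ p q p q + 1 / 2 * cvE μ Γ r t r t := by
    rw [integral_add ((h.integrable_mul p q p q).const_mul _)
      ((h.integrable_mul r t r t).const_mul _), integral_const_mul, integral_const_mul]
    rfl
  rw [h3] at h2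
  linarith


/-- Covariances along the geodesic depend on the difference only. -/
theorem EdgeFam.cvE_geo [G.LocallyFinite] [Countable V] (h : EdgeFam G μ Γ B) (hG : G.IsTree)
    {d : ℕ} (hreg : G.IsRegularOfDegree d) (hμ : IsFreeIsing G β μ) {p : ℕ → V} {N : ℕ}
    (hp : Geo G p N) {i j : ℕ} (hij : i ≤ j) (hj : j < N) :
    cvE μ Γ (p i) (p (i + 1)) (p j) (p (j + 1)) =
      cvE μ Γ (p 0) (p 1) (p (j - i)) (p (j - i + 1)) := by
  have hd : ∀ i j, i ≤ j → j ≤ N → G.dist (p i) (p j) = j - i := fun i j h1 h2 =>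
    hp.dist hG.connected h1 h2
  refine h.cvE_eq hG hreg hμ (hp.1 i (by omega)) (hp.1 j hj) (hp.1 0 (by omega))
    (hp.1 (j - i) (by omega)) ?_ ?_ ?_ ?_ ?_
  · rw [hd i (j + 1) (by omega) (by omega), hd (i + 1) (j + 1) (by omega) (by omega)]; omega
  · rw [hd i (j + 1) (by omega) (by omega), hd i j (by omega) (by omega)]; omega
  · rw [hd 0 (j - i + 1) (by omega) (by omega), hd 1 (j - i + 1) (by omega) (by omega)]; omega
  · rw [hd 0 (j - i + 1) (by omega) (by omega), hd 0 (j - i) (by omega) (by omega)]; omega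
  · rw [hd i (j + 1) (by omega) (by omega), hd 0 (j - i + 1) (by omega) (by omega)]; omega

/-- All edges have the same variance. -/
theorem EdgeFam.cvE_self [G.LocallyFinite] [Countable V] (h : EdgeFam G μ Γ B) (hG : G.IsTree)
    {d : ℕ} (hreg : G.IsRegularOfDegree d) (hμ : IsFreeIsing G β μ) {a b a' b' : V}
    (hab : G.Adj a b) (hab' : G.Adj a' b') : cvE μ Γ a b a b = cvE μ Γ a' b' a' b' := by
  have h1 : G.dist a b = 1 := SimpleGraph.dist_eq_one_iff_adj.2 hab
  have h2 : G.dist a' b' = 1 := SimpleGraph.dist_eq_one_iff_adj.2 hab'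
  refine h.cvE_eq hG hreg hμ hab hab hab' hab' ?_ ?_ ?_ ?_ ?_ <;>
    simp [h1, h2]

open Classical in
/-- The covariance of the vertex sums. -/
theorem EdgeFam.vertex_sum [G.LocallyFinite] [Countable V] (h : EdgeFam G μ Γ B) (hG : G.IsTree)
    {d : ℕ} (hreg : G.IsRegularOfDegree d) (hμ : IsFreeIsing G β μ) {p : ℕ → V} {N : ℕ}
    (hp : Geo G p N) {m : ℕ} (hm : m + 3 ≤ N) :
    ∑ q ∈ G.neighborFinset (p 1), ∑ r ∈ G.neighborFinset (p (m + 2)),
        cvE μ Γ (p 1) q (p (m + 2)) r =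
      ((d:ℝ) - 1) ^ 2 * cvE μ Γ (p 0) (p 1) (p (m + 2)) (p (m + 3)) +
        2 * ((d:ℝ) - 1) * cvE μ Γ (p 0) (p 1) (p (m + 1)) (p (m + 2)) +
        cvE μ Γ (p 0) (p 1) (p m) (p (m + 1)) := by
  have hc := hG.connected
  have hd : ∀ i j, i ≤ j → j ≤ N → G.dist (p i) (p j) = j - i := fun i j h1 h2 =>
    hp.dist hG.connected h1 h2
  have hd' : ∀ i j, i ≤ j → j ≤ N → G.dist (p j) (p i) = j - i := fun i j h1 h2 => by
    rw [SimpleGraph.dist_comm]; exact hd i j h1 h2
  have huv : G.dist (p 1) (p (m + 2)) = m + 1 := by rw [hd 1 (m + 2) (by omega) (by omega)]; omega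
  have hu' : G.Adj (p 1) (p 2) := hp.1 1 (by omega)
  have hv' : G.Adj (p (m + 2)) (p (m + 1)) := (hp.1 (m + 1) (by omega)).symm
  have hu'v : G.dist (p 2) (p (m + 2)) = m := by rw [hd 2 (m + 2) (by omega) (by omega)]; omega
  have huv' : G.dist (p 1) (p (m + 1)) = m := by rw [hd 1 (m + 1) (by omega) (by omega)]; omega
  -- neighbours of `u` other than `u'`
  have hq : ∀ q, G.Adj (p 1) q → q ≠ p 2 → G.dist q (p (m + 2)) = m + 2 := by
    intro q hq hne
    rcases hG.dist_eq_dist_add_one_of_adj (p (m + 2)) hq with e | e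
    · exfalso
      refine hne (parent_unique hG (u := p (m + 2)) (v := p 1) hq hu' e ?_)
      rw [SimpleGraph.dist_comm, huv, SimpleGraph.dist_comm, hu'v]
    · rw [SimpleGraph.dist_comm, e, SimpleGraph.dist_comm, huv]
  have hr : ∀ r, G.Adj (p (m + 2)) r → r ≠ p (m + 1) → G.dist (p 1) r = m + 2 := by
    intro r hr hne
    rcases hG.dist_eq_dist_add_one_of_adj (p 1) hr with e | e
    · exfalso
      refine hne (parent_unique hG (u := p 1) (v := p (m + 2)) hr hv' e ?_)
      rw [huv, huv']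
    · rw [e, huv]
  have hval : ∀ q ∈ G.neighborFinset (p 1), ∀ r ∈ G.neighborFinset (p (m + 2)),
      cvE μ Γ (p 1) q (p (m + 2)) r = if q = p 2 then
        (if r = p (m + 1) then cvE μ Γ (p 0) (p 1) (p m) (p (m + 1)) else
          cvE μ Γ (p 0) (p 1) (p (m + 1)) (p (m + 2))) else
        (if r = p (m + 1) then cvE μ Γ (p 0) (p 1) (p (m + 1)) (p (m + 2)) else
          cvE μ Γ (p 0) (p 1) (p (m + 2)) (p (m + 3))) := by
    intro q hq1 r hr1
    rw [SimpleGraph.mem_neighborFinset] at hq1 hr1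
    by_cases hqe : q = p 2
    · subst hqe
      rw [if_pos rfl]
      by_cases hre : r = p (m + 1)
      · subst hre
        rw [if_pos rfl, h.swap_right]
        refine h.cvE_eq hG hreg hμ hu' hv'.symm (hp.1 0 (by omega)) (hp.1 m (by omega)) ?_ ?_ ?_ ?_ ?_
        · rw [huv, hu'v]
        · rw [huv, huv']
        · rw [hd 0 (m + 1) (by omega) (by omega), hd 1 (m + 1) (by omega) (by omega)]; omega
        · rw [hd 0 (m + 1) (by omega) (by omega), hd 0 m (by omega) (by omega)]; omega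
        · rw [huv, hd 0 (m + 1) (by omega) (by omega)]; omega
      · rw [if_neg hre]
        have e1 := hr r hr1 hre
        have e2 : G.dist (p 2) r = m + 1 := by
          have t1 : G.dist (p 2) r ≤ G.dist (p 2) (p (m + 2)) + G.dist (p (m + 2)) r :=
            hc.dist_triangle
          have t2 : G.dist (p 1) r ≤ G.dist (p 1) (p 2) + G.dist (p 2) r := hc.dist_triangle
          have t3 : G.dist (p (m + 2)) r = 1 := SimpleGraph.dist_eq_one_iff_adj.2 hr1
          have t4 : G.dist (p 1) (p 2) = 1 := SimpleGraph.dist_eq_one_iff_adj.2 hu'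
          omega
        refine h.cvE_eq hG hreg hμ hu' hr1 (hp.1 0 (by omega)) (hp.1 (m + 1) (by omega)) ?_ ?_ ?_ ?_ ?_
        · rw [e1, e2]
        · rw [e1, huv]
        · rw [hd 0 (m + 2) (by omega) (by omega), hd 1 (m + 2) (by omega) (by omega)]; omega
        · rw [hd 0 (m + 2) (by omega) (by omega), hd 0 (m + 1) (by omega) (by omega)]; omega
        · rw [e1, hd 0 (m + 2) (by omega) (by omega)]; omega
    · rw [if_neg hqe]
      have e1 := hq q hq1 hqe
      have t4 : G.dist q (p 1) = 1 := SimpleGraph.dist_eq_one_iff_adj.2 hq1.symm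
      have e2 : G.dist q (p (m + 1)) = m + 1 := by
        have t1 : G.dist q (p (m + 1)) ≤ G.dist q (p 1) + G.dist (p 1) (p (m + 1)) :=
          hc.dist_triangle
        have t2 : G.dist q (p (m + 2)) ≤ G.dist q (p (m + 1)) + G.dist (p (m + 1)) (p (m + 2)) :=
          hc.dist_triangle
        have t3 : G.dist (p (m + 1)) (p (m + 2)) = 1 := SimpleGraph.dist_eq_one_iff_adj.2 hv'.symm
        omega
      by_cases hre : r = p (m + 1)
      · subst hre
        rw [if_pos rfl, h.swap_left, h.swap_right]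
        refine h.cvE_eq hG hreg hμ hq1.symm hv'.symm (hp.1 0 (by omega)) (hp.1 (m + 1) (by omega))
          ?_ ?_ ?_ ?_ ?_
        · rw [e1, huv]
        · rw [e1, e2]
        · rw [hd 0 (m + 2) (by omega) (by omega), hd 1 (m + 2) (by omega) (by omega)]; omega
        · rw [hd 0 (m + 2) (by omega) (by omega), hd 0 (m + 1) (by omega) (by omega)]; omega
        · rw [e1, hd 0 (m + 2) (by omega) (by omega)]; omega
      · rw [if_neg hre, h.swap_left]
        have e3 := hr r hr1 hre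
        have e4 : G.dist q r = m + 3 := by
          rcases hG.dist_eq_dist_add_one_of_adj q hr1 with e | e
          · exfalso
            refine hre (parent_unique hG (u := q) (v := p (m + 2)) hr1 hv' e ?_)
            rw [e1, e2]
          · rw [e, e1]
        refine h.cvE_eq hG hreg hμ hq1.symm hr1 (hp.1 0 (by omega)) (hp.1 (m + 2) (by omega))
          ?_ ?_ ?_ ?_ ?_
        · rw [e4, e3]
        · rw [e4, e1]
        · rw [hd 0 (m + 3) (by omega) (by omega), hd 1 (m + 3) (by omega) (by omega)]; omega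
        · rw [hd 0 (m + 3) (by omega) (by omega), hd 0 (m + 2) (by omega) (by omega)]; omega
        · rw [e4, hd 0 (m + 3) (by omega) (by omega)]; omega
  have hmemu : p 2 ∈ G.neighborFinset (p 1) := by rw [SimpleGraph.mem_neighborFinset]; exact hu'
  have hmemv : p (m + 1) ∈ G.neighborFinset (p (m + 2)) := by
    rw [SimpleGraph.mem_neighborFinset]; exact hv'
  have hcu : ((G.neighborFinset (p 1)).card : ℝ) = d := by
    rw [G.card_neighborFinset_eq_degree, hreg.degree_eq]
  have hcv : ((G.neighborFinset (p (m + 2))).card : ℝ) = d := by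
    rw [G.card_neighborFinset_eq_degree, hreg.degree_eq]
  rw [Finset.sum_congr rfl fun q hq => Finset.sum_congr rfl fun r hr => hval q hq r hr]
  have hin : ∀ q ∈ G.neighborFinset (p 1), (∑ r ∈ G.neighborFinset (p (m + 2)),
      if q = p 2 then
        (if r = p (m + 1) then cvE μ Γ (p 0) (p 1) (p m) (p (m + 1)) else
          cvE μ Γ (p 0) (p 1) (p (m + 1)) (p (m + 2))) else
        (if r = p (m + 1) then cvE μ Γ (p 0) (p 1) (p (m + 1)) (p (m + 2)) else
          cvE μ Γ (p 0) (p 1) (p (m + 2)) (p (m + 3)))) =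
      if q = p 2 then (cvE μ Γ (p 0) (p 1) (p m) (p (m + 1)) +
        ((d:ℝ) - 1) * cvE μ Γ (p 0) (p 1) (p (m + 1)) (p (m + 2))) else
        (cvE μ Γ (p 0) (p 1) (p (m + 1)) (p (m + 2)) +
        ((d:ℝ) - 1) * cvE μ Γ (p 0) (p 1) (p (m + 2)) (p (m + 3))) := by
    intro q _
    split_ifs with hqe
    · rw [sum_ite_eq_aux hmemv, hcv]
    · rw [sum_ite_eq_aux hmemv, hcv]
  rw [Finset.sum_congr rfl hin, sum_ite_eq_aux hmemu, hcu]
  ring


/-- Integral of a product of two finite sums. -/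
theorem EdgeFam.integral_sum_mul [IsProbabilityMeasure (PO μ)] (h : EdgeFam G μ Γ B) {ι κ : Type*}
    (S : Finset ι) (T : Finset κ) (a b : ι → V) (a' b' : κ → V) :
    ∫ ω, (∑ i ∈ S, Γ (a i) (b i) ω) * (∑ j ∈ T, Γ (a' j) (b' j) ω) ∂(PO μ) =
      ∑ i ∈ S, ∑ j ∈ T, cvE μ Γ (a i) (b i) (a' j) (b' j) := by
  have e : ∀ ω, (∑ i ∈ S, Γ (a i) (b i) ω) * (∑ j ∈ T, Γ (a' j) (b' j) ω) =
      ∑ i ∈ S, ∑ j ∈ T, Γ (a i) (b i) ω * Γ (a' j) (b' j) ω := fun ω => Finset.sum_mul_sum _ _ _ _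
  simp only [e]
  rw [integral_finsetSum]
  · refine Finset.sum_congr rfl fun i _ => ?_
    rw [integral_finsetSum]
    · rfl
    · intro j _
      exact h.integrable_mul _ _ _ _
  · intro i _
    exact integrable_finsetSum _ fun j _ => h.integrable_mul _ _ _ _

theorem EdgeFam.vertex_sq [G.LocallyFinite] [Countable V] [IsProbabilityMeasure (PO μ)]
    (h : EdgeFam G μ Γ B) (hG : G.IsTree)
    {d : ℕ} (hreg : G.IsRegularOfDegree d) (hμ : IsFreeIsing G β μ) {a b u : V}
    (hab : G.Adj a b) :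
    ∫ ω, (∑ q ∈ G.neighborFinset u, Γ u q ω) ^ 2 ∂(PO μ) ≤ (d:ℝ) ^ 2 * cvE μ Γ a b a b := by
  have h1 : ∫ ω, (∑ q ∈ G.neighborFinset u, Γ u q ω) ^ 2 ∂(PO μ) =
      ∑ q ∈ G.neighborFinset u, ∑ r ∈ G.neighborFinset u, cvE μ Γ u q u r := by
    rw [← h.integral_sum_mul (G.neighborFinset u) (G.neighborFinset u) (fun _ => u) (fun q => q)
      (fun _ => u) (fun r => r)]
    refine integral_congr_ae (Filter.Eventually.of_forall fun ω => ?_)
    simp only [sq]
  rw [h1]
  have h2 : ∀ q ∈ G.neighborFinset u, ∀ r ∈ G.neighborFinset u,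
      cvE μ Γ u q u r ≤ cvE μ Γ a b a b := by
    intro q hq r hr
    rw [SimpleGraph.mem_neighborFinset] at hq hr
    have h3 := h.abs_cvE_le u q u r (h.cvE_self hG hreg hμ hq hr)
    rw [h.cvE_self hG hreg hμ hq hab] at h3
    exact (le_abs_self _).trans h3
  refine (Finset.sum_le_sum fun q hq => Finset.sum_le_sum fun r hr => h2 q hq r hr).trans
    (le_of_eq ?_)
  simp only [Finset.sum_const, nsmul_eq_mul, G.card_neighborFinset_eq_degree, hreg.degree_eq]
  ring

theorem EdgeFam.rho_bound [G.LocallyFinite] [Countable V] {d : ℕ} (hE : Env G d β μ)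
    (h : EdgeFam G μ Γ B) {p : ℕ → V} {N : ℕ}
    (hp : Geo G p N) {m : ℕ} (hm : m + 3 ≤ N) :
    (d:ℝ) * ((d:ℝ) - 1) ^ m * |∑ q ∈ G.neighborFinset (p 1), ∑ r ∈ G.neighborFinset (p (m + 2)),
        cvE μ Γ (p 1) q (p (m + 2)) r| ≤
      2 * (m + 2) * Real.sqrt ((d:ℝ) - 1) ^ (m + 1) * ((d:ℝ) ^ 2 * cvE μ Γ (p 0) (p 1) (p 0) (p 1)) := by
  have hP : IsProbabilityMeasure (PO μ) := isProb_PO hE.tree hE.ising
  have hc := hE.tree.connected
  set F : V → Conf V → ℝ := fun v ω => ∑ q ∈ G.neighborFinset v, Γ v q ω with hFdef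
  have hd : G.dist (p 1) (p (m + 2)) = m + 1 := by
    rw [hp.dist hc (by omega) (by omega)]; omega
  have h1 := spectral_vertex hE F (fun v => ?_) (d * B) (fun v => ?_) (fun v => ?_) (fun g v => ?_)
    (p 1) (p (m + 2)) (by omega)
  · rw [hd] at h1
    have e1 : ∫ ω, F (p 1) ω * F (p (m + 2)) ω ∂(PO μ) =
        ∑ q ∈ G.neighborFinset (p 1), ∑ r ∈ G.neighborFinset (p (m + 2)),
        cvE μ Γ (p 1) q (p (m + 2)) r :=
      h.integral_sum_mul (G.neighborFinset (p 1)) (G.neighborFinset (p (m + 2))) (fun _ => p 1)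
        (fun q => q) (fun _ => p (m + 2)) (fun r => r)
    rw [e1] at h1
    have e2 : m + 1 - 1 = m := by omega
    rw [e2] at h1
    refine h1.trans ?_
    have e3 : (2:ℝ) * (((m + 1 : ℕ) : ℝ) + 1) = 2 * (m + 2) := by push_cast; ring
    rw [e3]
    refine mul_le_mul_of_nonneg_left ?_ (by positivity)
    exact h.vertex_sq hE.tree hE.reg hE.ising (hp.1 0 (by omega))
  · exact Finset.aestronglyMeasurable_fun_sum _ fun q _ => h.meas v q
  · have h2 : ∀ᵐ ω ∂(PO μ), ∀ q ∈ G.neighborFinset v, |Γ v q ω| ≤ B := by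
      rw [Finset.eventually_all]
      exact fun q _ => h.bd v q
    filter_upwards [h2] with ω hω
    simp only [hFdef]
    refine (Finset.abs_sum_le_sum_abs _ _).trans ((Finset.sum_le_sum hω).trans (le_of_eq ?_))
    simp only [Finset.sum_const, nsmul_eq_mul, G.card_neighborFinset_eq_degree, hE.reg.degree_eq]
  · simp only [hFdef]
    rw [integral_finsetSum _ fun q _ => h.integrable v q]
    refine Finset.sum_eq_zero fun q hq => ?_
    rw [SimpleGraph.mem_neighborFinset] at hq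
    exact h.mean v q hq
  · have h2 : ∀ᵐ ω ∂(PO μ), ∀ q ∈ G.neighborFinset v,
        Γ (g v) (g q) (actO g.toEquiv ω) = Γ v q ω := by
      rw [Finset.eventually_all]
      intro q hq
      rw [SimpleGraph.mem_neighborFinset] at hq
      exact h.eqv g v q hq
    filter_upwards [h2] with ω hω
    simp only [hFdef]
    rw [← Finset.sum_congr rfl hω]
    symm
    refine Finset.sum_bij (fun q _ => g q) ?_ ?_ ?_ ?_
    · intro q hq
      rw [SimpleGraph.mem_neighborFinset] at hq ⊢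
      exact g.map_adj_iff.2 hq
    · intro a _ b _ hab
      exact g.injective hab
    · intro b hb
      refine ⟨g.symm b, ?_, ?_⟩
      · rw [SimpleGraph.mem_neighborFinset] at hb ⊢
        rw [← g.map_adj_iff]
        simpa using hb
      · simp
    · intro q _
      rfl

end

/-- Let `Γ p q` (for `p ~ q`) be bounded mean zero random variables, symmetric in `p, q` and
equivariant. Then along every geodesic `p 0, …, p n`
`E (∑_{i<n} Γ (p i) (p (i+1)))² ≤ C n E Γ(p 0, p 1)²` with `C` depending only on `d`.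
Proof. Let `c_j = E Γ_e Γ_f` for edges `e, f` such that the shortest geodesic containing both has
`j` edges (`c_1 = E Γ²`); well defined by two point homogeneity. Apply `spectral_vertex` to
`F v = ∑_{q ~ v} Γ v q`: with `ρ(n) = E F_u F_v`, `n = dist u v ≥ 1`,
`ρ(n) = k² c_{n+2} + 2 k c_{n+1} + c_n` (`k = d-1`; for `n = 1` the same formula holds), and
`ρ(0) ≤ d² c_1`. Put `D_n = k c_{n+1} + c_n`; then `k D_{n+1} = ρ(n) - D_n`, `|D_1| ≤ (k+1) c_1`, so
by induction `|D_n| ≤ C (n+1) k^{-n/2} c_1` and then `k c_{n+1} = D_n - c_n` gives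
`|c_n| ≤ C (n+1) k^{-n/2} c_1`, which is summable (`k ≥ 2`). Finally
`E (∑ Γ)² ≤ n c_1 + 2 ∑_{i<j} |c_{j-i+1}| ≤ n (c_1 + 2 ∑_{m ≥ 2} |c_m|)`. -/
theorem spectral_geo (d : ℕ) : ∃ C : ℝ, 0 ≤ C ∧
    ∀ {V : Type*} {G : SimpleGraph V} [G.LocallyFinite] [Countable V] {β : ℝ}
      {μ : Measure (V → Bool)} (_ : Env G d β μ) (Γ : V → V → Conf V → ℝ)
      (_ : ∀ p q, AEStronglyMeasurable (Γ p q) (PO μ)) (B : ℝ)
      (_ : ∀ p q, ∀ᵐ ω ∂(PO μ), |Γ p q ω| ≤ B)
      (_ : ∀ p q, G.Adj p q → ∫ ω, Γ p q ω ∂(PO μ) = 0)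
      (_ : ∀ p q ω, Γ p q ω = Γ q p ω)
      (_ : ∀ (g : G ≃g G) (p q : V), G.Adj p q →
        ∀ᵐ ω ∂(PO μ), Γ (g p) (g q) (actO g.toEquiv ω) = Γ p q ω)
      (p : ℕ → V) (n : ℕ) (_ : Geo G p n),
      ∫ ω, (∑ i ∈ Finset.range n, Γ (p i) (p (i + 1)) ω) ^ 2 ∂(PO μ) ≤
        C * n * ∫ ω, Γ (p 0) (p 1) ω ^ 2 ∂(PO μ) := by
  by_cases hd3 : 3 ≤ d
  swap
  · refine ⟨0, le_rfl, ?_⟩
    intro V G _ _ β μ hE
    exact absurd hE.three hd3
  set k : ℝ := (d:ℝ) - 1 with hk
  have hk2 : 2 ≤ k := by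
    have : (3:ℝ) ≤ d := by exact_mod_cast hd3
    rw [hk]; linarith
  set s : ℝ := Real.sqrt k with hs
  have hs2 : s ^ 2 = k := Real.sq_sqrt (by linarith)
  have hs75 : 7 / 5 ≤ s := Real.le_sqrt_of_sq_le (by linarith)
  have hs0 : 0 < s := by linarith
  have hx0 : 0 ≤ 1 / s := by positivity
  have hx1 : 1 / s < 1 := by rw [div_lt_one hs0]; linarith
  set A : ℝ := 1 / (1 - 1 / s) ^ 2 with hA
  have hA0 : 0 ≤ A := by positivity
  refine ⟨2 * (10 * d * k * A), by positivity, ?_⟩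
  intro V G _ _ β μ hE Γ hmeas B hbd hmean hsymm heqv p n hp
  have hP : IsProbabilityMeasure (PO μ) := isProb_PO hE.tree hE.ising
  have h : EdgeFam G μ Γ B := ⟨hmeas, hbd, hmean, hsymm, heqv⟩
  rcases Nat.eq_zero_or_pos n with hn | hn
  · subst hn; simp
  set c : ℕ → ℝ := fun m => cvE μ Γ (p 0) (p 1) (p m) (p (m + 1)) with hc
  have hc0 : c 0 = ∫ ω, Γ (p 0) (p 1) ω ^ 2 ∂(PO μ) := by
    simp only [hc, cvE, sq, zero_add]
  have hcm : ∀ m < n, |c m| ≤ c 0 := fun m hm =>
    h.abs_cvE_le (p 0) (p 1) (p m) (p (m + 1))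
      (h.cvE_self hE.tree hE.reg hE.ising (hp.1 0 hn) (hp.1 m hm))
  have hcpos : 0 ≤ c 0 := (abs_nonneg _).trans (hcm 0 hn)
  set ρ : ℕ → ℝ := fun j => ∑ q ∈ G.neighborFinset (p 1), ∑ r ∈ G.neighborFinset (p (j + 1)),
        cvE μ Γ (p 1) q (p (j + 1)) r with hρ
  have hbound : ∀ m < n, |c m| ≤ 10 * d * k * (m + 1) * (1 / s) ^ m * c 0 := by
    refine td_rec_bound hs2 hs75 (by rw [hk]; ring) c ρ n hcm ?_ ?_
    · intro m hm
      exact h.vertex_sum hE.tree hE.reg hE.ising hp hm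
    · intro m hm
      have h1 := h.rho_bound hE hp hm
      have h2 : (d:ℝ) * k ^ m * |ρ (m + 1)| ≤
          (d:ℝ) * k ^ m * (2 * (m + 2) * d * k * (1 / s) ^ (m + 1) * c 0) := by
        refine h1.trans (le_of_eq ?_)
        have e1 : k ^ m * k * (1 / s) ^ (m + 1) = s ^ (m + 1) := by
          rw [← pow_succ, ← mul_pow]
          congr 1
          rw [← hs2]; field_simp
        show 2 * ((m:ℝ) + 2) * s ^ (m + 1) * ((d:ℝ) ^ 2 * c 0) = _
        rw [← e1]; ring
      have hdpos : (0:ℝ) < d := by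
        have : (3:ℝ) ≤ d := by exact_mod_cast hd3
        linarith
      exact le_of_mul_le_mul_left h2 (by positivity)
  have hsum : ∑ m ∈ Finset.range n, |c m| ≤ 10 * d * k * A * c 0 := by
    calc ∑ m ∈ Finset.range n, |c m|
        ≤ ∑ m ∈ Finset.range n, 10 * d * k * (m + 1) * (1 / s) ^ m * c 0 :=
          Finset.sum_le_sum fun m hm => hbound m (Finset.mem_range.1 hm)
      _ = 10 * d * k * c 0 * ∑ m ∈ Finset.range n, ((m:ℝ) + 1) * (1 / s) ^ m := by
          rw [Finset.mul_sum]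
          exact Finset.sum_congr rfl fun m _ => by ring
      _ ≤ 10 * d * k * c 0 * A :=
          mul_le_mul_of_nonneg_left (sum_succ_mul_pow_le hx0 hx1 n) (by positivity)
      _ = _ := by ring
  have e1 : ∫ ω, (∑ i ∈ Finset.range n, Γ (p i) (p (i + 1)) ω) ^ 2 ∂(PO μ) =
      ∑ i ∈ Finset.range n, ∑ j ∈ Finset.range n, cvE μ Γ (p i) (p (i + 1)) (p j) (p (j + 1)) := by
    rw [← h.integral_sum_mul (Finset.range n) (Finset.range n) (fun i => p i) (fun i => p (i + 1))
      (fun i => p i) (fun i => p (i + 1))]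
    refine integral_congr_ae (Filter.Eventually.of_forall fun ω => ?_)
    simp only [sq]
  rw [e1, ← hc0]
  calc ∑ i ∈ Finset.range n, ∑ j ∈ Finset.range n, cvE μ Γ (p i) (p (i + 1)) (p j) (p (j + 1))
      ≤ ∑ i ∈ Finset.range n, 2 * (10 * d * k * A * c 0) := by
        refine Finset.sum_le_sum fun i hi => ?_
        rw [Finset.mem_range] at hi
        refine (sum_abs_diff_le (fun m => |c m|) (fun m => abs_nonneg _) n i hi _ ?_ ?_).trans ?_
        · intro j hij hj
          rw [h.cvE_geo hE.tree hE.reg hE.ising hp hij hj]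
          exact le_abs_self _
        · intro j hij
          rw [cvE_comm, h.cvE_geo hE.tree hE.reg hE.ising hp hij hi]
          exact le_abs_self _
        · linarith
    _ = 2 * (10 * d * k * A) * n * c 0 := by
        rw [Finset.sum_const, Finset.card_range, nsmul_eq_mul]; ring

end Vale.Agent.P161.Crit
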