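import Vale.Agent.Lib.P161.Crit.PairLaw
import Vale.Agent.Lib.P161.Crit.Real
import Vale.Agent.Lib.P161.Crit.Bound
import Vale.Agent.Lib.P161.Crit.TdEdge

/-!
P161-CRIT, module PairT1: the spectral bound for the doubled process.
-/

open MeasureTheory Filter Topology ProbabilityTheory

namespace Vale.Agent.P161.Crit

variable {V : Type*} {G : SimpleGraph V} {μ : Measure (V → Bool)}

namespace PairT1Aux

section general

variable {T Y : Type*} [mT : MeasurableSpace T] [StandardBorelSpace T] [Nonempty T]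
  [mY : MeasurableSpace Y] {P : Measure T} [IsProbabilityMeasure P] {Ξ : T → Y}

omit [StandardBorelSpace T] [Nonempty T] in
/-- Equivariance of the conditional expectation. -/
theorem cx_comp (hΞ : Measurable Ξ) {A : T → T} (hA : Measurable A) (hP : P.map A = P)
    {B B' : Y → Y} (hB : Measurable B) (hB' : Measurable B') (hinv : ∀ y, B' (B y) = y)
    (h : ∀ x, Ξ (A x) = B (Ξ x)) {F F' : T → ℝ} (hF' : Measurable F')
    (hC : ∃ C, ∀ x, |F' x| ≤ C) (hFF : ∀ x, F' (A x) = F x) :
    ∀ᵐ x ∂P, cx P Ξ F' (A x) = cx P Ξ F x := by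
  obtain ⟨C, hC⟩ := hC
  have hm : mY.comap Ξ ≤ mT := hΞ.comap_le
  have hF : Measurable F := by
    have : F = F' ∘ A := by
      funext x
      exact (hFF x).symm
    rw [this]
    exact hF'.comp hA
  have hFi : Integrable F P := Integrable.of_bound hF.aestronglyMeasurable C
    (Eventually.of_forall (fun x => by rw [Real.norm_eq_abs, ← hFF x]; exact hC (A x)))
  have hFi' : Integrable F' P := Integrable.of_bound hF'.aestronglyMeasurable C
    (Eventually.of_forall (fun x => by rw [Real.norm_eq_abs]; exact hC x))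
  have hsm : StronglyMeasurable (cx P Ξ F') := (stronglyMeasurable_condExp).mono hm
  have hAm : Measurable[mY.comap Ξ, mY.comap Ξ] A := by
    rw [measurable_comap_iff]
    have : Ξ ∘ A = B ∘ Ξ := by
      funext x
      exact h x
    rw [this]
    exact hB.comp (comap_measurable Ξ)
  have hint : Integrable (fun x => cx P Ξ F' (A x)) P := by
    have h1 : Integrable (cx P Ξ F') (P.map A) := by
      rw [hP]
      exact integrable_condExp
    exact h1.comp_measurable hA
  refine ae_eq_condExp_of_forall_setIntegral_eq hm hFi (fun s _ _ => hint.integrableOn) ?_ ?_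
  · rintro s ⟨C', hC', rfl⟩ _
    have hset : A ⁻¹' (Ξ ⁻¹' (B' ⁻¹' C')) = Ξ ⁻¹' C' := by
      ext x
      simp only [Set.mem_preimage, h, hinv]
    have hmeas : MeasurableSet (Ξ ⁻¹' (B' ⁻¹' C')) := hΞ (hB' hC')
    have hmeas' : MeasurableSet[mY.comap Ξ] (Ξ ⁻¹' (B' ⁻¹' C')) := ⟨_, hB' hC', rfl⟩
    have e1 := setIntegral_map (μ := P) (f := cx P Ξ F') hmeas
      hsm.aestronglyMeasurable hA.aemeasurable
    have e2 := setIntegral_map (μ := P) (f := F') hmeas
      hF'.aestronglyMeasurable hA.aemeasurable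
    rw [hP] at e1 e2
    rw [hset] at e1 e2
    rw [← e1, setIntegral_condExp hm hFi' hmeas', e2]
    exact setIntegral_congr_fun (hΞ hC') (fun x _ => hFF x)
  · exact ((stronglyMeasurable_condExp).comp_measurable hAm).aestronglyMeasurable

omit [StandardBorelSpace T] [Nonempty T] [IsProbabilityMeasure P] in
theorem abs_cx_le {F : T → ℝ} {C : ℝ} (hC : ∀ x, |F x| ≤ C) : ∀ᵐ x ∂P, |cx P Ξ F x| ≤ C := by
  exact ae_bdd_abs_condExp_of_ae_bdd_abs (μ := P) (m := mY.comap Ξ) (R := C) (f := F)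
    (Eventually.of_forall hC)

omit [StandardBorelSpace T] [Nonempty T] [IsProbabilityMeasure P] in
theorem measurable_cx (hΞ : Measurable Ξ) (F : T → ℝ) : Measurable (cx P Ξ F) :=
  ((stronglyMeasurable_condExp).mono hΞ.comap_le).measurable

omit [StandardBorelSpace T] [Nonempty T] in
theorem integral_cx (hΞ : Measurable Ξ) (F : T → ℝ) : ∫ x, cx P Ξ F x ∂P = ∫ x, F x ∂P :=
  integral_condExp hΞ.comap_le

end general

/-- the law of the spins is invariant -/
theorem mu_act [G.LocallyFinite] [Countable V] [IsProbabilityMeasure μ] {d : ℕ} {β : ℝ}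
    (hE : Env G d β μ) (g : G ≃g G) : μ.map (actC g.toEquiv) = μ := by
  have h := PO_act hE.tree hE.ising g
  have h1 := congrArg (Measure.map Prod.fst) h
  have hact : Measurable (actC g.toEquiv : (V → Bool) → (V → Bool)) :=
    measurable_pi_lambda _ (fun _ => measurable_pi_apply _)
  have hfst : (PO μ).map Prod.fst = μ := by
    unfold PO
    rw [Measure.map_fst_prod, measure_univ, one_smul]
  rw [Measure.map_map measurable_fst (measurable_actO _), hfst] at h1
  have h2 : μ.map (actC g.toEquiv) = (PO μ).map (actC g.toEquiv ∘ Prod.fst) := by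
    rw [← Measure.map_map hact measurable_fst, hfst]
  rw [h2]
  exact h1

end PairT1Aux

open PairT1Aux in
/-- The spectral bound for the doubled process. Let
`Γ p q (u,t) = γ_{pq}(ws u t x) - E[γ_{pq}(ws x) | labels, innovations]` (on `PT`, then pulled back to
`PO`): bounded (`exists_bound`, `abs_log_ph_le`, for `x ≤ J`), mean zero, symmetric, equivariant
a.s. (`gam_act`, `Xi_act`, `PT_act` and uniqueness of the conditional expectation). By
`integral_doub_sub_sq` for `F = ∑_i γ_{p_i p_{i+1}}(ws x)` the left side is `2 E (∑ Γ)²`, the right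
side `2 E Γ²`; apply `spectral_geo`. -/
theorem nuX_t1 [G.LocallyFinite] [Countable V] [IsProbabilityMeasure μ] {d : ℕ} {β : ℝ}
    (hE : Env G d β μ) {a : ℝ} (ha : 0 ≤ a) (ha1 : a < 1) :
    ∃ C1 : ℝ, 0 ≤ C1 ∧ ∀ (x : ℝ) (p : ℕ → V) (n : ℕ), Geo G p n →
    ∫ w, (∑ i ∈ Finset.range n, (gam G μ (Real.tanh β) (p i) (p (i + 1)) w.1 -
      gam G μ (Real.tanh β) (p i) (p (i + 1)) w.2)) ^ 2 ∂(nuX G μ a x) ≤
    C1 * n * ∫ w, (gam G μ (Real.tanh β) (p 0) (p 1) w.1 -
      gam G μ (Real.tanh β) (p 0) (p 1) w.2) ^ 2 ∂(nuX G μ a x) := by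
  obtain ⟨C1, hC1, hspec⟩ := spectral_geo d
  refine ⟨C1, hC1, fun x p n hgeo => ?_⟩
  have hPT := isProbabilityMeasure_PT (μ := μ) a
  have hPO := isProbabilityMeasure_PO (μ := μ)
  have hc : G.Connected := hE.tree.1
  set θ := Real.tanh β with hθ
  have hθ0 : 0 ≤ θ := hE.theta_pos.le
  have hθ1 : θ < 1 := hE.theta_lt_one
  -- bounds
  obtain ⟨J, hJ⟩ := exists_nat_ge x
  obtain ⟨z, hz0, hz1, hz⟩ := exists_bound G hE.tree hE.reg hE.ising ha ha1 J
  obtain ⟨C, hC0, hC⟩ := abs_log_ph_le θ z hθ0 hθ1 hz0 hz1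
  -- the functions on labels and signals
  set Ξ : Arr V × Arr V → Arr V × Arr V := fun y => (y.1, Xi G μ a y.1 y.2) with hΞdef
  have hΞ : Measurable Ξ := measurable_fst.prodMk (measurable_Xi (μ := μ) G a)
  set gF : V → V → Arr V × Arr V → ℝ := fun v w y => gam G μ θ v w (ws a y.1 y.2 x) with hgF
  have hws : Measurable (fun y : Arr V × Arr V => ws a y.1 y.2 x) :=
    (measurable_ws a).comp (measurable_const.prodMk measurable_id)
  have hgFm : ∀ v w, Measurable (gF v w) := fun v w => (measurable_gam G μ θ v w).comp hws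
  have hgFb : ∀ v w y, |gF v w y| ≤ C := by
    intro v w y
    have hb := (hz (ws a y.1 y.2 x) (fun e => abs_ws_le ha y.1 y.2 x e)
      (fun e he => ws_eq_zero a y.1 y.2 hJ e he)).2
    have h1 : |Real.log (ph θ (msg G μ v w (ws a y.1 y.2 x)))| ≤ C := hC _ (hb _ _)
    have h2 : |Real.log (ph θ (msg G μ w v (ws a y.1 y.2 x)))| ≤ C := hC _ (hb _ _)
    show |(Real.log (ph θ (msg G μ v w (ws a y.1 y.2 x))) +
      Real.log (ph θ (msg G μ w v (ws a y.1 y.2 x)))) / 2| ≤ C
    rw [abs_le] at *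
    constructor <;> linarith [h1.1, h1.2, h2.1, h2.2]
  have hgFi : ∀ v w, Integrable (gF v w) (PT μ a) := fun v w =>
    Integrable.of_bound (hgFm v w).aestronglyMeasurable C
      (Eventually.of_forall (fun y => by rw [Real.norm_eq_abs]; exact hgFb v w y))
  -- the map to labels and signals
  set φ : Conf V → Arr V × Arr V := fun ω => (ω.2.1, tt a ω.1 ω.2.1 ω.2.2) with hφdef
  have hφ : Measurable φ := (measurable_fst.comp measurable_snd).prodMk (measurable_tt a)
  have hPTφ : (PO μ).map φ = PT μ a := rfl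
  have hint : ∀ H : Arr V × Arr V → ℝ, Measurable H →
      ∫ ω, H (φ ω) ∂(PO μ) = ∫ y, H y ∂(PT μ a) := by
    intro H hH
    rw [← hPTφ, integral_map hφ.aemeasurable hH.aestronglyMeasurable]
  set Δ : V → V → Arr V × Arr V → ℝ := fun v w y => gF v w y - cx (PT μ a) Ξ (gF v w) y with hΔ
  have hΔm : ∀ v w, Measurable (Δ v w) := fun v w => (hgFm v w).sub (measurable_cx hΞ _)
  set Γ : V → V → Conf V → ℝ := fun v w ω => Δ v w (φ ω) with hΓ
  -- the hypotheses of the spectral bound
  have g1 : ∀ v w, AEStronglyMeasurable (Γ v w) (PO μ) := fun v w =>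
    ((hΔm v w).comp hφ).aestronglyMeasurable
  have g2 : ∀ v w, ∀ᵐ ω ∂(PO μ), |Γ v w ω| ≤ 2 * C := by
    intro v w
    have h1 := abs_cx_le (P := PT μ a) (Ξ := Ξ) (hgFb v w)
    rw [← hPTφ] at h1
    have h2 := ae_of_ae_map hφ.aemeasurable h1
    filter_upwards [h2] with ω hω
    have h3 := hgFb v w (φ ω)
    rw [hPTφ] at hω
    show |gF v w (φ ω) - cx (PT μ a) Ξ (gF v w) (φ ω)| ≤ 2 * C
    rw [abs_le] at *
    constructor <;> linarith [hω.1, hω.2, h3.1, h3.2]
  have g3 : ∀ v w, G.Adj v w → ∫ ω, Γ v w ω ∂(PO μ) = 0 := by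
    intro v w _
    rw [hΓ]
    simp only
    rw [hint _ (hΔm v w), hΔ]
    simp only
    rw [integral_sub (hgFi v w) integrable_condExp, integral_cx hΞ, sub_self]
  have g4 : ∀ v w ω, Γ v w ω = Γ w v ω := by
    intro v w ω
    have : gF v w = gF w v := by
      funext y
      exact gam_symm G μ θ v w _
    show gF v w (φ ω) - cx (PT μ a) Ξ (gF v w) (φ ω) = gF w v (φ ω) - cx (PT μ a) Ξ (gF w v) (φ ω)
    rw [this]
  have g5 : ∀ (g : G ≃g G) (v w : V), G.Adj v w →
      ∀ᵐ ω ∂(PO μ), Γ (g v) (g w) (actO g.toEquiv ω) = Γ v w ω := by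
    intro g v w _
    have hact : ∀ k : V ≃ V, Measurable (fun y : Arr V => actE k y) := fun k =>
      measurable_pi_lambda _ (fun e => measurable_pi_apply _)
    have hactp : ∀ k : V ≃ V, Measurable (fun y : Arr V × Arr V => (actE k y.1, actE k y.2)) :=
      fun k => ((hact k).comp measurable_fst).prodMk ((hact k).comp measurable_snd)
    have hinv : ∀ y : Arr V, actE g.toEquiv.symm (actE g.toEquiv y) = y := by
      intro y
      funext e
      show y (g.toEquiv.symm (g.toEquiv e.1), e.2) = y e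
      rw [Equiv.symm_apply_apply]
    have hΞact : ∀ y : Arr V × Arr V, Ξ (actE g.toEquiv y.1, actE g.toEquiv y.2) =
        (actE g.toEquiv (Ξ y).1, actE g.toEquiv (Ξ y).2) := by
      intro y
      show (actE g.toEquiv y.1, Xi G μ a (actE g.toEquiv y.1) (actE g.toEquiv y.2)) = _
      rw [Xi_act hE a g]
    have hFF : ∀ y : Arr V × Arr V, gF (g v) (g w) (actE g.toEquiv y.1, actE g.toEquiv y.2) =
        gF v w y := by
      intro y
      have h1 : ws a (actE g.toEquiv y.1) (actE g.toEquiv y.2) x =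
        actE g.toEquiv (ws a y.1 y.2 x) := rfl
      show gam G μ θ (g v) (g w) (ws a (actE g.toEquiv y.1) (actE g.toEquiv y.2) x) = _
      rw [h1]
      exact gam_act hc g (mu_act hE g) θ v w _
    have hcx := cx_comp (P := PT μ a) (Ξ := Ξ) hΞ (hactp g.toEquiv) (PT_act hE a g)
      (B := fun y => (actE g.toEquiv y.1, actE g.toEquiv y.2))
      (B' := fun y => (actE g.toEquiv.symm y.1, actE g.toEquiv.symm y.2))
      (hactp g.toEquiv) (hactp g.toEquiv.symm)
      (fun y => by
        show (actE g.toEquiv.symm (actE g.toEquiv y.1),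
          actE g.toEquiv.symm (actE g.toEquiv y.2)) = y
        rw [hinv, hinv])
      hΞact (hgFm (g v) (g w)) ⟨C, hgFb (g v) (g w)⟩ hFF
    rw [← hPTφ] at hcx
    have h2 := ae_of_ae_map hφ.aemeasurable hcx
    filter_upwards [h2] with ω hω
    rw [hPTφ] at hω
    have hφact : φ (actO g.toEquiv ω) = (actE g.toEquiv (φ ω).1, actE g.toEquiv (φ ω).2) := rfl
    show gF (g v) (g w) (φ (actO g.toEquiv ω)) -
      cx (PT μ a) Ξ (gF (g v) (g w)) (φ (actO g.toEquiv ω)) =
      gF v w (φ ω) - cx (PT μ a) Ξ (gF v w) (φ ω)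
    rw [hφact, hω, hFF]
  have hmain := hspec hE Γ g1 (2 * C) g2 g3 g4 g5 p n hgeo
  -- the doubled integrals
  have hpair : Measurable fun y : (Arr V × Arr V) × (Arr V × Arr V) =>
      (ws a y.1.1 y.1.2 x, ws a y.2.1 y.2.2 x) :=
    (hws.comp measurable_fst).prodMk (hws.comp measurable_snd)
  have hdoub : ∀ m : ℕ, ∫ w, (∑ i ∈ Finset.range m, (gam G μ θ (p i) (p (i + 1)) w.1 -
      gam G μ θ (p i) (p (i + 1)) w.2)) ^ 2 ∂(nuX G μ a x) =
      2 * ∫ ω, (∑ i ∈ Finset.range m, Γ (p i) (p (i + 1)) ω) ^ 2 ∂(PO μ) := by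
    intro m
    set F : Arr V × Arr V → ℝ := fun y => ∑ i ∈ Finset.range m, gF (p i) (p (i + 1)) y with hF
    have hFm : Measurable F := Finset.measurable_sum _ (fun i _ => hgFm _ _)
    have hFb : ∀ y, |F y| ≤ m * C := by
      intro y
      calc |F y| ≤ ∑ i ∈ Finset.range m, |gF (p i) (p (i + 1)) y| :=
            Finset.abs_sum_le_sum_abs _ _
        _ ≤ ∑ i ∈ Finset.range m, C := Finset.sum_le_sum (fun i _ => hgFb _ _ y)
        _ = m * C := by rw [Finset.sum_const, Finset.card_range, nsmul_eq_mul]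
    have hd := integral_doub_sub_sq (P := PT μ a) hΞ hFm ⟨m * C, hFb⟩
    have hmw : Measurable fun w : (V × ℕ → ℝ) × (V × ℕ → ℝ) =>
        (∑ i ∈ Finset.range m, (gam G μ θ (p i) (p (i + 1)) w.1 -
          gam G μ θ (p i) (p (i + 1)) w.2)) ^ 2 :=
      (Finset.measurable_sum _ (fun i _ => ((measurable_gam G μ θ _ _).comp measurable_fst).sub
        ((measurable_gam G μ θ _ _).comp measurable_snd))).pow_const 2
    have e1 : ∫ w, (∑ i ∈ Finset.range m, (gam G μ θ (p i) (p (i + 1)) w.1 -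
        gam G μ θ (p i) (p (i + 1)) w.2)) ^ 2 ∂(nuX G μ a x) =
        ∫ y, (F y.1 - F y.2) ^ 2 ∂(Doub (PT μ a) Ξ) := by
      rw [nuX, integral_map hpair.aemeasurable hmw.aestronglyMeasurable]
      refine integral_congr_ae (Eventually.of_forall (fun y => ?_))
      show (∑ i ∈ Finset.range m, (gF (p i) (p (i + 1)) y.1 - gF (p i) (p (i + 1)) y.2)) ^ 2 = _
      rw [Finset.sum_sub_distrib]
    rw [e1, hd]
    congr 1
    have hcs : cx (PT μ a) Ξ F =ᵐ[PT μ a] ∑ i ∈ Finset.range m,
        cx (PT μ a) Ξ (gF (p i) (p (i + 1))) := by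
      have := condExp_finsetSum (μ := PT μ a) (s := Finset.range m)
        (f := fun i => gF (p i) (p (i + 1))) (fun i _ => hgFi _ _)
        (MeasurableSpace.comap Ξ inferInstance)
      have hFe : F = ∑ i ∈ Finset.range m, gF (p i) (p (i + 1)) := by
        funext y
        simp [hF]
      rw [hFe]
      exact this
    have e2 : ∫ y, (F y - cx (PT μ a) Ξ F y) ^ 2 ∂(PT μ a) =
        ∫ y, (∑ i ∈ Finset.range m, Δ (p i) (p (i + 1)) y) ^ 2 ∂(PT μ a) := by
      refine integral_congr_ae ?_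
      filter_upwards [hcs] with y hy
      rw [hy, Finset.sum_apply, hΔ]
      simp only [hF, Finset.sum_sub_distrib]
    rw [e2]
    exact (hint (fun y => (∑ i ∈ Finset.range m, Δ (p i) (p (i + 1)) y) ^ 2)
      ((Finset.measurable_sum _ (fun i _ => hΔm _ _)).pow_const 2)).symm
  have h1 := hdoub 1
  simp only [Finset.range_one, Finset.sum_singleton, zero_add] at h1
  rw [hdoub n, h1]
  calc 2 * ∫ ω, (∑ i ∈ Finset.range n, Γ (p i) (p (i + 1)) ω) ^ 2 ∂(PO μ)
      ≤ 2 * (C1 * n * ∫ ω, Γ (p 0) (p 1) ω ^ 2 ∂(PO μ)) := by linarith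
    _ = C1 * n * (2 * ∫ ω, Γ (p 0) (p 1) ω ^ 2 ∂(PO μ)) := by ring

end Vale.Agent.P161.Crit
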