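import Vale.Agent.Lib.P161.Crit.Inno

/-!
P161-CRIT, module Past: the doubled process. `PD` is the law of two copies `((u,t), (u,t'))` which
are conditionally independent given labels and innovations; `DU u` is the same for fixed labels.
-/

open MeasureTheory Filter Topology ProbabilityTheory

namespace Vale.Agent.P161.Crit

variable {V : Type*} {G : SimpleGraph V} {μ : Measure (V → Bool)}

/-- Arrays with values in the unit interval. -/
abbrev Arr (V : Type*) := V × ℕ → unitInterval

/-- The doubling for fixed labels (as a measure, `0` if the typeclass facts fail). -/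
noncomputable def DU [Countable V] (G : SimpleGraph V) (μ : Measure (V → Bool))
    [IsProbabilityMeasure μ] (a : ℝ) (u : Arr V) : Measure (Arr V × Arr V) :=
  haveI := isProbabilityMeasure_Pu (μ := μ) a u
  Doub (Pu μ a u) (Xi G μ a u)

/-- The joint doubling. -/
noncomputable def PD [Countable V] (G : SimpleGraph V) (μ : Measure (V → Bool))
    [IsProbabilityMeasure μ] (a : ℝ) : Measure ((Arr V × Arr V) × (Arr V × Arr V)) :=
  haveI := isProbabilityMeasure_PT (μ := μ) a
  Doub (PT μ a) (fun p => (p.1, Xi G μ a p.1 p.2))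

/-! ### Auxiliary facts -/

namespace PastAux

theorem Doub_congr {T Y : Type*} [MeasurableSpace T] [StandardBorelSpace T] [Nonempty T]
    [MeasurableSpace Y] {P P' : Measure T} [i : IsFiniteMeasure P] [i' : IsFiniteMeasure P']
    (h : P = P') (Ξ : T → Y) : Doub P Ξ = Doub P' Ξ := by
  subst h
  rfl

theorem measurable_Xi_u [Countable V] [IsProbabilityMeasure μ] (G : SimpleGraph V) (a : ℝ)
    (u : Arr V) : Measurable (Xi G μ a u) := by
  have h := measurable_Xi (μ := μ) G a
  have h2 : Measurable (fun t : Arr V => (u, t)) := measurable_prodMk_left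
  exact Measurable.comp (g := fun p : Arr V × Arr V => Xi G μ a p.1 p.2)
    (f := fun t : Arr V => (u, t)) h h2

/-- Restriction of an array to a set of events. -/
def rR (R : Set (V × ℕ)) (t : Arr V) : R → unitInterval := fun f => t f

open Classical in
/-- Extension by zero. -/
noncomputable def ext (R : Set (V × ℕ)) (s : R → unitInterval) : Arr V :=
  fun f => if h : f ∈ R then s ⟨f, h⟩ else 0

theorem measurable_rR (R : Set (V × ℕ)) : Measurable (rR (V := V) R) :=
  measurable_pi_lambda _ (fun _ => measurable_pi_apply _)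

theorem measurable_ext (R : Set (V × ℕ)) : Measurable (ext (V := V) R) := by
  classical
  refine measurable_pi_lambda _ (fun f => ?_)
  by_cases h : f ∈ R
  · have : (fun s : R → unitInterval => ext R s f) = fun s => s ⟨f, h⟩ := by
      funext s
      simp [ext, h]
    rw [this]
    exact measurable_pi_apply _
  · have : (fun s : R → unitInterval => ext R s f) = fun s => 0 := by
      funext s
      simp [ext, h]
    rw [this]
    exact measurable_const

theorem ext_rR {R : Set (V × ℕ)} (t : Arr V) {f : V × ℕ} (hf : f ∈ R) : ext R (rR R t) f = t f := by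
  simp [ext, rR, hf]

theorem rR_ext {R : Set (V × ℕ)} (s : R → unitInterval) : rR R (ext R s) = s := by
  funext f
  simp [ext, rR]

/-- The innovations in `R` as a function of the signals in `R`. -/
noncomputable def fR (G : SimpleGraph V) (μ : Measure (V → Bool)) (a : ℝ) (u : Arr V)
    (R : Set (V × ℕ)) (s : R → unitInterval) : R → unitInterval := rR R (Xi G μ a u (ext R s))

theorem measurable_fR [Countable V] [IsProbabilityMeasure μ] (G : SimpleGraph V) (a : ℝ)
    (u : Arr V) (R : Set (V × ℕ)) : Measurable (fR G μ a u R) :=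
  (measurable_rR R).comp ((measurable_Xi_u G a u).comp (measurable_ext R))

open Classical in
/-- Glue two partial arrays. -/
noncomputable def glue (R : Set (V × ℕ))
    (p : (R → unitInterval) × ((Rᶜ : Set (V × ℕ)) → unitInterval)) : Arr V :=
  fun f => if f ∈ R then ext R p.1 f else ext Rᶜ p.2 f

theorem measurable_glue (R : Set (V × ℕ)) : Measurable (glue (V := V) R) := by
  classical
  refine measurable_pi_lambda _ (fun f => ?_)
  by_cases h : f ∈ R
  · have : (fun s : (R → unitInterval) × ((Rᶜ : Set (V × ℕ)) → unitInterval) => glue R s f)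
        = fun s => ext R s.1 f := by
      funext s
      simp [glue, h]
    rw [this]
    exact (measurable_pi_apply f).comp ((measurable_ext R).comp measurable_fst)
  · have : (fun s : (R → unitInterval) × ((Rᶜ : Set (V × ℕ)) → unitInterval) => glue R s f)
        = fun s => ext Rᶜ s.2 f := by
      funext s
      simp [glue, h]
    rw [this]
    exact (measurable_pi_apply f).comp ((measurable_ext Rᶜ).comp measurable_snd)

theorem glue_split (R : Set (V × ℕ)) (t : Arr V) : glue R (rR R t, rR Rᶜ t) = t := by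
  classical
  funext f
  by_cases h : f ∈ R
  · simp [glue, ext, rR, h]
  · simp [glue, ext, rR, h]

theorem fR_rR [G.LocallyFinite] (hc : G.Connected) (a : ℝ) (u : Arr V) {x : ℝ}
    {R : Set (V × ℕ)} (hR : ∀ f, f ∈ R ↔ tau u f < x) (t : Arr V) :
    fR G μ a u R (rR R t) = rR R (Xi G μ a u t) := by
  funext e
  have he : tau u e < x := (hR e).1 e.2
  exact Xi_depE (μ := μ) hc a u x e he _ _ (fun f hf => ext_rR t ((hR f).2 hf))

/-- The law of the pair of pasts and of the future innovations. -/
theorem law [G.LocallyFinite] [Countable V] [IsProbabilityMeasure μ] {d : ℕ} {β : ℝ}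
    (hE : Env G d β μ) {a : ℝ} (ha : 0 ≤ a) (ha1 : a < 1) {u : Arr V}
    (hu : Function.Injective (tau u)) (x : ℝ) {R : Set (V × ℕ)}
    (hR : ∀ f, f ∈ R ↔ tau u f < x) (P₁ : Measure (R → unitInterval)) [IsProbabilityMeasure P₁]
    (hP₁ : (Pu μ a u).map (rR R) = P₁) :
    (DU G μ a u).map (fun z => ((rR R z.1, rR R z.2), rR Rᶜ (Xi G μ a u z.1))) =
      (Doub P₁ (fR G μ a u R)).prod ((Pu μ a u).map (fun t => rR Rᶜ (Xi G μ a u t))) := by
  have hc : G.Connected := hE.tree.1
  have := isProbabilityMeasure_Pu (μ := μ) a u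
  have hXi := measurable_Xi_u (μ := μ) G a u
  have hXi2 : Measurable (fun t => rR Rᶜ (Xi G μ a u t)) := (measurable_rR Rᶜ).comp hXi
  subst hP₁
  -- independence
  have hind : (Pu μ a u).map (fun t => (rR R t, rR Rᶜ (Xi G μ a u t))) =
      ((Pu μ a u).map (rR R)).prod ((Pu μ a u).map (fun t => rR Rᶜ (Xi G μ a u t))) := by
    symm
    have : IsProbabilityMeasure ((Pu μ a u).map (fun t => rR Rᶜ (Xi G μ a u t))) :=
      Measure.isProbabilityMeasure_map hXi2.aemeasurable
    refine Measure.prod_eq (fun A B hA hB => ?_)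
    have hmp : Measurable (fun t => (rR R t, rR Rᶜ (Xi G μ a u t))) :=
      (measurable_rR R).prodMk hXi2
    rw [Measure.map_apply hmp (hA.prod hB), Measure.map_apply (measurable_rR R) hA,
      Measure.map_apply hXi2 hB]
    -- indicator functions
    set FA : Arr V → ℝ := fun t => A.indicator (fun _ => (1 : ℝ)) (rR R t) with hFA
    set FB : Arr V → ℝ := fun t => B.indicator (fun _ => (1 : ℝ)) (rR Rᶜ t) with hFB
    have hFAm : Measurable FA := (measurable_const.indicator hA).comp (measurable_rR R)
    have hFBm : Measurable FB := (measurable_const.indicator hB).comp (measurable_rR Rᶜ)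
    have hFAb : ∀ t, |FA t| ≤ 1 := by
      intro t
      simp only [hFA, Set.indicator]
      split_ifs <;> simp
    have hFBb : ∀ t, |FB t| ≤ 1 := by
      intro t
      simp only [hFB, Set.indicator]
      split_ifs <;> simp
    have hdA : DepE {f | tau u f < x} FA := by
      intro y y' h
      have : rR R y = rR R y' := by
        funext f
        exact h f ((hR f).1 f.2)
      simp only [hFA, this]
    have hdB : DepE {f | x ≤ tau u f} FB := by
      intro y y' h
      have : rR Rᶜ y = rR Rᶜ y' := by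
        funext f
        exact h f (not_lt.1 (fun hlt => f.2 ((hR f).2 hlt)))
      simp only [hFB, this]
    have h1 := inno hE ha ha1 hu x hFAm ⟨1, hFAb⟩ hdA hFBm ⟨1, hFBb⟩ hdB
    have h2 := inno hE ha ha1 hu x (A := fun _ => (1 : ℝ)) measurable_const ⟨1, by simp⟩
      (fun _ _ _ => rfl) hFBm ⟨1, hFBb⟩ hdB
    simp only [one_mul, integral_const, probReal_univ, smul_eq_mul] at h2
    rw [← h2] at h1
    have e1 : ∫ t, FA t * FB (Xi G μ a u t) ∂(Pu μ a u) = (Pu μ a u).real
        ((fun t => (rR R t, rR Rᶜ (Xi G μ a u t))) ⁻¹' A ×ˢ B) := by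
      rw [← integral_indicator_one (hmp (hA.prod hB))]
      refine integral_congr_ae (Filter.Eventually.of_forall (fun t => ?_))
      simp only [hFA, hFB, Set.indicator, Set.mem_preimage, Set.mem_prod, Pi.one_apply]
      by_cases ha' : rR R t ∈ A <;> by_cases hb' : rR Rᶜ (Xi G μ a u t) ∈ B <;> simp [ha', hb']
    have e2 : ∫ t, FA t ∂(Pu μ a u) = (Pu μ a u).real (rR R ⁻¹' A) := by
      rw [← integral_indicator_one (measurable_rR R hA)]
      exact integral_congr_ae (Filter.Eventually.of_forall (fun t => rfl))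
    have e3 : ∫ t, FB (Xi G μ a u t) ∂(Pu μ a u) =
        (Pu μ a u).real ((fun t => rR Rᶜ (Xi G μ a u t)) ⁻¹' B) := by
      rw [← integral_indicator_one (hXi2 hB)]
      exact integral_congr_ae (Filter.Eventually.of_forall (fun t => rfl))
    rw [e1, e2, e3] at h1
    have h3 := congrArg ENNReal.ofReal h1
    rw [ENNReal.ofReal_mul measureReal_nonneg, ofReal_measureReal, ofReal_measureReal,
      ofReal_measureReal] at h3
    exact h3
  have hres := doub_restrict (P := Pu μ a u) (measurable_rR R) (measurable_fR (μ := μ) G a u R)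
    hXi2 hind
  -- change of the observation
  have hch : DU G μ a u = Doub (Pu μ a u) (fun t => (fR G μ a u R (rR R t),
      rR Rᶜ (Xi G μ a u t))) := by
    have hm2 : Measurable (fun t => (fR G μ a u R (rR R t), rR Rᶜ (Xi G μ a u t))) :=
      ((measurable_fR (μ := μ) G a u R).comp (measurable_rR R)).prodMk hXi2
    have := doub_map (P := Pu μ a u) (P' := Pu μ a u) (Ξ := Xi G μ a u)
      (Ξ' := fun t => (fR G μ a u R (rR R t), rR Rᶜ (Xi G μ a u t))) hXi hm2
      (φ := id) measurable_id Measure.map_id.symm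
      (ψ := fun y => (rR R y, rR Rᶜ y)) (ψ' := glue R)
      ((measurable_rR R).prodMk (measurable_rR Rᶜ)) (measurable_glue R)
      (fun y => glue_split R y)
      (Filter.Eventually.of_forall (fun t => by
        show (fR G μ a u R (rR R t), rR Rᶜ (Xi G μ a u t)) = _
        rw [fR_rR hc a u hR t]))
    rw [this, Prod.map_id, Measure.map_id]
    rfl
  rw [hch]
  exact hres

end PastAux

/-- The joint doubling is the integral over the labels of the doublings for fixed labels. -/
theorem exists_kernel_DU [Countable V] [IsProbabilityMeasure μ] (G : SimpleGraph V) (a : ℝ) :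
    ∃ K : Kernel (Arr V) (Arr V × Arr V), IsMarkovKernel K ∧
      (PD G μ a).map (fun z => (z.1.1, (z.1.2, z.2.2))) = (PP (V × ℕ)) ⊗ₘ K ∧
      ∀ᵐ u ∂(PP (V × ℕ)), K u = DU G μ a u := by
  obtain ⟨κ, hκ, hκu, hPT⟩ := exists_kernel_Pu (μ := μ) a
  obtain ⟨K, hK, hK1, hK2⟩ := doub_disint (PP (V × ℕ)) κ (fun u t => Xi G μ a u t)
    (measurable_Xi (μ := μ) G a)
  refine ⟨K, hK, ?_, ?_⟩
  · rw [← hK1]
    have := isProbabilityMeasure_PT (μ := μ) a
    congr 1
    exact PastAux.Doub_congr hPT _
  · filter_upwards [hK2] with u hu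
    rw [hu]
    have := isProbabilityMeasure_Pu (μ := μ) a u
    exact PastAux.Doub_congr (hκu u) _

/-- The two copies have the same labels and innovations. -/
theorem PD_ae_eq [Countable V] [IsProbabilityMeasure μ] (a : ℝ) :
    ∀ᵐ z ∂(PD G μ a), z.1.1 = z.2.1 ∧ Xi G μ a z.1.1 z.1.2 = Xi G μ a z.2.1 z.2.2 := by
  have := isProbabilityMeasure_PT (μ := μ) a
  have h := doub_ae_eq (P := PT μ a) (Ξ := fun p => (p.1, Xi G μ a p.1 p.2))
    (measurable_fst.prodMk (measurable_Xi (μ := μ) G a))
  filter_upwards [h] with z hz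
  exact Prod.ext_iff.1 hz

theorem DU_ae_eq [Countable V] [IsProbabilityMeasure μ] (a : ℝ) (u : Arr V) :
    ∀ᵐ z ∂(DU G μ a u), Xi G μ a u z.1 = Xi G μ a u z.2 := by
  have := isProbabilityMeasure_Pu (μ := μ) a u
  exact doub_ae_eq (P := Pu μ a u) (PastAux.measurable_Xi_u G a u)

/-- Under the doubling with fixed labels the innovations from `x` on are independent of the pair of
pasts. (`doub_restrict` with `r` = the signals before `x`, `Ξ₁` = the innovations before `x`,
`Ξ₂` = the innovations from `x` on; `Xi` is the pair `(Ξ₁, Ξ₂)` up to a measurable equivalence,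
`doub_map`.) -/
theorem DU_past_indep [G.LocallyFinite] [Countable V] [IsProbabilityMeasure μ] {d : ℕ} {β : ℝ}
    (hE : Env G d β μ) {a : ℝ} (ha : 0 ≤ a) (ha1 : a < 1) {u : Arr V}
    (hu : Function.Injective (tau u)) (x : ℝ)
    {A : Arr V × Arr V → ℝ} (hA : Measurable A) (hAC : ∃ C, ∀ z, |A z| ≤ C)
    (hdep : ∀ z z' : Arr V × Arr V, (∀ f, tau u f < x → z.1 f = z'.1 f ∧ z.2 f = z'.2 f) →
      A z = A z')
    {φ : Arr V → ℝ} (hφ : Measurable φ) (hφC : ∃ C, ∀ t, |φ t| ≤ C)
    (hφdep : DepE {f | x ≤ tau u f} φ) :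
    ∫ z, A z * φ (Xi G μ a u z.1) ∂(DU G μ a u) =
      (∫ z, A z ∂(DU G μ a u)) * ∫ ξ, φ ξ ∂(PP (V × ℕ)) := by
  have := isProbabilityMeasure_Pu (μ := μ) a u
  set R : Set (V × ℕ) := {f | tau u f < x} with hRdef
  have hR : ∀ f, f ∈ R ↔ tau u f < x := fun f => Iff.rfl
  have hXi := PastAux.measurable_Xi_u (μ := μ) G a u
  have hXi2 : Measurable (fun t => PastAux.rR Rᶜ (Xi G μ a u t)) :=
    (PastAux.measurable_rR Rᶜ).comp hXi
  have : IsProbabilityMeasure ((Pu μ a u).map (PastAux.rR R)) :=
    Measure.isProbabilityMeasure_map (PastAux.measurable_rR R).aemeasurable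
  have : IsProbabilityMeasure ((Pu μ a u).map (fun t => PastAux.rR Rᶜ (Xi G μ a u t))) :=
    Measure.isProbabilityMeasure_map hXi2.aemeasurable
  have : IsProbabilityMeasure (Doub ((Pu μ a u).map (PastAux.rR R)) (PastAux.fR G μ a u R)) :=
    isProbabilityMeasure_doub (PastAux.measurable_fR (μ := μ) G a u R)
  have hlaw := PastAux.law hE ha ha1 hu x hR ((Pu μ a u).map (PastAux.rR R)) rfl
  set D := Doub ((Pu μ a u).map (PastAux.rR R)) (PastAux.fR G μ a u R) with hD
  set N := (Pu μ a u).map (fun t => PastAux.rR Rᶜ (Xi G μ a u t)) with hN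
  have hmap : Measurable (fun z : Arr V × Arr V =>
      ((PastAux.rR R z.1, PastAux.rR R z.2), PastAux.rR Rᶜ (Xi G μ a u z.1))) :=
    (((PastAux.measurable_rR R).comp measurable_fst).prodMk
      ((PastAux.measurable_rR R).comp measurable_snd)).prodMk (hXi2.comp measurable_fst)
  have key : ∀ ψ : Arr V → ℝ, Measurable ψ → DepE {f | x ≤ tau u f} ψ →
      ∫ z, A z * ψ (Xi G μ a u z.1) ∂(DU G μ a u) =
        (∫ p, A (PastAux.ext R p.1, PastAux.ext R p.2) ∂D) *
          ∫ η, ψ (PastAux.ext Rᶜ η) ∂N := by
    intro ψ hψ hψdep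
    have hm : Measurable (fun q : ((R → unitInterval) × (R → unitInterval)) ×
        ((Rᶜ : Set (V × ℕ)) → unitInterval) =>
        A (PastAux.ext R q.1.1, PastAux.ext R q.1.2) * ψ (PastAux.ext Rᶜ q.2)) := by
      refine Measurable.mul ?_ ?_
      · exact hA.comp (((PastAux.measurable_ext R).comp (measurable_fst.comp measurable_fst)).prodMk
          ((PastAux.measurable_ext R).comp (measurable_snd.comp measurable_fst)))
      · exact hψ.comp ((PastAux.measurable_ext Rᶜ).comp measurable_snd)
    have h1 : ∫ z, A z * ψ (Xi G μ a u z.1) ∂(DU G μ a u) =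
        ∫ q, A (PastAux.ext R q.1.1, PastAux.ext R q.1.2) * ψ (PastAux.ext Rᶜ q.2)
          ∂((DU G μ a u).map (fun z : Arr V × Arr V =>
      ((PastAux.rR R z.1, PastAux.rR R z.2), PastAux.rR Rᶜ (Xi G μ a u z.1)))) := by
      rw [integral_map hmap.aemeasurable hm.aestronglyMeasurable]
      refine integral_congr_ae (Filter.Eventually.of_forall (fun z => ?_))
      show A z * ψ (Xi G μ a u z.1) = A (PastAux.ext R (PastAux.rR R z.1),
        PastAux.ext R (PastAux.rR R z.2)) * ψ (PastAux.ext Rᶜ (PastAux.rR Rᶜ (Xi G μ a u z.1)))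
      rw [hdep z (PastAux.ext R (PastAux.rR R z.1), PastAux.ext R (PastAux.rR R z.2))
        (fun f hf => ⟨(PastAux.ext_rR z.1 ((hR f).2 hf)).symm,
          (PastAux.ext_rR z.2 ((hR f).2 hf)).symm⟩)]
      rw [hψdep (Xi G μ a u z.1) (PastAux.ext Rᶜ (PastAux.rR Rᶜ (Xi G μ a u z.1)))
        (fun f hf => (PastAux.ext_rR (R := Rᶜ) (Xi G μ a u z.1)
          (fun hlt => (not_lt.2 hf) ((hR f).1 hlt))).symm)]
    rw [h1, hlaw]
    exact integral_prod_mul (fun p : (R → unitInterval) × (R → unitInterval) =>
      A (PastAux.ext R p.1, PastAux.ext R p.2)) (fun η => ψ (PastAux.ext Rᶜ η))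
  have k1 := key φ hφ hφdep
  have k2 := key (fun _ => 1) measurable_const (fun _ _ _ => rfl)
  simp only [mul_one, integral_const, probReal_univ, smul_eq_mul] at k2
  rw [k1, k2]
  congr 1
  -- law of the future innovations
  have h3 : ∫ η, φ (PastAux.ext Rᶜ η) ∂N = ∫ t, φ (Xi G μ a u t) ∂(Pu μ a u) := by
    have hsm : Measurable (fun η : (Rᶜ : Set (V × ℕ)) → unitInterval =>
      φ (PastAux.ext Rᶜ η)) := hφ.comp (PastAux.measurable_ext Rᶜ)
    rw [hN, integral_map hXi2.aemeasurable hsm.aestronglyMeasurable]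
    refine integral_congr_ae (Filter.Eventually.of_forall (fun t => ?_))
    exact (hφdep (Xi G μ a u t) (PastAux.ext Rᶜ (PastAux.rR Rᶜ (Xi G μ a u t)))
        (fun f hf => (PastAux.ext_rR (R := Rᶜ) (Xi G μ a u t)
          (fun hlt => (not_lt.2 hf) ((hR f).1 hlt))).symm)).symm
  rw [h3, ← map_Xi hE ha ha1 hu, integral_map hXi.aemeasurable hφ.aestronglyMeasurable]

/-- The law of the pair of pasts depends only on the labels of the past: `u` and `u'` agree on the
events with `tau u f < x`, and the other events have `x ≤ tau` for both. -/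
theorem DU_past_congr [G.LocallyFinite] [Countable V] [IsProbabilityMeasure μ] {d : ℕ} {β : ℝ}
    (hE : Env G d β μ) {a : ℝ} (ha : 0 ≤ a) (ha1 : a < 1) {u u' : Arr V}
    (hu : Function.Injective (tau u)) (hu' : Function.Injective (tau u')) (x : ℝ)
    (h : ∀ f, u f = u' f ∨ (x ≤ tau u f ∧ x ≤ tau u' f))
    {A : Arr V × Arr V → ENNReal} (hA : Measurable A)
    (hdep : ∀ z z' : Arr V × Arr V, (∀ f, tau u f < x → z.1 f = z'.1 f ∧ z.2 f = z'.2 f) →
      A z = A z') :
    ∫⁻ z, A z ∂(DU G μ a u) = ∫⁻ z, A z ∂(DU G μ a u') := by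
  have := isProbabilityMeasure_Pu (μ := μ) a u
  have := isProbabilityMeasure_Pu (μ := μ) a u'
  set R : Set (V × ℕ) := {f | tau u f < x} with hRdef
  have hR : ∀ f, f ∈ R ↔ tau u f < x := fun f => Iff.rfl
  have hagree : ∀ f ∈ R, u f = u' f := by
    intro f hf
    rcases h f with h1 | h1
    · exact h1
    · exact absurd hf (not_lt.2 h1.1)
  have hR' : ∀ f, f ∈ R ↔ tau u' f < x := by
    intro f
    rcases h f with h1 | h1
    · rw [hR f]
      unfold tau
      rw [h1]
    · rw [hR f]
      exact ⟨fun h2 => absurd h2 (not_lt.2 h1.1), fun h2 => absurd h2 (not_lt.2 h1.2)⟩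
  -- laws of the past signals agree
  have hP : (Pu μ a u).map (PastAux.rR R) = (Pu μ a u').map (PastAux.rR R) := by
    refine Measure.ext (fun B hB => ?_)
    rw [Measure.map_apply (PastAux.measurable_rR R) hB,
      Measure.map_apply (PastAux.measurable_rR R) hB]
    have h1 := Pu_congr (μ := μ) a (R := R) hagree
      (A := fun t => B.indicator (fun _ => (1 : ℝ)) (PastAux.rR R t))
      ((measurable_const.indicator hB).comp (PastAux.measurable_rR R)) (by
        intro y y' hy
        have : PastAux.rR R y = PastAux.rR R y' := by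
          funext f
          exact hy f f.2
        simp only [this])
    have e : ∀ ν : Measure (Arr V), ∫ t, B.indicator (fun _ => (1 : ℝ)) (PastAux.rR R t) ∂ν =
        ν.real (PastAux.rR R ⁻¹' B) := fun ν =>
      integral_indicator_one (PastAux.measurable_rR R hB)
    rw [e, e] at h1
    have h3 := congrArg ENNReal.ofReal h1
    rw [ofReal_measureReal, ofReal_measureReal] at h3
    exact h3
  -- the functions agree
  have hf : PastAux.fR G μ a u R = PastAux.fR G μ a u' R := by
    funext s e
    show Xi G μ a u (PastAux.ext R s) e = Xi G μ a u' (PastAux.ext R s) e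
    have hue : u e = u' e := hagree e e.2
    have htau : tau u e = tau u' e := by
      unfold tau
      rw [hue]
    have hws : ws a u (PastAux.ext R s) (tau u e) = ws a u' (PastAux.ext R s) (tau u' e) := by
      funext f
      unfold ws
      by_cases hfR : f ∈ R
      · have h1 : tau u f = tau u' f := by
          unfold tau
          rw [hagree f hfR]
        have h2 : wf a u (PastAux.ext R s) f = wf a u' (PastAux.ext R s) f := by
          unfold wf
          rw [hagree f hfR]
        rw [h1, h2, htau]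
      · have hlt : tau u (e : V × ℕ) < x := (hR e).1 e.2
        have hlt' : tau u' (e : V × ℕ) < x := (hR' e).1 e.2
        have h1 : ¬ tau u f < tau u e := fun hh => hfR ((hR f).2 (hh.trans hlt))
        have h2 : ¬ tau u' f < tau u' e := fun hh => hfR ((hR' f).2 (hh.trans hlt'))
        rw [if_neg h1, if_neg h2]
    unfold Xi Me
    rw [hws, hue]
  have hp1 : IsProbabilityMeasure ((Pu μ a u).map (PastAux.rR R)) :=
    Measure.isProbabilityMeasure_map (PastAux.measurable_rR R).aemeasurable
  have : IsProbabilityMeasure ((Pu μ a u').map (PastAux.rR R)) :=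
    Measure.isProbabilityMeasure_map (PastAux.measurable_rR R).aemeasurable
  -- law of the pair of pasts
  have key : ∀ w : Arr V, Function.Injective (tau w) → (∀ f, f ∈ R ↔ tau w f < x) →
      ∀ (P₁ : Measure (R → unitInterval)) [IsProbabilityMeasure P₁],
      (Pu μ a w).map (PastAux.rR R) = P₁ →
      ∫⁻ z, A z ∂(DU G μ a w) = ∫⁻ p, A (PastAux.ext R p.1, PastAux.ext R p.2)
        ∂(Doub P₁ (PastAux.fR G μ a w R)) := by
    intro w hw hRw P₁ _ hP₁
    have := isProbabilityMeasure_Pu (μ := μ) a w
    have hXi := PastAux.measurable_Xi_u (μ := μ) G a w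
    have hXi2 : Measurable (fun t => PastAux.rR Rᶜ (Xi G μ a w t)) :=
      (PastAux.measurable_rR Rᶜ).comp hXi
    have : IsProbabilityMeasure ((Pu μ a w).map (fun t => PastAux.rR Rᶜ (Xi G μ a w t))) :=
      Measure.isProbabilityMeasure_map hXi2.aemeasurable
    have : IsProbabilityMeasure (Doub P₁ (PastAux.fR G μ a w R)) :=
      isProbabilityMeasure_doub (PastAux.measurable_fR (μ := μ) G a w R)
    have hlaw := PastAux.law hE ha ha1 hw x hRw P₁ hP₁
    have hmap : Measurable (fun z : Arr V × Arr V =>
        ((PastAux.rR R z.1, PastAux.rR R z.2), PastAux.rR Rᶜ (Xi G μ a w z.1))) :=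
      (((PastAux.measurable_rR R).comp measurable_fst).prodMk
        ((PastAux.measurable_rR R).comp measurable_snd)).prodMk (hXi2.comp measurable_fst)
    have hmA : Measurable (fun p : (R → unitInterval) × (R → unitInterval) =>
        A (PastAux.ext R p.1, PastAux.ext R p.2)) :=
      hA.comp (((PastAux.measurable_ext R).comp measurable_fst).prodMk
        ((PastAux.measurable_ext R).comp measurable_snd))
    have hfst : (DU G μ a w).map (fun z => (PastAux.rR R z.1, PastAux.rR R z.2)) =
        Doub P₁ (PastAux.fR G μ a w R) := by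
      have h1 := congrArg (Measure.map Prod.fst) hlaw
      rw [Measure.map_map measurable_fst hmap, Measure.map_fst_prod, measure_univ, one_smul] at h1
      exact h1
    have hmp : Measurable (fun z : Arr V × Arr V => (PastAux.rR R z.1, PastAux.rR R z.2)) :=
      ((PastAux.measurable_rR R).comp measurable_fst).prodMk
        ((PastAux.measurable_rR R).comp measurable_snd)
    rw [← hfst, lintegral_map hmA hmp]
    refine lintegral_congr (fun z => ?_)
    exact hdep z (PastAux.ext R (PastAux.rR R z.1), PastAux.ext R (PastAux.rR R z.2))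
        (fun f hf => ⟨(PastAux.ext_rR z.1 ((hR f).2 hf)).symm,
          (PastAux.ext_rR z.2 ((hR f).2 hf)).symm⟩)
  rw [key u hu hR ((Pu μ a u).map (PastAux.rR R)) rfl,
    key u' hu' hR' ((Pu μ a u).map (PastAux.rR R)) hP.symm, hf]

/-- The joint doubling is invariant. -/
theorem PD_act [G.LocallyFinite] [Countable V] [IsProbabilityMeasure μ] {d : ℕ} {β : ℝ}
    (hE : Env G d β μ) (a : ℝ) (g : G ≃g G) :
    (PD G μ a).map (fun z => ((actE g.toEquiv z.1.1, actE g.toEquiv z.1.2),
      (actE g.toEquiv z.2.1, actE g.toEquiv z.2.2))) = PD G μ a := by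
  have := isProbabilityMeasure_PT (μ := μ) a
  have hact : ∀ k : V ≃ V, Measurable (fun y : Arr V => actE k y) := fun k =>
    measurable_pi_lambda _ (fun e => measurable_pi_apply _)
  have hactp : ∀ k : V ≃ V, Measurable (fun p : Arr V × Arr V => (actE k p.1, actE k p.2)) :=
    fun k => ((hact k).comp measurable_fst).prodMk ((hact k).comp measurable_snd)
  have hinv : ∀ y : Arr V, actE g.toEquiv.symm (actE g.toEquiv y) = y := by
    intro y
    funext e
    show y (g.toEquiv.symm (g.toEquiv e.1), e.2) = y e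
    rw [Equiv.symm_apply_apply]
  have hΞ : Measurable (fun p : Arr V × Arr V => (p.1, Xi G μ a p.1 p.2)) :=
    measurable_fst.prodMk (measurable_Xi (μ := μ) G a)
  have h := doub_map (P := PT μ a) (P' := PT μ a)
    (Ξ := fun p : Arr V × Arr V => (p.1, Xi G μ a p.1 p.2))
    (Ξ' := fun p : Arr V × Arr V => (p.1, Xi G μ a p.1 p.2)) hΞ hΞ
    (φ := fun p => (actE g.toEquiv p.1, actE g.toEquiv p.2)) (hactp _) (PT_act hE a g).symm
    (ψ := fun p => (actE g.toEquiv p.1, actE g.toEquiv p.2))
    (ψ' := fun p => (actE g.toEquiv.symm p.1, actE g.toEquiv.symm p.2)) (hactp _) (hactp _)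
    (fun p => by
      show (actE g.toEquiv.symm (actE g.toEquiv p.1), actE g.toEquiv.symm (actE g.toEquiv p.2)) = p
      rw [hinv, hinv])
    (Filter.Eventually.of_forall (fun p => by
      show (actE g.toEquiv p.1, Xi G μ a (actE g.toEquiv p.1) (actE g.toEquiv p.2)) =
        (actE g.toEquiv p.1, actE g.toEquiv (Xi G μ a p.1 p.2))
      rw [Xi_act hE a g]))
  exact h.symm

/-- Law of the pair of slope arrays at time `x`. -/
noncomputable def nuX [Countable V] (G : SimpleGraph V) (μ : Measure (V → Bool))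
    [IsProbabilityMeasure μ] (a : ℝ) (x : ℝ) : Measure ((V × ℕ → ℝ) × (V × ℕ → ℝ)) :=
  (PD G μ a).map fun z => (ws a z.1.1 z.1.2 x, ws a z.2.1 z.2.2 x)

end Vale.Agent.P161.Crit
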