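import Vale.Agent.Lib.P161.Crit.Fin

/-!
P161-CRIT, module Post: the finite volume posterior `ES` is the conditional expectation given the
observations in the finite set `S`; positivity/flip symmetry; the one step update.
-/

open MeasureTheory Filter

namespace Vale.Agent.P161.Crit

/-! ### A general uniqueness lemma -/

section general

variable {α ι Y : Type*} [MeasurableSpace α] [MeasurableSpace Y]

theorem Post.ext_cyl {ν₁ ν₂ : Measure (α × (ι → Y))} [IsFiniteMeasure ν₁]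
    (h : ∀ (A : Set α) (S : Finset ι) (B : ι → Set Y), MeasurableSet A →
      (∀ i, MeasurableSet (B i)) →
      ν₁ (A ×ˢ (S : Set ι).pi B) = ν₂ (A ×ˢ (S : Set ι).pi B)) : ν₁ = ν₂ := by
  refine ext_of_generate_finite (Set.image2 (· ×ˢ ·) {A : Set α | MeasurableSet A}
    (squareCylinders (fun _ : ι => {B : Set Y | MeasurableSet B}))) ?_ ?_ ?_ ?_
  · rw [← generateFrom_prod_eq]
    · rw [MeasurableSpace.generateFrom_measurableSet, generateFrom_squareCylinders]
    · exact isCountablySpanning_measurableSet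
    · refine ⟨fun _ => Set.univ, fun _ => ⟨∅, fun _ => Set.univ, ?_, ?_⟩, ?_⟩
      · intro i _
        exact MeasurableSet.univ
      · simp
      · simp [Set.iUnion_const]
  · exact MeasurableSpace.isPiSystem_measurableSet.prod
      (isPiSystem_squareCylinders (fun _ => MeasurableSpace.isPiSystem_measurableSet)
        (fun _ => MeasurableSet.univ))
  · rintro _ ⟨A, hA, _, ⟨S, B, hB, rfl⟩, rfl⟩
    exact h A S B hA (fun i => hB i trivial)
  · have := h Set.univ ∅ (fun _ => Set.univ) MeasurableSet.univ (fun _ => MeasurableSet.univ)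
    simpa using this

theorem Post.integrable_aux {Ω : Type*} [MeasurableSpace Ω] (P : Measure Ω) [IsFiniteMeasure P]
    {u : Ω → ℝ} (hu : Measurable u) (hC : ∃ C, ∀ ω, |u ω| ≤ C) : Integrable u P := by
  obtain ⟨C, hC⟩ := hC
  exact Integrable.of_bound hu.aestronglyMeasurable C (ae_of_all _ fun ω => hC ω)

theorem Post.conv_aux {Ω : Type*} [MeasurableSpace Ω] (P : Measure Ω) {X : Ω → α}
    {y : Ω → ι → Y} (u : Ω → ℝ) (hX : Measurable X) (hy : Measurable y) {A : Set α}
    {S : Finset ι} {B : ι → Set Y} (hA : MeasurableSet A) (hB : ∀ i, MeasurableSet (B i)) :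
    ∫ ω in (fun ω => (X ω, y ω)) ⁻¹' (A ×ˢ (S : Set ι).pi B), u ω ∂P =
      ∫ ω, A.indicator (fun _ => (1 : ℝ)) (X ω) *
        (∏ i ∈ S, (B i).indicator (fun _ => (1 : ℝ)) (y ω i)) * u ω ∂P := by
  have hms : MeasurableSet (A ×ˢ (S : Set ι).pi B) :=
    hA.prod (MeasurableSet.pi S.countable_toSet fun i _ => hB i)
  rw [← integral_indicator ((hX.prodMk hy) hms)]
  congr 1
  ext ω
  by_cases hω : ω ∈ (fun ω => (X ω, y ω)) ⁻¹' (A ×ˢ (S : Set ι).pi B)
  · rw [Set.indicator_of_mem hω]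
    obtain ⟨h1, h2⟩ := hω
    rw [Set.indicator_of_mem (show X ω ∈ A from h1), Finset.prod_eq_one, one_mul, one_mul]
    intro i hi
    exact Set.indicator_of_mem (h2 i hi) _
  · rw [Set.indicator_of_notMem hω]
    by_cases h1 : X ω ∈ A
    · have h2 : ∃ i ∈ S, y ω i ∉ B i := by
        by_contra hcon
        push Not at hcon
        exact hω ⟨h1, fun i hi => hcon i hi⟩
      obtain ⟨i, hi, hiB⟩ := h2
      rw [Finset.prod_eq_zero hi (Set.indicator_of_notMem hiB _)]
      ring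
    · rw [Set.indicator_of_notMem h1]
      ring

theorem Post.map_aux {Ω : Type*} [MeasurableSpace Ω] (P : Measure Ω) {X : Ω → α}
    {y : Ω → ι → Y} {u : Ω → ℝ} (hX : Measurable X) (hy : Measurable y) (hu : Measurable u)
    (h0 : ∀ ω, 0 ≤ u ω) {H : α × (ι → Y) → ℝ} (hH : Measurable H) :
    ∫ ω, H (X ω, y ω) * u ω ∂P =
      ∫ p, H p ∂((P.withDensity fun ω => ENNReal.ofReal (u ω)).map (fun ω => (X ω, y ω))) := by
  rw [integral_map (hX.prodMk hy).aemeasurable hH.aestronglyMeasurable,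
    integral_withDensity_eq_integral_toReal_smul hu.ennreal_ofReal
      (ae_of_all _ fun _ => ENNReal.ofReal_lt_top)]
  congr 1
  ext ω
  rw [ENNReal.toReal_ofReal (h0 ω), smul_eq_mul, mul_comm]

theorem Post.integral_eq {Ω₁ Ω₂ : Type*} [MeasurableSpace Ω₁] [MeasurableSpace Ω₂]
    {P₁ : Measure Ω₁} {P₂ : Measure Ω₂} [IsFiniteMeasure P₁] [IsFiniteMeasure P₂]
    {X₁ : Ω₁ → α} {y₁ : Ω₁ → ι → Y} {X₂ : Ω₂ → α} {y₂ : Ω₂ → ι → Y}
    (hX₁ : Measurable X₁) (hy₁ : Measurable y₁) (hX₂ : Measurable X₂) (hy₂ : Measurable y₂)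
    {u₁ : Ω₁ → ℝ} {u₂ : Ω₂ → ℝ} (hu₁ : Measurable u₁) (hu₂ : Measurable u₂)
    (h0₁ : ∀ ω, 0 ≤ u₁ ω) (h0₂ : ∀ ω, 0 ≤ u₂ ω) (hC₁ : ∃ C, ∀ ω, |u₁ ω| ≤ C)
    (hC₂ : ∃ C, ∀ ω, |u₂ ω| ≤ C)
    (h : ∀ (f : α → ℝ) (S : Finset ι) (g : ι → Y → ℝ), Measurable f → (∀ a, |f a| ≤ 1) →
      (∀ i, Measurable (g i)) → (∀ i x, |g i x| ≤ 1) →
      ∫ ω, f (X₁ ω) * (∏ i ∈ S, g i (y₁ ω i)) * u₁ ω ∂P₁ =
        ∫ ω, f (X₂ ω) * (∏ i ∈ S, g i (y₂ ω i)) * u₂ ω ∂P₂)
    {H : α × (ι → Y) → ℝ} (hH : Measurable H) :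
    ∫ ω, H (X₁ ω, y₁ ω) * u₁ ω ∂P₁ = ∫ ω, H (X₂ ω, y₂ ω) * u₂ ω ∂P₂ := by
  have key : (P₁.withDensity fun ω => ENNReal.ofReal (u₁ ω)).map (fun ω => (X₁ ω, y₁ ω)) =
      (P₂.withDensity fun ω => ENNReal.ofReal (u₂ ω)).map (fun ω => (X₂ ω, y₂ ω)) := by
    have hi₁ := Post.integrable_aux P₁ hu₁ hC₁
    have hi₂ := Post.integrable_aux P₂ hu₂ hC₂
    have : IsFiniteMeasure (P₁.withDensity fun ω => ENNReal.ofReal (u₁ ω)) :=
      isFiniteMeasure_withDensity_ofReal hi₁.2
    apply Post.ext_cyl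
    intro A S B hA hB
    have hms : MeasurableSet (A ×ˢ (S : Set ι).pi B) :=
      hA.prod (MeasurableSet.pi S.countable_toSet fun i _ => hB i)
    rw [Measure.map_apply (hX₁.prodMk hy₁) hms, Measure.map_apply (hX₂.prodMk hy₂) hms,
      withDensity_apply _ ((hX₁.prodMk hy₁) hms), withDensity_apply _ ((hX₂.prodMk hy₂) hms)]
    rw [← ofReal_integral_eq_lintegral_ofReal hi₁.integrableOn (ae_of_all _ h0₁),
      ← ofReal_integral_eq_lintegral_ofReal hi₂.integrableOn (ae_of_all _ h0₂)]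
    congr 1
    rw [Post.conv_aux P₁ u₁ hX₁ hy₁ hA hB, Post.conv_aux P₂ u₂ hX₂ hy₂ hA hB]
    apply h _ S _ (measurable_const.indicator hA) _ (fun i => measurable_const.indicator (hB i))
    · intro i x
      by_cases hx : x ∈ B i
      · rw [Set.indicator_of_mem hx]; simp
      · rw [Set.indicator_of_notMem hx]; simp
    · intro a
      by_cases hx : a ∈ A
      · rw [Set.indicator_of_mem hx]; simp
      · rw [Set.indicator_of_notMem hx]; simp
  rw [Post.map_aux P₁ hX₁ hy₁ hu₁ h0₁ hH, Post.map_aux P₂ hX₂ hy₂ hu₂ h0₂ hH, key]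

end general


variable {V : Type*} {G : SimpleGraph V}
variable {Ω Y : Type*} [MeasurableSpace Ω] [MeasurableSpace Y]
variable {μ : Measure (V → Bool)} {P : Measure Ω} {s : Ω → V → Bool} {y : Ω → V × ℕ → Y}
variable {Q : V × ℕ → Measure Y} {ζ : V × ℕ → Y → ℝ} {b : ℝ}

/-- The global flip. -/
def Post.flipE (V : Type*) : (V → Bool) ≃ᵐ (V → Bool) where
  toFun σ v := !(σ v)
  invFun σ v := !(σ v)
  left_inv σ := by ext v; simp
  right_inv σ := by ext v; simp
  measurable_toFun := measurable_pi_lambda _ fun v =>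
    (measurable_of_finite not).comp (measurable_pi_apply v)
  measurable_invFun := measurable_pi_lambda _ fun v =>
    (measurable_of_finite not).comp (measurable_pi_apply v)

theorem spin_not (b : Bool) : spin (!b) = - spin b := by cases b <;> simp [spin]

theorem Post.integral_flip (hflip : μ.map (fun σ v => !(σ v)) = μ) (f : (V → Bool) → ℝ) :
    ∫ σ, f (fun v => !(σ v)) ∂μ = ∫ σ, f σ ∂μ := by
  have h := (Post.flipE V).measurableEmbedding.integral_map (μ := μ) f
  have h2 : μ.map (Post.flipE V) = μ := hflip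
  rw [h2] at h
  exact h.symm

theorem Post.lk_neg (S : Finset (V × ℕ)) (w : V × ℕ → ℝ) (σ : V → Bool) :
    lk S (fun e => - w e) σ = lk S w (fun v => !(σ v)) := by
  unfold lk
  refine Finset.prod_congr rfl fun e _ => ?_
  rw [spin_not]
  ring

/-- Flip symmetry of the finite volume posteriors. -/
theorem ES_neg_sp (hflip : μ.map (fun σ v => !(σ v)) = μ) (S : Finset (V × ℕ)) (w : V × ℕ → ℝ)
    (v : V) : ES μ S (fun e => - w e) (sp v) = - ES μ S w (sp v) := by
  unfold ES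
  have h1 : ∫ σ, lk S (fun e => - w e) σ ∂μ = ∫ σ, lk S w σ ∂μ := by
    simp_rw [Post.lk_neg]
    exact Post.integral_flip hflip (lk S w)
  have h2 : ∫ σ, sp v σ * lk S (fun e => - w e) σ ∂μ = - ∫ σ, sp v σ * lk S w σ ∂μ := by
    rw [← integral_neg, ← Post.integral_flip hflip (fun σ => -(sp v σ * lk S w σ))]
    congr 1
    ext σ
    rw [Post.lk_neg]
    simp only [sp, spin_not]
    ring
  rw [h1, h2, neg_div]

theorem ES_neg_sp2 (hflip : μ.map (fun σ v => !(σ v)) = μ) (S : Finset (V × ℕ)) (w : V × ℕ → ℝ)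
    (v x : V) : ES μ S (fun e => - w e) (sp2 v x) = ES μ S w (sp2 v x) := by
  unfold ES
  have h1 : ∫ σ, lk S (fun e => - w e) σ ∂μ = ∫ σ, lk S w σ ∂μ := by
    simp_rw [Post.lk_neg]
    exact Post.integral_flip hflip (lk S w)
  have h2 : ∫ σ, sp2 v x σ * lk S (fun e => - w e) σ ∂μ = ∫ σ, sp2 v x σ * lk S w σ ∂μ := by
    rw [← Post.integral_flip hflip (fun σ => (sp2 v x σ * lk S w σ))]
    congr 1
    ext σ
    rw [Post.lk_neg]
    simp only [sp2, spin_not]
    ring
  rw [h1, h2]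

theorem Post.measurable_lk' (S : Finset (V × ℕ)) (w : V × ℕ → ℝ) : Measurable (lk S w) := by
  have := (measurable_lk (V := V) S).comp (measurable_prodMk_left (x := w))
  exact this

theorem Post.integrable_lk {b : ℝ} (hb0 : 0 ≤ b) (μ : Measure (V → Bool))
    [IsProbabilityMeasure μ] {S : Finset (V × ℕ)} {w : V × ℕ → ℝ}
    (hw : ∀ e ∈ S, |w e| ≤ b) {f : (V → Bool) → ℝ} (hf : Measurable f)
    (hfC : ∃ C, ∀ σ, |f σ| ≤ C) : Integrable (fun σ => f σ * lk S w σ) μ := by
  obtain ⟨C, hC⟩ := hfC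
  refine Integrable.of_bound (hf.mul (Post.measurable_lk' S w)).aestronglyMeasurable
    (C * (1 + b) ^ S.card) (ae_of_all _ fun σ => ?_)
  rw [Real.norm_eq_abs, abs_mul]
  exact mul_le_mul (hC σ) (lk_le hb0 hw σ) (abs_nonneg _) ((abs_nonneg _).trans (hC σ))

/-- One step update of the finite volume posterior. -/
theorem ES_insert [DecidableEq V] [IsProbabilityMeasure μ] {b : ℝ} (hb0 : 0 ≤ b) (hb : b < 1)
    {S : Finset (V × ℕ)} {w : V × ℕ → ℝ} (hw : ∀ e, |w e| ≤ b) {e : V × ℕ} (he : e ∉ S) (o : V) :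
    ES μ (insert e S) w (sp o) = ES μ S w (sp o) +
      (ES μ S w (sp2 o e.1) - ES μ S w (sp o) * ES μ S w (sp e.1)) * w e /
        (1 + ES μ S w (sp e.1) * w e) := by
  have hlk : ∀ σ, lk (insert e S) w σ = (1 + w e * spin (σ e.1)) * lk S w σ := by
    intro σ
    unfold lk
    exact Finset.prod_insert he
  have hZ := integral_lk_pos hb0 hb μ (S := S) (w := w) (fun e _ => hw e)
  have hZ' := integral_lk_pos hb0 hb μ (S := insert e S) (w := w) (fun e _ => hw e)
  have hI : ∀ f : (V → Bool) → ℝ, Measurable f → (∃ C, ∀ σ, |f σ| ≤ C) →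
      Integrable (fun σ => f σ * lk S w σ) μ := fun f hf hC =>
    Post.integrable_lk hb0 μ (fun e _ => hw e) hf hC
  have hI1 : Integrable (fun σ => lk S w σ) μ := by
    simpa using hI (fun _ => 1) measurable_const ⟨1, fun _ => by simp⟩
  have hA := hI (sp o) (measurable_sp o) ⟨1, abs_sp o⟩
  have hB := hI (sp2 o e.1) (measurable_sp2 o e.1) ⟨1, abs_sp2 o e.1⟩
  have hC := hI (sp e.1) (measurable_sp e.1) ⟨1, abs_sp e.1⟩
  have e1 : ∫ σ, sp o σ * lk (insert e S) w σ ∂μ =
      ∫ σ, sp o σ * lk S w σ ∂μ + w e * ∫ σ, sp2 o e.1 σ * lk S w σ ∂μ := by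
    rw [← integral_const_mul, ← integral_add hA (hB.const_mul _)]
    congr 1
    ext σ
    rw [hlk]
    simp only [sp, sp2]
    ring
  have e2 : ∫ σ, lk (insert e S) w σ ∂μ =
      ∫ σ, lk S w σ ∂μ + w e * ∫ σ, sp e.1 σ * lk S w σ ∂μ := by
    rw [← integral_const_mul, ← integral_add hI1 (hC.const_mul _)]
    congr 1
    ext σ
    rw [hlk]
    simp only [sp]
    ring
  rw [e2] at hZ'
  unfold ES
  rw [e1, e2]
  set A := ∫ σ, sp o σ * lk S w σ ∂μ
  set B := ∫ σ, sp2 o e.1 σ * lk S w σ ∂μ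
  set C := ∫ σ, sp e.1 σ * lk S w σ ∂μ
  set Z := ∫ σ, lk S w σ ∂μ
  have h3 : 1 + C / Z * w e = (Z + w e * C) / Z := by field_simp
  rw [h3]
  field_simp
  ring

/-- The free Ising measure is flip invariant. -/
theorem isFreeIsing_flip [G.LocallyFinite] {β : ℝ} (hG : G.IsTree) (hμ : IsFreeIsing G β μ) :
    μ.map (fun σ v => !(σ v)) = μ := by
  refine IsFreeIsing.unique hG (μ := μ.map (fun σ v => !(σ v))) (ν := μ) (β := β) ?_ hμ
  intro D hD η
  have hms := measurableSet_cyl D η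
  have hm : Measurable (fun (σ : V → Bool) v => !(σ v)) := (Post.flipE V).measurable
  have h1 := Measure.map_apply (μ := μ) hm hms
  unfold cyl at h1
  rw [h1]
  have h2 : (fun (σ : V → Bool) v => !(σ v)) ⁻¹' {σ | ∀ v ∈ D, σ v = η v} =
      {σ | ∀ v ∈ D, σ v = (fun v => !(η v)) v} := by
    ext σ
    simp only [Set.mem_preimage, Set.mem_ofPred_eq]
    refine forall₂_congr fun v _ => ?_
    cases σ v <;> cases η v <;> simp
  rw [h2, hμ D hD]
  congr 2
  refine Finset.prod_congr rfl fun e _ => ?_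
  induction e with
  | _ u v =>
    rw [edgeFactor_mk, edgeFactor_mk]
    simp only [spin_not]
    ring


theorem Obs.abs_slp_le (h : Obs μ P s y Q ζ b) (x : V × ℕ → Y) (e : V × ℕ) :
    |slp ζ x e| ≤ b := h.bd e (x e)

theorem Obs.measurable_slp (h : Obs μ P s y Q ζ b) : Measurable (slp ζ) :=
  measurable_pi_lambda _ fun e => (h.measZ e).comp (measurable_pi_apply e)

theorem Obs.integral_zeta (h : Obs μ P s y Q ζ b) (e : V × ℕ) : ∫ x, ζ e x ∂(Q e) = 0 := by
  have h1 : ∫ x, (-ζ e x) ∂(Q e) = ∫ x, ζ e x ∂(Q e) := by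
    have e1 := integral_map (μ := Q e) (h.measZ e).neg.aemeasurable
      (f := (id : ℝ → ℝ)) measurable_id.aestronglyMeasurable
    have e2 := integral_map (μ := Q e) (h.measZ e).aemeasurable
      (f := (id : ℝ → ℝ)) measurable_id.aestronglyMeasurable
    have e3 : (Q e).map (fun x => - ζ e x) = (Q e).map (ζ e) := h.sym e
    simp only [id] at e1 e2
    rw [← e2, ← e3]
    exact e1.symm
  rw [integral_neg] at h1
  linarith

open Classical in
/-- Freezing the coordinates outside `R`. -/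
noncomputable def Post.fr {Y : Type*} (R : Set (V × ℕ)) (y₀ : V × ℕ → Y) (x : V × ℕ → Y) :
    V × ℕ → Y := fun e => if e ∈ R then x e else y₀ e

theorem Post.measurable_fr (R : Set (V × ℕ)) (y₀ : V × ℕ → Y) : Measurable (Post.fr R y₀) := by
  refine measurable_pi_lambda _ fun e => ?_
  unfold Post.fr
  by_cases he : e ∈ R
  · simp only [if_pos he]; exact measurable_pi_apply e
  · simp only [if_neg he]; exact measurable_const

theorem Post.dep_fr {α : Type*} {R : Set (V × ℕ)} {F : (V × ℕ → Y) → α} (hF : DepE R F)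
    (y₀ x : V × ℕ → Y) : F (Post.fr R y₀ x) = F x :=
  hF _ _ fun e he => if_pos he

open Classical in
theorem Post.prod_fr (R : Set (V × ℕ)) (y₀ : V × ℕ → Y) (T : Finset (V × ℕ))
    (g : V × ℕ → Y → ℝ) : ∃ (c : ℝ) (T' : Finset (V × ℕ)), (∀ e, e ∈ T' ↔ e ∈ T ∧ e ∈ R) ∧
    ∀ x : V × ℕ → Y, ∏ e ∈ T, g e (Post.fr R y₀ x e) = c * ∏ e ∈ T', g e (x e) := by
  refine ⟨∏ e ∈ T.filter (· ∉ R), g e (y₀ e), T.filter (· ∈ R), fun e => Finset.mem_filter,
    fun x => ?_⟩
  rw [← Finset.prod_filter_mul_prod_filter_not T (· ∈ R), mul_comm]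
  congr 1
  · refine Finset.prod_congr rfl fun e he => ?_
    rw [Finset.mem_filter] at he
    unfold Post.fr
    rw [if_neg he.2]
  · refine Finset.prod_congr rfl fun e he => ?_
    rw [Finset.mem_filter] at he
    unfold Post.fr
    rw [if_pos he.2]

/-- The one site kernel. -/
noncomputable def Post.K (Q : V × ℕ → Measure Y) (ζ : V × ℕ → Y → ℝ) (e : V × ℕ) (k : Y → ℝ)
    (σ : V → Bool) : ℝ := ∫ x, k x * (1 + ζ e x * spin (σ e.1)) ∂(Q e)

theorem Obs.integrable_of (h : Obs μ P s y Q ζ b) (e : V × ℕ) {k : Y → ℝ} (hk : Measurable k)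
    (hkC : ∃ C, ∀ x, |k x| ≤ C) : Integrable k (Q e) := by
  have := h.probQ e
  exact Post.integrable_aux (Q e) hk hkC

theorem Post.bdd_mul {α : Type*} {k z : α → ℝ} (hkC : ∃ C, ∀ x, |k x| ≤ C)
    (hzC : ∃ C, ∀ x, |z x| ≤ C) : ∃ C, ∀ x, |k x * z x| ≤ C := by
  obtain ⟨C, hC⟩ := hkC
  obtain ⟨D, hD⟩ := hzC
  refine ⟨C * D, fun x => ?_⟩
  rw [abs_mul]
  exact mul_le_mul (hC x) (hD x) (abs_nonneg _) ((abs_nonneg _).trans (hC x))

theorem Obs.K_eq (h : Obs μ P s y Q ζ b) (e : V × ℕ) {k : Y → ℝ} (hk : Measurable k)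
    (hkC : ∃ C, ∀ x, |k x| ≤ C) (t : ℝ) :
    ∫ x, k x * (1 + ζ e x * t) ∂(Q e) = ∫ x, k x ∂(Q e) + (∫ x, k x * ζ e x ∂(Q e)) * t := by
  have h1 := h.integrable_of e hk hkC
  have h2 : Integrable (fun x => k x * ζ e x) (Q e) :=
    h.integrable_of e (hk.mul (h.measZ e)) (Post.bdd_mul hkC ⟨b, h.bd e⟩)
  rw [← integral_mul_const, ← integral_add h1 (h2.mul_const t)]
  congr 1
  ext x
  ring

theorem Post.measurable_spin (v : V) : Measurable fun σ : V → Bool => spin (σ v) :=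
  measurable_sp v

theorem Obs.measurable_K (h : Obs μ P s y Q ζ b) (e : V × ℕ) {k : Y → ℝ} (hk : Measurable k)
    (hkC : ∃ C, ∀ x, |k x| ≤ C) : Measurable (Post.K Q ζ e k) := by
  have : Post.K Q ζ e k = fun σ => ∫ x, k x ∂(Q e) + (∫ x, k x * ζ e x ∂(Q e)) * spin (σ e.1) := by
    ext σ
    exact h.K_eq e hk hkC _
  rw [this]
  exact measurable_const.add ((Post.measurable_spin e.1).const_mul _)

theorem Obs.bdd_K (h : Obs μ P s y Q ζ b) (e : V × ℕ) {k : Y → ℝ} (hk : Measurable k)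
    (hkC : ∃ C, ∀ x, |k x| ≤ C) : ∃ C, ∀ σ, |Post.K Q ζ e k σ| ≤ C := by
  refine ⟨|∫ x, k x ∂(Q e)| + |∫ x, k x * ζ e x ∂(Q e)|, fun σ => ?_⟩
  unfold Post.K
  rw [h.K_eq e hk hkC]
  refine (abs_add_le _ _).trans ?_
  rw [abs_mul, abs_spin, mul_one]

theorem Obs.K_nonneg (h : Obs μ P s y Q ζ b) (e : V × ℕ) {k : Y → ℝ} (h0 : ∀ x, 0 ≤ k x)
    (σ : V → Bool) : 0 ≤ Post.K Q ζ e k σ := by
  refine integral_nonneg fun x => mul_nonneg (h0 x) ?_
  have h1 := h.bd e x
  have h2 := h.b_lt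
  have h3 : |ζ e x * spin (σ e.1)| ≤ b := by rw [abs_mul, abs_spin, mul_one]; exact h1
  have := abs_le.mp h3
  linarith

open Classical in
/-- Nonnegative version of `fd_one`. -/
theorem Obs.fd_one_nonneg (h : Obs μ P s y Q ζ b)
    {e : V × ℕ} {f : (V → Bool) → ℝ} (hf : Measurable f)
    {F : (V × ℕ → Y) → ℝ} (hF : Measurable F)
    (hdep : DepE {e' | e' ≠ e} F) {k : Y → ℝ} (hk : Measurable k) (hkC : ∃ C, ∀ x, |k x| ≤ C)
    (hk0 : ∀ x, 0 ≤ k x) :
    ∫ ω, f (s ω) * F (y ω) * k (y ω e) ∂P =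
      ∫ ω, f (s ω) * F (y ω) * Post.K Q ζ e k (s ω) ∂P := by
  have := h.prob
  obtain ⟨ω₀⟩ : Nonempty Ω := P.nonempty_of_neZero
  have hms := h.measS
  have hmy := h.measY
  have hmk : Measurable fun ω => k (y ω e) := hk.comp ((measurable_pi_apply e).comp hmy)
  have hmfr := Post.measurable_fr {e' | e' ≠ e} (y ω₀)
  have key := Post.integral_eq (P₁ := P) (P₂ := P) (X₁ := s) (X₂ := s)
    (y₁ := fun ω => Post.fr {e' | e' ≠ e} (y ω₀) (y ω))
    (y₂ := fun ω => Post.fr {e' | e' ≠ e} (y ω₀) (y ω))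
    hms (hmfr.comp hmy) hms (hmfr.comp hmy)
    (u₁ := fun ω => k (y ω e)) (u₂ := fun ω => Post.K Q ζ e k (s ω))
    hmk ((h.measurable_K e hk hkC).comp hms) (fun ω => hk0 _) (fun ω => h.K_nonneg e hk0 _)
    (by obtain ⟨C, hC⟩ := hkC; exact ⟨C, fun ω => hC _⟩)
    (by obtain ⟨C, hC⟩ := h.bdd_K e hk hkC; exact ⟨C, fun ω => hC _⟩) ?_
    (H := fun p => f p.1 * F p.2) ((hf.comp measurable_fst).mul (hF.comp measurable_snd))
  · simp only [Post.dep_fr hdep] at key
    exact key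
  · intro f' T g hf' hf'1 hg hg1
    obtain ⟨c, T', hT', hpf⟩ := Post.prod_fr {e' | e' ≠ e} (y ω₀) T g
    simp only [hpf]
    have heT' : e ∉ T' := by
      rw [hT']
      rintro ⟨_, h2⟩
      exact h2 rfl
    set g' : V × ℕ → Y → ℝ := fun e' => if e' = e then k else g e' with hg'
    have hgm : ∀ e', Measurable (g' e') := by
      intro e'
      rw [hg']
      by_cases he : e' = e
      · simp only [if_pos he]; exact hk
      · simp only [if_neg he]; exact hg e'
    have hgC : ∃ C, ∀ e' x, |g' e' x| ≤ C := by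
      obtain ⟨C, hC⟩ := hkC
      refine ⟨max C 1, fun e' x => ?_⟩
      rw [hg']
      by_cases he : e' = e
      · simp only [if_pos he]; exact (hC x).trans (le_max_left _ _)
      · simp only [if_neg he]; exact (hg1 e' x).trans (le_max_right _ _)
    have e1 := h.fd (insert e T') f' g' hf' ⟨1, hf'1⟩ hgm hgC
    have e2 := h.fd T' (fun σ => f' σ * Post.K Q ζ e k σ) g (hf'.mul (h.measurable_K e hk hkC))
      (Post.bdd_mul ⟨1, hf'1⟩ (h.bdd_K e hk hkC)) hg ⟨1, hg1⟩
    have hgT : ∀ e' ∈ T', g' e' = g e' := by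
      intro e' he'
      rw [hg']
      simp only
      rw [if_neg (fun hcon : e' = e => heT' (by rw [← hcon]; exact he'))]
    have hge : g' e = k := by rw [hg']; simp
    simp_rw [Finset.prod_insert heT', hge] at e1
    have l1 : ∫ ω, f' (s ω) * (c * ∏ e' ∈ T', g e' (y ω e')) * k (y ω e) ∂P =
        c * ∫ ω, f' (s ω) * (k (y ω e) * ∏ e' ∈ T', g' e' (y ω e')) ∂P := by
      rw [← integral_const_mul]
      congr 1
      ext ω
      rw [Finset.prod_congr rfl (fun e' he' => by rw [hgT e' he'] :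
        ∀ e' ∈ T', g' e' (y ω e') = g e' (y ω e'))]
      ring
    have l2 : ∫ ω, f' (s ω) * (c * ∏ e' ∈ T', g e' (y ω e')) * Post.K Q ζ e k (s ω) ∂P =
        c * ∫ ω, f' (s ω) * Post.K Q ζ e k (s ω) * ∏ e' ∈ T', g e' (y ω e') ∂P := by
      rw [← integral_const_mul]
      congr 1
      ext ω
      ring
    rw [l1, l2, e1, e2]
    congr 1
    congr 1
    ext σ
    rw [Finset.prod_congr rfl (fun e' he' => by rw [hgT e' he'] :
      ∀ e' ∈ T', ∫ x, g' e' x * (1 + ζ e' x * spin (σ e'.1)) ∂(Q e') =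
        ∫ x, g e' x * (1 + ζ e' x * spin (σ e'.1)) ∂(Q e'))]
    unfold Post.K
    ring

/-- One more conditional independence: a bounded function of the spins and of the observations in
`S` times a function of `y e`, `e ∉ S`. -/
theorem Obs.fd_one [Countable V] [IsProbabilityMeasure μ] (h : Obs μ P s y Q ζ b)
    {e : V × ℕ} {f : (V → Bool) → ℝ} (hf : Measurable f) (hfC : ∃ C, ∀ σ, |f σ| ≤ C)
    {F : (V × ℕ → Y) → ℝ} (hF : Measurable F) (hFC : ∃ C, ∀ x, |F x| ≤ C)
    (hdep : DepE {e' | e' ≠ e} F) {k : Y → ℝ} (hk : Measurable k) (hkC : ∃ C, ∀ x, |k x| ≤ C) :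
    ∫ ω, f (s ω) * F (y ω) * k (y ω e) ∂P =
      ∫ ω, f (s ω) * F (y ω) * (∫ x, k x * (1 + ζ e x * spin (s ω e.1)) ∂(Q e)) ∂P := by
  have := h.prob
  obtain ⟨C, hC⟩ := hkC
  have hC0 : 0 ≤ C ∨ IsEmpty Y := by
    by_cases hY : Nonempty Y
    · obtain ⟨x⟩ := hY
      exact Or.inl ((abs_nonneg _).trans (hC x))
    · exact Or.inr (not_nonempty_iff.mp hY)
  have hk1 : Measurable fun x => k x + C := hk.add_const C
  have hkC1 : ∃ D, ∀ x, |k x + C| ≤ D := by
    refine ⟨C + |C|, fun x => (abs_add_le _ _).trans (add_le_add (hC x) le_rfl)⟩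
  have h1 := h.fd_one_nonneg hf hF hdep hk1 hkC1
    (fun x => by have := abs_le.mp (hC x); linarith)
  have h2 := h.fd_one_nonneg hf hF hdep (k := fun _ => |C|) measurable_const
    ⟨|C|, fun x => by simp⟩ (fun x => abs_nonneg C)
  have hms := h.measS
  have hmy := h.measY
  have hfs : Measurable fun ω => f (s ω) := hf.comp hms
  have hFy : Measurable fun ω => F (y ω) := hF.comp hmy
  have hky : Measurable fun ω => k (y ω e) := hk.comp ((measurable_pi_apply e).comp hmy)
  have hb1 : ∃ D, ∀ ω, |f (s ω) * F (y ω)| ≤ D := by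
    obtain ⟨C1, hC1⟩ := hfC
    obtain ⟨C2, hC2⟩ := hFC
    exact Post.bdd_mul ⟨C1, fun ω => hC1 _⟩ ⟨C2, fun ω => hC2 _⟩
  have hi1 : Integrable (fun ω => f (s ω) * F (y ω) * k (y ω e)) P :=
    Post.integrable_aux P ((hfs.mul hFy).mul hky) (Post.bdd_mul hb1 ⟨C, fun ω => hC _⟩)
  have hi0 : Integrable (fun ω => f (s ω) * F (y ω)) P :=
    Post.integrable_aux P (hfs.mul hFy) hb1
  have hKm := (h.measurable_K e hk ⟨C, hC⟩).comp hms
  have hKb := h.bdd_K e hk ⟨C, hC⟩
  have hi2 : Integrable (fun ω => f (s ω) * F (y ω) * Post.K Q ζ e k (s ω)) P := by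
    obtain ⟨D, hD⟩ := hKb
    exact Post.integrable_aux P ((hfs.mul hFy).mul hKm) (Post.bdd_mul hb1 ⟨D, fun ω => hD _⟩)
  have hK1 : ∀ σ, Post.K Q ζ e (fun x => k x + C) σ = Post.K Q ζ e k σ + C := by
    intro σ
    have := h.probQ e
    unfold Post.K
    rw [h.K_eq e hk1 hkC1, h.K_eq e hk ⟨C, hC⟩]
    have i1 := h.integrable_of e hk ⟨C, hC⟩
    have i2 : Integrable (fun x => k x * ζ e x) (Q e) :=
      h.integrable_of e (hk.mul (h.measZ e)) (Post.bdd_mul ⟨C, hC⟩ ⟨b, h.bd e⟩)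
    have i3 := h.integrable_of e (h.measZ e) ⟨b, h.bd e⟩
    have a1 : ∫ x, (k x + C) ∂(Q e) = ∫ x, k x ∂(Q e) + C := by
      rw [integral_add i1 (integrable_const C)]
      simp
    have a2 : ∫ x, (k x + C) * ζ e x ∂(Q e) = ∫ x, k x * ζ e x ∂(Q e) := by
      have : (fun x => (k x + C) * ζ e x) = fun x => k x * ζ e x + C * ζ e x := by
        ext x; ring
      rw [this, integral_add i2 (i3.const_mul C), integral_const_mul, h.integral_zeta]
      ring
    rw [a1, a2]
    ring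
  have l1 : ∫ ω, f (s ω) * F (y ω) * (k (y ω e) + C) ∂P =
      ∫ ω, f (s ω) * F (y ω) * k (y ω e) ∂P + C * ∫ ω, f (s ω) * F (y ω) ∂P := by
    rw [← integral_const_mul, ← integral_add hi1 (hi0.const_mul C)]
    congr 1
    ext ω
    ring
  have l2 : ∫ ω, f (s ω) * F (y ω) * Post.K Q ζ e (fun x => k x + C) (s ω) ∂P =
      ∫ ω, f (s ω) * F (y ω) * Post.K Q ζ e k (s ω) ∂P + C * ∫ ω, f (s ω) * F (y ω) ∂P := by
    rw [← integral_const_mul, ← integral_add hi2 (hi0.const_mul C)]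
    congr 1
    ext ω
    rw [hK1]
    ring
  rw [l1, l2] at h1
  have h3 := add_right_cancel h1
  exact h3

open Classical in
/-- The joint density of the spins and of the observations in `S`. -/
theorem Obs.joint [IsProbabilityMeasure μ] (h : Obs μ P s y Q ζ b)
    (S : Finset (V × ℕ)) (y₀ : V × ℕ → Y) {H : (V → Bool) × (V × ℕ → Y) → ℝ}
    (hH : Measurable H) (hdep : ∀ σ, DepE (S : Set (V × ℕ)) fun x => H (σ, x)) :
    ∫ ω, H (s ω, y ω) ∂P =
      ∫ p : (V → Bool) × ((e : S) → Y),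
        H (p.1, fun e => if he : e ∈ S then p.2 ⟨e, he⟩ else y₀ e) *
          lk S (slp ζ (fun e => if he : e ∈ S then p.2 ⟨e, he⟩ else y₀ e)) p.1
        ∂(μ.prod (Measure.pi fun e : S => Q e)) := by
  have := h.prob
  have hpQ := h.probQ
  have hms := h.measS
  have hmy := h.measY
  have hmfr := Post.measurable_fr (S : Set (V × ℕ)) y₀
  have hmex : Measurable fun z : (e : S) → Y =>
      (fun e : V × ℕ => if he : e ∈ S then z ⟨e, he⟩ else y₀ e) := by
    refine measurable_pi_lambda _ fun e => ?_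
    by_cases he : e ∈ S
    · simp only [dif_pos he]; exact measurable_pi_apply _
    · simp only [dif_neg he]; exact measurable_const
  have hlkm : Measurable fun p : (V → Bool) × ((e : S) → Y) =>
      lk S (slp ζ (fun e => if he : e ∈ S then p.2 ⟨e, he⟩ else y₀ e)) p.1 := by
    have h1 : Measurable fun p : (V → Bool) × ((e : S) → Y) =>
        (slp ζ (fun e => if he : e ∈ S then p.2 ⟨e, he⟩ else y₀ e), p.1) :=
      (h.measurable_slp.comp (hmex.comp measurable_snd)).prodMk measurable_fst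
    exact (measurable_lk S).comp h1
  have key := Post.integral_eq (P₁ := P) (P₂ := μ.prod (Measure.pi fun e : S => Q e))
    (X₁ := s) (X₂ := fun p => p.1)
    (y₁ := fun ω => Post.fr (S : Set (V × ℕ)) y₀ (y ω))
    (y₂ := fun p => fun e : V × ℕ => if he : e ∈ S then p.2 ⟨e, he⟩ else y₀ e)
    hms (hmfr.comp hmy) measurable_fst (hmex.comp measurable_snd)
    (u₁ := fun ω => 1) (u₂ := fun p => lk S (slp ζ
      (fun e => if he : e ∈ S then p.2 ⟨e, he⟩ else y₀ e)) p.1)
    measurable_const hlkm (fun ω => zero_le_one)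
    (fun p => (lk_pos h.b_lt (fun e _ => h.abs_slp_le _ e) _).le)
    ⟨1, fun ω => by simp⟩
    ⟨(1 + b) ^ S.card, fun p => lk_le h.b_nonneg (fun e _ => h.abs_slp_le _ e) _⟩ ?_ hH
  · simp only [mul_one] at key
    have h2 : ∀ ω, H (s ω, Post.fr (S : Set (V × ℕ)) y₀ (y ω)) = H (s ω, y ω) := by
      intro ω
      exact Post.dep_fr (hdep (s ω)) y₀ (y ω)
    simp only [h2] at key
    exact key
  · intro f' T g hf' hf'1 hg hg1
    simp only [mul_one]
    obtain ⟨c, T', hT', hpf⟩ := Post.prod_fr (S : Set (V × ℕ)) y₀ T g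
    simp only [hpf]
    set g' : V × ℕ → Y → ℝ := fun e' => if e' ∈ T then g e' else fun _ => 1 with hg'
    have hgm : ∀ e', Measurable (g' e') := by
      intro e'
      rw [hg']
      by_cases he : e' ∈ T
      · simp only [if_pos he]; exact hg e'
      · simp only [if_neg he]; exact measurable_const
    have hgC : ∀ e' x, |g' e' x| ≤ 1 := by
      intro e' x
      rw [hg']
      by_cases he : e' ∈ T
      · simp only [if_pos he]; exact hg1 e' x
      · simp only [if_neg he]; simp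
    have hprod : ∀ x : V × ℕ → Y, ∏ e' ∈ T', g e' (x e') =
        ∏ e' ∈ S, g' e' (x e') := by
      intro x
      have h1 : T' = S.filter (· ∈ T) := by
        ext e
        simp only [hT', Finset.mem_filter, Finset.mem_coe]
        tauto
      rw [h1, Finset.prod_filter]
      refine Finset.prod_congr rfl fun e _ => ?_
      rw [hg']
      by_cases he : e ∈ T
      · simp only [if_pos he]
      · simp only [if_neg he]
    have e1 := h.fd S f' g' hf' ⟨1, hf'1⟩ hgm ⟨1, hgC⟩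
    simp only [hprod]
    have l1 : ∫ ω, f' (s ω) * (c * ∏ e' ∈ S, g' e' (y ω e')) ∂P =
        c * ∫ ω, f' (s ω) * ∏ e' ∈ S, g' e' (y ω e') ∂P := by
      rw [← integral_const_mul]
      congr 1
      ext ω
      ring
    rw [l1, e1]
    have l2 : ∀ p : (V → Bool) × ((e : S) → Y),
        (f' p.1 * ∏ i ∈ T, g i (if he : i ∈ S then p.2 ⟨i, he⟩ else y₀ i)) *
          lk S (slp ζ (fun e => if he : e ∈ S then p.2 ⟨e, he⟩ else y₀ e)) p.1 =
        c * (f' p.1 * ∏ e : S, (g' e (p.2 e) * (1 + ζ e (p.2 e) * spin (p.1 e.1.1)))) := by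
      intro p
      have h3 := hpf (fun e => if he : e ∈ S then p.2 ⟨e, he⟩ else y₀ e)
      have h4 : (fun i => Post.fr (S : Set (V × ℕ)) y₀
          (fun e => if he : e ∈ S then p.2 ⟨e, he⟩ else y₀ e) i) =
          fun i => if he : i ∈ S then p.2 ⟨i, he⟩ else y₀ i := by
        ext i
        unfold Post.fr
        by_cases hi : i ∈ S
        · rw [if_pos (Finset.mem_coe.mpr hi)]
        · rw [if_neg (fun hcon => hi (Finset.mem_coe.mp hcon)), dif_neg hi]
      have h5 : ∏ i ∈ T, g i (if he : i ∈ S then p.2 ⟨i, he⟩ else y₀ i) =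
          ∏ i ∈ T, g i (Post.fr (S : Set (V × ℕ)) y₀
          (fun e => if he : e ∈ S then p.2 ⟨e, he⟩ else y₀ e) i) := by
        refine Finset.prod_congr rfl fun i _ => ?_
        rw [congrFun h4 i]
      rw [h5, h3, hprod]
      rw [Finset.prod_mul_distrib]
      have h6 : ∏ e' ∈ S, g' e' (if he : e' ∈ S then p.2 ⟨e', he⟩ else y₀ e') =
          ∏ e : S, g' e (p.2 e) := by
        rw [← Finset.prod_coe_sort]
        refine Finset.prod_congr rfl fun e _ => ?_
        rw [dif_pos e.2]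
      have h7 : lk S (slp ζ (fun e => if he : e ∈ S then p.2 ⟨e, he⟩ else y₀ e)) p.1 =
          ∏ e : S, (1 + ζ e (p.2 e) * spin (p.1 e.1.1)) := by
        unfold lk slp
        rw [← Finset.prod_coe_sort]
        refine Finset.prod_congr rfl fun e _ => ?_
        simp only
        rw [dif_pos e.2]
      rw [h6, h7]
      ring
    simp_rw [l2]
    rw [integral_const_mul]
    congr 1
    have hbig : Integrable (fun p : (V → Bool) × ((e : S) → Y) =>
        f' p.1 * ∏ e : S, (g' e (p.2 e) * (1 + ζ e (p.2 e) * spin (p.1 e.1.1))))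
        (μ.prod (Measure.pi fun e : S => Q e)) := by
      refine Post.integrable_aux _ ?_ ?_
      · refine (hf'.comp measurable_fst).mul (Finset.measurable_prod _ fun e _ => ?_)
        refine ((hgm e).comp ((measurable_pi_apply e).comp measurable_snd)).mul ?_
        refine measurable_const.add ?_
        exact ((h.measZ e).comp ((measurable_pi_apply e).comp measurable_snd)).mul
          ((Post.measurable_spin e.1.1).comp measurable_fst)
      · refine ⟨1 * ∏ e : S, (1 * (1 + b)), fun p => ?_⟩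
        rw [abs_mul, Finset.abs_prod]
        refine mul_le_mul (hf'1 _) ?_ (Finset.prod_nonneg fun _ _ => abs_nonneg _) zero_le_one
        refine Finset.prod_le_prod (fun _ _ => abs_nonneg _) fun e _ => ?_
        rw [abs_mul]
        refine mul_le_mul (hgC _ _) ?_ (abs_nonneg _) zero_le_one
        refine (abs_add_le _ _).trans ?_
        rw [abs_one, abs_mul, abs_spin, mul_one]
        have := h.bd e (p.2 e)
        linarith
    rw [integral_prod _ hbig]
    congr 1
    ext σ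
    simp only
    rw [integral_const_mul]
    congr 1
    rw [integral_fintype_prod_eq_prod (μ := fun e : S => Q e)
      (f := fun (e : S) (x : Y) => g' e x * (1 + ζ e x * spin (σ e.1.1)))]
    rw [← Finset.prod_coe_sort]

theorem Obs.post_aux [IsProbabilityMeasure μ] (h : Obs μ P s y Q ζ b)
    (S : Finset (V × ℕ)) {f : (V → Bool) → ℝ} (hf : Measurable f) (hfC : ∃ C, ∀ σ, |f σ| ≤ C) :
    (∀ y₀ : V × ℕ → Y, ∀ z : V × ℕ → Y, ∫ σ, f σ * lk S (slp ζ z) σ ∂μ =
      ES μ S (slp ζ z) f * ∫ σ, lk S (slp ζ z) σ ∂μ) := by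
  intro _ z
  unfold ES
  have hZ := integral_lk_pos h.b_nonneg h.b_lt μ (S := S) (w := slp ζ z)
    (fun e _ => h.abs_slp_le z e)
  rw [div_mul_cancel₀ _ hZ.ne']

/-- Finite dimensional densities. -/
theorem Obs.post [Countable V] [IsProbabilityMeasure μ] (h : Obs μ P s y Q ζ b)
    (S : Finset (V × ℕ)) {f : (V → Bool) → ℝ} (hf : Measurable f) (hfC : ∃ C, ∀ σ, |f σ| ≤ C)
    {F : (V × ℕ → Y) → ℝ} (hF : Measurable F) (hFC : ∃ C, ∀ x, |F x| ≤ C)
    (hdep : DepE (S : Set (V × ℕ)) F) :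
    ∫ ω, f (s ω) * F (y ω) ∂P = ∫ ω, ES μ S (slp ζ (y ω)) f * F (y ω) ∂P := by
  classical
  have := h.prob
  have hpQ := h.probQ
  obtain ⟨ω₀⟩ : Nonempty Ω := P.nonempty_of_neZero
  set y₀ := y ω₀
  have hESm : Measurable fun x : V × ℕ → Y => ES μ S (slp ζ x) f :=
    (measurable_ES μ S hf hfC).comp h.measurable_slp
  have e1 := h.joint S y₀ (H := fun p => f p.1 * F p.2)
    ((hf.comp measurable_fst).mul (hF.comp measurable_snd))
    (fun σ x x' hx => by simp only; rw [hdep x x' hx])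
  have e2 := h.joint S y₀ (H := fun p => ES μ S (slp ζ p.2) f * F p.2)
    ((hESm.mul hF).comp measurable_snd)
    (fun σ x x' hx => by
      simp only
      rw [hdep x x' hx, ES_congr μ (w := slp ζ x) (w' := slp ζ x')
        (fun e he => by unfold slp; rw [hx e he])])
  simp only at e1 e2
  rw [e1, e2]
  have hmex : Measurable fun z : (e : S) → Y =>
      (fun e : V × ℕ => if he : e ∈ S then z ⟨e, he⟩ else y₀ e) := by
    refine measurable_pi_lambda _ fun e => ?_
    by_cases he : e ∈ S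
    · simp only [dif_pos he]; exact measurable_pi_apply _
    · simp only [dif_neg he]; exact measurable_const
  have hlkm : Measurable fun p : (V → Bool) × ((e : S) → Y) =>
      lk S (slp ζ (fun e => if he : e ∈ S then p.2 ⟨e, he⟩ else y₀ e)) p.1 := by
    have h1 : Measurable fun p : (V → Bool) × ((e : S) → Y) =>
        (slp ζ (fun e => if he : e ∈ S then p.2 ⟨e, he⟩ else y₀ e), p.1) :=
      (h.measurable_slp.comp (hmex.comp measurable_snd)).prodMk measurable_fst
    exact (measurable_lk S).comp h1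
  have hlkC : ∃ C, ∀ p : (V → Bool) × ((e : S) → Y),
      |lk S (slp ζ (fun e => if he : e ∈ S then p.2 ⟨e, he⟩ else y₀ e)) p.1| ≤ C :=
    ⟨(1 + b) ^ S.card, fun p => lk_le h.b_nonneg (fun e _ => h.abs_slp_le _ e) _⟩
  obtain ⟨Cf, hCf⟩ := hfC
  obtain ⟨CF, hCF⟩ := hFC
  have hb1 : ∃ C, ∀ p : (V → Bool) × ((e : S) → Y),
      |f p.1 * F (fun e => if he : e ∈ S then p.2 ⟨e, he⟩ else y₀ e)| ≤ C :=
    Post.bdd_mul ⟨Cf, fun p => hCf _⟩ ⟨CF, fun p => hCF _⟩
  have hb2 : ∃ C, ∀ p : (V → Bool) × ((e : S) → Y),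
      |ES μ S (slp ζ (fun e => if he : e ∈ S then p.2 ⟨e, he⟩ else y₀ e)) f *
        F (fun e => if he : e ∈ S then p.2 ⟨e, he⟩ else y₀ e)| ≤ C :=
    Post.bdd_mul ⟨Cf, fun p => ES_abs_le h.b_nonneg h.b_lt μ (fun e _ => h.abs_slp_le _ e) hf hCf⟩
      ⟨CF, fun p => hCF _⟩
  have i1 := Post.integrable_aux (μ.prod (Measure.pi fun e : S => Q e))
    (((hf.comp measurable_fst).mul (hF.comp (hmex.comp measurable_snd))).mul hlkm)
    (Post.bdd_mul hb1 hlkC)
  have i2 := Post.integrable_aux (μ.prod (Measure.pi fun e : S => Q e))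
    (((hESm.comp (hmex.comp measurable_snd)).mul (hF.comp (hmex.comp measurable_snd))).mul hlkm)
    (Post.bdd_mul hb2 hlkC)
  have j1 := integral_prod_symm _ i1
  have j2 := integral_prod_symm _ i2
  simp only [Pi.mul_apply, Function.comp] at j1 j2
  rw [j1, j2]
  congr 1
  ext z
  have k1 := h.post_aux S hf ⟨Cf, hCf⟩ y₀ (fun e => if he : e ∈ S then z ⟨e, he⟩ else y₀ e)
  set Z := (fun e => if he : e ∈ S then z ⟨e, he⟩ else y₀ e)
  have k2 : ∫ σ, f σ * F Z * lk S (slp ζ Z) σ ∂μ = F Z * ∫ σ, f σ * lk S (slp ζ Z) σ ∂μ := by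
    rw [← integral_const_mul]
    congr 1
    ext σ
    ring
  rw [k2, k1, integral_const_mul]
  ring

/-- Conditional law of one more observation: for `e ∉ S` and `F` depending on `S`,
`E F(y) h(y e) = E F(y) ∫ h(x) (1 + ζ e x · ES(sp e.1)) Q(dx)`. -/
theorem Obs.post_one [Countable V] [IsProbabilityMeasure μ] (h : Obs μ P s y Q ζ b)
    (S : Finset (V × ℕ)) {e : V × ℕ} (he : e ∉ S)
    {F : (V × ℕ → Y) → ℝ} (hF : Measurable F) (hFC : ∃ C, ∀ x, |F x| ≤ C)
    (hdep : DepE (S : Set (V × ℕ)) F) {k : Y → ℝ} (hk : Measurable k) (hkC : ∃ C, ∀ x, |k x| ≤ C) :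
    ∫ ω, F (y ω) * k (y ω e) ∂P =
      ∫ ω, F (y ω) * (∫ x, k x * (1 + ζ e x * ES μ S (slp ζ (y ω)) (sp e.1)) ∂(Q e)) ∂P := by
  have := h.prob
  have hms := h.measS
  have hmy := h.measY
  have hdep' : DepE {e' | e' ≠ e} F := by
    intro x x' hx
    refine hdep x x' fun e' he' => hx e' ?_
    rintro rfl
    exact he (Finset.mem_coe.mp he')
  have h1 := h.fd_one (f := fun _ => 1) measurable_const ⟨1, fun _ => by simp⟩ hF hFC hdep' hk hkC
  simp only [one_mul] at h1
  rw [h1]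
  simp_rw [h.K_eq e hk hkC]
  set c0 := ∫ x, k x ∂(Q e)
  set c1 := ∫ x, k x * ζ e x ∂(Q e)
  have hFy : Measurable fun ω => F (y ω) := hF.comp hmy
  obtain ⟨CF, hCF⟩ := hFC
  have i0 : Integrable (fun ω => F (y ω)) P := Post.integrable_aux P hFy ⟨CF, fun ω => hCF _⟩
  have hsp : Measurable fun ω => sp e.1 (s ω) := (measurable_sp e.1).comp hms
  have i1 : Integrable (fun ω => sp e.1 (s ω) * F (y ω)) P :=
    Post.integrable_aux P (hsp.mul hFy)
      (Post.bdd_mul ⟨1, fun ω => abs_sp e.1 (s ω)⟩ ⟨CF, fun ω => hCF _⟩)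
  have hES : Measurable fun ω => ES μ S (slp ζ (y ω)) (sp e.1) :=
    ((measurable_ES μ S (measurable_sp e.1) ⟨1, abs_sp e.1⟩).comp h.measurable_slp).comp hmy
  have i2 : Integrable (fun ω => ES μ S (slp ζ (y ω)) (sp e.1) * F (y ω)) P :=
    Post.integrable_aux P (hES.mul hFy)
      (Post.bdd_mul ⟨1, fun ω => ES_abs_le h.b_nonneg h.b_lt μ (fun e _ => h.abs_slp_le _ e)
        (measurable_sp e.1) (abs_sp e.1)⟩ ⟨CF, fun ω => hCF _⟩)
  have h2 := h.post S (measurable_sp e.1) ⟨1, abs_sp e.1⟩ hF ⟨CF, hCF⟩ hdep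
  have l1 : ∫ ω, F (y ω) * (c0 + c1 * spin (s ω e.1)) ∂P =
      c0 * ∫ ω, F (y ω) ∂P + c1 * ∫ ω, sp e.1 (s ω) * F (y ω) ∂P := by
    rw [← integral_const_mul, ← integral_const_mul, ← integral_add (i0.const_mul _)
      (i1.const_mul _)]
    congr 1
    ext ω
    simp only [sp]
    ring
  have l2 : ∫ ω, F (y ω) * (c0 + c1 * ES μ S (slp ζ (y ω)) (sp e.1)) ∂P =
      c0 * ∫ ω, F (y ω) ∂P + c1 * ∫ ω, ES μ S (slp ζ (y ω)) (sp e.1) * F (y ω) ∂P := by
    rw [← integral_const_mul, ← integral_const_mul, ← integral_add (i0.const_mul _)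
      (i2.const_mul _)]
    congr 1
    ext ω
    ring
  rw [l1, l2, h2]

/-- The law of the slopes and spins is invariant under the global flip. -/
theorem Obs.flip [Countable V] [IsProbabilityMeasure μ] (h : Obs μ P s y Q ζ b)
    (hflip : μ.map (fun σ v => !(σ v)) = μ) :
    P.map (fun ω => ((fun v => !(s ω v) : V → Bool), (fun e => - slp ζ (y ω) e : V × ℕ → ℝ))) =
      P.map (fun ω => (s ω, slp ζ (y ω))) := by
  have := h.prob
  have hpQ := h.probQ
  have hms := h.measS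
  have hmy := h.measY
  have hfl : Measurable (fun (σ : V → Bool) v => !(σ v)) := (Post.flipE V).measurable
  have hmslp : Measurable fun ω => slp ζ (y ω) := h.measurable_slp.comp hmy
  have hmneg : Measurable fun ω => (fun e => - slp ζ (y ω) e : V × ℕ → ℝ) :=
    measurable_pi_lambda _ fun e => ((measurable_pi_apply e).comp hmslp).neg
  have hm1 : Measurable fun ω => ((fun v => !(s ω v) : V → Bool),
      (fun e => - slp ζ (y ω) e : V × ℕ → ℝ)) := (hfl.comp hms).prodMk hmneg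
  have hm2 : Measurable fun ω => (s ω, slp ζ (y ω)) := hms.prodMk hmslp
  have : IsFiniteMeasure (P.map (fun ω => ((fun v => !(s ω v) : V → Bool),
      (fun e => - slp ζ (y ω) e : V × ℕ → ℝ)))) := by
    have := Measure.isProbabilityMeasure_map (μ := P) hm1.aemeasurable
    infer_instance
  apply Post.ext_cyl
  intro A S B hA hB
  have hms' : MeasurableSet (A ×ˢ (S : Set (V × ℕ)).pi B) :=
    hA.prod (MeasurableSet.pi S.countable_toSet fun i _ => hB i)
  rw [Measure.map_apply hm1 hms', Measure.map_apply hm2 hms']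
  have c1 := Post.conv_aux P (X := fun ω => (fun v => !(s ω v) : V → Bool))
    (y := fun ω => (fun e => - slp ζ (y ω) e : V × ℕ → ℝ)) (fun _ => (1 : ℝ)) (hfl.comp hms)
    hmneg hA hB (S := S)
  have c2 := Post.conv_aux P (X := s) (y := fun ω => slp ζ (y ω)) (fun _ => (1 : ℝ)) hms
    hmslp hA hB (S := S)
  simp only [mul_one, integral_const, smul_eq_mul] at c1 c2
  rw [measureReal_restrict_apply MeasurableSet.univ, Set.univ_inter] at c1 c2
  have hgoal : P.real ((fun ω => ((fun v => !(s ω v) : V → Bool),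
      (fun e => - slp ζ (y ω) e : V × ℕ → ℝ))) ⁻¹' (A ×ˢ (S : Set (V × ℕ)).pi B)) =
      P.real ((fun ω => (s ω, slp ζ (y ω))) ⁻¹' (A ×ˢ (S : Set (V × ℕ)).pi B)) := by
    rw [c1, c2]
    have hind : ∀ (C : Set ℝ) (x : ℝ), |C.indicator (fun _ => (1 : ℝ)) x| ≤ 1 := by
      intro C x
      by_cases hx : x ∈ C
      · rw [Set.indicator_of_mem hx]; simp
      · rw [Set.indicator_of_notMem hx]; simp
    have hindA : ∀ σ, |A.indicator (fun _ => (1 : ℝ)) σ| ≤ 1 := by
      intro x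
      by_cases hx : x ∈ A
      · rw [Set.indicator_of_mem hx]; simp
      · rw [Set.indicator_of_notMem hx]; simp
    have hmI : ∀ e, Measurable ((B e).indicator (fun _ => (1 : ℝ))) := fun e =>
      measurable_const.indicator (hB e)
    have f1 := h.fd S (fun σ => A.indicator (fun _ => (1 : ℝ)) (fun v => !(σ v)))
      (fun e x => (B e).indicator (fun _ => (1 : ℝ)) (- ζ e x))
      ((measurable_const.indicator hA).comp hfl) ⟨1, fun σ => hindA _⟩
      (fun e => (hmI e).comp (h.measZ e).neg) ⟨1, fun e x => hind _ _⟩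
    have f2 := h.fd S (fun σ => A.indicator (fun _ => (1 : ℝ)) σ)
      (fun e x => (B e).indicator (fun _ => (1 : ℝ)) (ζ e x))
      (measurable_const.indicator hA) ⟨1, fun σ => hindA _⟩
      (fun e => (hmI e).comp (h.measZ e)) ⟨1, fun e x => hind _ _⟩
    unfold slp
    rw [f1, f2]
    rw [← Post.integral_flip hflip (fun σ => A.indicator (fun _ => (1 : ℝ)) σ *
      ∏ e ∈ S, ∫ x, (B e).indicator (fun _ => (1 : ℝ)) (ζ e x) *
        (1 + ζ e x * spin (σ e.1)) ∂(Q e))]
    congr 1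
    ext σ
    congr 1
    refine Finset.prod_congr rfl fun e _ => ?_
    rw [spin_not]
    have g1 := integral_map (μ := Q e) (h.measZ e).neg.aemeasurable
      (f := fun t : ℝ => (B e).indicator (fun _ => (1 : ℝ)) t * (1 + t * - spin (σ e.1)))
      ((hmI e).mul (measurable_const.add (measurable_id.mul measurable_const))).aestronglyMeasurable
    have g2 := integral_map (μ := Q e) (h.measZ e).aemeasurable
      (f := fun t : ℝ => (B e).indicator (fun _ => (1 : ℝ)) t * (1 + t * - spin (σ e.1)))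
      ((hmI e).mul (measurable_const.add (measurable_id.mul measurable_const))).aestronglyMeasurable
    have e3 : (Q e).map (fun x => - ζ e x) = (Q e).map (ζ e) := h.sym e
    rw [← g2, ← e3]
    refine Eq.trans ?_ g1.symm
    congr 1
    ext x
    simp only [Pi.neg_apply]
    ring
  exact (measureReal_eq_measureReal_iff).mp hgoal

end Vale.Agent.P161.Crit
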