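import Vale.Agent.Lib.P161.Crit.ProcB
import Vale.Agent.Lib.P161.Corr

/-!
P161-CRIT, module Proc: quantitative information of the exact process at time `x`.
-/

open MeasureTheory Filter Topology ProbabilityTheory

namespace Vale.Agent.P161.Crit

variable {V : Type*} {G : SimpleGraph V} {μ : Measure (V → Bool)}

/-! ### Quantitative information -/

/-- The information `q(x)` of a message at time `x`. -/
noncomputable def qx (G : SimpleGraph V) (μ : Measure (V → Bool)) (a : ℝ) (p p' : V) (x : ℝ) : ℝ :=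
  ∫ ω, msg G μ p p' (ws a ω.2.1 (tt a ω.1 ω.2.1 ω.2.2) x) ^ 2 ∂(PO μ)

theorem qx_mono [G.LocallyFinite] {d : ℕ} {β : ℝ} (hE : Env G d β μ) {a : ℝ} (ha : 0 ≤ a)
    (ha1 : a < 1) (p p' : V) {x x' : ℝ} (hx : x ≤ x') : qx G μ a p p' x ≤ qx G μ a p p' x' := by
  have h := mask_mono hE ha ha1 (mx x) (mx x') (measurableSet_mx x) (measurableSet_mx x')
    (side G p p') (fun e _ y hy => lt_of_lt_of_le hy hx) p
  simp only [wm_mx] at h
  exact h

/-! ### The own information at small times -/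

theorem proc_mem_bev (v : V) {n : ℕ} (hn : 1 ≤ n) :
    (v, 0) ∈ bev G {e | e.1 = v} v n ∧ ∀ e ∈ bev G {e | e.1 = v} v n, e.1 = v := by
  have hfin : {e : V × ℕ | e ∈ {e : V × ℕ | e.1 = v} ∧ G.dist v e.1 ≤ n ∧ e.2 < n}.Finite := by
    refine Set.Finite.subset ((Set.finite_singleton v).prod (Set.finite_Iio n)) ?_
    rintro ⟨w, j⟩ ⟨h1, _, h2⟩
    exact ⟨h1, h2⟩
  unfold bev
  rw [dif_pos hfin]
  constructor
  · rw [Set.Finite.mem_toFinset]
    exact ⟨rfl, by simp, Nat.lt_of_lt_of_le Nat.zero_lt_one hn⟩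
  · intro e he
    rw [Set.Finite.mem_toFinset] at he
    exact he.1

theorem proc_ES {β : ℝ} (hμ : IsFreeIsing G β μ) [IsProbabilityMeasure μ] (v : V)
    (S : Finset (V × ℕ)) (h0 : (v, 0) ∈ S) (hS : ∀ e ∈ S, e.1 = v) (w : V × ℕ → ℝ)
    (hw : ∀ j, j ≠ 0 → w (v, j) = 0) : ES μ S w (sp v) = w (v, 0) := by
  have hlk : ∀ σ : V → Bool, lk S w σ = 1 + w (v, 0) * spin (σ v) := by
    intro σ
    unfold lk
    rw [Finset.prod_eq_single_of_mem (v, 0) h0]
    rintro ⟨u, j⟩ hj hne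
    have h1 : u = v := hS _ hj
    subst h1
    have h2 : j ≠ 0 := fun h => hne (by rw [h])
    rw [hw j h2, zero_mul, add_zero]
  have hint : Integrable (fun σ : V → Bool => spin (σ v)) μ := by
    refine Integrable.mono' (integrable_const (1 : ℝ))
      (measurable_spin_eval v).aestronglyMeasurable (Eventually.of_forall fun σ => ?_)
    rw [Real.norm_eq_abs, abs_spin]
  have hz := hμ.integral_spin v
  have h1 : ∫ σ, lk S w σ ∂μ = 1 := by
    simp_rw [hlk]
    rw [integral_add (integrable_const _) (hint.const_mul _), integral_const_mul, hz]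
    simp
  have h2 : ∫ σ, sp v σ * lk S w σ ∂μ = w (v, 0) := by
    have h3 : ∀ σ : V → Bool, sp v σ * lk S w σ = spin (σ v) + w (v, 0) := by
      intro σ
      rw [hlk]
      unfold sp
      have := spin_mul_self (σ v)
      linear_combination (w (v, 0)) * this
    simp_rw [h3]
    rw [integral_add hint (integrable_const _), hz]
    simp
  unfold ES
  rw [h1, h2, div_one]

theorem proc_own {β : ℝ} (hμ : IsFreeIsing G β μ) [IsProbabilityMeasure μ] (v : V)
    (w : V × ℕ → ℝ) (hw : ∀ j, j ≠ 0 → w (v, j) = 0) : own G μ v w = w (v, 0) := by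
  unfold own M EI
  have h : ∀ᶠ n in atTop, ES μ (bev G {e | e.1 = v} v n) w (sp v) = w (v, 0) := by
    filter_upwards [eventually_ge_atTop 1] with n hn
    obtain ⟨h1, h2⟩ := proc_mem_bev (G := G) v hn
    exact proc_ES hμ v _ h1 h2 w hw
  rw [limsup_congr h, limsup_const]

theorem proc_ws_zero (a : ℝ) (u t : V × ℕ → unitInterval) {x : ℝ} (hx : x ≤ 1 / 2) (v : V)
    (j : ℕ) (hj : j ≠ 0) : ws a u t x (v, j) = 0 := by
  unfold ws tau
  rw [if_neg]
  have h1 : (1 : ℝ) ≤ (j : ℝ) := by exact_mod_cast Nat.one_le_iff_ne_zero.2 hj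
  have h2 := (u (v, j)).2.1
  simp only [not_lt]
  linarith

theorem proc_own_ws {β : ℝ} (hμ : IsFreeIsing G β μ) [IsProbabilityMeasure μ] (v : V)
    (a : ℝ) (u t : V × ℕ → unitInterval) {x : ℝ} (hx : x ≤ 1 / 2) :
    own G μ v (ws a u t x) = ws a u t x (v, 0) :=
  proc_own hμ v _ fun j hj => proc_ws_zero a u t hx v j hj

theorem proc_abs_ws_le {a : ℝ} (ha : 0 ≤ a) (ha1 : a < 1) (u t : V × ℕ → unitInterval) {x : ℝ}
    (hx0 : 0 < x) (v : V) : |ws a u t x (v, 0)| ≤ x := by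
  unfold ws tau wf str
  simp only [Nat.cast_zero, zero_add, if_true]
  have hu := (u (v, 0)).2
  have ht := (t (v, 0)).2
  split_ifs with h1 h2
  · have h3 : |2 * ((t (v, 0) : unitInterval) : ℝ) - 1| ≤ 1 :=
      abs_le.2 ⟨by linarith [ht.1], by linarith [ht.2]⟩
    rw [abs_mul]
    have h4 : |a * ((u (v, 0) : unitInterval) : ℝ)| ≤ x := by
      rw [abs_of_nonneg (mul_nonneg ha hu.1)]
      nlinarith [hu.1]
    calc _ ≤ x * 1 := mul_le_mul h4 h3 (abs_nonneg _) hx0.le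
      _ = x := mul_one x
  · rw [zero_mul, abs_zero]; exact hx0.le
  · rw [abs_zero]; exact hx0.le

/-- `∫ (2t-1)² = 1/3`. -/
theorem proc_int_t : ∫ t : unitInterval, (2 * (t : ℝ) - 1) ^ 2 = 1 / 3 := by
  have h := integral_subtype_comap (μ := (volume : Measure ℝ)) (s := Set.Icc (0 : ℝ) 1)
    measurableSet_Icc (fun t : ℝ => (2 * t - 1) ^ 2)
  have h2 : ∫ t : unitInterval, (2 * (t : ℝ) - 1) ^ 2 =
      ∫ t in Set.Icc (0 : ℝ) 1, (2 * t - 1) ^ 2 := h
  rw [h2, integral_Icc_eq_integral_Ioc, ← intervalIntegral.integral_of_le zero_le_one]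
  have h3 : ∀ t : ℝ, HasDerivAt (fun t : ℝ => (2 * t - 1) ^ 3 / 6) ((2 * t - 1) ^ 2) t := by
    intro t
    have h4 : HasDerivAt (fun t : ℝ => 2 * t - 1) 2 t := by
      simpa using ((hasDerivAt_id t).const_mul 2).sub_const 1
    have h5 := (h4.pow 3).div_const 6
    refine h5.congr_deriv ?_
    push_cast
    ring
  rw [intervalIntegral.integral_eq_sub_of_hasDerivAt (fun t _ => h3 t)
    ((by fun_prop : Continuous fun t : ℝ => (2 * t - 1) ^ 2).intervalIntegrable _ _)]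
  norm_num

/-- `∫ 1_{y < x} y² = x³/3`. -/
theorem proc_int_y {x : ℝ} (hx0 : 0 < x) (hx : x ≤ 1 / 2) :
    ∫ y : unitInterval, (if (y : ℝ) < x then (y : ℝ) ^ 2 else 0) = x ^ 3 / 3 := by
  have h := integral_subtype_comap (μ := (volume : Measure ℝ)) (s := Set.Icc (0 : ℝ) 1)
    measurableSet_Icc (fun y : ℝ => if y < x then y ^ 2 else 0)
  have h2 : ∫ y : unitInterval, (if (y : ℝ) < x then (y : ℝ) ^ 2 else 0) =
      ∫ y in Set.Icc (0 : ℝ) 1, (if y < x then y ^ 2 else 0) := h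
  have h3 : (fun y : ℝ => if y < x then y ^ 2 else 0) = (Set.Iio x).indicator fun y => y ^ 2 := by
    ext y
    simp only [Set.indicator, Set.mem_Iio]
  rw [h2, h3, setIntegral_indicator measurableSet_Iio]
  have h4 : Set.Icc (0 : ℝ) 1 ∩ Set.Iio x = Set.Ico 0 x := by
    ext y
    simp only [Set.mem_inter_iff, Set.mem_Icc, Set.mem_Iio, Set.mem_Ico]
    constructor
    · rintro ⟨⟨h1, _⟩, h3⟩; exact ⟨h1, h3⟩
    · rintro ⟨h1, h3⟩; exact ⟨⟨h1, by linarith⟩, h3⟩
  rw [h4, integral_Ico_eq_integral_Ioo, ← integral_Ioc_eq_integral_Ioo,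
    ← intervalIntegral.integral_of_le hx0.le, integral_pow]
  norm_num

theorem proc_zm_sq (a : ℝ) {x : ℝ} (hx0 : 0 < x) (hx : x ≤ 1 / 2) (v : V) :
    ∫ p, zm a (mx x) (v, 0) p ^ 2 ∂(Qm (mx (V := V) x) (v, 0)) = a ^ 2 * x ^ 3 / 9 := by
  classical
  have hmeas : Measurable (fun p : unitInterval × unitInterval =>
      (p.1, if p.1 ∈ mx (V := V) x (v, 0) then p.2 else (0 : unitInterval))) := by
    refine measurable_fst.prodMk ?_
    exact Measurable.ite (measurable_fst (measurableSet_mx x (v, 0))) measurable_snd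
      measurable_const
  have hzm : Measurable (zm (V := V) a (mx x) (v, 0)) := by
    unfold zm
    refine Measurable.ite (measurable_fst (measurableSet_mx x (v, 0))) ?_ measurable_const
    refine Measurable.mul ((measurable_str a 0).comp (measurable_subtype_coe.comp measurable_fst)) ?_
    exact ((measurable_const.mul (measurable_subtype_coe.comp measurable_snd)).sub
      measurable_const)
  unfold Qm
  rw [integral_map (by convert hmeas.aemeasurable) (hzm.pow_const 2).aestronglyMeasurable]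
  have h1 : ∀ p : unitInterval × unitInterval,
      zm a (mx x) (v, 0) (p.1, if p.1 ∈ mx (V := V) x (v, 0) then p.2 else (0 : unitInterval)) ^ 2 =
      (a ^ 2 * (if (p.1 : ℝ) < x then (p.1 : ℝ) ^ 2 else 0)) * (2 * (p.2 : ℝ) - 1) ^ 2 := by
    intro p
    unfold zm mx str
    simp only [Nat.cast_zero, zero_add, Set.mem_ofPred_eq, if_true]
    by_cases h : (p.1 : ℝ) < x
    · have h2 : (p.1 : ℝ) < 1 / 2 := lt_of_lt_of_le h hx
      rw [if_pos h, if_pos h2, if_pos h, if_pos h]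
      ring
    · rw [if_neg h, if_neg h]
      ring
  have h2 : (fun p : unitInterval × unitInterval => zm a (mx x) (v, 0)
      (p.1, if p.1 ∈ mx (V := V) x (v, 0) then p.2 else (0 : unitInterval)) ^ 2) =
      fun p => (a ^ 2 * (if (p.1 : ℝ) < x then (p.1 : ℝ) ^ 2 else 0)) * (2 * (p.2 : ℝ) - 1) ^ 2 :=
    funext h1
  refine Eq.trans (b := ∫ p : unitInterval × unitInterval,
    (a ^ 2 * (if (p.1 : ℝ) < x then (p.1 : ℝ) ^ 2 else 0)) * (2 * (p.2 : ℝ) - 1) ^ 2) ?_ ?_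
  · exact integral_congr_ae (Eventually.of_forall fun p => by convert h1 p)
  · have h3 := integral_prod_mul (μ := (volume : Measure unitInterval))
      (ν := (volume : Measure unitInterval))
      (fun y : unitInterval => a ^ 2 * (if (y : ℝ) < x then (y : ℝ) ^ 2 else 0))
      (fun t : unitInterval => (2 * (t : ℝ) - 1) ^ 2)
    have h4 : ∫ p : unitInterval × unitInterval,
        (a ^ 2 * (if (p.1 : ℝ) < x then (p.1 : ℝ) ^ 2 else 0)) * (2 * (p.2 : ℝ) - 1) ^ 2 =
        (∫ y : unitInterval, a ^ 2 * (if (y : ℝ) < x then (y : ℝ) ^ 2 else 0)) *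
          ∫ t : unitInterval, (2 * (t : ℝ) - 1) ^ 2 := h3
    rw [h4, integral_const_mul, proc_int_y hx0 hx, proc_int_t]
    ring

theorem proc_own_sq [Countable V] [IsProbabilityMeasure μ] {β : ℝ} (hμ : IsFreeIsing G β μ)
    {a : ℝ} (ha : 0 ≤ a) (ha1 : a < 1) {x : ℝ} (hx0 : 0 < x) (hx : x ≤ 1 / 2) (v : V) :
    ∫ ω, own G μ v (slp (zm a (mx x)) (ym a (mx x) ω)) ^ 2 ∂(PO μ) = a ^ 2 * x ^ 3 / 9 := by
  have hobs := obs_mask (μ := μ) ha ha1 (mx x) (measurableSet_mx x)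
  have hbd : ∀ (e : V × ℕ) p, |zm a (mx x) e p ^ 2| ≤ 1 := by
    intro e p
    have h1 := hobs.bd e p
    rw [abs_pow]
    exact pow_le_one₀ (abs_nonneg _) (h1.trans ha1.le)
  have hfd := hobs.fd {(v, 0)} (fun _ => 1) (fun e p => zm a (mx x) e p ^ 2) measurable_const
    ⟨1, fun σ => by simp⟩ (fun e => (hobs.measZ e).pow_const 2) ⟨1, hbd⟩
  simp only [Finset.prod_singleton, one_mul] at hfd
  have h1 : ∀ ω : Conf V, own G μ v (slp (zm a (mx x)) (ym a (mx x) ω)) ^ 2 =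
      zm a (mx x) (v, 0) (ym a (mx x) ω (v, 0)) ^ 2 := by
    intro ω
    rw [slp_ym, wm_mx, proc_own_ws hμ v a _ _ hx, ← wm_mx, ← slp_ym]
    rfl
  have hint : Integrable (fun σ : V → Bool => spin (σ v)) μ := by
    refine Integrable.mono' (integrable_const (1 : ℝ))
      (measurable_spin_eval v).aestronglyMeasurable (Eventually.of_forall fun σ => ?_)
    rw [Real.norm_eq_abs, abs_spin]
  have hpQ := hobs.probQ (v, 0)
  have hz1 : Integrable (fun p => zm a (mx x) (v, 0) p ^ 2) (Qm (mx (V := V) x) (v, 0)) := by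
    refine Integrable.mono' (integrable_const (1 : ℝ))
      ((hobs.measZ (v, 0)).pow_const 2).aestronglyMeasurable (Eventually.of_forall fun p => ?_)
    exact hbd _ _
  have hz2 : Integrable (fun p => zm a (mx x) (v, 0) p ^ 2 * zm a (mx x) (v, 0) p)
      (Qm (mx (V := V) x) (v, 0)) := by
    refine Integrable.mono' (integrable_const (1 : ℝ))
      (((hobs.measZ (v, 0)).pow_const 2).mul (hobs.measZ (v, 0))).aestronglyMeasurable
      (Eventually.of_forall fun p => ?_)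
    rw [Real.norm_eq_abs, abs_mul]
    exact mul_le_one₀ (hbd _ _) (abs_nonneg _) ((hobs.bd (v, 0) p).trans ha1.le)
  simp_rw [h1]
  rw [hfd]
  have h2 : ∀ σ : V → Bool, ∫ p, zm a (mx x) (v, 0) p ^ 2 * (1 + zm a (mx x) (v, 0) p *
      spin (σ v)) ∂(Qm (mx (V := V) x) (v, 0)) =
      ∫ p, zm a (mx x) (v, 0) p ^ 2 ∂(Qm (mx (V := V) x) (v, 0)) +
      (∫ p, zm a (mx x) (v, 0) p ^ 2 * zm a (mx x) (v, 0) p ∂(Qm (mx (V := V) x) (v, 0))) *
        spin (σ v) := by
    intro σ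
    rw [← integral_mul_const, ← integral_add hz1 (hz2.mul_const _)]
    refine integral_congr_ae (Eventually.of_forall fun p => ?_)
    ring
  simp_rw [h2]
  rw [integral_add (integrable_const _) (hint.const_mul _), integral_const_mul,
    hμ.integral_spin v, proc_zm_sq a hx0 hx v]
  simp

/-- Up to time `1/2` the own information of a vertex is one signal of strength `a y` at its label
`y`: `E own² = a² x³ / 9`; so `q(x) ≥ c min(x, 1/2)^{3/2}` by `Obs.le_q` and `qx_mono`. -/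
theorem qx_lower [G.LocallyFinite] {d : ℕ} {β : ℝ} (hE : Env G d β μ) {a : ℝ} (ha : 0 < a)
    (ha1 : a < 1) : ∃ c : ℝ, 0 < c ∧ ∀ (p p' : V), G.Adj p p' → ∀ x : ℝ, 0 < x →
      c * (min x (1 / 2)) ^ ((3 : ℝ) / 2) ≤ qx G μ a p p' x := by
  refine ⟨a / 12, by positivity, fun p p' hp x hx0 => ?_⟩
  have hcount : Countable V := countable_of_locallyFinite hE.tree.connected
  have hne : Nonempty V := ⟨p⟩
  have hprob : IsProbabilityMeasure μ := hE.ising.isProbabilityMeasure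
  have hmin0 : 0 < min x (1 / 2) := lt_min hx0 (by norm_num)
  refine le_trans ?_ (qx_mono hE ha.le ha1 p p' (min_le_left x (1 / 2)))
  set z := min x (1 / 2) with hz
  have hz2 : z ≤ 1 / 2 := min_le_right _ _
  have hobs := obs_mask (μ := μ) ha.le ha1 (mx z) (measurableSet_mx z)
  have h := hobs.le_q hE (hom_mx hE ha.le ha1 z) hp p
  rw [proc_own_sq hE.ising ha.le ha1 hmin0 hz2 p] at h
  simp only [slp_ym, wm_mx] at h
  refine le_trans (le_of_eq ?_) h
  have h1 : a ^ 2 * z ^ 3 / 9 = (a / 3 * z ^ ((3 : ℝ) / 2)) ^ 2 := by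
    rw [mul_pow, ← Real.rpow_natCast (z ^ ((3 : ℝ) / 2)) 2, ← Real.rpow_mul hmin0.le,
      show (3 : ℝ) / 2 * ((2 : ℕ) : ℝ) = ((3 : ℕ) : ℝ) by norm_num, Real.rpow_natCast]
    ring
  rw [h1, Real.sqrt_sq (by positivity)]
  ring

/-- Moments of the posterior means at small times: `E M_v(x)^{2i} ≤ C x^{3i/2}`, `x ≤ 1/2`
(`moments` with `ε = x^{3/2}`; `E own^{2i} ≤ (a x)^{2i} x ≤ x^{2i+1}`). -/
theorem M_moment [G.LocallyFinite] {d : ℕ} {β : ℝ} (hE : Env G d β μ) {a : ℝ} (ha : 0 < a)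
    (ha1 : a < 1) (i : ℕ) (hi : 1 ≤ i) : ∃ C : ℝ, 0 ≤ C ∧ ∀ (v : V) (x : ℝ), 0 < x → x ≤ 1 / 2 →
      ∫ ω, M G μ Set.univ v (ws a ω.2.1 (tt a ω.1 ω.2.1 ω.2.2) x) ^ (2 * i) ∂(PO μ) ≤
        C * x ^ ((3 : ℝ) / 2 * i) := by
  have hcount : Countable V := countable_of_locallyFinite hE.tree.connected
  obtain ⟨C, hC, hmom⟩ := moments (Y := unitInterval × unitInterval) hE (PO μ)
    (Prod.fst : Conf V → V → Bool) i 1 zero_le_one
  refine ⟨C, hC, fun v x hx0 hx => ?_⟩
  have hne : Nonempty V := ⟨v⟩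
  have hprob : IsProbabilityMeasure μ := hE.ising.isProbabilityMeasure
  have hprobO : IsProbabilityMeasure (PO μ) := isProbabilityMeasure_PO
  have hobs := obs_mask (μ := μ) ha.le ha1 (mx x) (measurableSet_mx x)
  have hε0 : 0 < x ^ ((3 : ℝ) / 2) := Real.rpow_pos_of_pos hx0 _
  have hε1 : x ^ ((3 : ℝ) / 2) ≤ 1 := Real.rpow_le_one hx0.le (by linarith) (by norm_num)
  have h := hmom (ym a (mx x)) (Qm (mx x)) (zm a (mx x)) a hobs (hom_mx hE ha.le ha1 x)
    (x ^ ((3 : ℝ) / 2)) hε0 hε1 ?_ ?_ i hi le_rfl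
  · have h2 := h.2 v
    simp only [slp_ym, wm_mx] at h2
    refine h2.trans (le_of_eq ?_)
    rw [Real.rpow_mul hx0.le, Real.rpow_natCast]
  · intro w
    rw [proc_own_sq hE.ising ha.le ha1 hx0 hx w, one_mul, ← Real.rpow_natCast (x ^ ((3 : ℝ) / 2)) 2,
      ← Real.rpow_mul hx0.le, show (3 : ℝ) / 2 * ((2 : ℕ) : ℝ) = ((3 : ℕ) : ℝ) by norm_num,
      Real.rpow_natCast]
    have h3 : a ^ 2 ≤ 1 := pow_le_one₀ ha.le ha1.le
    have h4 : 0 < x ^ 3 := by positivity
    nlinarith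
  · intro w k hk1 hki
    rw [one_mul]
    have hpt : ∀ ω : Conf V, own G μ w (slp (zm a (mx x)) (ym a (mx x) ω)) ^ (2 * k) ≤
        (x ^ ((3 : ℝ) / 2)) ^ k := by
      intro ω
      rw [slp_ym, wm_mx, proc_own_ws hE.ising w a _ _ hx, pow_mul]
      refine pow_le_pow_left₀ (sq_nonneg _) ?_ k
      have h5 := proc_abs_ws_le ha.le ha1 ω.2.1 (tt a ω.1 ω.2.1 ω.2.2) hx0 w
      rw [← sq_abs]
      calc _ ≤ x ^ 2 := pow_le_pow_left₀ (abs_nonneg _) h5 2
        _ = x ^ (2 : ℝ) := by norm_num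
        _ ≤ x ^ ((3 : ℝ) / 2) :=
          Real.rpow_le_rpow_of_exponent_ge hx0 (by linarith) (by norm_num)
    have h6 : ∀ ω : Conf V, ‖own G μ w (slp (zm a (mx x)) (ym a (mx x) ω)) ^ (2 * k)‖ ≤
        (x ^ ((3 : ℝ) / 2)) ^ k := by
      intro ω
      rw [Real.norm_eq_abs, abs_of_nonneg (by rw [pow_mul]; positivity)]
      exact hpt ω
    have h7 := norm_integral_le_of_norm_le_const (μ := PO μ) (Eventually.of_forall h6)
    rw [Real.norm_eq_abs] at h7
    refine (le_abs_self _).trans (h7.trans (le_of_eq ?_))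
    simp

end Vale.Agent.P161.Crit
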