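import Vale.Agent.Lib.P161.Crit.Defs
import Vale.Agent.Lib.P161.Ising
import Vale.Agent.Lib.P161.Tree

/-!
P161-CRIT, module TbCov: decay of correlations for functions of (spins, labels, noise) that depend
on the vertices of two distant balls.
-/

open MeasureTheory

namespace Vale.Agent.P161.Crit

variable {V : Type*} {G : SimpleGraph V}

/-- The full configuration space. -/
abbrev Conf (V : Type*) := (V → Bool) × (V × ℕ → unitInterval) × (V × ℕ → unitInterval)

/-- `F` depends only on the spins, labels and noises at the vertices of `A`. -/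
def DepV {α : Type*} (A : Set V) (F : Conf V → α) : Prop :=
  ∀ ω ω' : Conf V, (∀ v ∈ A, ω.1 v = ω'.1 v) → (∀ v ∈ A, ∀ j, ω.2.1 (v, j) = ω'.2.1 (v, j)) →
    (∀ v ∈ A, ∀ j, ω.2.2 (v, j) = ω'.2.2 (v, j)) → F ω = F ω'

/-- Action on configurations. -/
def actO (g : V ≃ V) (ω : Conf V) : Conf V := (actC g ω.1, actE g ω.2.1, actE g ω.2.2)

theorem measurable_actC {α : Type*} [MeasurableSpace α] (g : V ≃ V) :
    Measurable (actC g : (V → α) → V → α) :=
  measurable_pi_iff.2 fun _ => measurable_pi_apply _

theorem measurable_actE {α : Type*} [MeasurableSpace α] (g : V ≃ V) :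
    Measurable (actE g : (V × ℕ → α) → V × ℕ → α) :=
  measurable_pi_iff.2 fun _ => measurable_pi_apply _

theorem measurable_actO (g : V ≃ V) : Measurable (actO g) :=
  ((measurable_actC g).comp measurable_fst).prodMk
    (((measurable_actE g).comp (measurable_fst.comp measurable_snd)).prodMk
      ((measurable_actE g).comp (measurable_snd.comp measurable_snd)))

/-- Permuting the coordinates preserves the product measure. -/
theorem map_reindex_PP {ι : Type*} (e : ι ≃ ι) :
    (PP ι).map (fun x i => x (e i)) = PP ι := by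
  classical
  have hm : Measurable (fun (x : ι → unitInterval) i => x (e i)) :=
    measurable_pi_iff.2 fun _ => measurable_pi_apply _
  refine Measure.eq_infinitePi _ fun s t ht => ?_
  rw [Measure.map_apply hm (.pi s.countable_toSet fun i _ => ht i)]
  have h1 : (fun (x : ι → unitInterval) i => x (e i)) ⁻¹' ((s : Set ι).pi t) =
      ((s.map e.toEmbedding : Finset ι) : Set ι).pi (fun j => t (e.symm j)) := by
    ext x
    simp only [Set.mem_preimage, Set.mem_pi, Finset.mem_coe, Finset.mem_map,
      Equiv.coe_toEmbedding, forall_exists_index, and_imp, forall_apply_eq_imp_iff₂,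
      Equiv.symm_apply_apply]
  rw [h1, Measure.infinitePi_pi _ (fun i _ => ht _), Finset.prod_map]
  simp

theorem map_actE_PP (g : V ≃ V) : (PP (V × ℕ)).map (actE g) = PP (V × ℕ) :=
  map_reindex_PP (Equiv.prodCongr g.symm (Equiv.refl ℕ))

/-- The measure `PO μ` is invariant under automorphisms. -/
theorem PO_act [G.LocallyFinite] [Countable V] {β : ℝ} {μ : Measure (V → Bool)} (hG : G.IsTree)
    (hμ : IsFreeIsing G β μ) (g : G ≃g G) : (PO μ).map (actO g.toEquiv) = PO μ := by
  have : Nonempty V := hG.connected.nonempty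
  have := hμ.isProbabilityMeasure
  have h1 : μ.map (actC g.toEquiv) = μ := hμ.map_iso hG g
  have h2 := map_actE_PP (V := V) g.toEquiv
  have h3 : (actO g.toEquiv : Conf V → Conf V) =
      Prod.map (actC g.toEquiv) (Prod.map (actE g.toEquiv) (actE g.toEquiv)) := rfl
  have h4 : ((PP (V × ℕ)).prod (PP (V × ℕ))).map
      (Prod.map (actE g.toEquiv) (actE g.toEquiv)) = (PP (V × ℕ)).prod (PP (V × ℕ)) := by
    rw [← Measure.map_prod_map _ _ (measurable_actE _) (measurable_actE _), h2]
  unfold PO
  rw [h3, ← Measure.map_prod_map _ _ (measurable_actC _)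
    ((measurable_actE _).prodMap (measurable_actE _)), h1, h4]

/-! ### Independence of disjoint sets of coordinates -/

open Classical in
theorem measurable_piecewise_set {ι : Type*} (A : Set ι) :
    Measurable (fun p : (ι → unitInterval) × (ι → unitInterval) => A.piecewise p.1 p.2) := by
  refine measurable_pi_iff.2 fun i => ?_
  by_cases hi : i ∈ A
  · have : (fun p : (ι → unitInterval) × (ι → unitInterval) => A.piecewise p.1 p.2 i)
        = fun p => p.1 i := by
      funext p; simp [hi]
    rw [this]; fun_prop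
  · have : (fun p : (ι → unitInterval) × (ι → unitInterval) => A.piecewise p.1 p.2 i)
        = fun p => p.2 i := by
      funext p; simp [hi]
    rw [this]; fun_prop

open Classical in
/-- Mixing two independent uniform points along a set of coordinates. -/
theorem map_piecewise_set {ι : Type*} (A : Set ι) :
    ((PP ι).prod (PP ι)).map
      (fun p : (ι → unitInterval) × (ι → unitInterval) => A.piecewise p.1 p.2) = PP ι := by
  refine Measure.eq_infinitePi _ fun r t ht => ?_
  have hset : MeasurableSet ((r : Set ι).pi t) := .pi r.countable_toSet fun i _ => ht i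
  rw [Measure.map_apply (measurable_piecewise_set A) hset]
  have hpre : (fun p : (ι → unitInterval) × (ι → unitInterval) => A.piecewise p.1 p.2) ⁻¹'
        ((r : Set ι).pi t)
      = (((r.filter (· ∈ A) : Finset ι) : Set ι).pi t) ×ˢ
        (((r.filter (· ∉ A) : Finset ι) : Set ι).pi t) := by
    ext p
    simp only [Set.mem_preimage, Set.mem_pi, Finset.mem_coe, Set.mem_prod, Finset.mem_filter]
    constructor
    · intro h
      refine ⟨fun i hi => ?_, fun i hi => ?_⟩
      · have := h i hi.1
        simpa [hi.2] using this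
      · have := h i hi.1
        simpa [hi.2] using this
    · rintro ⟨h1, h2⟩ i hi
      by_cases hiS : i ∈ A
      · simpa [hiS] using h1 i ⟨hi, hiS⟩
      · simpa [hiS] using h2 i ⟨hi, hiS⟩
  rw [hpre, Measure.prod_prod, Measure.infinitePi_pi _ (fun i _ => ht i),
    Measure.infinitePi_pi _ (fun i _ => ht i), Finset.prod_filter_mul_prod_filter_not]

/-- Functions of disjoint sets of coordinates are independent. -/
theorem integral_mul_of_disjoint {ι : Type*} (A : Set ι) {f g : (ι → unitInterval) → ℝ}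
    (hf : Measurable f) (hg : Measurable g)
    (hfA : ∀ x y, (∀ i ∈ A, x i = y i) → f x = f y)
    (hgA : ∀ x y, (∀ i ∉ A, x i = y i) → g x = g y) :
    ∫ x, f x * g x ∂(PP ι) = (∫ x, f x ∂(PP ι)) * ∫ x, g x ∂(PP ι) := by
  classical
  have h1 : ∫ x, f x * g x ∂(PP ι) = ∫ p, f (A.piecewise p.1 p.2) * g (A.piecewise p.1 p.2)
      ∂((PP ι).prod (PP ι)) := by
    conv_lhs => rw [← map_piecewise_set A]
    rw [integral_map (measurable_piecewise_set A).aemeasurable]
    exact (hf.mul hg).aestronglyMeasurable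
  rw [h1, ← integral_prod_mul]
  refine integral_congr_ae (Filter.Eventually.of_forall fun p => ?_)
  have h2 : f (A.piecewise p.1 p.2) = f p.1 := hfA _ _ fun i hi => by simp [hi]
  have h3 : g (A.piecewise p.1 p.2) = g p.2 := hgA _ _ fun i hi => by simp [hi]
  simp only [h2, h3]

/-- The same for two independent arrays. -/
theorem integral_mul_of_disjoint₂ {ι : Type*} (A : Set ι)
    {f g : (ι → unitInterval) × (ι → unitInterval) → ℝ}
    (hf : Measurable f) (hg : Measurable g) {B : ℝ} (hfB : ∀ x, |f x| ≤ B) (hgB : ∀ x, |g x| ≤ B)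
    (hfA : ∀ x y, (∀ i ∈ A, x.1 i = y.1 i) → (∀ i ∈ A, x.2 i = y.2 i) → f x = f y)
    (hgA : ∀ x y, (∀ i ∉ A, x.1 i = y.1 i) → (∀ i ∉ A, x.2 i = y.2 i) → g x = g y) :
    ∫ x, f x * g x ∂((PP ι).prod (PP ι)) =
      (∫ x, f x ∂((PP ι).prod (PP ι))) * ∫ x, g x ∂((PP ι).prod (PP ι)) := by
  have hint : ∀ {h : (ι → unitInterval) × (ι → unitInterval) → ℝ} {C : ℝ}, Measurable h →
      (∀ x, |h x| ≤ C) → Integrable h ((PP ι).prod (PP ι)) := by
    intro h C hm hC
    exact Integrable.of_bound hm.aestronglyMeasurable C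
      (Filter.Eventually.of_forall fun x => by simpa [Real.norm_eq_abs] using hC x)
  have hfi := hint hf hfB
  have hgi := hint hg hgB
  have hfgi : Integrable (fun x => f x * g x) ((PP ι).prod (PP ι)) := by
    refine hint (C := B * B) (hf.mul hg) fun x => ?_
    rw [abs_mul]
    exact mul_le_mul (hfB x) (hgB x) (abs_nonneg _) ((abs_nonneg _).trans (hfB x))
  rw [integral_prod _ hfgi, integral_prod _ hfi, integral_prod _ hgi]
  have h1 : ∀ x : ι → unitInterval, ∫ y, f (x, y) * g (x, y) ∂(PP ι) =
      (∫ y, f (x, y) ∂(PP ι)) * ∫ y, g (x, y) ∂(PP ι) := by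
    intro x
    refine integral_mul_of_disjoint A (hf.comp measurable_prodMk_left)
      (hg.comp measurable_prodMk_left) (fun y y' h => ?_) (fun y y' h => ?_)
    · exact hfA _ _ (fun _ _ => rfl) h
    · exact hgA _ _ (fun _ _ => rfl) h
  simp only [h1]
  refine integral_mul_of_disjoint A hf.stronglyMeasurable.integral_prod_right'.measurable
    hg.stronglyMeasurable.integral_prod_right'.measurable (fun x x' h => ?_) (fun x x' h => ?_)
  · refine integral_congr_ae (Filter.Eventually.of_forall fun y => ?_)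
    exact hfA _ _ h (fun _ _ => rfl)
  · refine integral_congr_ae (Filter.Eventually.of_forall fun y => ?_)
    exact hgA _ _ h (fun _ _ => rfl)

/-! ### Decay for functions of the spins -/

/-- A ball around `v` is on the `v`-side of an edge beyond it. -/
theorem ball_side (hG : G.IsTree) {v p q : V} {r : ℕ} (hpq : G.Adj p q)
    (hv : G.dist v p = G.dist v q + 1) (hr : r ≤ G.dist v q) {y : V} (hy : G.dist v y ≤ r) :
    G.dist y p = G.dist y q + 1 := by
  rcases hG.dist_eq_dist_add_one_of_adj y hpq with h1 | h1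
  · exact h1
  · exfalso
    have h2 := dist_through_edge hG hpq h1 hv
    have h3 : G.dist y v = G.dist v y := SimpleGraph.dist_comm
    have h4 : G.dist q v = G.dist v q := SimpleGraph.dist_comm
    omega

theorem exists_between (hG : G.Connected) (u v : V) :
    ∀ k ≤ G.dist u v, ∃ p, G.dist u p = k ∧ G.dist v p = G.dist u v - k := by
  intro k
  induction k with
  | zero =>
    intro _
    exact ⟨u, SimpleGraph.dist_self, SimpleGraph.dist_comm⟩
  | succ k ih =>
    intro hk
    obtain ⟨p, hp1, hp2⟩ := ih (by omega)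
    obtain ⟨w, hw, hw2⟩ := exists_parent hG (u := v) (v := p) (n := G.dist u v - (k + 1)) (by omega)
    refine ⟨w, ?_, hw2⟩
    have h1 : G.dist u w ≤ G.dist u p + G.dist p w := hG.dist_triangle
    have h2 : G.dist p w = 1 := SimpleGraph.dist_eq_one_iff_adj.2 hw
    have h3 : G.dist u v ≤ G.dist u w + G.dist w v := hG.dist_triangle
    have h4 : G.dist w v = G.dist v w := SimpleGraph.dist_comm
    omega

theorem integral_spin_mul_self_le {μ : Measure (V → Bool)} [IsProbabilityMeasure μ]
    {f : (V → Bool) → ℝ} {B : ℝ} (hB : ∀ σ, |f σ| ≤ B) (x : V) :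
    |∫ σ, spin (σ x) * f σ ∂μ| ≤ B := by
  have h1 := norm_integral_le_of_norm_le_const (μ := μ) (f := fun σ => spin (σ x) * f σ) (C := B)
    (Filter.Eventually.of_forall fun σ => by
      rw [Real.norm_eq_abs, abs_mul, abs_spin, one_mul]
      exact hB σ)
  simpa [Real.norm_eq_abs] using h1

/-- Decay of `E σ_x g` for `g` of mean zero, depending on a ball. -/
theorem spin_decay [G.LocallyFinite] {β : ℝ} (hβ : 0 ≤ Real.tanh β)
    {μ : Measure (V → Bool)} (hG : G.IsTree) (hμ : IsFreeIsing G β μ) {v : V} {r : ℕ}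
    {A : Finset V} (hA : ∀ y ∈ A, G.dist v y ≤ r) {g : (V → Bool) → ℝ}
    (hg : DepOn (A : Set V) g) {B : ℝ} (hB : ∀ σ, |g σ| ≤ B) (h0 : ∫ σ, g σ ∂μ = 0) :
    ∀ (n : ℕ) (x : V), G.dist v x = r + n →
      |∫ σ, spin (σ x) * g σ ∂μ| ≤ Real.tanh β ^ n * B := by
  classical
  have : Nonempty V := ⟨v⟩
  have := hμ.isProbabilityMeasure
  intro n
  induction n with
  | zero =>
    intro x _
    rw [pow_zero, one_mul]
    exact integral_spin_mul_self_le hB x
  | succ n ih =>
    intro x hx
    obtain ⟨q, hxq, hq⟩ := exists_parent hG.connected (u := v) (v := x) (n := r + n) (by omega)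
    have hvx : G.dist v x = G.dist v q + 1 := by omega
    have hside : ∀ y ∈ A, G.dist y x = G.dist y q + 1 := fun y hy =>
      ball_side hG hxq hvx (by omega) (hA y hy)
    have hxs : ∀ y ∈ ({x} : Finset V), G.dist y q = G.dist y x + 1 := by
      intro y hy
      rw [Finset.mem_singleton] at hy
      subst hy
      rw [SimpleGraph.dist_self, SimpleGraph.dist_eq_one_iff_adj.2 hxq]
    have h1 := hμ.integral_mul_edge hG hxq hxs hside
      (f := fun σ => spin (σ x)) (g := g) (depOn_spin (by simp)) hg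
    have h2 : ∫ σ : V → Bool, spin (σ x) * spin (σ x) ∂μ = 1 := by
      simp only [spin_mul_self]
      simp
    rw [h0, mul_zero, zero_add, h2, mul_one] at h1
    rw [h1, abs_mul, abs_of_nonneg hβ, pow_succ]
    calc Real.tanh β * |∫ σ, spin (σ q) * g σ ∂μ| ≤ Real.tanh β * (Real.tanh β ^ n * B) :=
          mul_le_mul_of_nonneg_left (ih q hq) hβ
      _ = Real.tanh β ^ n * Real.tanh β * B := by ring

/-- Decay for functions of the spins. -/
theorem spin_cov_balls [G.LocallyFinite] {β : ℝ} (hβ : 0 ≤ Real.tanh β)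
    {μ : Measure (V → Bool)} (hG : G.IsTree) (hμ : IsFreeIsing G β μ) {u v : V} {r : ℕ}
    (huv : 2 * r < G.dist u v) {A A' : Finset V} (hA : ∀ y ∈ A, G.dist u y ≤ r)
    (hA' : ∀ y ∈ A', G.dist v y ≤ r) {f g : (V → Bool) → ℝ}
    (hf : DepOn (A : Set V) f) (hg : DepOn (A' : Set V) g)
    {B : ℝ} (hfB : ∀ σ, |f σ| ≤ B) (hgB : ∀ σ, |g σ| ≤ B) (hf0 : ∫ σ, f σ ∂μ = 0)
    (hg0 : ∫ σ, g σ ∂μ = 0) :
    |∫ σ, f σ * g σ ∂μ| ≤ B ^ 2 * Real.tanh β ^ (G.dist u v - 2 * r) := by
  classical
  have : Nonempty V := ⟨v⟩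
  have := hμ.isProbabilityMeasure
  obtain ⟨p, hp1, hp2⟩ := exists_between hG.connected u v r (by omega)
  obtain ⟨q, hpq, hq⟩ := exists_parent hG.connected (u := v) (v := p)
    (n := r + (G.dist u v - 2 * r - 1)) (by omega)
  have hvp : G.dist v p = G.dist v q + 1 := by omega
  have huq : G.dist u q = G.dist u p + 1 := by
    have h1 : G.dist u v ≤ G.dist u q + G.dist q v := hG.connected.dist_triangle
    have h2 : G.dist q v = G.dist v q := SimpleGraph.dist_comm
    rcases hG.dist_eq_dist_add_one_of_adj u hpq with h3 | h3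
    · omega
    · exact h3
  have hsA : ∀ y ∈ A, G.dist y q = G.dist y p + 1 := fun y hy =>
    ball_side hG hpq.symm huq (by omega) (hA y hy)
  have hsA' : ∀ y ∈ A', G.dist y p = G.dist y q + 1 := fun y hy =>
    ball_side hG hpq hvp (by omega) (hA' y hy)
  have h1 := hμ.integral_mul_edge hG hpq hsA hsA' hf hg
  rw [hf0, zero_mul, zero_add] at h1
  have h2 := integral_spin_mul_self_le (μ := μ) hfB p
  have h3 := spin_decay hβ hG hμ hA' hg hgB hg0 _ q hq
  rw [h1, abs_mul, abs_mul, abs_of_nonneg hβ]
  have hB0 : 0 ≤ B := (abs_nonneg _).trans h2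
  have hpow : Real.tanh β ^ (G.dist u v - 2 * r) =
      Real.tanh β * Real.tanh β ^ (G.dist u v - 2 * r - 1) := by
    rw [← pow_succ']
    congr 1
    omega
  rw [hpow]
  calc Real.tanh β * |∫ σ, spin (σ p) * f σ ∂μ| * |∫ σ, spin (σ q) * g σ ∂μ|
      ≤ Real.tanh β * B * (Real.tanh β ^ (G.dist u v - 2 * r - 1) * B) := by
        gcongr
    _ = B ^ 2 * (Real.tanh β * Real.tanh β ^ (G.dist u v - 2 * r - 1)) := by ring

/-- Covariance decay. `F` depends on the ball of radius `r` around `u`, `F'` on the ball of radius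
`r` around `v`, both bounded by `B`, with mean zero, and `dist u v > 2 r`. Then
`|E F F'| ≤ B² θ^(dist u v - 2 r)` (`θ = tanh β ∈ [0,1]`).
Proof: integrate the labels and noises first (the integrated functions `f, f'` of the spins depend
on the two disjoint balls, Fubini for the product measure). Let `a` be the last vertex of the
geodesic from `u` to `v` in the ball around `u` and `a'` the first one in the ball around `v`.
`E f f' = θ^{dist a a'} E[f σ_a] E[f' σ_a']`: apply `IsFreeIsing.integral_mul_edge` along the edges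
of the geodesic from `a` to `a'` (`E f = E f' = 0`); every ball is contained in one side of each of
these edges. Finally `dist a a' = dist u v - 2r`. -/
theorem cov_balls [G.LocallyFinite] [Countable V] {β : ℝ} (hβ : 0 ≤ Real.tanh β)
    {μ : Measure (V → Bool)} (hG : G.IsTree) (hμ : IsFreeIsing G β μ) {u v : V} {r : ℕ}
    (huv : 2 * r < G.dist u v) {F F' : Conf V → ℝ} (hF : Measurable F) (hF' : Measurable F')
    {B : ℝ} (hB : ∀ ω, |F ω| ≤ B) (hB' : ∀ ω, |F' ω| ≤ B)
    (hD : DepV {x | G.dist u x ≤ r} F) (hD' : DepV {x | G.dist v x ≤ r} F')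
    (h0 : ∫ ω, F ω ∂(PO μ) = 0) (h0' : ∫ ω, F' ω ∂(PO μ) = 0) :
    |∫ ω, F ω * F' ω ∂(PO μ)| ≤ B ^ 2 * Real.tanh β ^ (G.dist u v - 2 * r) := by
  classical
  have : Nonempty V := ⟨v⟩
  have := hμ.isProbabilityMeasure
  set Q : Measure ((V × ℕ → unitInterval) × (V × ℕ → unitInterval)) :=
    (PP (V × ℕ)).prod (PP (V × ℕ)) with hQ
  have hPO : PO μ = μ.prod Q := rfl
  have hB0 : 0 ≤ B := (abs_nonneg _).trans (hB (Classical.arbitrary _))
  have hint : ∀ {h : Conf V → ℝ} {C : ℝ}, Measurable h → (∀ x, |h x| ≤ C) →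
      Integrable h (μ.prod Q) := by
    intro h C hm hC
    exact Integrable.of_bound hm.aestronglyMeasurable C
      (Filter.Eventually.of_forall fun x => by simpa [Real.norm_eq_abs] using hC x)
  have hFi := hint hF hB
  have hFi' := hint hF' hB'
  have hFF : Integrable (fun x => F x * F' x) (μ.prod Q) := by
    refine hint (C := B * B) (hF.mul hF') fun x => ?_
    rw [abs_mul]
    exact mul_le_mul (hB x) (hB' x) (abs_nonneg _) hB0
  -- the balls are disjoint
  have hdisj : ∀ x, G.dist u x ≤ r → ¬ G.dist v x ≤ r := by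
    intro x h1 h2
    have h3 : G.dist u v ≤ G.dist u x + G.dist x v := hG.connected.dist_triangle
    have h4 : G.dist x v = G.dist v x := SimpleGraph.dist_comm
    omega
  set f : (V → Bool) → ℝ := fun σ => ∫ z, F (σ, z) ∂Q with hf
  set f' : (V → Bool) → ℝ := fun σ => ∫ z, F' (σ, z) ∂Q with hf'
  rw [hPO, integral_prod _ hFi] at h0
  rw [hPO, integral_prod _ hFi'] at h0'
  have hsplit : ∀ σ : V → Bool, ∫ z, F (σ, z) * F' (σ, z) ∂Q = f σ * f' σ := by
    intro σ
    refine integral_mul_of_disjoint₂ {e : V × ℕ | G.dist u e.1 ≤ r}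
      (f := fun z => F (σ, z)) (g := fun z => F' (σ, z))
      (hF.comp measurable_prodMk_left) (hF'.comp measurable_prodMk_left) (fun z => hB _)
      (fun z => hB' _) (fun x y h1 h2 => ?_) (fun x y h1 h2 => ?_)
    · exact hD _ _ (fun _ _ => rfl) (fun w hw j => h1 (w, j) hw) (fun w hw j => h2 (w, j) hw)
    · refine hD' _ _ (fun _ _ => rfl) (fun w hw j => h1 (w, j) ?_) (fun w hw j => h2 (w, j) ?_)
      · exact fun h => hdisj w h hw
      · exact fun h => hdisj w h hw
  rw [hPO, integral_prod _ hFF]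
  simp only [hsplit]
  have hfin : ∀ o : V, {w : V | G.dist o w ≤ r}.Finite := fun o => finite_ball hG.connected o r
  have hbd : ∀ {H : Conf V → ℝ}, (∀ ω, |H ω| ≤ B) → ∀ σ : V → Bool, |∫ z, H (σ, z) ∂Q| ≤ B := by
    intro H hH σ
    have h1 := norm_integral_le_of_norm_le_const (μ := Q) (f := fun z => H (σ, z)) (C := B)
      (Filter.Eventually.of_forall fun z => by
        rw [Real.norm_eq_abs]
        exact hH _)
    simpa [Real.norm_eq_abs] using h1
  refine spin_cov_balls hβ hG hμ huv (A := (hfin u).toFinset) (A' := (hfin v).toFinset)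
    (fun y hy => ?_) (fun y hy => ?_) (fun σ τ h => ?_) (fun σ τ h => ?_)
    (hbd hB) (hbd hB') h0 h0'
  · exact (Set.Finite.mem_toFinset (hfin u)).1 hy
  · exact (Set.Finite.mem_toFinset (hfin v)).1 hy
  · refine integral_congr_ae (Filter.Eventually.of_forall fun z => ?_)
    refine hD _ _ (fun w hw => h w ?_) (fun _ _ _ => rfl) (fun _ _ _ => rfl)
    rw [Finset.mem_coe, Set.Finite.mem_toFinset]
    exact hw
  · refine integral_congr_ae (Filter.Eventually.of_forall fun z => ?_)
    refine hD' _ _ (fun w hw => h w ?_) (fun _ _ _ => rfl) (fun _ _ _ => rfl)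
    rw [Finset.mem_coe, Set.Finite.mem_toFinset]
    exact hw

end Vale.Agent.P161.Crit
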