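import Vale.Agent.Lib.P161.Crit.Info
import Vale.Agent.Lib.P161.Crit.TbCov

/-!
P161-CRIT, module ProcA: basic facts on the exact process; for fixed labels it is an observation
structure (`Obs`).
-/

open MeasureTheory Filter Topology ProbabilityTheory

namespace Vale.Agent.P161.Crit

variable {V : Type*} {G : SimpleGraph V} {μ : Measure (V → Bool)}

theorem str_nonneg {a : ℝ} (ha : 0 ≤ a) (j : ℕ) (y : unitInterval) : 0 ≤ str a j y := by
  unfold str
  split_ifs
  · exact mul_nonneg ha y.2.1
  · exact ha
  · exact le_rfl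

theorem str_le {a : ℝ} (ha : 0 ≤ a) (j : ℕ) (y : unitInterval) : str a j y ≤ a := by
  unfold str
  split_ifs
  · exact mul_le_of_le_one_right ha y.2.2
  · exact le_rfl
  · exact ha

theorem measurable_str (a : ℝ) (j : ℕ) : Measurable (str a j) := by
  unfold str
  refine Measurable.ite measurableSet_Iio ?_ measurable_const
  by_cases hj : j = 0
  · simp only [hj, if_true]
    exact measurable_const.mul measurable_id
  · simp only [hj, if_false]
    exact measurable_const

theorem pa_abs_signal (t : unitInterval) : |2 * (t : ℝ) - 1| ≤ 1 :=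
  abs_le.2 ⟨by linarith [t.2.1], by linarith [t.2.2]⟩

theorem abs_wf_le {a : ℝ} (ha : 0 ≤ a) (u t : V × ℕ → unitInterval) (e : V × ℕ) :
    |wf a u t e| ≤ a := by
  unfold wf
  rw [abs_mul, abs_of_nonneg (str_nonneg ha e.2 (u e))]
  calc str a e.2 (u e) * |2 * (t e : ℝ) - 1| ≤ a * 1 :=
        mul_le_mul (str_le ha e.2 (u e)) (pa_abs_signal (t e)) (abs_nonneg _) ha
    _ = a := mul_one a

theorem abs_ws_le {a : ℝ} (ha : 0 ≤ a) (u t : V × ℕ → unitInterval) (x : ℝ) (e : V × ℕ) :
    |ws a u t x e| ≤ a := by
  unfold ws
  split_ifs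
  · exact abs_wf_le ha u t e
  · simpa using ha

/-- Rounds after time `x` do not count. -/
theorem ws_eq_zero (a : ℝ) (u t : V × ℕ → unitInterval) {x : ℝ} {J : ℕ} (hx : x ≤ J) (e : V × ℕ)
    (he : J ≤ e.2) : ws a u t x e = 0 := by
  unfold ws
  rw [if_neg]
  unfold tau
  have h1 : (J : ℝ) ≤ (e.2 : ℝ) := by exact_mod_cast he
  have h2 : (0 : ℝ) ≤ (u e : ℝ) := (u e).2.1
  linarith

theorem pa_measurable_tau (e : V × ℕ) :
    Measurable fun u : V × ℕ → unitInterval => tau u e := by
  unfold tau
  exact measurable_const.add (measurable_subtype_coe.comp (measurable_pi_apply e))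

theorem pa_measurable_wf (a : ℝ) (e : V × ℕ) :
    Measurable fun p : (V × ℕ → unitInterval) × (V × ℕ → unitInterval) => wf a p.1 p.2 e := by
  unfold wf
  have h1 : Measurable fun p : (V × ℕ → unitInterval) × (V × ℕ → unitInterval) =>
      ((p.1 e : unitInterval) : ℝ) :=
    measurable_subtype_coe.comp ((measurable_pi_apply e).comp measurable_fst)
  have h2 : Measurable fun p : (V × ℕ → unitInterval) × (V × ℕ → unitInterval) =>
      ((p.2 e : unitInterval) : ℝ) :=
    measurable_subtype_coe.comp ((measurable_pi_apply e).comp measurable_snd)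
  exact ((measurable_str a e.2).comp h1).mul ((measurable_const.mul h2).sub measurable_const)

theorem measurable_ws (a : ℝ) : Measurable
    fun p : ℝ × (V × ℕ → unitInterval) × (V × ℕ → unitInterval) => ws a p.2.1 p.2.2 p.1 := by
  refine measurable_pi_iff.2 fun e => ?_
  unfold ws
  refine Measurable.ite ?_ ((pa_measurable_wf a e).comp measurable_snd) measurable_const
  exact measurableSet_lt ((pa_measurable_tau e).comp (measurable_fst.comp measurable_snd))
    measurable_fst

theorem measurable_tt (a : ℝ) : Measurable fun p : Conf V => tt a p.1 p.2.1 p.2.2 := by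
  refine measurable_pi_iff.2 fun e => ?_
  unfold tt
  have h1 : Measurable fun p : Conf V => str a e.2 (p.2.1 e) :=
    (measurable_str a e.2).comp (measurable_subtype_coe.comp
      ((measurable_pi_apply e).comp (measurable_fst.comp measurable_snd)))
  have h2 : Measurable fun p : Conf V => p.2.2 e :=
    (measurable_pi_apply e).comp (measurable_snd.comp measurable_snd)
  have h3 : Measurable fun p : Conf V => qK (str a e.2 (p.2.1 e)) (p.2.2 e) :=
    measurable_qK.comp (f := fun p : Conf V => (str a e.2 (p.2.1 e), p.2.2 e)) (h1.prodMk h2)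
  have h4 : Measurable fun p : Conf V => p.1 e.1 := (measurable_pi_apply e.1).comp measurable_fst
  exact Measurable.ite (h4 (measurableSet_singleton true)) h3
    (unitInterval.measurable_symm.comp h3)

theorem pa_measurable_ws_tau (a : ℝ) (e : V × ℕ) :
    Measurable fun p : (V × ℕ → unitInterval) × (V × ℕ → unitInterval) =>
      ws a p.1 p.2 (tau p.1 e) :=
  (measurable_ws a).comp (((pa_measurable_tau e).comp measurable_fst).prodMk measurable_id)

theorem measurable_Me [Countable V] [IsProbabilityMeasure μ] (G : SimpleGraph V) (a : ℝ)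
    (e : V × ℕ) : Measurable fun p : (V × ℕ → unitInterval) × (V × ℕ → unitInterval) =>
      Me G μ a p.1 p.2 e :=
  (measurable_M G μ Set.univ e.1).comp (pa_measurable_ws_tau a e)

theorem measurable_Xi [Countable V] [IsProbabilityMeasure μ] (G : SimpleGraph V) (a : ℝ) :
    Measurable fun p : (V × ℕ → unitInterval) × (V × ℕ → unitInterval) =>
      Xi G μ a p.1 p.2 := by
  refine measurable_pi_iff.2 fun e => ?_
  unfold Xi
  have h1 : Measurable fun p : (V × ℕ → unitInterval) × (V × ℕ → unitInterval) =>
      str a e.2 (p.1 e) := (measurable_str a e.2).comp (measurable_subtype_coe.comp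
      ((measurable_pi_apply e).comp measurable_fst))
  have h2 : Measurable fun p : (V × ℕ → unitInterval) × (V × ℕ → unitInterval) => p.2 e :=
    (measurable_pi_apply e).comp measurable_snd
  have h3 := (h1.mul (measurable_Me (μ := μ) G a e)).prodMk h2
  have h4 := measurable_cdfK.comp h3
  exact h4

theorem measurable_Jp [Countable V] [IsProbabilityMeasure μ] (G : SimpleGraph V) (a : ℝ) (o : V)
    (e : V × ℕ) : Measurable fun p : (V × ℕ → unitInterval) × (V × ℕ → unitInterval) =>
      Jp G μ a o p.1 p.2 e := by
  unfold Jp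
  exact (((measurable_Cv G μ Set.univ o e.1).comp (pa_measurable_ws_tau a e)).mul
    (pa_measurable_wf a e)).div (measurable_const.add ((measurable_Me G a e).mul (pa_measurable_wf a e)))

open Classical in
theorem pa_ws_eq_mask (a : ℝ) (u t : V × ℕ → unitInterval) (x : ℝ) :
    ws a u t x = fun e => if e ∈ {e : V × ℕ | tau u e < x} then wf a u t e else 0 := by
  funext e
  unfold ws
  by_cases h : tau u e < x
  · rw [if_pos h, if_pos (show e ∈ {e : V × ℕ | tau u e < x} from h)]
  · rw [if_neg h, if_neg (show e ∉ {e : V × ℕ | tau u e < x} from h)]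

/-- `ws` is a mask of `wf`. -/
theorem M_ws [G.LocallyFinite] (hc : G.Connected) (R : Set (V × ℕ)) (v : V) (a : ℝ)
    (u t : V × ℕ → unitInterval) (x : ℝ) :
    M G μ R v (ws a u t x) = M G μ (R ∩ {e | tau u e < x}) v (wf a u t) := by
  unfold M
  rw [pa_ws_eq_mask, EI_mask hc]

theorem Cv_ws [G.LocallyFinite] (hc : G.Connected) (R : Set (V × ℕ)) (o v : V) (a : ℝ)
    (u t : V × ℕ → unitInterval) (x : ℝ) :
    Cv G μ R o v (ws a u t x) = Cv G μ (R ∩ {e | tau u e < x}) o v (wf a u t) := by
  unfold Cv
  rw [M_ws hc, M_ws hc, pa_ws_eq_mask, EI_mask hc]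

/-! ### Fixed labels -/

theorem pa_integral_qK {κ : ℝ} (hκ : |κ| < 1) {g : unitInterval → ℝ} (hg : Measurable g) :
    ∫ x, g (qK κ x) = ∫ t : unitInterval, g t * (1 + κ * (2 * (t : ℝ) - 1)) := by
  have hq : Measurable (qK κ) :=
    measurable_qK.comp (f := fun y => (κ, y)) (measurable_const.prodMk measurable_id)
  have hden : Measurable fun t : unitInterval => ENNReal.ofReal (1 + κ * (2 * (t : ℝ) - 1)) := by
    fun_prop
  have hmeas : (volume : Measure unitInterval).map (qK κ)
      = (volume : Measure unitInterval).withDensity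
        fun t => ENNReal.ofReal (1 + κ * (2 * (t : ℝ) - 1)) := by
    refine Measure.ext fun s hs => ?_
    rw [← lintegral_indicator_one hs, lintegral_map (measurable_one.indicator hs) hq,
      lintegral_qK hκ (measurable_one.indicator hs), withDensity_apply _ hs,
      ← lintegral_indicator hs]
    refine lintegral_congr fun t => ?_
    by_cases ht : t ∈ s
    · simp [ht]
    · simp [ht]
  rw [← integral_map hq.aemeasurable hg.aestronglyMeasurable, hmeas,
    integral_withDensity_eq_integral_toReal_smul hden (Eventually.of_forall fun t =>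
      ENNReal.ofReal_lt_top)]
  refine integral_congr_ae (Eventually.of_forall fun t => ?_)
  simp only [smul_eq_mul]
  rw [ENNReal.toReal_ofReal (density_nonneg hκ.le t), mul_comm]

theorem pa_integral_symm_comp {g : unitInterval → ℝ} (hg : Measurable g) :
    ∫ x, g (unitInterval.symm x) = ∫ x, g x := by
  have h := unitInterval.measurePreserving_symm
  conv_rhs => rw [← h.map_eq]
  rw [integral_map h.measurable.aemeasurable hg.aestronglyMeasurable]

/-- One coordinate of the channel. -/
theorem pa_integral_channel {κ : ℝ} (hκ : |κ| < 1) {g : unitInterval → ℝ} (hg : Measurable g)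
    (b : Bool) :
    ∫ x, g (if b then qK κ x else unitInterval.symm (qK κ x)) =
      ∫ t : unitInterval, g t * (1 + κ * (2 * (t : ℝ) - 1) * spin b) := by
  cases b with
  | true =>
    simp only [if_true, spin, mul_one]
    exact pa_integral_qK hκ hg
  | false =>
    simp only [Bool.false_eq_true, if_false, spin, mul_neg, mul_one]
    rw [pa_integral_qK hκ (g := fun x => g (unitInterval.symm x))
      (hg.comp unitInterval.measurable_symm)]
    rw [← pa_integral_symm_comp (g := fun t : unitInterval =>
      g t * (1 + -(κ * (2 * (t : ℝ) - 1))))]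
    · refine integral_congr_ae (Eventually.of_forall fun t => ?_)
      simp only [unitInterval.coe_symm_eq]
      ring
    · exact hg.mul (by fun_prop)

/-- Independence of the coordinates. -/
theorem pa_integral_prod_PP {ι : Type*} (S : Finset ι) (h : ι → unitInterval → ℝ)
    (hh : ∀ e, Measurable (h e)) :
    ∫ ξ, ∏ e ∈ S, h e (ξ e) ∂(PP ι) = ∏ e ∈ S, ∫ x, h e x := by
  have h1 : ∀ ξ : ι → unitInterval, ∏ e ∈ S, h e (ξ e)
      = (fun y : S → unitInterval => ∏ i : S, h i (y i)) (S.restrict ξ) := by
    intro ξ
    simp only [Finset.restrict]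
    exact (Finset.prod_coe_sort S (fun e => h e (ξ e))).symm
  simp only [h1]
  rw [integral_restrict_infinitePi (μ := fun _ : ι => (volume : Measure unitInterval))
    (f := fun y : S → unitInterval => ∏ i : S, h i (y i))]
  · rw [integral_fintype_prod_eq_prod (𝕜 := ℝ) (f := fun (i : S) (x : unitInterval) => h i x)]
    exact Finset.prod_coe_sort S (fun e => ∫ x, h e x)
  · refine Measurable.aestronglyMeasurable ?_
    exact Finset.measurable_fun_prod _ fun i _ => (hh i).comp (measurable_pi_apply i)

/-- For fixed labels the signals are observations with slopes `wf`. (Given the spins the signals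
are independent with density `1 + str σ (2t-1)`: `lintegral_qK`, and `qK κ` reflected is
`qK (-κ)` in law.) -/
theorem obs_fixed [Countable V] [IsProbabilityMeasure μ] {a : ℝ} (ha : 0 ≤ a) (ha1 : a < 1)
    (u : V × ℕ → unitInterval) :
    Obs μ (μ.prod (PP (V × ℕ))) Prod.fst (fun p => tt a p.1 u p.2)
      (fun _ => (volume : Measure unitInterval))
      (fun e t => str a e.2 (u e) * (2 * (t : ℝ) - 1)) a := by
  have hmt : Measurable fun p : (V → Bool) × (V × ℕ → unitInterval) => tt a p.1 u p.2 :=
    (measurable_tt a).comp (measurable_fst.prodMk (measurable_const.prodMk measurable_snd))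
  have hstr : ∀ e : V × ℕ, |str a e.2 (u e)| < 1 := fun e => by
    rw [abs_of_nonneg (str_nonneg ha e.2 (u e))]
    exact lt_of_le_of_lt (str_le ha e.2 (u e)) ha1
  refine ⟨inferInstance, measurable_fst, hmt, fun _ => inferInstance, fun e => by fun_prop, ha,
    ha1, ?_, ?_, ?_⟩
  · intro e x
    rw [abs_mul, abs_of_nonneg (str_nonneg ha e.2 (u e))]
    calc str a e.2 (u e) * |2 * (x : ℝ) - 1| ≤ a * 1 :=
          mul_le_mul (str_le ha e.2 (u e)) (pa_abs_signal x) (abs_nonneg _) ha
      _ = a := mul_one a
  · intro e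
    have h := unitInterval.measurePreserving_symm
    have hm : Measurable fun t : unitInterval => str a e.2 (u e) * (2 * (t : ℝ) - 1) := by
      fun_prop
    conv_rhs => rw [← h.map_eq]
    rw [Measure.map_map hm h.measurable]
    congr 1
    funext t
    simp only [Function.comp, unitInterval.coe_symm_eq]
    ring
  · intro S f g hf hfC hg hgC
    obtain ⟨C, hC⟩ := hfC
    obtain ⟨D, hD⟩ := hgC
    have hmF : Measurable fun p : (V → Bool) × (V × ℕ → unitInterval) =>
        f p.1 * ∏ e ∈ S, g e (tt a p.1 u p.2 e) := by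
      refine (hf.comp measurable_fst).mul (Finset.measurable_fun_prod _ fun e _ => ?_)
      exact (hg e).comp ((measurable_pi_apply e).comp hmt)
    have hint : Integrable (fun p : (V → Bool) × (V × ℕ → unitInterval) =>
        f p.1 * ∏ e ∈ S, g e (tt a p.1 u p.2 e)) (μ.prod (PP (V × ℕ))) := by
      refine Integrable.of_bound (C := C * D ^ S.card) hmF.aestronglyMeasurable
        (Eventually.of_forall fun p => ?_)
      rw [norm_mul, Real.norm_eq_abs, Real.norm_eq_abs, Finset.abs_prod]
      have h1 : ∏ e ∈ S, |g e (tt a p.1 u p.2 e)| ≤ D ^ S.card := by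
        calc ∏ e ∈ S, |g e (tt a p.1 u p.2 e)| ≤ ∏ _e ∈ S, D :=
              Finset.prod_le_prod (fun _ _ => abs_nonneg _) fun e _ => hD e _
          _ = D ^ S.card := by simp
      exact mul_le_mul (hC _) h1 (Finset.prod_nonneg fun _ _ => abs_nonneg _)
        ((abs_nonneg _).trans (hC p.1))
    rw [integral_prod _ hint]
    refine integral_congr_ae (Eventually.of_forall fun σ => ?_)
    simp only
    rw [integral_const_mul]
    congr 1
    have hh : ∀ e : V × ℕ, Measurable fun x : unitInterval =>
        g e (if σ e.1 then qK (str a e.2 (u e)) x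
          else unitInterval.symm (qK (str a e.2 (u e)) x)) := by
      intro e
      have hq : Measurable (qK (str a e.2 (u e))) :=
        measurable_qK.comp (f := fun y => (str a e.2 (u e), y))
          (measurable_const.prodMk measurable_id)
      refine (hg e).comp ?_
      by_cases hs : σ e.1 = true
      · simp only [hs, if_true]; exact hq
      · simp only [hs]; exact unitInterval.measurable_symm.comp hq
    have h2 := pa_integral_prod_PP S (fun (e : V × ℕ) (x : unitInterval) =>
        g e (if σ e.1 then qK (str a e.2 (u e)) x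
          else unitInterval.symm (qK (str a e.2 (u e)) x))) hh
    refine Eq.trans h2 (Finset.prod_congr rfl fun e _ => ?_)
    exact pa_integral_channel (hstr e) (hg e) (σ e.1)

/-- `slp` of the fixed label observations is `wf`. -/
theorem slp_fixed (a : ℝ) (u t : V × ℕ → unitInterval) :
    slp (fun (e : V × ℕ) (t : unitInterval) => str a e.2 (u e) * (2 * (t : ℝ) - 1)) t =
      wf a u t := rfl

theorem pa_measurable_tt_fixed (a : ℝ) (u : V × ℕ → unitInterval) :
    Measurable fun p : (V → Bool) × (V × ℕ → unitInterval) => tt a p.1 u p.2 :=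
  (measurable_tt a).comp (measurable_fst.prodMk (measurable_const.prodMk measurable_snd))

theorem isProbabilityMeasure_Pu [Countable V] [IsProbabilityMeasure μ] (a : ℝ)
    (u : V × ℕ → unitInterval) : IsProbabilityMeasure (Pu μ a u) :=
  Measure.isProbabilityMeasure_map (pa_measurable_tt_fixed a u).aemeasurable

theorem isProbabilityMeasure_PO [Countable V] [IsProbabilityMeasure μ] :
    IsProbabilityMeasure (PO μ) := by
  unfold PO
  infer_instance

theorem isProbabilityMeasure_PT [Countable V] [IsProbabilityMeasure μ] (a : ℝ) :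
    IsProbabilityMeasure (PT μ a) := by
  have : IsProbabilityMeasure (PO μ) := isProbabilityMeasure_PO
  exact Measure.isProbabilityMeasure_map
    ((measurable_fst.comp measurable_snd).prodMk (measurable_tt a)).aemeasurable

/-- `Pu` as a kernel and the disintegration of `PT`. -/
theorem exists_kernel_Pu [Countable V] [IsProbabilityMeasure μ] (a : ℝ) :
    ∃ κ : Kernel (V × ℕ → unitInterval) (V × ℕ → unitInterval), IsMarkovKernel κ ∧
      (∀ u, κ u = Pu μ a u) ∧ PT μ a = (PP (V × ℕ)) ⊗ₘ κ := by
  have hm3 : Measurable fun q : (V × ℕ → unitInterval) × ((V → Bool) × (V × ℕ → unitInterval)) =>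
      tt a q.2.1 q.1 q.2.2 := (measurable_tt a).comp ((measurable_fst.comp measurable_snd).prodMk
        (measurable_fst.prodMk (measurable_snd.comp measurable_snd)))
  have hmeas : Measurable fun u : V × ℕ → unitInterval => Pu μ a u := by
    refine Measure.measurable_of_measurable_coe _ fun s hs => ?_
    have h1 : ∀ u, Pu μ a u s = (μ.prod (PP (V × ℕ)))
        (Prod.mk u ⁻¹' ((fun q : (V × ℕ → unitInterval) ×
          ((V → Bool) × (V × ℕ → unitInterval)) => tt a q.2.1 q.1 q.2.2) ⁻¹' s)) := by
      intro u
      unfold Pu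
      rw [Measure.map_apply (pa_measurable_tt_fixed a u) hs]
      rfl
    simp only [h1]
    exact measurable_measure_prodMk_left (hm3 hs)
  refine ⟨⟨fun u => Pu μ a u, hmeas⟩, ⟨fun u => isProbabilityMeasure_Pu a u⟩, fun u => rfl, ?_⟩
  have hK : IsMarkovKernel (⟨fun u => Pu μ a u, hmeas⟩ :
      Kernel (V × ℕ → unitInterval) (V × ℕ → unitInterval)) :=
    ⟨fun u => isProbabilityMeasure_Pu a u⟩
  refine Measure.ext fun s hs => ?_
  rw [Measure.compProd_apply hs]
  have hmT : Measurable fun p : Conf V => (p.2.1, tt a p.1 p.2.1 p.2.2) :=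
    (measurable_fst.comp measurable_snd).prodMk (measurable_tt a)
  have hms : Measurable fun p : Conf V =>
      s.indicator (fun _ => (1 : ENNReal)) (p.2.1, tt a p.1 p.2.1 p.2.2) :=
    (measurable_const.indicator hs).comp hmT
  have hL : PT μ a s = ∫⁻ σ, ∫⁻ u, ∫⁻ ξ,
      s.indicator (fun _ => (1 : ENNReal)) (u, tt a σ u ξ) ∂(PP (V × ℕ)) ∂(PP (V × ℕ)) ∂μ := by
    unfold PT PO
    rw [Measure.map_apply hmT hs, ← lintegral_indicator_one (hmT hs)]
    have h1 : ∀ p : Conf V, ((fun p : Conf V => (p.2.1, tt a p.1 p.2.1 p.2.2)) ⁻¹' s).indicator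
        (1 : Conf V → ENNReal) p =
        s.indicator (fun _ => (1 : ENNReal)) (p.2.1, tt a p.1 p.2.1 p.2.2) := fun p => rfl
    simp only [h1]
    rw [lintegral_prod _ hms.aemeasurable]
    refine lintegral_congr fun σ => ?_
    rw [lintegral_prod]
    exact (hms.comp (measurable_const.prodMk measurable_id)).aemeasurable
  rw [hL]
  have hms2 : Measurable fun q : (V → Bool) × (V × ℕ → unitInterval) =>
      ∫⁻ ξ, s.indicator (fun _ => (1 : ENNReal)) (q.2, tt a q.1 q.2 ξ) ∂(PP (V × ℕ)) := by
    refine Measurable.lintegral_prod_right' (f := fun r : ((V → Bool) × (V × ℕ → unitInterval)) ×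
      (V × ℕ → unitInterval) => s.indicator (fun _ => (1 : ENNReal))
        (r.1.2, tt a r.1.1 r.1.2 r.2)) ?_
    exact hms.comp ((measurable_fst.comp measurable_fst).prodMk
      ((measurable_snd.comp measurable_fst).prodMk measurable_snd))
  rw [lintegral_lintegral_swap hms2.aemeasurable]
  refine lintegral_congr fun u => ?_
  change _ = Pu μ a u (Prod.mk u ⁻¹' s)
  unfold Pu
  have hsu : MeasurableSet (Prod.mk u ⁻¹' s) := measurable_prodMk_left hs
  rw [Measure.map_apply (pa_measurable_tt_fixed a u) hsu,
    ← lintegral_indicator_one (pa_measurable_tt_fixed a u hsu)]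
  have h1 : ∀ p : (V → Bool) × (V × ℕ → unitInterval),
      ((fun p : (V → Bool) × (V × ℕ → unitInterval) => tt a p.1 u p.2) ⁻¹'
        (Prod.mk u ⁻¹' s)).indicator (1 : (V → Bool) × (V × ℕ → unitInterval) → ENNReal) p =
      s.indicator (fun _ => (1 : ENNReal)) (u, tt a p.1 u p.2) := fun p => rfl
  simp only [h1]
  rw [lintegral_prod]
  exact (hms.comp (measurable_fst.prodMk (measurable_const.prodMk measurable_snd))).aemeasurable

end Vale.Agent.P161.Crit
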