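import Vale.Agent.Lib.P161.Crit.ProcA

/-!
P161-CRIT, module ProcB: the exact process with the labels and masks is an observation structure.
-/

open MeasureTheory Filter Topology ProbabilityTheory

namespace Vale.Agent.P161.Crit

variable {V : Type*} {G : SimpleGraph V} {μ : Measure (V → Bool)}

/-! ### Labels included: masks depending on the own label -/

open Classical in
/-- Masked slopes: the event `e` is visible iff its label is in `m e`. -/
noncomputable def wm (a : ℝ) (m : V × ℕ → Set unitInterval) (u t : V × ℕ → unitInterval) :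
    V × ℕ → ℝ := fun e => if u e ∈ m e then wf a u t e else 0

/-- The mask of time `x`. -/
def mx (x : ℝ) : V × ℕ → Set unitInterval := fun e => {y | (e.2 : ℝ) + (y : ℝ) < x}

theorem wm_mx (a : ℝ) (u t : V × ℕ → unitInterval) (x : ℝ) :
    wm a (mx x) u t = ws a u t x := by
  funext e
  unfold wm ws
  by_cases h : u e ∈ mx x e
  · have h' : tau u e < x := h
    rw [if_pos h, if_pos h']
  · have h' : ¬ tau u e < x := h
    rw [if_neg h, if_neg h']

open Classical in
/-- The observation array: label and masked signal. -/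
noncomputable def ym (a : ℝ) (m : V × ℕ → Set unitInterval) (ω : Conf V) :
    V × ℕ → unitInterval × unitInterval :=
  fun e => (ω.2.1 e, if ω.2.1 e ∈ m e then tt a ω.1 ω.2.1 ω.2.2 e else 0)

open Classical in
noncomputable def Qm (m : V × ℕ → Set unitInterval) (e : V × ℕ) :
    Measure (unitInterval × unitInterval) :=
  ((volume : Measure unitInterval).prod (volume : Measure unitInterval)).map
    fun p => (p.1, if p.1 ∈ m e then p.2 else 0)

open Classical in
noncomputable def zm (a : ℝ) (m : V × ℕ → Set unitInterval) (e : V × ℕ)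
    (p : unitInterval × unitInterval) : ℝ :=
  if p.1 ∈ m e then str a e.2 p.1 * (2 * (p.2 : ℝ) - 1) else 0

theorem slp_ym (a : ℝ) (m : V × ℕ → Set unitInterval) (ω : Conf V) :
    slp (zm a m) (ym a m ω) = wm a m ω.2.1 (tt a ω.1 ω.2.1 ω.2.2) := by
  funext e
  unfold slp wm wf zm ym
  by_cases h : ω.2.1 e ∈ m e
  · simp only [if_pos h]
  · simp only [if_neg h]

/-! ### Auxiliary integration lemmas -/

theorem integrable_bdd_procB {α : Type*} [MeasurableSpace α] {ν : Measure α} [IsFiniteMeasure ν]
    {F : α → ℝ} (hF : Measurable F) (hC : ∃ C, ∀ x, |F x| ≤ C) : Integrable F ν := by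
  obtain ⟨C, hC⟩ := hC
  exact Integrable.of_bound hF.aestronglyMeasurable C (Eventually.of_forall hC)

theorem integral_prod_PP {ι : Type*} (S : Finset ι) (F : ι → unitInterval → ℝ)
    (hF : ∀ i, Measurable (F i)) :
    ∫ u, ∏ i ∈ S, F i (u i) ∂(PP ι) = ∏ i ∈ S, ∫ x, F i x ∂(volume : Measure unitInterval) := by
  have h1 : ∀ u : ι → unitInterval, ∏ i ∈ S, F i (u i) =
      (fun z : (i : S) → unitInterval => ∏ i : S, F i (z i)) (S.restrict u) := by
    intro u
    rw [← Finset.prod_coe_sort]
    rfl
  rw [integral_congr_ae (Eventually.of_forall h1)]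
  rw [integral_restrict_infinitePi (X := fun _ : ι => unitInterval)
    (μ := fun _ => (volume : Measure unitInterval))
    (f := fun z : (i : S) → unitInterval => ∏ i : S, F i (z i))
    (Measurable.aestronglyMeasurable
      (Finset.measurable_fun_prod _ fun i _ => (hF i).comp (measurable_pi_apply i)))]
  rw [integral_fintype_prod_eq_prod (fun (i : S) x => F i x)]
  exact Finset.prod_coe_sort S (fun i => ∫ x, F i x ∂(volume : Measure unitInterval))

/-- Integration over `PO μ`, the labels last. -/
theorem integral_PO [IsProbabilityMeasure μ] {F : Conf V → ℝ} (hF : Measurable F)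
    (hC : ∃ C, ∀ ω, |F ω| ≤ C) :
    ∫ ω, F ω ∂(PO μ) = ∫ u, ∫ p, F (p.1, u, p.2) ∂(μ.prod (PP (V × ℕ))) ∂(PP (V × ℕ)) := by
  obtain ⟨C, hC⟩ := hC
  unfold PO
  rw [integral_prod _ (integrable_bdd_procB hF ⟨C, hC⟩)]
  have h1 : ∀ σ : V → Bool, ∫ q, F (σ, q) ∂((PP (V × ℕ)).prod (PP (V × ℕ))) =
      ∫ u, ∫ ξ, F (σ, u, ξ) ∂(PP (V × ℕ)) ∂(PP (V × ℕ)) := fun σ =>
    integral_prod _ (integrable_bdd_procB (hF.comp measurable_prodMk_left) ⟨C, fun q => hC _⟩)
  simp only [h1]
  have h3 : Measurable fun z : ((V → Bool) × (V × ℕ → unitInterval)) × (V × ℕ → unitInterval) =>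
      F (z.1.1, z.1.2, z.2) := hF.comp (by fun_prop)
  have h2 : Measurable fun q : (V → Bool) × (V × ℕ → unitInterval) =>
      ∫ ξ, F (q.1, q.2, ξ) ∂(PP (V × ℕ)) :=
    (h3.stronglyMeasurable.integral_prod_right').measurable
  rw [integral_integral_swap (f := fun σ u => ∫ ξ, F (σ, u, ξ) ∂(PP (V × ℕ)))
    (integrable_bdd_procB h2 ⟨C, fun q => ?_⟩)]
  · refine integral_congr_ae (Eventually.of_forall fun u => ?_)
    simp only
    have h4 : Measurable fun q : (V → Bool) × (V × ℕ → unitInterval) => F (q.1, u, q.2) :=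
      hF.comp (by fun_prop)
    exact (integral_prod (fun q : (V → Bool) × (V × ℕ → unitInterval) => F (q.1, u, q.2))
      (integrable_bdd_procB h4 ⟨C, fun q => hC _⟩)).symm
  · have h5 := norm_integral_le_of_norm_le_const (μ := PP (V × ℕ))
      (f := fun ξ => F (q.1, q.2, ξ)) (C := C) (Eventually.of_forall fun ξ => hC _)
    simp only [Function.uncurry]
    simpa using h5

theorem measurable_ite_mem {A : Set unitInterval} (hA : MeasurableSet A) {α : Type*}
    [MeasurableSpace α] {f g : α → unitInterval} (hf : Measurable f) (hg : Measurable g)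
    [∀ x, Decidable (f x ∈ A)] :
    Measurable fun x => if f x ∈ A then g x else 0 :=
  Measurable.ite (hf hA) hg measurable_const

theorem abs_zm_le {a : ℝ} (ha : 0 ≤ a) (m : V × ℕ → Set unitInterval) (e : V × ℕ)
    (p : unitInterval × unitInterval) : |zm a m e p| ≤ a := by
  unfold zm
  split_ifs with h
  · rw [abs_mul, abs_of_nonneg (str_nonneg ha _ _)]
    calc str a e.2 p.1 * |2 * (p.2 : ℝ) - 1| ≤ a * 1 :=
          mul_le_mul (str_le ha _ _) (abs_two_mul_sub_one_le p.2) (abs_nonneg _) ha
      _ = a := mul_one a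
  · simpa using ha

theorem measurable_zm (a : ℝ) (m : V × ℕ → Set unitInterval) (hm : ∀ e, MeasurableSet (m e))
    (e : V × ℕ) : Measurable (zm a m e) := by
  classical
  have h1 : Measurable fun p : unitInterval × unitInterval =>
      str a e.2 p.1 * (2 * (p.2 : ℝ) - 1) := by
    refine ((measurable_str a e.2).comp (measurable_subtype_coe.comp measurable_fst)).mul ?_
    exact ((measurable_subtype_coe.comp measurable_snd).const_mul 2).sub_const 1
  exact Measurable.ite (measurable_fst (hm e)) h1 measurable_const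

theorem measurable_maskMap (m : V × ℕ → Set unitInterval) (hm : ∀ e, MeasurableSet (m e))
    (e : V × ℕ) [∀ y, Decidable (y ∈ m e)] :
    Measurable fun p : unitInterval × unitInterval => (p.1, if p.1 ∈ m e then p.2 else 0) :=
  measurable_fst.prodMk (measurable_ite_mem (hm e) measurable_fst measurable_snd)

open Classical in
/-- One factor of the finite dimensional densities. -/
theorem integral_Qm {a : ℝ} (ha : 0 ≤ a) (m : V × ℕ → Set unitInterval)
    (hm : ∀ e, MeasurableSet (m e)) (e : V × ℕ) {g : unitInterval × unitInterval → ℝ}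
    (hg : Measurable g) (hC : ∃ C, ∀ p, |g p| ≤ C) (b : Bool) :
    ∫ y : unitInterval, (∫ x : unitInterval, g (y, if y ∈ m e then x else 0) *
        (1 + str a e.2 y * (2 * (x : ℝ) - 1) * spin b)) =
      ∫ p, g p * (1 + zm a m e p * spin b) ∂(Qm m e) := by
  obtain ⟨C, hC⟩ := hC
  have hsp : |spin b| = 1 := P161.abs_spin b
  unfold Qm
  have hz := measurable_zm a m hm e
  have hmm : Measurable fun p => g p * (1 + zm a m e p * spin b) :=
    hg.mul ((hz.mul_const _).const_add 1)
  have hmk := measurable_maskMap m hm e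
  rw [integral_map hmk.aemeasurable hmm.aestronglyMeasurable]
  rw [integral_prod (fun p : unitInterval × unitInterval =>
    (fun p => g p * (1 + zm a m e p * spin b)) (p.1, if p.1 ∈ m e then p.2 else 0))
    (integrable_bdd_procB (hmm.comp hmk) ⟨C * (1 + a), fun p => ?_⟩)]
  · refine integral_congr_ae (Eventually.of_forall fun y => ?_)
    simp only
    by_cases hy : y ∈ m e
    · simp only [zm, if_pos hy]
    · simp only [zm, if_neg hy, zero_mul, add_zero, mul_one]
      rw [integral_const_mul]
      have h1 := integral_unit_density (str a e.2 y * spin b)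
      have h2 : ∀ x : unitInterval, (1 + str a e.2 y * (2 * (x : ℝ) - 1) * spin b) =
          (1 + str a e.2 y * spin b * (2 * (x : ℝ) - 1)) := fun x => by ring
      simp only [h2, h1, mul_one]
      simp
  · rw [abs_mul]
    have h0 : 0 ≤ C := (abs_nonneg _).trans (hC (p.1, p.2))
    refine mul_le_mul (hC _) ?_ (abs_nonneg _) h0
    refine (abs_add_le _ _).trans ?_
    rw [abs_one, abs_mul, hsp, mul_one]
    exact add_le_add_right (abs_zm_le ha m e _) 1

theorem measurable_ym (a : ℝ) (m : V × ℕ → Set unitInterval) (hm : ∀ e, MeasurableSet (m e)) :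
    Measurable (ym a m) := by
  classical
  refine measurable_pi_iff.2 fun e => ?_
  have h1 : Measurable fun ω : Conf V => ω.2.1 e :=
    (measurable_pi_apply e).comp (measurable_fst.comp measurable_snd)
  have h2 : Measurable fun ω : Conf V => tt a ω.1 ω.2.1 ω.2.2 e :=
    (measurable_pi_apply e).comp (measurable_tt a)
  exact h1.prodMk (Measurable.ite (h1 (hm e)) h2 measurable_const)

theorem obs_mask [Countable V] [IsProbabilityMeasure μ] {a : ℝ} (ha : 0 ≤ a) (ha1 : a < 1)
    (m : V × ℕ → Set unitInterval) (hm : ∀ e, MeasurableSet (m e)) :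
    Obs μ (PO μ) Prod.fst (ym a m) (Qm m) (zm a m) a := by
  classical
  refine ⟨isProbabilityMeasure_PO, measurable_fst, measurable_ym a m hm, fun e => ?_,
    measurable_zm a m hm, ha, ha1, abs_zm_le ha m, fun e => ?_, ?_⟩
  · exact Measure.isProbabilityMeasure_map (measurable_maskMap m hm e).aemeasurable
  · -- symmetry
    have hz := measurable_zm a m hm e
    have hmk := measurable_maskMap m hm e
    have hs : MeasurePreserving (Prod.map id unitInterval.symm :
        unitInterval × unitInterval → unitInterval × unitInterval)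
        ((volume : Measure unitInterval).prod (volume : Measure unitInterval))
        ((volume : Measure unitInterval).prod (volume : Measure unitInterval)) :=
      (MeasurePreserving.id _).prod unitInterval.measurePreserving_symm
    unfold Qm
    rw [Measure.map_map (g := fun x => - zm a m e x) hz.neg hmk, Measure.map_map hz hmk]
    have h1 : (fun x => - zm a m e x) ∘
        (fun p : unitInterval × unitInterval => (p.1, if p.1 ∈ m e then p.2 else 0)) =
        (zm a m e ∘ (fun p : unitInterval × unitInterval =>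
          (p.1, if p.1 ∈ m e then p.2 else 0))) ∘ (Prod.map id unitInterval.symm) := by
      funext p
      simp only [Function.comp, Prod.map, id]
      by_cases hp : p.1 ∈ m e
      · simp only [zm, if_pos hp, unitInterval.coe_symm_eq]
        ring
      · simp only [zm, if_neg hp, neg_zero]
    rw [h1, ← Measure.map_map (hz.comp hmk) hs.measurable, hs.map_eq]
  · -- finite dimensional densities
    intro S f g hf hfC hg hgC
    obtain ⟨Cf, hCf⟩ := hfC
    obtain ⟨Cg, hCg⟩ := hgC
    have hCg0 : ∀ e : V × ℕ, 0 ≤ Cg := fun e => (abs_nonneg _).trans (hCg e (0, 0))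
    have hCf0 : 0 ≤ Cf := (abs_nonneg _).trans (hCf fun _ => true)
    have hym := measurable_ym a m hm
    have hmeas : Measurable fun ω : Conf V => f ω.1 * ∏ e ∈ S, g e (ym a m ω e) :=
      (hf.comp measurable_fst).mul (Finset.measurable_fun_prod _ fun e _ =>
        (hg e).comp ((measurable_pi_apply e).comp hym))
    have hbd : ∀ ω : Conf V, |f ω.1 * ∏ e ∈ S, g e (ym a m ω e)| ≤ Cf * Cg ^ S.card := by
      intro ω
      rw [abs_mul, Finset.abs_prod]
      refine mul_le_mul (hCf _) ?_ (Finset.prod_nonneg fun _ _ => abs_nonneg _) hCf0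
      exact (Finset.prod_le_prod (fun _ _ => abs_nonneg _) fun e _ => hCg e _).trans
        (by rw [Finset.prod_const])
    rw [integral_PO hmeas ⟨_, hbd⟩]
    -- the factors
    set H : V × ℕ → unitInterval → Bool → ℝ := fun e y b =>
      ∫ x : unitInterval, g e (y, if y ∈ m e then x else 0) *
        (1 + str a e.2 y * (2 * (x : ℝ) - 1) * spin b) with hH
    have hHmeas : ∀ e, Measurable fun q : unitInterval × Bool => H e q.1 q.2 := by
      intro e
      have h3 : Measurable fun z : (unitInterval × Bool) × unitInterval =>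
          g e (z.1.1, if z.1.1 ∈ m e then z.2 else 0) *
            (1 + str a e.2 z.1.1 * (2 * (z.2 : ℝ) - 1) * spin z.1.2) := by
        have h4 : Measurable fun z : (unitInterval × Bool) × unitInterval => z.1.1 :=
          measurable_fst.comp measurable_fst
        have h5 : Measurable fun z : (unitInterval × Bool) × unitInterval =>
            (z.1.1, if z.1.1 ∈ m e then z.2 else 0) :=
          h4.prodMk (measurable_ite_mem (hm e) h4 measurable_snd)
        have h6 : Measurable fun z : (unitInterval × Bool) × unitInterval => spin z.1.2 :=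
          (measurable_of_finite _ : Measurable spin).comp (measurable_snd.comp measurable_fst)
        have h7 : Measurable fun z : (unitInterval × Bool) × unitInterval =>
            str a e.2 z.1.1 := (measurable_str a e.2).comp (measurable_subtype_coe.comp h4)
        have h8 : Measurable fun z : (unitInterval × Bool) × unitInterval =>
            (2 * (z.2 : ℝ) - 1) :=
          ((measurable_subtype_coe.comp measurable_snd).const_mul 2).sub_const 1
        exact ((hg e).comp h5).mul (((h7.mul h8).mul h6).const_add 1)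
      exact (h3.stronglyMeasurable.integral_prod_right').measurable
    have hHbd : ∀ e y b, |H e y b| ≤ Cg * (1 + a) := by
      intro e y b
      have hn := norm_integral_le_of_norm_le_const (μ := (volume : Measure unitInterval))
        (f := fun x : unitInterval => g e (y, if y ∈ m e then x else 0) *
          (1 + str a e.2 y * (2 * (x : ℝ) - 1) * spin b)) (C := Cg * (1 + a))
        (Eventually.of_forall fun x => ?_)
      · simpa [hH] using hn
      rw [Real.norm_eq_abs, abs_mul]
      refine mul_le_mul (hCg _ _) ?_ (abs_nonneg _) (hCg0 e)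
      refine (abs_add_le _ _).trans ?_
      rw [abs_one, abs_mul, abs_mul, P161.abs_spin, mul_one, abs_of_nonneg (str_nonneg ha _ _)]
      have h1 : str a e.2 y * |2 * (x : ℝ) - 1| ≤ a * 1 :=
        mul_le_mul (str_le ha _ _) (abs_two_mul_sub_one_le x) (abs_nonneg _) ha
      linarith
    have hite : ∀ (u : V × ℕ → unitInterval) (e : V × ℕ),
        Measurable fun x : unitInterval => if u e ∈ m e then x else 0 := by
      intro u e
      by_cases hu : u e ∈ m e
      · simp only [if_pos hu]; exact measurable_id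
      · simp only [if_neg hu]; exact measurable_const
    have hfix : ∀ u : V × ℕ → unitInterval,
        ∫ p : (V → Bool) × (V × ℕ → unitInterval), f (p.1, u, p.2).1 *
          ∏ e ∈ S, g e (ym a m (p.1, u, p.2) e) ∂(μ.prod (PP (V × ℕ))) =
        ∫ σ, f σ * ∏ e ∈ S, H e (u e) (σ e.1) ∂μ := by
      intro u
      have h1 := (obs_fixed (μ := μ) ha ha1 u).fd S f
        (fun e x => g e (u e, if u e ∈ m e then x else 0)) hf ⟨Cf, hCf⟩
        (fun e => (hg e).comp (f := fun x : unitInterval => (u e, if u e ∈ m e then x else 0))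
          (measurable_const.prodMk (hite u e)))
        ⟨Cg, fun e x => hCg e _⟩
      exact h1
    rw [integral_congr_ae (Eventually.of_forall hfix)]
    -- swap
    have hjoint : Measurable fun q : (V × ℕ → unitInterval) × (V → Bool) =>
        f q.2 * ∏ e ∈ S, H e (q.1 e) (q.2 e.1) := by
      refine (hf.comp measurable_snd).mul (Finset.measurable_fun_prod _ fun e _ => ?_)
      exact (hHmeas e).comp (f := fun q : (V × ℕ → unitInterval) × (V → Bool) =>
        (q.1 e, q.2 e.1)) (((measurable_pi_apply e).comp measurable_fst).prodMk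
        ((measurable_pi_apply e.1).comp measurable_snd))
    have hjbd : ∀ q : (V × ℕ → unitInterval) × (V → Bool),
        |f q.2 * ∏ e ∈ S, H e (q.1 e) (q.2 e.1)| ≤ Cf * (Cg * (1 + a)) ^ S.card := by
      intro q
      rw [abs_mul, Finset.abs_prod]
      refine mul_le_mul (hCf _) ?_ (Finset.prod_nonneg fun _ _ => abs_nonneg _) hCf0
      exact (Finset.prod_le_prod (fun _ _ => abs_nonneg _) fun e _ => hHbd e _ _).trans
        (by rw [Finset.prod_const])
    rw [integral_integral_swap (f := fun (u : V × ℕ → unitInterval) (σ : V → Bool) =>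
      f σ * ∏ e ∈ S, H e (u e) (σ e.1)) (integrable_bdd_procB hjoint ⟨_, hjbd⟩)]
    refine integral_congr_ae (Eventually.of_forall fun σ => ?_)
    simp only
    rw [integral_const_mul]
    congr 1
    rw [integral_prod_PP S (fun e y => H e y (σ e.1)) (fun e =>
      (hHmeas e).comp (measurable_id.prodMk measurable_const))]
    exact Finset.prod_congr rfl fun e _ =>
      integral_Qm ha m hm e (hg e) ⟨Cg, hCg e⟩ (σ e.1)

theorem measurableSet_mx (x : ℝ) (e : V × ℕ) : MeasurableSet (mx x e) := by
  unfold mx
  exact measurableSet_lt (measurable_subtype_coe.const_add _) measurable_const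

/-- The time masks give a homogeneous environment. -/
theorem hom_mx [G.LocallyFinite] {d : ℕ} {β : ℝ} (hE : Env G d β μ) {a : ℝ} (ha : 0 ≤ a)
    (ha1 : a < 1) (x : ℝ) : HomEnv G (PO μ) (ym a (mx x)) (zm a (mx x)) := by
  classical
  have := hE.prob
  have := hE.countable
  intro g
  have hobs := obs_mask (μ := μ) ha ha1 (mx x) (measurableSet_mx x)
  have hm : Measurable fun ω => slp (zm a (mx x)) (ym a (mx x) ω) :=
    hobs.measurable_slp.comp hobs.measY
  have ha' := measurable_actE_info (V := V) g.toEquiv
  rw [Measure.map_map ha' hm]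
  have h1 : (actE g.toEquiv : (V × ℕ → ℝ) → (V × ℕ → ℝ)) ∘
      (fun ω => slp (zm a (mx x)) (ym a (mx x) ω)) =
      (fun ω => slp (zm a (mx x)) (ym a (mx x) ω)) ∘ actO g.toEquiv := by
    funext ω
    simp only [Function.comp]
    rw [slp_ym, slp_ym]
    rfl
  rw [h1, ← Measure.map_map hm (measurable_actO _), PO_act hE.tree hE.ising g]

/-- More events visible, more information: for masks `m e ⊆ m' e` for the events `e ∈ R`. (Fixed
labels: `Obs.sq_mono`; integrate over the labels.) -/
theorem mask_mono [G.LocallyFinite] {d : ℕ} {β : ℝ} (hE : Env G d β μ) {a : ℝ} (ha : 0 ≤ a)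
    (ha1 : a < 1) (m m' : V × ℕ → Set unitInterval) (hm : ∀ e, MeasurableSet (m e))
    (hm' : ∀ e, MeasurableSet (m' e)) (R : Set (V × ℕ)) (hR : ∀ e ∈ R, m e ⊆ m' e) (v : V) :
    ∫ ω, M G μ R v (wm a m ω.2.1 (tt a ω.1 ω.2.1 ω.2.2)) ^ 2 ∂(PO μ) ≤
      ∫ ω, M G μ R v (wm a m' ω.2.1 (tt a ω.1 ω.2.1 ω.2.2)) ^ 2 ∂(PO μ) := by
  classical
  have := hE.prob
  have := hE.countable
  have hco := hE.tree.connected
  -- measurability and bounds
  have key : ∀ m : V × ℕ → Set unitInterval, (∀ e, MeasurableSet (m e)) →
      (Measurable fun ω : Conf V => M G μ R v (wm a m ω.2.1 (tt a ω.1 ω.2.1 ω.2.2)) ^ 2) ∧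
      ∀ ω : Conf V, |M G μ R v (wm a m ω.2.1 (tt a ω.1 ω.2.1 ω.2.2)) ^ 2| ≤ 1 := by
    intro m hm
    have hobs := obs_mask (μ := μ) ha ha1 m hm
    have h1 : Measurable fun ω : Conf V => M G μ R v (slp (zm a m) (ym a m ω)) :=
      (measurable_M G μ R v).comp (hobs.measurable_slp.comp hobs.measY)
    refine ⟨?_, fun ω => ?_⟩
    · have h2 := h1.pow_const 2
      simp only [slp_ym] at h2
      exact h2
    · rw [← slp_ym, abs_of_nonneg (sq_nonneg _), ← sq_abs]
      exact pow_le_one₀ (abs_nonneg _)
        (abs_M_le hobs.b_nonneg hobs.b_lt μ (hobs.abs_slp_le (ym a m ω)) R v)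
  have hmask : ∀ (m : V × ℕ → Set unitInterval) (u t : V × ℕ → unitInterval),
      M G μ R v (wm a m u t) = M G μ (R ∩ {e | u e ∈ m e}) v (wf a u t) := by
    intro m u t
    exact EI_mask hco μ R {e | u e ∈ m e} v (sp v) (wf a u t)
  have hint : ∀ m : V × ℕ → Set unitInterval, (∀ e, MeasurableSet (m e)) →
      Integrable (fun u : V × ℕ → unitInterval =>
        ∫ p, M G μ R v (wm a m u (tt a p.1 u p.2)) ^ 2 ∂(μ.prod (PP (V × ℕ))))
        (PP (V × ℕ)) := by
    intro m hm
    have h1 : Measurable fun z : (V × ℕ → unitInterval) × ((V → Bool) × (V × ℕ → unitInterval)) =>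
        M G μ R v (wm a m z.1 (tt a z.2.1 z.1 z.2.2)) ^ 2 :=
      (key m hm).1.comp (f := fun z : (V × ℕ → unitInterval) ×
        ((V → Bool) × (V × ℕ → unitInterval)) => ((z.2.1, z.1, z.2.2) : Conf V)) (by fun_prop)
    exact (integrable_bdd_procB (ν := (PP (V × ℕ)).prod (μ.prod (PP (V × ℕ)))) h1
      ⟨1, fun z => (key m hm).2 (z.2.1, z.1, z.2.2)⟩).integral_prod_left
  rw [integral_PO (key m hm).1 ⟨1, (key m hm).2⟩, integral_PO (key m' hm').1 ⟨1, (key m' hm').2⟩]
  refine integral_mono (hint m hm) (hint m' hm') fun u => ?_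
  simp only [hmask]
  have hobs := obs_fixed (μ := μ) ha ha1 u
  exact hobs.sq_mono hco (R := R ∩ {e | u e ∈ m e}) (R' := R ∩ {e | u e ∈ m' e})
    (fun e he => ⟨he.1, hR e he.1 he.2⟩) v v (measurable_sp v) ⟨1, abs_sp v⟩

end Vale.Agent.P161.Crit
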