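import Vale.Agent.Lib.P161.PosDef
import Vale.Agent.Lib.P161.Schur

/-!
P161-CRIT, module TaPos: `posdef_bound` without the finite range assumption.
-/

open Finset

namespace Vale.Agent.P161.Crit

open Vale.Agent.P161.PosDef

section

variable {V : Type*} {G : SimpleGraph V} [G.LocallyFinite]

/-- The weight `h(v) = (√(d-1))^{-dist(o,v)}`, as a functional on finitely supported functions. -/
noncomputable def Hf (G : SimpleGraph V) (d : ℕ) (o : V) : (V →₀ ℝ) →ₗ[ℝ] ℝ :=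
  Finsupp.linearCombination ℝ (fun v => ((Real.sqrt ((d:ℝ)-1))⁻¹) ^ G.dist o v)

omit [G.LocallyFinite] in
theorem Hf_apply (d : ℕ) (o : V) (f : V →₀ ℝ) :
    Hf G d o f = ∑ v ∈ f.support, f v * ((Real.sqrt ((d:ℝ)-1))⁻¹) ^ G.dist o v := by
  simp [Hf, Finsupp.linearCombination_apply, Finsupp.sum]

theorem Hf_Sop (hc : G.Connected) (d n : ℕ) (o : V) (f : V →₀ ℝ) :
    Hf G d o (Sop hc n f) = ∑ v ∈ f.support, f v *
      ∑ w ∈ sph hc n v, ((Real.sqrt ((d:ℝ)-1))⁻¹) ^ G.dist o w := by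
  have h : (Hf G d o) ∘ₗ (Sop hc n) = Finsupp.linearCombination ℝ
      (fun v => ∑ w ∈ sph hc n v, ((Real.sqrt ((d:ℝ)-1))⁻¹) ^ G.dist o w) := by
    refine Finsupp.lhom_ext' fun v => LinearMap.ext_ring ?_
    simp only [LinearMap.comp_apply, Finsupp.lsingle_apply, Sop_single, map_sum]
    simp [Hf]
  have h2 := LinearMap.congr_fun h f
  simp only [LinearMap.comp_apply] at h2
  rw [h2]
  simp [Finsupp.linearCombination_apply, Finsupp.sum]

theorem Hf_it (hG : G.IsTree) {d : ℕ} (hd : 3 ≤ d) (hreg : G.IsRegularOfDegree d) (n : ℕ)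
    (o : V) (k : ℕ) : Hf G d o (it hG.connected n o k) ≤
      (2 * (n + 1) * (Real.sqrt ((d:ℝ)-1)) ^ n) ^ k := by
  induction k with
  | zero =>
    unfold it
    rw [Function.iterate_zero, id]
    simp [Hf]
  | succ k ih =>
    have hc : 0 ≤ 2 * ((n:ℝ) + 1) * (Real.sqrt ((d:ℝ)-1)) ^ n := by positivity
    rw [it_succ, Hf_Sop]
    calc ∑ v ∈ (it hG.connected n o k).support, it hG.connected n o k v *
          ∑ w ∈ sph hG.connected n v, ((Real.sqrt ((d:ℝ)-1))⁻¹) ^ G.dist o w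
        ≤ ∑ v ∈ (it hG.connected n o k).support, it hG.connected n o k v *
          (2 * (n + 1) * (Real.sqrt ((d:ℝ)-1)) ^ n * ((Real.sqrt ((d:ℝ)-1))⁻¹) ^ G.dist o v) :=
        sum_le_sum fun v _ => mul_le_mul_of_nonneg_left
          (schur_sphere hG (by omega) hreg n o v _ (fun w hw => (mem_sph _ _ _ _).1 hw))
          (it_bound hG hd hreg n o k v).1
      _ = (2 * (n + 1) * (Real.sqrt ((d:ℝ)-1)) ^ n) * Hf G d o (it hG.connected n o k) := by
        rw [Hf_apply, mul_sum]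
        exact sum_congr rfl fun v _ => by ring
      _ ≤ (2 * (n + 1) * (Real.sqrt ((d:ℝ)-1)) ^ n) *
          (2 * (n + 1) * (Real.sqrt ((d:ℝ)-1)) ^ n) ^ k := mul_le_mul_of_nonneg_left ih hc
      _ = _ := by rw [pow_succ, mul_comm]

theorem moment_bound_inf (hG : G.IsTree) {d : ℕ} (hd : 3 ≤ d) (hreg : G.IsRegularOfDegree d)
    (rho : ℕ → ℝ) (K : ℝ)
    (hK : ∀ m, |rho m| ≤ K * ((Real.sqrt ((d:ℝ)-1))⁻¹) ^ m) (n : ℕ) (o : V) (k : ℕ) :
    |Bf G rho (Finsupp.single o 1) (it hG.connected n o k)| ≤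
      K * (2 * (n + 1) * (Real.sqrt ((d:ℝ)-1)) ^ n) ^ k := by
  have hK0 : 0 ≤ K := by
    have := (abs_nonneg _).trans (hK 0)
    simpa using this
  rw [Bf_single]
  calc |∑ v ∈ (it hG.connected n o k).support, it hG.connected n o k v * rho (G.dist o v)|
      ≤ ∑ v ∈ (it hG.connected n o k).support,
          |it hG.connected n o k v * rho (G.dist o v)| := abs_sum_le_sum_abs _ _
    _ ≤ ∑ v ∈ (it hG.connected n o k).support,
          K * (it hG.connected n o k v * ((Real.sqrt ((d:ℝ)-1))⁻¹) ^ G.dist o v) := by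
        refine sum_le_sum fun v _ => ?_
        have h0 := (it_bound hG hd hreg n o k v).1
        rw [abs_mul, abs_of_nonneg h0]
        calc it hG.connected n o k v * |rho (G.dist o v)|
            ≤ it hG.connected n o k v * (K * ((Real.sqrt ((d:ℝ)-1))⁻¹) ^ G.dist o v) :=
              mul_le_mul_of_nonneg_left (hK _) h0
          _ = _ := by ring
    _ = K * Hf G d o (it hG.connected n o k) := by rw [Hf_apply, mul_sum]
    _ ≤ _ := mul_le_mul_of_nonneg_left (Hf_it hG hd hreg n o k) hK0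

end

/-- Positive definite radial function with `|rho m| ≤ K (d-1)^(-m/2)`. Same proof as
`Vale.Agent.P161.posdef_bound` (`PosDef.lean`); the only change is `moment_bound`: the `2k`-th moment
`∑_x rho(|x|) (S_n^{2k} δ_o)(x)` is at most `K ∑_x h(x) (S_n^{2k} δ_o)(x) = K (S_n^{2k} h)(o)` with
`h(x) = (√(d-1))^{-dist(o,x)}` and `S_n h ≤ 2 (n+1) (√(d-1))^n h` by `schur_sphere`. -/
theorem posdef_bound_inf {V : Type*} {G : SimpleGraph V} [G.LocallyFinite] (hG : G.IsTree)
    {d : ℕ} (hd : 3 ≤ d) (hreg : G.IsRegularOfDegree d) (rho : ℕ → ℝ) (K : ℝ)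
    (hK : ∀ m, |rho m| ≤ K * ((Real.sqrt ((d:ℝ)-1))⁻¹) ^ m)
    (hpos : ∀ (A : Finset V) (c : V → ℝ), 0 ≤ ∑ u ∈ A, ∑ v ∈ A, c u * c v * rho (G.dist u v))
    (n : ℕ) (hn : 1 ≤ n) :
    (d:ℝ) * ((d:ℝ)-1)^(n-1) * |rho n| ≤ 2 * (n+1) * (Real.sqrt ((d:ℝ)-1))^n * rho 0 := by
  classical
  obtain ⟨o⟩ := hG.connected.nonempty
  have hd1 : (1 : ℝ) ≤ Real.sqrt ((d:ℝ)-1) := by
    rw [Real.one_le_sqrt]
    have : (3 : ℝ) ≤ d := by exact_mod_cast hd
    linarith
  have hm0 : Bf G rho (Finsupp.single o 1) (it hG.connected n o 0) = rho 0 := by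
    unfold it
    rw [Function.iterate_zero, id]
    simp [Bf]
  have hr0 : 0 ≤ rho 0 := by
    have := hpos {o} (fun _ => 1)
    simpa using this
  obtain ⟨n, rfl⟩ : ∃ k, n = k + 1 := ⟨n - 1, by omega⟩
  have hm1 : Bf G rho (Finsupp.single o 1) (it hG.connected (n + 1) o 1) =
      (d:ℝ) * ((d:ℝ)-1)^n * rho (n + 1) := by
    unfold it
    rw [Function.iterate_one, Sop_single, map_sum]
    have hb : ∀ v ∈ sph hG.connected (n + 1) o,
        Bf G rho (Finsupp.single o 1) (Finsupp.single v 1) = rho (n + 1) := by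
      intro v hv
      rw [← (mem_sph _ _ _ _).1 hv]
      simp [Bf]
    rw [sum_congr rfl hb, sum_const, card_sph hG hreg, nsmul_eq_mul]
    have : (((d - 1 : ℕ) : ℝ)) = (d : ℝ) - 1 := by
      rw [Nat.cast_sub (by omega)]; simp
    push_cast
    rw [this]
  have h := moment_method (fun k => Bf G rho (Finsupp.single o 1) (it hG.connected (n + 1) o k))
    (2 * (((n + 1 : ℕ) : ℝ) + 1) * (Real.sqrt ((d:ℝ)-1)) ^ (n + 1)) K (by positivity)
    (by rw [hm0]; exact hr0) (fun k => by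
      have h1 := cauchy_schwarz rho hpos (it hG.connected (n + 1) o 0)
        (it hG.connected (n + 1) o k)
      rw [Bf_it hG hreg, Bf_it hG hreg, Bf_it hG hreg] at h1
      rw [two_mul]
      simpa using h1) (moment_bound_inf hG hd hreg rho K hK (n + 1) o)
  rw [hm0, hm1, abs_mul, abs_of_nonneg (by
    have : (1 : ℝ) ≤ (d : ℝ) - 1 := by
      have : (3 : ℝ) ≤ d := by exact_mod_cast hd
      linarith
    positivity)] at h
  simpa using h

end Vale.Agent.P161.Crit
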