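import Vale.Agent.Lib.P161.Crit.Decay

/-!
P161-CRIT, module Tail: doubly exponential tail of the branch averages `bet`.
-/

open MeasureTheory Filter Topology

namespace Vale.Agent.P161.Crit

variable {V : Type*} {G : SimpleGraph V}
variable {Ω Y : Type*} [MeasurableSpace Ω] [MeasurableSpace Y]
variable {μ : Measure (V → Bool)} {P : Measure Ω} {s : Ω → V → Bool} {y : Ω → V × ℕ → Y}
variable {Q : V × ℕ → Measure Y} {ζ : V × ℕ → Y → ℝ} {b : ℝ}

open Classical in
/-- `bet l v u`: average over the geodesics `v = x_0, x_1, …, x_l` which avoid the neighbour `u` of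
`v` of `∏ ph(msg x_{i+1} x_i)` (`k = d - 1` children everywhere). -/
noncomputable def bet (G : SimpleGraph V) [G.LocallyFinite] (μ : Measure (V → Bool)) (θ : ℝ)
    (d : ℕ) : ℕ → V → V → (V × ℕ → ℝ) → ℝ
  | 0, _, _, _ => 1
  | l + 1, v, u, w => (∑ c ∈ (G.neighborFinset v).erase u,
      ph θ (msg G μ c v w) * bet G μ θ d l c v w) / ((d : ℝ) - 1)

/-! ### Auxiliary facts -/

/-- In a tree the branch behind a child is contained in the branch. -/
theorem tail_side_subset (hG : G.IsTree) {c v u : V} (hcv : G.Adj c v) (hvu : G.Adj v u)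
    (hcu : c ≠ u) : side G c v ⊆ side G v u := by
  intro e he
  simp only [side, Set.mem_ofPred_eq] at he ⊢
  rcases hG.dist_eq_dist_add_one_of_adj e.1 hvu with h | h
  · exact absurd (parent_unique hG hcv.symm hvu he h) hcu
  · exact h

theorem tail_measurable_ph (θ : ℝ) : Measurable (ph θ) := by
  unfold ph
  fun_prop

theorem tail_msg_depE [G.LocallyFinite] (hc : G.Connected) (μ : Measure (V → Bool)) (p q : V) :
    DepE (side G p q) (msg G μ p q) :=
  fun _ _ h => EI_congr hc μ h p (sp p)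

theorem depE_mono_tail {Z α : Type*} {R R' : Set (V × ℕ)} (h : R ⊆ R') {F : (V × ℕ → Z) → α}
    (hF : DepE R F) : DepE R' F := fun y y' hy => hF y y' fun e he => hy e (h he)

theorem tail_card [G.LocallyFinite] [DecidableEq V] {d : ℕ} (hreg : G.IsRegularOfDegree d)
    {v u : V} (hvu : G.Adj v u) : ((G.neighborFinset v).erase u).card = d - 1 := by
  rw [Finset.card_erase_of_mem (by simpa using hvu), SimpleGraph.card_neighborFinset_eq_degree,
    hreg v]

theorem tail_cast {d : ℕ} (h3 : 3 ≤ d) : ((d - 1 : ℕ) : ℝ) = (d : ℝ) - 1 := by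
  rw [Nat.cast_sub (by omega)]; simp

theorem tail_mem [G.LocallyFinite] [DecidableEq V] {v u c : V}
    (hc : c ∈ (G.neighborFinset v).erase u) : G.Adj c v ∧ c ≠ u := by
  rw [Finset.mem_erase, SimpleGraph.mem_neighborFinset] at hc
  exact ⟨hc.2.symm, hc.1⟩

theorem bet_succ [G.LocallyFinite] [DecidableEq V] (θ : ℝ) (d l : ℕ) (v u : V)
    (w : V × ℕ → ℝ) : bet G μ θ d (l + 1) v u w = (∑ c ∈ (G.neighborFinset v).erase u,
      ph θ (msg G μ c v w) * bet G μ θ d l c v w) / ((d : ℝ) - 1) := by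
  rw [bet]
  congr 2
  congr
  exact Subsingleton.elim _ _

theorem measurable_bet [G.LocallyFinite] [IsProbabilityMeasure μ] (θ : ℝ) (d l : ℕ) (v u : V) :
    Measurable (bet G μ θ d l v u) := by
  induction l generalizing v u with
  | zero => exact measurable_const
  | succ l ih =>
    have h1 : bet G μ θ d (l + 1) v u = fun w => (∑ c ∈ @Finset.erase _ (Classical.decEq V)
      (G.neighborFinset v) u, ph θ (msg G μ c v w) * bet G μ θ d l c v w) / ((d : ℝ) - 1) := rfl
    rw [h1]
    refine Measurable.div_const (Finset.measurable_sum _ fun c _ => ?_) _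
    exact ((tail_measurable_ph θ).comp (measurable_msg G μ c v)).mul (ih c v)

/-- `0 ≤ bet ≤ 1` for slope arrays bounded by `b < 1`. -/
theorem bet_mem [G.LocallyFinite] {d : ℕ} {β : ℝ} (hE : Env G d β μ) {b : ℝ} (hb0 : 0 ≤ b)
    (hb : b < 1) {w : V × ℕ → ℝ} (hw : ∀ e, |w e| ≤ b) (l : ℕ) {v u : V} (hvu : G.Adj v u) :
    bet G μ (Real.tanh β) d l v u w ∈ Set.Icc (0 : ℝ) 1 := by
  have := hE.prob
  have hθ0 := hE.theta_pos.le
  have hθ1 := hE.theta_lt_one
  have h3 := hE.three
  have hk : (0 : ℝ) < (d : ℝ) - 1 := by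
    have : (3 : ℝ) ≤ d := by exact_mod_cast h3
    linarith
  have hph : ∀ c v : V, 0 ≤ ph (Real.tanh β) (msg G μ c v w) ∧
      ph (Real.tanh β) (msg G μ c v w) ≤ 1 := by
    intro c v
    have h1 : |msg G μ c v w| ≤ 1 := abs_M_le hb0 hb μ hw _ _
    exact ⟨ph_nonneg hθ0 hθ1 h1, ph_le_one hθ0 hθ1 h1⟩
  induction l generalizing v u with
  | zero => exact ⟨zero_le_one, le_rfl⟩
  | succ l ih =>
    classical
    rw [bet_succ]
    constructor
    · refine div_nonneg (Finset.sum_nonneg fun c hc => ?_) hk.le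
      exact mul_nonneg (hph c v).1 (ih (tail_mem hc).1).1
    · rw [div_le_one hk]
      calc ∑ c ∈ (G.neighborFinset v).erase u,
            ph (Real.tanh β) (msg G μ c v w) * bet G μ (Real.tanh β) d l c v w
          ≤ ∑ c ∈ (G.neighborFinset v).erase u, (1 : ℝ) :=
            Finset.sum_le_sum fun c hc =>
              mul_le_one₀ (hph c v).2 (ih (tail_mem hc).1).1 (ih (tail_mem hc).1).2
        _ = (d : ℝ) - 1 := by
            rw [Finset.sum_const, nsmul_eq_mul, mul_one, tail_card hE.reg hvu, tail_cast h3]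

/-- `bet l v u` depends only on the events on the `v`-side of the edge `v u`. -/
theorem bet_depE [G.LocallyFinite] (hG : G.IsTree) (μ : Measure (V → Bool)) (θ : ℝ) (d l : ℕ)
    {v u : V} (hvu : G.Adj v u) : DepE (side G v u) (bet G μ θ d l v u) := by
  induction l generalizing v u with
  | zero => exact fun _ _ _ => rfl
  | succ l ih =>
    classical
    intro w w' hw
    rw [bet_succ, bet_succ]
    congr 1
    refine Finset.sum_congr rfl fun c hc => ?_
    have hc' := tail_mem hc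
    have hsub := tail_side_subset hG hc'.1 hvu hc'.2
    rw [(tail_msg_depE hG.connected μ c v) w w' fun e he => hw e (hsub he),
      (ih hc'.1) w w' fun e he => hw e (hsub he)]

theorem bet_act [G.LocallyFinite] {d : ℕ} {β : ℝ} (hE : Env G d β μ) (g : G ≃g G) (l : ℕ)
    (v u : V) (w : V × ℕ → ℝ) :
    bet G μ (Real.tanh β) d l (g v) (g u) (actE g.toEquiv w) =
      bet G μ (Real.tanh β) d l v u w := by
  have := hE.prob
  have hμ : μ.map (actC g.toEquiv) = μ := hE.ising.map_iso hE.tree g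
  induction l generalizing v u with
  | zero => rfl
  | succ l ih =>
    classical
    rw [bet_succ, bet_succ]
    congr 1
    symm
    refine Finset.sum_bij (fun c _ => g c) ?_ ?_ ?_ ?_
    · intro c hc
      rw [Finset.mem_erase, SimpleGraph.mem_neighborFinset] at hc ⊢
      exact ⟨fun h => hc.1 (g.injective h), g.map_adj_iff.2 hc.2⟩
    · intro c _ c' _ h
      exact g.injective h
    · intro c hc
      rw [Finset.mem_erase, SimpleGraph.mem_neighborFinset] at hc
      refine ⟨g.symm c, ?_, by simp⟩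
      rw [Finset.mem_erase, SimpleGraph.mem_neighborFinset]
      constructor
      · rintro rfl
        exact hc.1 (by simp)
      · rw [← g.map_adj_iff]
        simpa using hc.2
    · intro c _
      rw [ih c v, msg_act hE.tree.connected g hμ]

/-! ### Integrability, geodesics -/

theorem Obs.tail_integrable (h : Obs μ P s y Q ζ b) {F : (V × ℕ → ℝ) → ℝ} (hF : Measurable F)
    {C : ℝ} (hC : ∀ w : V × ℕ → ℝ, (∀ e, |w e| ≤ b) → |F w| ≤ C) :
    Integrable (fun ω => F (slp ζ (y ω))) P := by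
  have := h.prob
  exact Integrable.of_bound (hF.comp (h.measurable_slp.comp h.measY)).aestronglyMeasurable C
    (Eventually.of_forall fun ω => hC _ (h.abs_slp_le _))

/-- Extension of a geodesic by one step. -/
theorem tail_geo_extend [G.LocallyFinite] (hG : G.IsTree) {p : ℕ → V} {n : ℕ}
    (hp : Geo G p (n + 1)) {c : V} (hc : G.Adj c (p (n + 1))) (hcn : c ≠ p n) :
    Geo G (fun i => if i ≤ n + 1 then p i else c) (n + 2) := by
  constructor
  · intro i hi
    by_cases h : i + 1 ≤ n + 1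
    · simp only [h, if_true, show i ≤ n + 1 by omega]
      exact hp.1 i (by omega)
    · have h1 : i = n + 1 := by omega
      subst h1
      simpa using hc.symm
  · have h1 := hp.dist hG.connected (i := 0) (j := n) (by omega) (by omega)
    have h2 := hp.2
    have h3 : ((p 0, 0) : V × ℕ) ∈ side G (p n) (p (n + 1)) := by
      simp only [side, Set.mem_ofPred_eq]
      rw [h2, h1]
      omega
    have h4 := tail_side_subset hG (hp.1 n (by omega)) hc.symm hcn.symm h3
    simp only [side, Set.mem_ofPred_eq] at h4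
    simp only [zero_le, if_true, show ¬ (n + 2 ≤ n + 1) by omega, if_false]
    rw [h4, h2]

theorem Obs.tail_mean_aux [G.LocallyFinite] {d : ℕ} {β : ℝ} (hE : Env G d β μ)
    (h : Obs μ P s y Q ζ b) {q : ℝ} (hq0 : 0 ≤ q)
    (hq : ∀ p p', G.Adj p p' → ∫ ω, msg G μ p p' (slp ζ (y ω)) ^ 2 ∂P = q)
    (l : ℕ) : ∀ (n : ℕ) (p : ℕ → V), Geo G p (n + 1) →
    ∫ ω, (∏ i ∈ Finset.range n,
        ph (Real.tanh β) (msg G μ (p (i + 2)) (p (i + 1)) (slp ζ (y ω)))) *
      bet G μ (Real.tanh β) d l (p (n + 1)) (p n) (slp ζ (y ω)) ∂P ≤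
      (1 - (1 - Real.tanh β ^ 2) * Real.tanh β ^ 2 * q) ^ (n + l) := by
  have hpm := hE.prob
  have hPP := h.prob
  have hθ0 := hE.theta_pos.le
  have hθ1 := hE.theta_lt_one
  have h3 := hE.three
  have hk : (0 : ℝ) < (d : ℝ) - 1 := by
    have : (3 : ℝ) ≤ d := by exact_mod_cast h3
    linarith
  have hph : ∀ w : V × ℕ → ℝ, (∀ e, |w e| ≤ b) → ∀ c v : V,
      0 ≤ ph (Real.tanh β) (msg G μ c v w) ∧ ph (Real.tanh β) (msg G μ c v w) ≤ 1 := by
    intro w hw c v
    have h1 : |msg G μ c v w| ≤ 1 := abs_M_le h.b_nonneg h.b_lt μ hw _ _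
    exact ⟨ph_nonneg hθ0 hθ1 h1, ph_le_one hθ0 hθ1 h1⟩
  induction l with
  | zero =>
    intro n p hp
    obtain ⟨c, hc⟩ := exists_side_branch hE (fun i => p (1 + i))
    have h1 := h.decay_geo hE (hp.sub hE.tree.connected (i := 1) (m := n) (by omega)) c
      (fun i hi1 _ => ⟨(hc i).1, (hc i).2.2 hi1⟩) (fun i _ _ => (hc i).2.1) q hq0
      (fun i _ _ => (hq _ _ (hc i).1.symm).ge)
    have e1 : ∀ ω, (∏ i ∈ Finset.range n,
        ph (Real.tanh β) (msg G μ (p (i + 2)) (p (i + 1)) (slp ζ (y ω)))) *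
        bet G μ (Real.tanh β) d 0 (p (n + 1)) (p n) (slp ζ (y ω)) =
        ∏ i ∈ Finset.range n, ph (Real.tanh β)
          (msg G μ (p (1 + (i + 1))) (p (1 + i)) (slp ζ (y ω))) := by
      intro ω
      rw [bet, mul_one]
      refine Finset.prod_congr rfl fun i _ => ?_
      rw [show 1 + (i + 1) = i + 2 by ring, show 1 + i = i + 1 by ring]
    simp_rw [e1]
    exact h1
  | succ l ih =>
    intro n p hp
    classical
    set K := (G.neighborFinset (p (n + 1))).erase (p n) with hK
    have hadj : G.Adj (p (n + 1)) (p n) := (hp.1 n (by omega)).symm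
    have hcard : ((K.card : ℕ) : ℝ) = (d : ℝ) - 1 := by
      rw [hK, tail_card hE.reg hadj, tail_cast h3]
    set A : V → (V × ℕ → ℝ) → ℝ := fun c w => (∏ i ∈ Finset.range n,
        ph (Real.tanh β) (msg G μ (p (i + 2)) (p (i + 1)) w)) *
        (ph (Real.tanh β) (msg G μ c (p (n + 1)) w) *
          bet G μ (Real.tanh β) d l c (p (n + 1)) w) with hA
    have e1 : ∀ ω, (∏ i ∈ Finset.range n,
        ph (Real.tanh β) (msg G μ (p (i + 2)) (p (i + 1)) (slp ζ (y ω)))) *
        bet G μ (Real.tanh β) d (l + 1) (p (n + 1)) (p n) (slp ζ (y ω)) =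
        (∑ c ∈ K, A c (slp ζ (y ω))) / ((d : ℝ) - 1) := by
      intro ω
      rw [bet_succ, mul_div_assoc', Finset.mul_sum]
    simp_rw [e1]
    rw [integral_div, integral_finsetSum]
    · rw [div_le_iff₀ hk, ← hcard]
      have hterm : ∀ c ∈ K, ∫ ω, A c (slp ζ (y ω)) ∂P ≤
          (1 - (1 - Real.tanh β ^ 2) * Real.tanh β ^ 2 * q) ^ (n + (l + 1)) := by
        intro c hc
        obtain ⟨hc1, hc2⟩ := tail_mem hc
        have h5 := ih (n + 1) _ (tail_geo_extend hE.tree hp hc1 hc2)
        rw [show n + (l + 1) = n + 1 + l by ring]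
        refine le_trans (le_of_eq ?_) h5
        congr 1
        funext ω
        rw [Finset.prod_range_succ]
        simp only [hA, show ¬ (n + 2 ≤ n + 1) by omega, le_refl, if_true, if_false]
        rw [← mul_assoc]
        congr 2
        refine Finset.prod_congr rfl fun i hi => ?_
        rw [Finset.mem_range] at hi
        simp only [show i + 2 ≤ n + 1 by omega, show i + 1 ≤ n + 1 by omega, if_true]
      calc ∑ c ∈ K, ∫ ω, A c (slp ζ (y ω)) ∂P
          ≤ ∑ c ∈ K, (1 - (1 - Real.tanh β ^ 2) * Real.tanh β ^ 2 * q) ^ (n + (l + 1)) :=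
            Finset.sum_le_sum hterm
        _ = _ := by rw [Finset.sum_const, nsmul_eq_mul, mul_comm]
    · intro c hc
      obtain ⟨hc1, hc2⟩ := tail_mem hc
      refine h.tail_integrable (C := 1) ?_ ?_
      · refine Measurable.mul ?_ (Measurable.mul ?_ ?_)
        · exact Finset.measurable_prod _ fun i _ =>
            (tail_measurable_ph _).comp (measurable_msg G μ _ _)
        · exact (tail_measurable_ph _).comp (measurable_msg G μ _ _)
        · exact measurable_bet _ _ _ _ _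
      · intro w hw
        have hb1 := bet_mem hE h.b_nonneg h.b_lt hw l hc1
        have hp0 : 0 ≤ ∏ i ∈ Finset.range n,
            ph (Real.tanh β) (msg G μ (p (i + 2)) (p (i + 1)) w) :=
          Finset.prod_nonneg fun i _ => (hph w hw _ _).1
        have hp1 : ∏ i ∈ Finset.range n,
            ph (Real.tanh β) (msg G μ (p (i + 2)) (p (i + 1)) w) ≤ 1 :=
          Finset.prod_le_one (fun i _ => (hph w hw _ _).1) fun i _ => (hph w hw _ _).2
        have h6 := hph w hw c (p (n + 1))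
        rw [abs_of_nonneg (mul_nonneg hp0 (mul_nonneg h6.1 hb1.1))]
        exact mul_le_one₀ hp1 (mul_nonneg h6.1 hb1.1) (mul_le_one₀ h6.2 hb1.1 hb1.2)

/-- Mean of `bet`: `E bet l v u ≤ (1 - κ q)^l`, `κ = (1-θ²)θ²` (all geodesics: `Obs.decay_geo`). -/
theorem Obs.integral_bet_le [G.LocallyFinite] {d : ℕ} {β : ℝ} (hE : Env G d β μ)
    (h : Obs μ P s y Q ζ b) (hom : HomEnv G P y ζ) {q : ℝ} (hq0 : 0 ≤ q)
    (hq : ∀ p p', G.Adj p p' → ∫ ω, msg G μ p p' (slp ζ (y ω)) ^ 2 ∂P = q)
    (l : ℕ) {v u : V} (hvu : G.Adj v u) :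
    ∫ ω, bet G μ (Real.tanh β) d l v u (slp ζ (y ω)) ∂P ≤
      (1 - (1 - Real.tanh β ^ 2) * Real.tanh β ^ 2 * q) ^ l := by
  have h1 := h.tail_mean_aux hE hq0 hq l 0 (fun i => if i = 0 then u else v) (by
    constructor
    · intro i hi
      have : i = 0 := by omega
      subst this
      simpa using hvu.symm
    · simpa using SimpleGraph.dist_eq_one_iff_adj.mpr hvu.symm)
  simpa using h1

/-! ### Evenness -/

theorem Obs.tail_msg_neg [G.LocallyFinite] {d : ℕ} {β : ℝ} (hE : Env G d β μ)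
    (h : Obs μ P s y Q ζ b) : ∀ᵐ ω ∂P, ∀ p q : V,
      msg G μ p q (fun e => - slp ζ (y ω) e) = - msg G μ p q (slp ζ (y ω)) := by
  have := hE.countable
  have := hE.prob
  rw [ae_all_iff]
  intro p
  rw [ae_all_iff]
  intro q
  exact h.M_neg hE.tree.connected (isFreeIsing_flip hE.tree hE.ising) (side G p q) p

theorem tail_bet_neg [G.LocallyFinite] {θ : ℝ} {d : ℕ} {w w' : V × ℕ → ℝ}
    (hw : ∀ p q : V, msg G μ p q w' = - msg G μ p q w) (l : ℕ) (v u : V) :
    bet G μ θ d l v u w' = bet G μ θ d l v u w := by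
  classical
  induction l generalizing v u with
  | zero => rfl
  | succ l ih =>
    rw [bet_succ, bet_succ]
    congr 1
    refine Finset.sum_congr rfl fun c _ => ?_
    rw [ih c v, hw c v]
    unfold ph
    rw [neg_sq]

/-- Integrals of even functionals against odd posterior means vanish. -/
theorem Obs.tail_zero [G.LocallyFinite] {d : ℕ} {β : ℝ} (hE : Env G d β μ)
    (h : Obs μ P s y Q ζ b) (R : Set (V × ℕ)) (v : V) {F : (V × ℕ → ℝ) → ℝ} (hF : Measurable F)
    (hev : ∀ᵐ ω ∂P, F (fun e => - slp ζ (y ω) e) = F (slp ζ (y ω))) :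
    ∫ ω, F (slp ζ (y ω)) * M G μ R v (slp ζ (y ω)) ∂P = 0 := by
  have := hE.prob
  have hflip := isFreeIsing_flip hE.tree hE.ising
  have hlaw := h.law_neg hE.tree.connected hflip
  have hm : Measurable fun ω => slp ζ (y ω) := h.measurable_slp.comp h.measY
  have hm' : Measurable fun ω => (fun e => - slp ζ (y ω) e : V × ℕ → ℝ) :=
    measurable_pi_iff.2 fun e => (measurable_pi_iff.1 hm e).neg
  have hH : Measurable fun w : V × ℕ → ℝ => F w * M G μ R v w :=
    hF.mul (measurable_M G μ R v)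
  have e1 : ∫ ω, F (slp ζ (y ω)) * M G μ R v (slp ζ (y ω)) ∂P =
      ∫ w, F w * M G μ R v w ∂(P.map fun ω => slp ζ (y ω)) :=
    (integral_map hm.aemeasurable hH.aestronglyMeasurable).symm
  have e2 : ∫ w, F w * M G μ R v w ∂(P.map fun ω e => - slp ζ (y ω) e) =
      ∫ ω, F (fun e => - slp ζ (y ω) e) * M G μ R v (fun e => - slp ζ (y ω) e) ∂P :=
    integral_map hm'.aemeasurable hH.aestronglyMeasurable
  have e3 : ∫ ω, F (fun e => - slp ζ (y ω) e) * M G μ R v (fun e => - slp ζ (y ω) e) ∂P =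
      ∫ ω, - (F (slp ζ (y ω)) * M G μ R v (slp ζ (y ω))) ∂P := by
    refine integral_congr_ae ?_
    filter_upwards [hev, h.M_neg hE.tree.connected hflip R v] with ω h1 h2
    rw [h1, h2]
    ring
  rw [integral_neg, ← e2, hlaw, ← e1] at e3
  linarith

/-- Independence of even functionals of disjoint branches. -/
theorem Obs.tail_indep [G.LocallyFinite] {d : ℕ} {β : ℝ} (hE : Env G d β μ)
    (h : Obs μ P s y Q ζ b) {v : V} (F : V → (V × ℕ → ℝ) → ℝ) {C : ℝ} (K : Finset V)
    (hF : ∀ c ∈ K, Measurable (F c))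
    (hC : ∀ c ∈ K, ∀ w : V × ℕ → ℝ, (∀ e, |w e| ≤ b) → |F c w| ≤ C)
    (hev : ∀ c ∈ K, ∀ᵐ ω ∂P, F c (fun e => - slp ζ (y ω) e) = F c (slp ζ (y ω)))
    (hK : ∀ c ∈ K, G.Adj c v) (hdep : ∀ c ∈ K, DepE (side G c v) (F c)) :
    ∫ ω, ∏ c ∈ K, F c (slp ζ (y ω)) ∂P = ∏ c ∈ K, ∫ ω, F c (slp ζ (y ω)) ∂P := by
  classical
  have hpr := h.prob
  induction K using Finset.induction_on with
  | empty => simp
  | insert c K hcK ih =>
    have ih' := ih (fun c' hc' => hF c' (Finset.mem_insert_of_mem hc'))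
      (fun c' hc' => hC c' (Finset.mem_insert_of_mem hc'))
      (fun c' hc' => hev c' (Finset.mem_insert_of_mem hc'))
      (fun c' hc' => hK c' (Finset.mem_insert_of_mem hc'))
      (fun c' hc' => hdep c' (Finset.mem_insert_of_mem hc'))
    have hcm := Finset.mem_insert_self c K
    have hadj := hK c hcm
    have hd := h.decouple hE.tree hE.ising Set.univ hadj
      (F₁ := fun x => F c (slp ζ x)) (F₂ := fun x => ∏ c' ∈ K, F c' (slp ζ x))
      ((hF c hcm).comp h.measurable_slp) ⟨C, fun x => hC c hcm _ (h.abs_slp_le x)⟩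
      (by
        intro x x' hx
        refine hdep c hcm _ _ fun e he => ?_
        unfold slp
        rw [hx e ⟨Set.mem_univ _, he⟩])
      (Finset.measurable_prod _ fun c' hc' =>
        (hF c' (Finset.mem_insert_of_mem hc')).comp h.measurable_slp)
      ⟨∏ c' ∈ K, C, fun x => by
        rw [Finset.abs_prod]
        exact Finset.prod_le_prod (fun _ _ => abs_nonneg _) fun c' hc' =>
          hC c' (Finset.mem_insert_of_mem hc') _ (h.abs_slp_le x)⟩
      (by
        intro x x' hx
        refine Finset.prod_congr rfl fun c' hc' => ?_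
        refine hdep c' (Finset.mem_insert_of_mem hc') _ _ fun e he => ?_
        unfold slp
        have hne : c' ≠ c := fun hh => hcK (hh ▸ hc')
        rw [hx e ⟨Set.mem_univ _, tail_side_subset hE.tree
          (hK c' (Finset.mem_insert_of_mem hc')) hadj.symm hne he⟩])
    have hz := h.tail_zero hE (Set.univ ∩ side G c v) c (hF c hcm) (hev c hcm)
    rw [hz, mul_zero, zero_mul, add_zero, ih'] at hd
    rw [Finset.prod_insert hcK, ← hd]
    refine integral_congr_ae (Eventually.of_forall fun ω => ?_)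
    simp only
    rw [Finset.prod_insert hcK]

/-! ### Sums over the vertices at depth `m` -/

open Classical in
/-- Sum of `bet j` over the `k^m` vertices at depth `m` behind `v`. -/
noncomputable def tailS (G : SimpleGraph V) [G.LocallyFinite] (μ : Measure (V → Bool)) (θ : ℝ)
    (d j : ℕ) : ℕ → V → V → (V × ℕ → ℝ) → ℝ
  | 0, v, u, w => bet G μ θ d j v u w
  | m + 1, v, u, w => ∑ c ∈ (G.neighborFinset v).erase u, tailS G μ θ d j m c v w

theorem tailS_succ [G.LocallyFinite] [DecidableEq V] (θ : ℝ) (d j m : ℕ) (v u : V)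
    (w : V × ℕ → ℝ) : tailS G μ θ d j (m + 1) v u w =
      ∑ c ∈ (G.neighborFinset v).erase u, tailS G μ θ d j m c v w := by
  rw [tailS]
  congr
  exact Subsingleton.elim _ _

theorem measurable_tailS [G.LocallyFinite] [IsProbabilityMeasure μ] (θ : ℝ) (d j m : ℕ)
    (v u : V) : Measurable (tailS G μ θ d j m v u) := by
  classical
  induction m generalizing v u with
  | zero => exact measurable_bet θ d j v u
  | succ m ih =>
    have h1 : tailS G μ θ d j (m + 1) v u = fun w =>
        ∑ c ∈ (G.neighborFinset v).erase u, tailS G μ θ d j m c v w := by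
      funext w
      rw [tailS_succ]
    rw [h1]
    exact Finset.measurable_sum _ fun c _ => ih c v

theorem tailS_nonneg [G.LocallyFinite] {d : ℕ} {β : ℝ} (hE : Env G d β μ) {b : ℝ} (hb0 : 0 ≤ b)
    (hb : b < 1) {w : V × ℕ → ℝ} (hw : ∀ e, |w e| ≤ b) (j m : ℕ) {v u : V} (hvu : G.Adj v u) :
    0 ≤ tailS G μ (Real.tanh β) d j m v u w := by
  classical
  induction m generalizing v u with
  | zero => exact (bet_mem hE hb0 hb hw j hvu).1
  | succ m ih =>
    rw [tailS_succ]
    exact Finset.sum_nonneg fun c hc => ih (tail_mem hc).1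

theorem tailS_le [G.LocallyFinite] {d : ℕ} {β : ℝ} (hE : Env G d β μ) {b : ℝ} (hb0 : 0 ≤ b)
    (hb : b < 1) {w : V × ℕ → ℝ} (hw : ∀ e, |w e| ≤ b) (j m : ℕ) {v u : V} (hvu : G.Adj v u) :
    tailS G μ (Real.tanh β) d j m v u w ≤ ((d : ℝ) - 1) ^ m := by
  classical
  induction m generalizing v u with
  | zero =>
    rw [pow_zero]
    exact (bet_mem hE hb0 hb hw j hvu).2
  | succ m ih =>
    rw [tailS_succ]
    calc _ ≤ ∑ c ∈ (G.neighborFinset v).erase u, ((d : ℝ) - 1) ^ m :=
          Finset.sum_le_sum fun c hc => ih (tail_mem hc).1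
      _ = ((d : ℝ) - 1) ^ (m + 1) := by
          rw [Finset.sum_const, nsmul_eq_mul, tail_card hE.reg hvu, tail_cast hE.three]
          ring

theorem tailS_depE [G.LocallyFinite] (hG : G.IsTree) (μ : Measure (V → Bool)) (θ : ℝ) (d j m : ℕ)
    {v u : V} (hvu : G.Adj v u) : DepE (side G v u) (tailS G μ θ d j m v u) := by
  classical
  induction m generalizing v u with
  | zero => exact bet_depE hG μ θ d j hvu
  | succ m ih =>
    intro w w' hw
    rw [tailS_succ, tailS_succ]
    refine Finset.sum_congr rfl fun c hc => ?_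
    have hc' := tail_mem hc
    have hsub := tail_side_subset hG hc'.1 hvu hc'.2
    exact (ih hc'.1) w w' fun e he => hw e (hsub he)

theorem tailS_neg [G.LocallyFinite] {θ : ℝ} {d : ℕ} {w w' : V × ℕ → ℝ}
    (hw : ∀ p q : V, msg G μ p q w' = - msg G μ p q w) (j m : ℕ) (v u : V) :
    tailS G μ θ d j m v u w' = tailS G μ θ d j m v u w := by
  classical
  induction m generalizing v u with
  | zero => exact tail_bet_neg hw j v u
  | succ m ih =>
    rw [tailS_succ, tailS_succ]
    exact Finset.sum_congr rfl fun c _ => ih c v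

theorem bet_le_tailS [G.LocallyFinite] {d : ℕ} {β : ℝ} (hE : Env G d β μ) {b : ℝ} (hb0 : 0 ≤ b)
    (hb : b < 1) {w : V × ℕ → ℝ} (hw : ∀ e, |w e| ≤ b) (j m : ℕ) {v u : V} (hvu : G.Adj v u) :
    ((d : ℝ) - 1) ^ m * bet G μ (Real.tanh β) d (m + j) v u w ≤
      tailS G μ (Real.tanh β) d j m v u w := by
  classical
  have := hE.prob
  have hθ0 := hE.theta_pos.le
  have hθ1 := hE.theta_lt_one
  have hk : (0 : ℝ) < (d : ℝ) - 1 := by
    have : (3 : ℝ) ≤ d := by exact_mod_cast hE.three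
    linarith
  induction m generalizing v u with
  | zero => simp [tailS]
  | succ m ih =>
    rw [tailS_succ, show m + 1 + j = (m + j) + 1 by ring, bet_succ]
    have e1 : ((d : ℝ) - 1) ^ (m + 1) * ((∑ c ∈ (G.neighborFinset v).erase u,
        ph (Real.tanh β) (msg G μ c v w) * bet G μ (Real.tanh β) d (m + j) c v w) /
          ((d : ℝ) - 1)) = ∑ c ∈ (G.neighborFinset v).erase u, ((d : ℝ) - 1) ^ m *
        (ph (Real.tanh β) (msg G μ c v w) * bet G μ (Real.tanh β) d (m + j) c v w) := by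
      rw [← Finset.mul_sum, pow_succ]
      field_simp
    rw [e1]
    refine Finset.sum_le_sum fun c hc => ?_
    have hc' := tail_mem hc
    refine le_trans ?_ (ih hc'.1)
    have h1 : |msg G μ c v w| ≤ 1 := abs_M_le hb0 hb μ hw _ _
    have h2 := ph_le_one hθ0 hθ1 h1
    have h3 := (bet_mem hE hb0 hb hw (m + j) hc'.1).1
    gcongr
    exact mul_le_of_le_one_left h3 h2

/-- Hoeffding's lemma, exponential moment. -/
theorem Obs.tail_hoeffding [G.LocallyFinite] {d : ℕ} {β : ℝ} (hE : Env G d β μ)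
    (h : Obs μ P s y Q ζ b) (j : ℕ) {v u : V} (hvu : G.Adj v u) {x0 t : ℝ} (ht : 0 ≤ t)
    (hx0 : ∫ ω, bet G μ (Real.tanh β) d j v u (slp ζ (y ω)) ∂P ≤ x0) :
    ∫ ω, Real.exp (t * bet G μ (Real.tanh β) d j v u (slp ζ (y ω))) ∂P ≤
      Real.exp (t * x0 + t ^ 2 / 8) := by
  have hpm := hE.prob
  have hpr := h.prob
  set X : Ω → ℝ := fun ω => bet G μ (Real.tanh β) d j v u (slp ζ (y ω)) with hX
  have hXm : Measurable X := (measurable_bet _ _ _ _ _).comp (h.measurable_slp.comp h.measY)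
  have hXb : ∀ᵐ ω ∂P, X ω ∈ Set.Icc (0 : ℝ) 1 := Eventually.of_forall fun ω =>
    bet_mem hE h.b_nonneg h.b_lt (h.abs_slp_le (y ω)) j hvu
  have h1 := (ProbabilityTheory.hasSubgaussianMGF_of_mem_Icc hXm.aemeasurable hXb).mgf_le t
  unfold ProbabilityTheory.mgf at h1
  have e1 : ∫ ω, Real.exp (t * X ω) ∂P =
      Real.exp (t * ∫ ω, X ω ∂P) * ∫ ω, Real.exp (t * (X ω - ∫ ω, X ω ∂P)) ∂P := by
    rw [← integral_const_mul]
    refine integral_congr_ae (Eventually.of_forall fun ω => ?_)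
    simp only
    rw [← Real.exp_add]
    congr 1
    ring
  rw [e1, Real.exp_add]
  refine mul_le_mul ?_ ?_ (integral_nonneg fun _ => (Real.exp_pos _).le) (Real.exp_pos _).le
  · exact Real.exp_le_exp.2 (mul_le_mul_of_nonneg_left hx0 ht)
  · refine h1.trans (le_of_eq ?_)
    congr 1
    simp
    ring

/-- Exponential moments of the sums over depth `m`. -/
theorem Obs.tail_mgf [G.LocallyFinite] {d : ℕ} {β : ℝ} (hE : Env G d β μ)
    (h : Obs μ P s y Q ζ b) (j : ℕ) {x0 t : ℝ} (ht : 0 ≤ t)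
    (hx0 : ∀ v u, G.Adj v u → ∫ ω, bet G μ (Real.tanh β) d j v u (slp ζ (y ω)) ∂P ≤ x0)
    (m : ℕ) {v u : V} (hvu : G.Adj v u) :
    ∫ ω, Real.exp (t * tailS G μ (Real.tanh β) d j m v u (slp ζ (y ω))) ∂P ≤
      Real.exp (((d : ℝ) - 1) ^ m * (t * x0 + t ^ 2 / 8)) := by
  classical
  have hpm := hE.prob
  have hpr := h.prob
  induction m generalizing v u with
  | zero => simpa [tailS] using h.tail_hoeffding hE j hvu ht (hx0 v u hvu)
  | succ m ih =>
    set K := (G.neighborFinset v).erase u with hK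
    set F : V → (V × ℕ → ℝ) → ℝ := fun c w =>
      Real.exp (t * tailS G μ (Real.tanh β) d j m c v w) with hF
    have e1 : ∀ ω, Real.exp (t * tailS G μ (Real.tanh β) d j (m + 1) v u (slp ζ (y ω))) =
        ∏ c ∈ K, F c (slp ζ (y ω)) := by
      intro ω
      rw [tailS_succ, Finset.mul_sum, Real.exp_sum]
    simp_rw [e1]
    rw [h.tail_indep hE (v := v) F (C := Real.exp (t * ((d : ℝ) - 1) ^ m)) K]
    · calc ∏ c ∈ K, ∫ ω, F c (slp ζ (y ω)) ∂P
          ≤ ∏ c ∈ K, Real.exp (((d : ℝ) - 1) ^ m * (t * x0 + t ^ 2 / 8)) :=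
            Finset.prod_le_prod (fun c _ => integral_nonneg fun _ => (Real.exp_pos _).le)
              fun c hc => ih (tail_mem hc).1
        _ = _ := by
            rw [Finset.prod_const, ← Real.exp_nat_mul, hK, tail_card hE.reg hvu,
              tail_cast hE.three]
            congr 1
            ring
    · exact fun c _ => Real.measurable_exp.comp ((measurable_tailS _ _ _ _ _ _).const_mul t)
    · intro c hc w hw
      rw [abs_of_pos (Real.exp_pos _)]
      exact Real.exp_le_exp.2 (mul_le_mul_of_nonneg_left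
        (tailS_le hE h.b_nonneg h.b_lt hw j m (tail_mem hc).1) ht)
    · intro c _
      filter_upwards [h.tail_msg_neg hE] with ω hω
      simp only [hF]
      rw [tailS_neg hω]
    · exact fun c hc => (tail_mem hc).1
    · intro c hc w w' hw
      simp only [hF]
      rw [tailS_depE hE.tree μ _ d j m (tail_mem hc).1 w w' hw]

/-- Doubly exponential tail. With `κ' = (1-θ²)θ²/4` and `j = l/2`:
`P (bet l v u ≥ 2 (1-κ' q)^j) ≤ exp (-2 (√k)^j)`. -/
theorem Obs.tail_bet [G.LocallyFinite] {d : ℕ} {β : ℝ} (hE : Env G d β μ)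
    (h : Obs μ P s y Q ζ b) (hom : HomEnv G P y ζ) {q : ℝ} (hq0 : 0 ≤ q)
    (hq : ∀ p p', G.Adj p p' → ∫ ω, msg G μ p p' (slp ζ (y ω)) ^ 2 ∂P = q)
    (l : ℕ) {v u : V} (hvu : G.Adj v u) :
    P.real {ω | 2 * (1 - (1 - Real.tanh β ^ 2) * Real.tanh β ^ 2 / 4 * q) ^ (l / 2) ≤
        bet G μ (Real.tanh β) d l v u (slp ζ (y ω))} ≤
      Real.exp (-2 * Real.sqrt ((d : ℝ) - 1) ^ (l / 2)) := by
  classical
  have hpm := hE.prob
  have hpr := h.prob
  have hθ0 := hE.theta_pos
  have hθ1 := hE.theta_lt_one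
  have hθs := hE.theta_sq
  have h3 : (3 : ℝ) ≤ d := by exact_mod_cast hE.three
  set k : ℝ := (d : ℝ) - 1 with hk
  have hk2 : 2 ≤ k := by rw [hk]; linarith
  have hk0 : 0 < k := by linarith
  set θ := Real.tanh β with hθ
  set j := l / 2 with hj
  set m := l - j with hm
  have hml : m + j = l := by omega
  have hjm : j ≤ m := by omega
  -- `0 ≤ q ≤ 1`
  have hq1 : q ≤ 1 := by
    rw [← hq v u hvu]
    have h1 : ∀ ω, msg G μ v u (slp ζ (y ω)) ^ 2 ≤ 1 := by
      intro ω
      have h2 : |msg G μ v u (slp ζ (y ω))| ≤ 1 :=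
        abs_M_le h.b_nonneg h.b_lt μ (h.abs_slp_le (y ω)) _ _
      exact (sq_le_one_iff_abs_le_one _).2 h2
    calc ∫ ω, msg G μ v u (slp ζ (y ω)) ^ 2 ∂P ≤ ∫ _ω, (1 : ℝ) ∂P := by
          refine integral_mono_of_nonneg (Eventually.of_forall fun ω => sq_nonneg _)
            (integrable_const _) (Eventually.of_forall h1)
      _ = 1 := by simp
  have hκ0 : 0 ≤ (1 - θ ^ 2) * θ ^ 2 := by
    have : θ ^ 2 ≤ 1 := by nlinarith only [hθ0, hθ1]
    exact mul_nonneg (by linarith) (sq_nonneg _)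
  have hκ1 : (1 - θ ^ 2) * θ ^ 2 ≤ 1 / 4 := by linarith only [sq_nonneg (θ ^ 2 - 1 / 2)]
  set κ := (1 - θ ^ 2) * θ ^ 2 with hκ
  set r : ℝ := 1 - κ / 4 * q with hr
  have hr1 : 15 / 16 ≤ r := by rw [hr]; nlinarith only [hq1, hκ0, hκ1]
  have hr0 : 0 < r := by linarith
  have hmean : ∀ v' u', G.Adj v' u' →
      ∫ ω, bet G μ θ d j v' u' (slp ζ (y ω)) ∂P ≤ r ^ j := by
    intro v' u' h'
    refine (h.integral_bet_le hE hom hq0 hq j h').trans ?_
    refine pow_le_pow_left₀ ?_ ?_ j
    · linarith only [hr, hr1]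
    · rw [hr]; nlinarith only [hq0, hκ0]
  set t : ℝ := 4 * r ^ j with ht
  have ht0 : 0 ≤ t := by positivity
  have hmgf := h.tail_mgf hE j ht0 hmean m hvu
  set S : Ω → ℝ := fun ω => tailS G μ θ d j m v u (slp ζ (y ω)) with hS
  have hSint : Integrable (fun ω => Real.exp (t * S ω)) P := by
    refine h.tail_integrable (F := fun w => Real.exp (t * tailS G μ θ d j m v u w))
      (C := Real.exp (t * k ^ m)) ?_ ?_
    · exact Real.measurable_exp.comp ((measurable_tailS _ _ _ _ _ _).const_mul t)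
    · intro w hw
      rw [abs_of_pos (Real.exp_pos _)]
      exact Real.exp_le_exp.2 (mul_le_mul_of_nonneg_left
        (tailS_le hE h.b_nonneg h.b_lt hw j m hvu) ht0)
  have hsub : {ω | 2 * r ^ j ≤ bet G μ θ d l v u (slp ζ (y ω))} ⊆
      {ω | k ^ m * (2 * r ^ j) ≤ S ω} := by
    intro ω hω
    simp only [Set.mem_ofPred_eq] at hω ⊢
    have h1 := bet_le_tailS hE h.b_nonneg h.b_lt (h.abs_slp_le (y ω)) j m hvu
    rw [hml] at h1
    refine le_trans ?_ h1
    exact mul_le_mul_of_nonneg_left hω (by positivity)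
  refine (measureReal_mono hsub).trans ?_
  refine (ProbabilityTheory.measure_ge_le_exp_mul_mgf (X := S) (k ^ m * (2 * r ^ j)) ht0
    hSint).trans ?_
  unfold ProbabilityTheory.mgf
  refine (mul_le_mul_of_nonneg_left hmgf (Real.exp_pos _).le).trans ?_
  rw [← Real.exp_add]
  apply Real.exp_le_exp.2
  have e1 : -t * (k ^ m * (2 * r ^ j)) + k ^ m * (t * r ^ j + t ^ 2 / 8) =
      -2 * (k ^ m * (r ^ j) ^ 2) := by
    rw [ht]; ring
  rw [e1]
  have h5 : Real.sqrt k ^ j ≤ k ^ m * (r ^ j) ^ 2 := by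
    have h6 : Real.sqrt k ≤ k * r ^ 2 := by
      have h7 : Real.sqrt k * Real.sqrt k = k := Real.mul_self_sqrt hk0.le
      have h8 : 0 < Real.sqrt k := Real.sqrt_pos.2 hk0
      have h9 : 1.4 ≤ Real.sqrt k := by
        rw [show (1.4 : ℝ) = Real.sqrt (1.4 ^ 2) by rw [Real.sqrt_sq (by norm_num)]]
        exact Real.sqrt_le_sqrt (by linarith)
      have h10 : (15 / 16 : ℝ) ^ 2 ≤ r ^ 2 := pow_le_pow_left₀ (by norm_num) hr1 2
      calc Real.sqrt k = Real.sqrt k * 1 := by ring
        _ ≤ Real.sqrt k * (Real.sqrt k * r ^ 2) := by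
            refine mul_le_mul_of_nonneg_left ?_ h8.le
            nlinarith only [h9, h10]
        _ = k * r ^ 2 := by rw [← mul_assoc, h7]
    calc Real.sqrt k ^ j ≤ (k * r ^ 2) ^ j := pow_le_pow_left₀ (Real.sqrt_nonneg _) h6 j
      _ = k ^ j * (r ^ j) ^ 2 := by rw [mul_pow, ← pow_mul, ← pow_mul, mul_comm 2 j]
      _ ≤ k ^ m * (r ^ j) ^ 2 := by
          refine mul_le_mul_of_nonneg_right ?_ (by positivity)
          exact pow_le_pow_right₀ (by linarith) hjm
  linarith only [h5]

end Vale.Agent.P161.Crit
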