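import Vale.Agent.Lib.P161.Crit.TaPos
import Vale.Agent.Lib.P161.Crit.TbCov
import Vale.Agent.Lib.P161.Homog

/-!
P161-CRIT, module TcVert: the spectral bound for bounded equivariant vertex families.
-/

open MeasureTheory Filter Topology

namespace Vale.Agent.P161.Crit

variable {V : Type*} {G : SimpleGraph V}

namespace TcVert

/-- Restriction of a configuration to the vertices of `A`. -/
def rsV (A : Set V) (ω : Conf V) :
    (A → Bool) × (A × ℕ → unitInterval) × (A × ℕ → unitInterval) :=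
  (fun a => ω.1 a, fun e => ω.2.1 (e.1, e.2), fun e => ω.2.2 (e.1, e.2))

/-- The σ-algebra of the coordinates at the vertices of `A`. -/
abbrev mV (A : Set V) : MeasurableSpace (Conf V) :=
  MeasurableSpace.comap (rsV A) inferInstance

theorem measurable_to_mV {Ω : Type*} {m : MeasurableSpace Ω} {A : Set V} {T : Ω → Conf V}
    (h1 : ∀ a ∈ A, Measurable (fun x => (T x).1 a))
    (h2 : ∀ a ∈ A, ∀ j, Measurable (fun x => (T x).2.1 (a, j)))
    (h3 : ∀ a ∈ A, ∀ j, Measurable (fun x => (T x).2.2 (a, j))) :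
    @Measurable Ω (Conf V) m (mV A) T := by
  rw [mV, measurable_comap_iff]
  refine Measurable.prodMk (measurable_pi_iff.2 fun a => h1 a a.2)
    (Measurable.prodMk (measurable_pi_iff.2 fun e => h2 e.1 e.1.2 e.2)
      (measurable_pi_iff.2 fun e => h3 e.1 e.1.2 e.2))

theorem measurable_mV_fst {A : Set V} {a : V} (ha : a ∈ A) :
    @Measurable (Conf V) Bool (mV A) _ (fun ω => ω.1 a) := by
  have h : @Measurable (Conf V) _ (mV A) inferInstance (rsV A) := comap_measurable _
  exact (measurable_pi_apply (⟨a, ha⟩ : A)).comp (measurable_fst.comp h)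

theorem measurable_mV_snd {A : Set V} {a : V} (ha : a ∈ A) (j : ℕ) :
    @Measurable (Conf V) unitInterval (mV A) _ (fun ω => ω.2.1 (a, j)) := by
  have h : @Measurable (Conf V) _ (mV A) inferInstance (rsV A) := comap_measurable _
  exact (measurable_pi_apply ((⟨a, ha⟩, j) : A × ℕ)).comp (measurable_fst.comp (measurable_snd.comp h))

theorem measurable_mV_trd {A : Set V} {a : V} (ha : a ∈ A) (j : ℕ) :
    @Measurable (Conf V) unitInterval (mV A) _ (fun ω => ω.2.2 (a, j)) := by
  have h : @Measurable (Conf V) _ (mV A) inferInstance (rsV A) := comap_measurable _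
  exact (measurable_pi_apply ((⟨a, ha⟩, j) : A × ℕ)).comp (measurable_snd.comp (measurable_snd.comp h))

theorem mV_le (A : Set V) : mV A ≤ (inferInstance : MeasurableSpace (Conf V)) := by
  have : @Measurable (Conf V) (Conf V) inferInstance (mV A) id :=
    measurable_to_mV (fun a _ => (measurable_pi_apply a).comp measurable_fst)
      (fun a _ j => (measurable_pi_apply (a, j)).comp (measurable_fst.comp measurable_snd))
      (fun a _ j => (measurable_pi_apply (a, j)).comp (measurable_snd.comp measurable_snd))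
  have h := this.comap_le
  rwa [MeasurableSpace.comap_id] at h

theorem mV_mono {A B : Set V} (h : A ⊆ B) : mV A ≤ mV B := by
  have : @Measurable (Conf V) (Conf V) (mV B) (mV A) id :=
    measurable_to_mV (fun a ha => measurable_mV_fst (h ha))
      (fun a ha j => measurable_mV_snd (h ha) j)
      (fun a ha j => measurable_mV_trd (h ha) j)
  have h := this.comap_le
  rwa [MeasurableSpace.comap_id] at h

theorem depV_of_measurable {A : Set V} {F : Conf V → ℝ}
    (hF : @Measurable (Conf V) ℝ (mV A) _ F) : DepV A F := by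
  intro ω ω' h1 h2 h3
  obtain ⟨S, -, hS⟩ := hF (measurableSet_singleton (F ω))
  have hr : rsV A ω = rsV A ω' := by
    refine Prod.ext (funext fun a => h1 a a.2) (Prod.ext (funext fun e => h2 e.1 e.1.2 e.2)
      (funext fun e => h3 e.1 e.1.2 e.2))
  have hω : ω ∈ F ⁻¹' {F ω} := rfl
  have hω' : ω' ∈ F ⁻¹' {F ω} := by
    rw [← hS] at hω ⊢
    rw [Set.mem_preimage] at hω ⊢
    rwa [← hr]
  exact (Set.mem_singleton_iff.1 hω').symm

theorem measurable_actO_mV (g : V ≃ V) {A B : Set V} (h : ∀ b ∈ B, g.symm b ∈ A) :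
    @Measurable (Conf V) (Conf V) (mV A) (mV B) (actO g) :=
  measurable_to_mV (fun a ha => measurable_mV_fst (h a ha))
      (fun a ha j => measurable_mV_snd (h a ha) j)
      (fun a ha j => measurable_mV_trd (h a ha) j)

theorem actO_symm_actO (g : V ≃ V) (ω : Conf V) : actO g.symm (actO g ω) = ω := by
  refine Prod.ext (funext fun v => ?_) (Prod.ext (funext fun e => ?_) (funext fun e => ?_))
  · simp [actO, actC]
  · simp [actO, actE]
  · simp [actO, actE]

theorem comap_actO_mV (g : V ≃ V) {A B : Set V} (h : ∀ b ∈ B, g.symm b ∈ A)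
    (h' : ∀ a ∈ A, g a ∈ B) : (mV B).comap (actO g) = mV A := by
  refine le_antisymm (measurable_actO_mV g h).comap_le ?_
  intro s hs
  refine ⟨actO g.symm ⁻¹' s, measurable_actO_mV g.symm (A := B) (B := A) (by simpa using h') hs, ?_⟩
  ext ω
  simp [actO_symm_actO]


theorem setIntegral_mp {Ω : Type*} {m0 : MeasurableSpace Ω} {P : Measure Ω}
    {T : Ω → Ω} (hT : MeasurePreserving T P P) {t : Set Ω} (ht : MeasurableSet t)
    {g : Ω → ℝ} (hg : AEStronglyMeasurable g P) :
    ∫ x in T ⁻¹' t, (g ∘ T) x ∂P = ∫ y in t, g y ∂P := by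
  have h := setIntegral_map (μ := P) (g := T) (f := g) ht (by rw [hT.map_eq]; exact hg)
    hT.measurable.aemeasurable
  rw [hT.map_eq] at h
  exact h.symm

/-- Conditional expectations and measure preserving maps. -/
theorem condExp_comp_mp {Ω : Type*} {m m0 : MeasurableSpace Ω} {P : Measure Ω}
    [IsProbabilityMeasure P] {T : Ω → Ω} (hT : MeasurePreserving T P P)
    (hm : m ≤ m0) (f : Ω → ℝ) (hf : Integrable f P) :
    (P[f | m]) ∘ T =ᵐ[P] P[f ∘ T | m.comap T] := by
  have hm' : m.comap T ≤ m0 := by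
    refine (MeasurableSpace.comap_mono hm).trans ?_
    exact hT.measurable.comap_le
  have hc : Integrable (P[f | m]) P := integrable_condExp
  refine ae_eq_condExp_of_forall_setIntegral_eq hm' (hT.integrable_comp_of_integrable hf) ?_ ?_ ?_
  · intro s _ _
    exact (hT.integrable_comp_of_integrable hc).integrableOn
  · rintro s ⟨t, ht, rfl⟩ _
    rw [setIntegral_mp hT (hm t ht) hc.aestronglyMeasurable,
      setIntegral_mp hT (hm t ht) hf.aestronglyMeasurable, setIntegral_condExp hm hf ht]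
  · have h3 : StronglyMeasurable[m.comap T] ((P[f | m]) ∘ T) :=
      (stronglyMeasurable_condExp (m := m)).comp_measurable (comap_measurable T)
    exact h3.aestronglyMeasurable

/-- Truncation to `[-B, B]`. -/
noncomputable def tru (B x : ℝ) : ℝ := max (-B) (min B x)

theorem abs_tru_le {B : ℝ} (hB : 0 ≤ B) (x : ℝ) : |tru B x| ≤ B := by
  rw [abs_le, tru]
  exact ⟨le_max_left _ _, max_le (by linarith) (min_le_left _ _)⟩

theorem tru_eq {B x : ℝ} (h : |x| ≤ B) : tru B x = x := by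
  rw [abs_le] at h
  rw [tru, min_eq_right h.2, max_eq_right h.1]

theorem continuous_tru (B : ℝ) : Continuous (tru B) := by
  unfold tru
  fun_prop

/-- The filtration of the balls around `v`. -/
def fil (G : SimpleGraph V) (v : V) : Filtration ℕ (inferInstance : MeasurableSpace (Conf V)) where
  seq n := mV {x | G.dist v x ≤ n}
  mono' := fun _ _ h => mV_mono fun _ hx => le_trans hx h
  le' := fun _ => mV_le _

theorem measurable_to_conf {Ω : Type*} {m : MeasurableSpace Ω} {T : Ω → Conf V}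
    (h1 : ∀ a, Measurable (fun x => (T x).1 a))
    (h2 : ∀ a j, Measurable (fun x => (T x).2.1 (a, j)))
    (h3 : ∀ a j, Measurable (fun x => (T x).2.2 (a, j))) : Measurable T :=
  Measurable.prodMk (measurable_pi_iff.2 fun a => h1 a)
    (Measurable.prodMk (measurable_pi_iff.2 fun e => h2 e.1 e.2)
      (measurable_pi_iff.2 fun e => h3 e.1 e.2))

theorem iSup_fil (G : SimpleGraph V) (v : V) :
    ⨆ n, fil G v n = (inferInstance : MeasurableSpace (Conf V)) := by
  refine le_antisymm (iSup_le fun n => mV_le _) ?_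
  have hle : ∀ a : V, mV {x | G.dist v x ≤ G.dist v a} ≤ ⨆ n, fil G v n := fun a =>
    le_iSup (fun n => (fil G v n : MeasurableSpace (Conf V))) (G.dist v a)
  have h1 : @Measurable (Conf V) (Conf V) (⨆ n, fil G v n) inferInstance id :=
    measurable_to_conf
      (fun a => (measurable_mV_fst (A := {x | G.dist v x ≤ G.dist v a}) (a := a)
        (le_refl (G.dist v a))).mono (hle a) le_rfl)
      (fun a j => (measurable_mV_snd (A := {x | G.dist v x ≤ G.dist v a}) (a := a)
        (le_refl (G.dist v a)) j).mono (hle a) le_rfl)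
      (fun a j => (measurable_mV_trd (A := {x | G.dist v x ≤ G.dist v a}) (a := a)
        (le_refl (G.dist v a)) j).mono (hle a) le_rfl)
  have h := h1.comap_le
  rwa [MeasurableSpace.comap_id] at h

/-- Bounded version of the conditional expectation of `F v` given the ball of radius `r`. -/
noncomputable def Fr (G : SimpleGraph V) (μ : Measure (V → Bool)) (B : ℝ) (F : V → Conf V → ℝ)
    (r : ℕ) (v : V) (ω : Conf V) : ℝ :=
  tru B (((PO μ)[F v | mV {x | G.dist v x ≤ r}]) ω)

section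

variable {μ : Measure (V → Bool)} {B : ℝ} {F : V → Conf V → ℝ}

theorem measurable_Fr_mV (r : ℕ) (v : V) :
    @Measurable (Conf V) ℝ (mV {x | G.dist v x ≤ r}) _ (Fr G μ B F r v) :=
  (continuous_tru B).measurable.comp
    (stronglyMeasurable_condExp (m := mV {x | G.dist v x ≤ r})).measurable

theorem measurable_Fr (r : ℕ) (v : V) : Measurable (Fr G μ B F r v) :=
  (measurable_Fr_mV r v).mono (mV_le _) le_rfl

theorem depV_Fr (r : ℕ) (v : V) : DepV {x | G.dist v x ≤ r} (Fr G μ B F r v) :=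
  depV_of_measurable (measurable_Fr_mV r v)

theorem abs_Fr_le (h : 0 ≤ B) (r : ℕ) (v : V) (ω : Conf V) : |Fr G μ B F r v ω| ≤ B :=
  abs_tru_le h _

theorem Fr_ae [IsProbabilityMeasure (PO μ)] (hB : ∀ v, ∀ᵐ ω ∂(PO μ), |F v ω| ≤ B) (r : ℕ) (v : V) :
    Fr G μ B F r v =ᵐ[PO μ] (PO μ)[F v | mV {x | G.dist v x ≤ r}] := by
  have h : ∀ᵐ ω ∂(PO μ), |((PO μ)[F v | mV {x | G.dist v x ≤ r}]) ω| ≤ B :=
    ae_bdd_abs_condExp_of_ae_bdd_abs (hB v)
  filter_upwards [h] with ω hω
  exact tru_eq hω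

theorem integral_Fr [IsProbabilityMeasure (PO μ)] (hB : ∀ v, ∀ᵐ ω ∂(PO μ), |F v ω| ≤ B)
    (h0 : ∀ v, ∫ ω, F v ω ∂(PO μ) = 0) (r : ℕ) (v : V) : ∫ ω, Fr G μ B F r v ω ∂(PO μ) = 0 := by
  rw [integral_congr_ae (Fr_ae hB r v), integral_condExp (mV_le _), h0 v]

theorem Fr_equi [G.LocallyFinite] [Countable V] [IsProbabilityMeasure (PO μ)] {β : ℝ}
    (hG : G.IsTree) (hμ : IsFreeIsing G β μ)
    (hF : ∀ v, AEStronglyMeasurable (F v) (PO μ)) (hB : ∀ v, ∀ᵐ ω ∂(PO μ), |F v ω| ≤ B)
    (heq : ∀ (g : G ≃g G) (v : V), ∀ᵐ ω ∂(PO μ), F (g v) (actO g.toEquiv ω) = F v ω)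
    (r : ℕ) (g : G ≃g G) (v : V) :
    ∀ᵐ ω ∂(PO μ), Fr G μ B F r (g v) (actO g.toEquiv ω) = Fr G μ B F r v ω := by
  have hT : MeasurePreserving (actO g.toEquiv) (PO μ) (PO μ) :=
    ⟨measurable_actO _, PO_act hG hμ g⟩
  have hint : ∀ v, Integrable (F v) (PO μ) := fun v =>
    Integrable.of_bound (hF v) B (by simpa [Real.norm_eq_abs] using hB v)
  have h1 := condExp_comp_mp hT (mV_le {x | G.dist (g v) x ≤ r}) (F (g v)) (hint (g v))
  have hcm : (mV {x | G.dist (g v) x ≤ r}).comap (actO g.toEquiv) = mV {x | G.dist v x ≤ r} := by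
    refine comap_actO_mV g.toEquiv ?_ ?_
    · intro b hb
      have := PosDef.dist_iso_conn hG.connected g v (g.toEquiv.symm b)
      have e : g (g.toEquiv.symm b) = b := g.toEquiv.apply_symm_apply b
      rw [e] at this
      have hb' : G.dist (g v) b ≤ r := hb
      change G.dist v (g.toEquiv.symm b) ≤ r
      omega
    · intro a ha
      have := PosDef.dist_iso_conn hG.connected g v a
      have ha' : G.dist v a ≤ r := ha
      change G.dist (g v) (g a) ≤ r
      omega
  rw [hcm] at h1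
  have h2 : (PO μ)[F (g v) ∘ actO g.toEquiv | mV {x | G.dist v x ≤ r}] =ᵐ[PO μ]
      (PO μ)[F v | mV {x | G.dist v x ≤ r}] := condExp_congr_ae (heq g v)
  filter_upwards [h1, h2] with ω h3 h4
  have h5 : ((PO μ)[F (g v) | mV {x | G.dist (g v) x ≤ r}]) (actO g.toEquiv ω) =
      ((PO μ)[F v | mV {x | G.dist v x ≤ r}]) ω := h3.trans h4
  rw [Fr, Fr, h5]

theorem Fr_tendsto [IsProbabilityMeasure (PO μ)]
    (hF : ∀ v, AEStronglyMeasurable (F v) (PO μ)) (hB : ∀ v, ∀ᵐ ω ∂(PO μ), |F v ω| ≤ B) (v : V) :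
    ∀ᵐ ω ∂(PO μ), Tendsto (fun r => Fr G μ B F r v ω) atTop (𝓝 (F v ω)) := by
  have hint : Integrable (F v) (PO μ) :=
    Integrable.of_bound (hF v) B (by simpa [Real.norm_eq_abs] using hB v)
  have h1 := tendsto_ae_condExp (μ := PO μ) (ℱ := fil G v) (F v)
  have h2 : (PO μ)[F v | ⨆ n, fil G v n] =ᵐ[PO μ] F v := by
    rw [iSup_fil]
    exact condExp_of_aestronglyMeasurable' le_rfl (hF v) hint
  filter_upwards [h1, h2, hB v] with ω h3 h4 h5
  rw [h4] at h3
  have h6 := ((continuous_tru B).tendsto (F v ω)).comp h3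
  rw [tru_eq h5] at h6
  exact h6

theorem Fr_integrable [IsProbabilityMeasure (PO μ)] (h : 0 ≤ B) (r : ℕ) (u v : V) :
    Integrable (fun ω => Fr G μ B F r u ω * Fr G μ B F r v ω) (PO μ) := by
  refine Integrable.of_bound ((measurable_Fr r u).mul (measurable_Fr r v)).aestronglyMeasurable
    (B * B) (Eventually.of_forall fun ω => ?_)
  rw [Real.norm_eq_abs, abs_mul]
  exact mul_le_mul (abs_Fr_le h r u ω) (abs_Fr_le h r v ω) (abs_nonneg _) h

/-- The bound for the finite range approximations. -/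
theorem spectral_Fr [G.LocallyFinite] [Countable V] {d : ℕ} {β : ℝ}
    [IsProbabilityMeasure (PO μ)] (hE : Env G d β μ)
    (hF : ∀ v, AEStronglyMeasurable (F v) (PO μ)) (hB0 : 0 ≤ B)
    (hB : ∀ v, ∀ᵐ ω ∂(PO μ), |F v ω| ≤ B)
    (h0 : ∀ v, ∫ ω, F v ω ∂(PO μ) = 0)
    (heq : ∀ (g : G ≃g G) (v : V), ∀ᵐ ω ∂(PO μ), F (g v) (actO g.toEquiv ω) = F v ω)
    (r : ℕ) (u v : V) (huv : 1 ≤ G.dist u v) :
    (d:ℝ) * ((d:ℝ)-1)^(G.dist u v - 1) * |∫ ω, Fr G μ B F r u ω * Fr G μ B F r v ω ∂(PO μ)| ≤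
      2 * (G.dist u v + 1) * (Real.sqrt ((d:ℝ)-1))^(G.dist u v) *
        ∫ ω, Fr G μ B F r u ω * Fr G μ B F r u ω ∂(PO μ) := by
  classical
  have hG := hE.tree
  have hd : (3:ℝ) ≤ d := by exact_mod_cast hE.three
  have hs0 : 1 ≤ Real.sqrt ((d:ℝ)-1) := by
    rw [Real.one_le_sqrt]
    linarith
  have hθ : Real.tanh β = (Real.sqrt ((d:ℝ)-1))⁻¹ := eq_inv_of_mul_eq_one_left hE.crit
  obtain ⟨θ, hθd⟩ : ∃ θ, θ = (Real.sqrt ((d:ℝ)-1))⁻¹ := ⟨_, rfl⟩
  have hθ0 : 0 < θ := by
    rw [hθd]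
    exact inv_pos.2 (by linarith)
  have hθ1 : θ ≤ 1 := by
    rw [hθd]
    exact inv_le_one_of_one_le₀ hs0
  obtain ⟨c, hc⟩ : ∃ c : V → V → ℝ, c = fun u v =>
    ∫ ω, Fr G μ B F r u ω * Fr G μ B F r v ω ∂(PO μ) := ⟨_, rfl⟩
  have hciso : ∀ (g : G ≃g G) u v, c (g u) (g v) = c u v := by
    intro g u v
    have hT : MeasurePreserving (actO g.toEquiv) (PO μ) (PO μ) :=
      ⟨measurable_actO _, PO_act hG hE.ising g⟩
    have e1 : c (g u) (g v) = ∫ ω, Fr G μ B F r (g u) (actO g.toEquiv ω) *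
        Fr G μ B F r (g v) (actO g.toEquiv ω) ∂(PO μ) := by
      rw [hc]
      have h := integral_map (μ := PO μ) (φ := actO g.toEquiv) hT.measurable.aemeasurable
        (f := fun ω => Fr G μ B F r (g u) ω * Fr G μ B F r (g v) ω)
        ((measurable_Fr r (g u)).mul (measurable_Fr r (g v))).aestronglyMeasurable
      rw [hT.map_eq] at h
      exact h
    rw [e1, hc]
    refine integral_congr_ae ?_
    filter_upwards [Fr_equi hG hE.ising hF hB heq r g u, Fr_equi hG hE.ising hF hB heq r g v]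
      with ω h1 h2
    rw [h1, h2]
  have hcd : ∀ u v u' v', G.dist u v = G.dist u' v' → c u v = c u' v' := by
    intro u v u' v' h
    obtain ⟨g, hg1, hg2⟩ := exists_iso_of_dist_eq hG hE.reg h
    rw [← hg1, ← hg2, hciso]
  obtain ⟨rho, hrd⟩ : ∃ rho : ℕ → ℝ, rho = fun n => if h : ∃ p : V × V, G.dist p.1 p.2 = n then
    c h.choose.1 h.choose.2 else 0 := ⟨_, rfl⟩
  have hrho : ∀ u v, rho (G.dist u v) = c u v := by
    intro u v
    have h : ∃ p : V × V, G.dist p.1 p.2 = G.dist u v := ⟨(u, v), rfl⟩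
    rw [hrd]
    simp only [dif_pos h]
    exact hcd _ _ _ _ h.choose_spec
  have hcB : ∀ u v, |c u v| ≤ B ^ 2 := by
    intro u v
    rw [hc]
    have h := norm_integral_le_of_norm_le_const (μ := PO μ) (C := B ^ 2)
      (f := fun ω => Fr G μ B F r u ω * Fr G μ B F r v ω) (Eventually.of_forall fun ω => by
        rw [Real.norm_eq_abs, abs_mul, sq]
        exact mul_le_mul (abs_Fr_le hB0 r u ω) (abs_Fr_le hB0 r v ω) (abs_nonneg _) hB0)
    simpa using h
  have hcov : ∀ u v, |c u v| ≤ B ^ 2 * (θ ^ (2 * r))⁻¹ * θ ^ (G.dist u v) := by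
    intro u v
    rcases lt_or_ge (2 * r) (G.dist u v) with h | h
    · have h1 := cov_balls (β := β) (by rw [hθ, ← hθd]; exact hθ0.le) hG hE.ising h
        (measurable_Fr (G := G) (μ := μ) (B := B) (F := F) r u) (measurable_Fr r v)
        (abs_Fr_le hB0 r u) (abs_Fr_le hB0 r v)
        (depV_Fr r u) (depV_Fr r v) (integral_Fr hB h0 r u) (integral_Fr hB h0 r v)
      have h2 : θ ^ (G.dist u v) = θ ^ (G.dist u v - 2 * r) * θ ^ (2 * r) := by
        rw [← pow_add]
        congr 1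
        omega
      rw [hθ, ← hθd] at h1
      rw [h2, hc]
      refine h1.trans (le_of_eq ?_)
      field_simp
    · refine (hcB u v).trans ?_
      have h3 : θ ^ (2 * r) ≤ θ ^ (G.dist u v) := pow_le_pow_of_le_one hθ0.le hθ1 h
      rw [mul_assoc]
      refine le_mul_of_one_le_right (sq_nonneg B) ?_
      rw [inv_mul_eq_div, le_div_iff₀ (by positivity), one_mul]
      exact h3
  have hK : ∀ m, |rho m| ≤ (B ^ 2 * (θ ^ (2 * r))⁻¹) * ((Real.sqrt ((d:ℝ)-1))⁻¹) ^ m := by
    intro m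
    rw [← hθd]
    by_cases h : ∃ p : V × V, G.dist p.1 p.2 = m
    · obtain ⟨p, rfl⟩ := h
      rw [hrho]
      exact hcov _ _
    · rw [hrd]
      simp only [dif_neg h, abs_zero]
      positivity
  have hpos : ∀ (A : Finset V) (a : V → ℝ),
      0 ≤ ∑ u ∈ A, ∑ v ∈ A, a u * a v * rho (G.dist u v) := by
    intro A a
    have e : ∑ u ∈ A, ∑ v ∈ A, a u * a v * rho (G.dist u v) =
        ∫ ω, (∑ u ∈ A, a u * Fr G μ B F r u ω) ^ 2 ∂(PO μ) := by
      have e1 : ∀ ω, (∑ u ∈ A, a u * Fr G μ B F r u ω) ^ 2 =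
          ∑ u ∈ A, ∑ v ∈ A, a u * a v * (Fr G μ B F r u ω * Fr G μ B F r v ω) := by
        intro ω
        rw [sq, Finset.sum_mul_sum]
        refine Finset.sum_congr rfl fun u _ => Finset.sum_congr rfl fun v _ => ?_
        ring
      simp only [e1]
      rw [integral_finsetSum _ fun u _ => integrable_finsetSum _ fun v _ =>
        (Fr_integrable hB0 r u v).const_mul _]
      refine Finset.sum_congr rfl fun u _ => ?_
      rw [integral_finsetSum _ fun v _ => (Fr_integrable hB0 r u v).const_mul _]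
      refine Finset.sum_congr rfl fun v _ => ?_
      rw [hrho, hc, integral_const_mul]
    rw [e]
    exact integral_nonneg fun ω => sq_nonneg _
  have h := posdef_bound_inf hG hE.three hE.reg rho _ hK hpos (G.dist u v) huv
  have h00 : rho 0 = c u u := by
    rw [← hrho u u, SimpleGraph.dist_self]
  rw [hrho, h00, hc] at h
  exact h

end

end TcVert

open TcVert in
/-- Let `F v`, `v ∈ V`, be bounded mean zero random variables on `PO μ` which are equivariant:
`F (g v) (g ω) = F v ω` almost surely. Then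
`d (d-1)^(n-1) |E F_u F_v| ≤ 2 (n+1) (√(d-1))^n E F_u²` for `n = dist u v ≥ 1`.
Proof. Let `F^r v = E[F v | coordinates of the ball B(v,r)]` (conditional expectation with respect
to the σ-algebra generated by the coordinates of `ω` at the vertices of the ball; choose a
measurable bounded version that satisfies `DepV`). It is again equivariant almost surely
(uniqueness of conditional expectations and `PO_act`), mean zero, bounded by `B`; so
`E F^r_u F^r_v = rho_r (dist u v)` for a function `rho_r` (two point homogeneity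
`exists_iso_of_dist_eq`), positive definite, and `|rho_r m| ≤ K_r θ^m` by `cov_balls` (for `m ≤ 2r`
use `B²`), where `θ ≤ (√(d-1))⁻¹`. Apply `posdef_bound_inf`. Let `r → ∞`: `F^r v → F v` in `L²`
(Lévy's upward theorem; the σ-algebras generate everything because balls exhaust `V`). -/
theorem spectral_vertex [G.LocallyFinite] [Countable V] {d : ℕ} {β : ℝ} {μ : Measure (V → Bool)}
    (hE : Env G d β μ) (F : V → Conf V → ℝ)
    (hF : ∀ v, AEStronglyMeasurable (F v) (PO μ)) (B : ℝ) (hB : ∀ v, ∀ᵐ ω ∂(PO μ), |F v ω| ≤ B)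
    (h0 : ∀ v, ∫ ω, F v ω ∂(PO μ) = 0)
    (heq : ∀ (g : G ≃g G) (v : V), ∀ᵐ ω ∂(PO μ), F (g v) (actO g.toEquiv ω) = F v ω)
    (u v : V) (huv : 1 ≤ G.dist u v) :
    (d:ℝ) * ((d:ℝ)-1)^(G.dist u v - 1) * |∫ ω, F u ω * F v ω ∂(PO μ)| ≤
      2 * (G.dist u v + 1) * (Real.sqrt ((d:ℝ)-1))^(G.dist u v) * ∫ ω, F u ω ^ 2 ∂(PO μ) := by
  have : Nonempty V := ⟨u⟩
  have := hE.ising.isProbabilityMeasure
  have : IsProbabilityMeasure (PO μ) := by
    unfold PO
    infer_instance
  have hB0 : 0 ≤ B := by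
    obtain ⟨ω, hω⟩ := (hB u).exists
    exact (abs_nonneg _).trans hω
  have hlim : ∀ u v, Tendsto (fun r => ∫ ω, Fr G μ B F r u ω * Fr G μ B F r v ω ∂(PO μ)) atTop
      (𝓝 (∫ ω, F u ω * F v ω ∂(PO μ))) := by
    intro u v
    refine tendsto_integral_of_dominated_convergence (fun _ => B * B)
      (fun r => ((measurable_Fr r u).mul (measurable_Fr r v)).aestronglyMeasurable)
      (integrable_const _) (fun r => Eventually.of_forall fun ω => ?_) ?_
    · rw [Real.norm_eq_abs, abs_mul]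
      exact mul_le_mul (abs_Fr_le hB0 r u ω) (abs_Fr_le hB0 r v ω) (abs_nonneg _) hB0
    · filter_upwards [Fr_tendsto (G := G) hF hB u, Fr_tendsto (G := G) hF hB v] with ω h1 h2
      exact h1.mul h2
  have h1 : Tendsto (fun r => (d:ℝ) * ((d:ℝ)-1)^(G.dist u v - 1) *
      |∫ ω, Fr G μ B F r u ω * Fr G μ B F r v ω ∂(PO μ)|) atTop
      (𝓝 ((d:ℝ) * ((d:ℝ)-1)^(G.dist u v - 1) * |∫ ω, F u ω * F v ω ∂(PO μ)|)) :=
    ((hlim u v).abs).const_mul _
  have h2 : Tendsto (fun r => 2 * ((G.dist u v : ℝ) + 1) * (Real.sqrt ((d:ℝ)-1))^(G.dist u v) *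
      ∫ ω, Fr G μ B F r u ω * Fr G μ B F r u ω ∂(PO μ)) atTop
      (𝓝 (2 * ((G.dist u v : ℝ) + 1) * (Real.sqrt ((d:ℝ)-1))^(G.dist u v) *
        ∫ ω, F u ω * F u ω ∂(PO μ))) :=
    (hlim u u).const_mul _
  have h3 := le_of_tendsto_of_tendsto' h1 h2 fun r =>
    spectral_Fr hE hF hB0 hB h0 heq r u v huv
  simpa only [sq] using h3

end Vale.Agent.P161.Crit
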